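import Crest.Agent.R170.DefW_995

/-!
# Row 170, leaf AB (helper983)

* `thompson` : internal form of Thompson's `A × B` lemma for one element.
* `AB1` : a `p`-regular element of the stabiliser of a chain which centralises
  `top σ ⊓ st σ` centralises `top σ`.
-/

set_option autoImplicit false

namespace Crest.Agent.R170.AB983

open Subgroup

section thompson
variable {G : Type*} [Group G]

theorem conj_pow_eq {c n w : G} (h1 : c * n * c⁻¹ = n * w) (h2 : c * w = w * c) (m : ℕ) :
    c ^ m * n * (c ^ m)⁻¹ = n * w ^ m := by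
  induction m with
  | zero => simp
  | succ m ih =>
    have h3 : c * w ^ m * c⁻¹ = w ^ m := by
      have : Commute c (w ^ m) := (show Commute c w from h2).pow_right m
      rw [this.eq]; simp
    calc c ^ (m + 1) * n * (c ^ (m + 1))⁻¹ = c * (c ^ m * n * (c ^ m)⁻¹) * c⁻¹ := by
          rw [pow_succ']; group
      _ = c * (n * w ^ m) * c⁻¹ := by rw [ih]
      _ = (c * n * c⁻¹) * (c * w ^ m * c⁻¹) := by group
      _ = n * w ^ (m + 1) := by rw [h1, h3, pow_succ']; group

/-- internal Thompson lemma -/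
theorem thompson {p : ℕ} [hp : Fact p.Prime] [Finite G] (P B : Subgroup G) (hP : IsPGroup p P)
    (hB : B ≤ P) (c : G) (hc : (orderOf c).Coprime p)
    (hcP : c ∈ Subgroup.normalizer (P : Set G)) (hcB : ∀ b ∈ B, c * b = b * c)
    (hcC : ∀ x ∈ P, (∀ b ∈ B, x * b = b * x) → c * x = x * c) :
    ∀ x ∈ P, c * x = x * c := by
  classical
  by_contra hcon
  push Not at hcon
  obtain ⟨x0, hx0, hx0'⟩ := hcon
  -- D = C_P(c)
  let D : Subgroup P := (Subgroup.centralizer ({c} : Set G)).subgroupOf P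
  have hDmem : ∀ x : P, x ∈ D ↔ c * (x : G) = x * c := by
    intro x
    rw [Subgroup.mem_subgroupOf, Subgroup.mem_centralizer_singleton_iff]
    exact eq_comm
  have hDtop : D < ⊤ := by
    rw [lt_top_iff_ne_top]
    intro h
    have : (⟨x0, hx0⟩ : P) ∈ D := by rw [h]; trivial
    exact hx0' ((hDmem _).1 this)
  haveI : Finite P := inferInstance
  haveI : Group.IsNilpotent P := hP.isNilpotent
  have hN := Group.normalizerCondition_of_isNilpotent (G := P) D hDtop
  obtain ⟨n, hn, hnD⟩ := SetLike.exists_of_lt hN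
  apply hnD
  rw [hDmem]
  -- w
  set w : G := (n : G)⁻¹ * (c * n * c⁻¹) with hw
  have hcn : c * (n : G) * c⁻¹ ∈ P := (Subgroup.mem_normalizer_iff.1 hcP _).1 n.2
  have hwP : w ∈ P := P.mul_mem (P.inv_mem n.2) hcn
  have hwD : ∀ d : P, d ∈ D → w * (d : G) = d * w := by
    intro d hd
    have h1 : n * d * n⁻¹ ∈ D := (Subgroup.mem_normalizer_iff.1 hn d).1 hd
    have h2 := (hDmem _).1 h1
    have h3 := (hDmem _).1 hd
    push_cast at h2
    have h4 : c⁻¹ * (d : G) * c = d := by rw [mul_assoc, ← h3]; group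
    have h5 : c * ((n : G) * d * (n : G)⁻¹) * c⁻¹ = n * d * (n : G)⁻¹ := by
      rw [h2]; group
    have h6 : (c * n * c⁻¹) * d * (c * n * c⁻¹)⁻¹ = n * d * (n : G)⁻¹ := by
      calc (c * n * c⁻¹) * d * (c * n * c⁻¹)⁻¹ = c * (n * (c⁻¹ * d * c) * (n : G)⁻¹) * c⁻¹ := by
            group
        _ = c * (n * d * (n : G)⁻¹) * c⁻¹ := by rw [h4]
        _ = _ := h5
    have h7 : w * d * w⁻¹ = d := by
      calc w * d * w⁻¹ = (n : G)⁻¹ * ((c * n * c⁻¹) * d * (c * n * c⁻¹)⁻¹) * n := by
            rw [hw]; group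
        _ = (n : G)⁻¹ * (n * d * (n : G)⁻¹) * n := by rw [h6]
        _ = d := by group
    exact mul_inv_eq_iff_eq_mul.1 h7
  have hBD : ∀ b (hb : b ∈ B), (⟨b, hB hb⟩ : P) ∈ D := fun b hb => (hDmem _).2 (hcB b hb)
  have hcw : c * w = w * c := hcC w hwP fun b hb => hwD ⟨b, hB hb⟩ (hBD b hb)
  have h8 : c * (n : G) * c⁻¹ = n * w := by rw [hw]; group
  have h9 := conj_pow_eq h8 hcw (orderOf c)
  rw [pow_orderOf_eq_one] at h9
  have h10 : w ^ orderOf c = 1 := by
    have : (n : G) = n * w ^ orderOf c := by simpa using h9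
    exact (mul_eq_left.1 this.symm)
  obtain ⟨m, hm⟩ := (IsPGroup.iff_orderOf.1 hP) ⟨w, hwP⟩
  have h11 : orderOf w = p ^ m := by rw [← hm]; exact (Subgroup.orderOf_mk w hwP).symm
  have h12 : orderOf w ∣ orderOf c := orderOf_dvd_of_pow_eq_one h10
  have h13 : w = 1 := by
    rw [← orderOf_eq_one_iff]
    have h14 : (p ^ m).Coprime (p ^ m) := by
      rw [h11] at h12
      exact Nat.Coprime.coprime_dvd_left h12 (hc.pow_right m)
    rw [h11]
    exact (Nat.coprime_self _).1 h14
  rw [h13, mul_one] at h8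
  exact mul_inv_eq_iff_eq_mul.1 h8

/-- (AB1) for finsets of subgroups -/
theorem AB1_aux {p : ℕ} [hp : Fact p.Prime] [Finite G] (c : G) (hc : (orderOf c).Coprime p)
    (m : ℕ) : ∀ C : Finset (Subgroup G), C.card = m → (∀ Q ∈ C, IsPGroup p Q) →
      IsChain (· ≤ ·) (C : Set (Subgroup G)) →
      (∀ Q ∈ C, c ∈ Subgroup.normalizer (Q : Set G)) →
      (∀ x, (∃ Q ∈ C, x ∈ Q) → (∀ Q ∈ C, x ∈ Subgroup.normalizer (Q : Set G)) →
        c * x = x * c) →
      ∀ Q ∈ C, ∀ x ∈ Q, c * x = x * c := by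
  classical
  induction m with
  | zero =>
    intro C hC _ _ _ _ Q hQ
    rw [Finset.card_eq_zero.1 hC] at hQ
    simp at hQ
  | succ m ih =>
    intro C hcard hpC hch hcN hcx
    have hne : C.Nonempty := Finset.card_pos.1 (by omega)
    obtain ⟨M, hM⟩ := C.exists_maximal hne
    have hMC : M ∈ C := hM.prop
    have hle : ∀ Q ∈ C, Q ≤ M := by
      intro Q hQ
      by_cases h : Q = M
      · exact h.le
      · rcases hch hQ hMC h with h1 | h1
        · exact h1
        · exact hM.le_of_ge hQ h1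
    have hC' : (C.erase M).card = m := by rw [Finset.card_erase_of_mem hMC]; omega
    have hIH := ih (C.erase M) hC' (fun Q hQ => hpC Q (Finset.mem_of_mem_erase hQ))
      (hch.mono (by intro x hx; exact Finset.mem_of_mem_erase (Finset.mem_coe.1 hx)))
      (fun Q hQ => hcN Q (Finset.mem_of_mem_erase hQ)) (by
        rintro x ⟨Q, hQ, hxQ⟩ hx
        refine hcx x ⟨Q, Finset.mem_of_mem_erase hQ, hxQ⟩ fun Q' hQ' => ?_
        by_cases h : Q' = M
        · subst h
          exact Subgroup.le_normalizer (hle Q (Finset.mem_of_mem_erase hQ) hxQ)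
        · exact hx Q' (Finset.mem_erase.2 ⟨h, hQ'⟩))
    -- the subgroup generated by the smaller members
    obtain ⟨B, hBM, hcB, hB⟩ : ∃ B : Subgroup G, B ≤ M ∧ (∀ b ∈ B, c * b = b * c) ∧
        ∀ Q ∈ C.erase M, Q ≤ B := by
      rcases (C.erase M).eq_empty_or_nonempty with h | h
      · exact ⟨⊥, bot_le, fun b hb => by rw [Subgroup.mem_bot.1 hb]; simp,
          fun Q hQ => by rw [h] at hQ; simp at hQ⟩
      · obtain ⟨B, hB⟩ := (C.erase M).exists_maximal h
        refine ⟨B, hle B (Finset.mem_of_mem_erase hB.prop), hIH B hB.prop, fun Q hQ => ?_⟩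
        by_cases h : Q = B
        · exact h.le
        · rcases hch (Finset.mem_of_mem_erase hQ) (Finset.mem_of_mem_erase hB.prop) h with h1 | h1
          · exact h1
          · exact hB.le_of_ge hQ h1
    have hMall := thompson (p := p) M B (hpC M hMC) hBM c hc (hcN M hMC) hcB (by
      intro x hx hxB
      refine hcx x ⟨M, hMC, hx⟩ fun Q hQ => ?_
      by_cases h : Q = M
      · subst h; exact Subgroup.le_normalizer hx
      · have h1 : ∀ b ∈ Q, x * b = b * x := fun b hb =>
          hxB b (hB Q (Finset.mem_erase.2 ⟨h, hQ⟩) hb)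
        rw [Subgroup.mem_normalizer_iff]
        intro b
        constructor
        · intro hb
          rw [h1 b hb]; simpa using hb
        · intro hb
          have h2 := h1 _ hb
          have h3 : b = x * b * x⁻¹ := by
            have h4 : x * b * x⁻¹ = b := by
              have : x * (x * b * x⁻¹) = x * b := by rw [h2]; group
              exact mul_left_cancel this
            exact h4.symm
          rw [h3]; exact hb)
    intro Q hQ x hx
    exact hMall x (hle Q hQ hx)

end thompson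

section AB1
variable {G : Type} [Group G] [Finite G]

theorem mem_top_iff {p : ℕ} (σ : Ch p G) (hne : σ.1.Nonempty) (x : G) :
    x ∈ top σ ↔ ∃ Q ∈ σ.1, x ∈ Q := by
  obtain ⟨M, hM⟩ := σ.1.exists_maximal hne
  have hle : ∀ Q ∈ σ.1, Q ≤ M := by
    intro Q hQ
    by_cases h : Q = M
    · exact h.le
    · rcases σ.2.2 hQ hM.prop h with h1 | h1
      · exact h1
      · exact hM.le_of_ge hQ h1
  have h1 : top σ = M := le_antisymm (iSup₂_le hle) (le_iSup₂_of_le M hM.prop le_rfl)
  rw [h1]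
  exact ⟨fun h => ⟨M, hM.prop, h⟩, fun ⟨Q, hQ, hx⟩ => hle Q hQ hx⟩

theorem mem_st_iff {p : ℕ} (σ : Ch p G) (x : G) :
    x ∈ st σ ↔ ∀ Q ∈ σ.1, x ∈ Subgroup.normalizer (Q : Set G) := by
  unfold st
  simp only [Subgroup.mem_iInf]

/-- (AB1) a `p`-regular element of the stabiliser of a chain which centralises
`top σ ⊓ st σ` centralises `top σ` -/
theorem AB1 {p : ℕ} [Fact p.Prime] (σ : Ch p G) (c : G) (hc : (orderOf c).Coprime p)
    (hst : c ∈ st σ) (h : c ∈ Subgroup.centralizer ((top σ ⊓ st σ : Subgroup G) : Set G)) :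
    c ∈ Subgroup.centralizer (top σ : Set G) := by
  rw [Subgroup.mem_centralizer_iff] at h ⊢
  rcases σ.1.eq_empty_or_nonempty with h0 | hne
  · intro x hx
    have : top σ = ⊥ := by unfold top; rw [h0]; simp
    rw [this] at hx
    have hx' : x = 1 := Subgroup.mem_bot.1 hx
    rw [hx']; simp
  · intro x hx
    obtain ⟨Q, hQ, hxQ⟩ := (mem_top_iff σ hne x).1 hx
    refine (AB1_aux (p := p) c hc _ σ.1 rfl (fun Q hQ => (σ.2.1 Q hQ).1) σ.2.2
      ((mem_st_iff σ c).1 hst) ?_ Q hQ x hxQ).symm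
    intro y hy hyN
    exact (h y ⟨(mem_top_iff σ hne y).2 hy, (mem_st_iff σ y).2 hyN⟩).symm

end AB1

end Crest.Agent.R170.AB983
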