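import Crest.Agent.R170.J_482

/-!
Row 170 (swarm A): the modular trace lemma, part 2.

`k` a field of characteristic `p`, `G` a finite group, `J` the sum of the `p`-elements of `G`.
* `P2`: `coeff_1 (x^(p^n)) = (coeff_1 (J x))^(p^n)` for `n >= |G|`.
* `tr1_J_nilpotent`: `coeff_1 (J x) = 0` for nilpotent `x`.
* `tr1_J_idem`: `coeff_1 (J i) = coeff_1 i` for idempotent `i`.
-/

set_option autoImplicit false
open scoped BigOperators

namespace Crest.Agent.R170.J482

section GA
variable {k G : Type*} [Field k] [Group G] [Fintype G]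

/-- coefficient at `1` -/
noncomputable def tr1 : MonoidAlgebra k G →ₗ[k] k where
  toFun x := x.coeff 1
  map_add' _ _ := rfl
  map_smul' _ _ := rfl

omit [Fintype G] in
theorem tr1_apply (x : MonoidAlgebra k G) : tr1 x = x.coeff 1 := rfl

theorem coeff_mul_fin (x y : MonoidAlgebra k G) (g : G) :
    (x * y).coeff g = ∑ h, x.coeff h * y.coeff (h⁻¹ * g) := by
  rw [MonoidAlgebra.coeff_mul_apply_left]
  exact Finsupp.sum_fintype _ _ (by intro i; simp)

theorem tr1_comm (x y : MonoidAlgebra k G) : tr1 (x * y) = tr1 (y * x) := by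
  rw [tr1_apply, tr1_apply, coeff_mul_fin, coeff_mul_fin]
  refine Fintype.sum_equiv (Equiv.inv G) _ _ ?_
  intro h
  simp [mul_comm]

theorem eq_sum_single (x : MonoidAlgebra k G) : x = ∑ g, MonoidAlgebra.single g (x.coeff g) := by
  conv_lhs => rw [← MonoidAlgebra.sum_coeff_single x]
  exact Finsupp.sum_fintype _ _ (by intro i; simp)

omit [Fintype G] in
/-- nondegeneracy of the trace form -/
theorem eq_zero_of_tr1 (y : MonoidAlgebra k G) (h : ∀ z, tr1 (y * z) = 0) : y = 0 := by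
  apply MonoidAlgebra.coeff_injective
  ext g
  have := h (MonoidAlgebra.single g⁻¹ 1)
  rw [tr1_apply, MonoidAlgebra.coeff_mul_single_apply] at this
  simpa using this

/-- `p`-elements -/
def IsPE (p : ℕ) (g : G) : Prop := g ^ p ^ (Fintype.card G) = 1

theorem isPE_of_pow {p : ℕ} (hp : p.Prime) {g : G} {n : ℕ} (h : g ^ p ^ n = 1) : IsPE p g := by
  obtain ⟨a, _, ha⟩ := (Nat.dvd_prime_pow hp).1 (orderOf_dvd_of_pow_eq_one h)
  have h1 : p ^ a ≤ Fintype.card G := ha ▸ orderOf_le_card_univ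
  have h2 : a < p ^ a := Nat.lt_pow_self hp.one_lt
  have h3 : a ≤ Fintype.card G := by omega
  unfold IsPE
  rw [← orderOf_dvd_iff_pow_eq_one, ha]
  exact pow_dvd_pow p h3

theorem isPE_iff_exists {p : ℕ} (hp : p.Prime) (g : G) : IsPE p g ↔ ∃ n, g ^ p ^ n = 1 :=
  ⟨fun h => ⟨_, h⟩, fun ⟨_, h⟩ => isPE_of_pow hp h⟩

theorem isPE_iff_pow {p : ℕ} (hp : p.Prime) {n : ℕ} (hn : Fintype.card G ≤ n) (g : G) :
    g ^ p ^ n = 1 ↔ IsPE p g := by
  refine ⟨fun h => isPE_of_pow hp h, fun h => ?_⟩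
  obtain ⟨m, rfl⟩ := Nat.exists_eq_add_of_le hn
  rw [pow_add, pow_mul]
  have : g ^ p ^ (Fintype.card G) = 1 := h
  rw [this, one_pow]

theorem isPE_inv {p : ℕ} {g : G} : IsPE p g⁻¹ ↔ IsPE p g := by
  unfold IsPE; rw [inv_pow, inv_eq_one]

theorem isPE_conj {p : ℕ} {g : G} (h : G) : IsPE p (h * g * h⁻¹) ↔ IsPE p g := by
  unfold IsPE; rw [conj_pow]; simp

open Classical in
/-- the sum of the `p`-elements -/
noncomputable def J (k : Type*) (G : Type*) [Field k] [Group G] [Fintype G] (p : ℕ) :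
    MonoidAlgebra k G :=
  MonoidAlgebra.ofCoeff (Finsupp.equivFunOnFinite.symm fun g => if IsPE p g then 1 else 0)

open Classical in
theorem J_coeff (p : ℕ) (g : G) : (J k G p).coeff g = if IsPE p g then 1 else 0 := rfl

open Classical in
theorem tr1_J_mul (p : ℕ) (x : MonoidAlgebra k G) :
    tr1 (J k G p * x) = ∑ g, if IsPE p g then x.coeff g else 0 := by
  rw [tr1_comm, tr1_apply, coeff_mul_fin]
  refine Finset.sum_congr rfl fun g _ => ?_
  rw [J_coeff, mul_one]
  simp only [isPE_inv]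
  split_ifs <;> simp

theorem J_central (p : ℕ) (x : MonoidAlgebra k G) : J k G p * x = x * J k G p := by
  classical
  rw [eq_sum_single x, Finset.mul_sum, Finset.sum_mul]
  refine Finset.sum_congr rfl fun g _ => ?_
  apply MonoidAlgebra.coeff_injective
  ext h
  rw [MonoidAlgebra.coeff_mul_single_apply, MonoidAlgebra.coeff_single_mul_apply, J_coeff, J_coeff,
    mul_comm]
  have : IsPE p (h * g⁻¹) ↔ IsPE p (g⁻¹ * h) := by
    rw [← isPE_conj (p := p) (g := h * g⁻¹) g⁻¹]
    simp [mul_assoc]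
  simp only [this]

/-- (P2) -/
theorem P2 (p : ℕ) [hp : Fact p.Prime] [CharP k p] {n : ℕ} (hn : Fintype.card G ≤ n)
    (x : MonoidAlgebra k G) : tr1 (x ^ p ^ n) = (tr1 (J k G p * x)) ^ p ^ n := by
  classical
  have h := trace_pow (A := MonoidAlgebra k G) (R := k) p n (tr1 (k := k) (G := G)).toAddMonoidHom
    (fun a b => tr1_comm a b) (fun g : G => MonoidAlgebra.single g (x.coeff g))
  rw [← eq_sum_single] at h
  change tr1 (x ^ p ^ n) = ∑ g, tr1 (MonoidAlgebra.single g (x.coeff g) ^ p ^ n) at h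
  rw [h, tr1_J_mul, sum_pow_char_pow]
  refine Finset.sum_congr rfl fun g _ => ?_
  rw [MonoidAlgebra.single_pow, tr1_apply, MonoidAlgebra.coeff_single_apply, isPE_iff_pow hp.out hn]
  split_ifs
  · rfl
  · rw [zero_pow (pow_pos hp.out.pos n).ne']

theorem tr1_J_nilpotent (p : ℕ) [hp : Fact p.Prime] [CharP k p] (x : MonoidAlgebra k G)
    (hx : IsNilpotent x) : tr1 (J k G p * x) = 0 := by
  obtain ⟨m, hm⟩ := hx
  have h := P2 p (n := Fintype.card G + m) (by omega) x
  have h2 : x ^ p ^ (Fintype.card G + m) = 0 := by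
    refine pow_eq_zero_of_le ?_ hm
    have : Fintype.card G + m < p ^ (Fintype.card G + m) := Nat.lt_pow_self hp.out.one_lt
    omega
  rw [h2, map_zero] at h
  exact pow_eq_zero_iff (pow_pos hp.out.pos _).ne' |>.1 h.symm

theorem tr1_J_idem (p : ℕ) [hp : Fact p.Prime] [CharP k p] (i : MonoidAlgebra k G)
    (hi : i * i = i) : tr1 (J k G p * i) = tr1 i := by
  have hpow : ∀ m, 0 < m → i ^ m = i := fun m hm => IsIdempotentElem.pow_eq hi hm.ne'
  set N := Fintype.card G with hN
  have h0 := P2 p (n := N) le_rfl i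
  have h1 := P2 p (n := N + 1) (by omega) i
  rw [hpow _ (pow_pos hp.out.pos _)] at h0 h1
  have h2 : tr1 i ^ p = tr1 i := by
    conv_lhs => rw [h0]
    rw [← pow_mul, ← pow_succ, ← h1]
  have h3 : tr1 i ^ p ^ N = tr1 i := by
    clear h0 h1 hN
    induction N with
    | zero => simp
    | succ m ih => rw [pow_succ, pow_mul, ih, h2]
  have h4 : (tr1 (J k G p * i)) ^ p ^ N = tr1 i ^ p ^ N := by rw [← h0, h3]
  exact iterateFrobenius_inj k p N h4

end GA

end Crest.Agent.R170.J482
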