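import Crest.Agent.R170.Cen_482
import Crest.Agent.R170.P2_482
import Crest.Agent.R170.Stm_995

/-!
Row 170 (swarm A): leaf J1 and J2 of chain A: `f0(G, e) = Tr(e J | Z(kG))` in `k`, and
`f0 = 0` if `O_p(G) ≠ 1`.
-/

set_option autoImplicit false
open scoped BigOperators

namespace Crest.Agent.R170.J482

open Crest.AlgebraR.Weights

theorem isNilpotent_of_mem_jacobson {A : Type*} [Ring A] [IsSemiprimaryRing A] {x : A}
    (hx : x ∈ Ring.jacobson A) : IsNilpotent x := by
  obtain ⟨n, hn⟩ := IsSemiprimaryRing.isNilpotent (R := A)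
  refine ⟨n, ?_⟩
  have h : x ^ n ∈ (Ring.jacobson A) ^ n := Ideal.pow_mem_pow hx n
  rw [hn] at h
  exact h

section GA
variable {k G : Type*} [Field k] [Group G] [Fintype G]

theorem J_mul_rad (p : ℕ) [hp : Fact p.Prime] [CharP k p] (x : MonoidAlgebra k G)
    (hx : x ∈ Ring.jacobson (MonoidAlgebra k G)) : J k G p * x = 0 := by
  haveI : IsArtinianRing (MonoidAlgebra k G) := IsArtinianRing.of_finite k _
  apply eq_zero_of_tr1
  intro z
  rw [mul_assoc]
  apply tr1_J_nilpotent
  apply isNilpotent_of_mem_jacobson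
  exact Ideal.mul_mem_right _ _ hx

variable (D : SplitData k (MonoidAlgebra k G))

theorem om_J_eq_one (p : ℕ) [hp : Fact p.Prime] [CharP k p] (i : Fin D.n)
    (hP : Module.Projective (MonoidAlgebra k G) (MonoidAlgebra k G ⧸ D.L i)) :
    D.om i (J k G p) = 1 := by
  obtain ⟨f, hf⟩ := Module.projective_lifting_property (D.L i).mkQ LinearMap.id
    (Submodule.mkQ_surjective _)
  set ι : MonoidAlgebra k G := f ((D.L i).mkQ 1) with hι
  have hfa : ∀ a : MonoidAlgebra k G, f ((D.L i).mkQ a) = a * ι := by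
    intro a
    have : (D.L i).mkQ a = a • (D.L i).mkQ 1 := by
      rw [← map_smul, smul_eq_mul, mul_one]
    rw [this, map_smul, smul_eq_mul]
  have hmk : (D.L i).mkQ ι = (D.L i).mkQ 1 := by
    have := LinearMap.congr_fun hf ((D.L i).mkQ 1)
    exact this
  have hidem : ι * ι = ι := by
    rw [← hfa, hmk]
  have hker : ∀ a ∈ D.L i, a * ι = 0 := by
    intro a ha
    rw [← hfa, Submodule.mkQ_apply, (Submodule.Quotient.mk_eq_zero _).2 ha, map_zero]
  have hrow : ∀ s t : Fin (D.d i), s ≠ 0 → D.π ι i s t = 0 := by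
    intro s t hs
    obtain ⟨a, ha⟩ := D.surj (Pi.single i (Matrix.single s s 1))
    have h1 : a ∈ D.L i := by
      intro r
      rw [ha, Pi.single_eq_same, Matrix.single_apply_of_col_ne _ _ hs]
    have h2 := congrArg (fun y => D.π y i s t) (hker a h1)
    simp only [map_mul, Pi.mul_apply, ha, Pi.single_eq_same, Matrix.single_mul_apply_same,
      one_mul, map_zero, Pi.zero_apply, Matrix.zero_apply] at h2
    exact h2
  have hc : ∀ x, ι * x * ι = D.om i (ι * x) • ι := by
    intro x
    have h1 : ι * x - algebraMap k _ (D.om i (ι * x)) ∈ D.L i := by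
      intro r
      rw [map_sub, AlgHom.commutes, Pi.sub_apply, Pi.algebraMap_apply, Matrix.sub_apply,
        Matrix.algebraMap_matrix_apply]
      by_cases hr : r = 0
      · subst hr
        rw [if_pos rfl]
        exact sub_self _
      · rw [if_neg hr, sub_zero, map_mul, Pi.mul_apply, Matrix.mul_apply]
        exact Finset.sum_eq_zero fun t _ => by rw [hrow r t hr, zero_mul]
    have h2 := hker _ h1
    rw [sub_mul, sub_eq_zero, Algebra.algebraMap_eq_smul_one, smul_mul_assoc, one_mul] at h2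
    exact h2
  have hne : tr1 ι ≠ 0 := by
    intro h0
    have h1 : ι = 0 := by
      apply eq_zero_of_tr1
      intro x
      have : tr1 (ι * x) = tr1 (ι * x * ι) := by
        rw [tr1_comm (ι * x) ι, ← mul_assoc, hidem]
      rw [this, hc, map_smul, h0, smul_zero]
    rw [h1, map_zero] at hmk
    have h2 := hmk.symm
    rw [Submodule.mkQ_apply, Submodule.Quotient.mk_eq_zero] at h2
    have := h2 0
    simp at this
  have hJι : J k G p * ι = D.om i (J k G p) • ι := by
    have h1 := D.central_smul (J_central (k := k) (G := G) p) i ((D.L i).mkQ 1)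
    have h2 := congrArg f h1
    rw [map_smul, map_smul, smul_eq_mul, smul_eq_mul, ← hι, Algebra.algebraMap_eq_smul_one,
      smul_mul_assoc, one_mul] at h2
    exact h2
  have h3 := tr1_J_idem p ι hidem
  rw [hJι, map_smul, smul_eq_mul] at h3
  exact mul_right_cancel₀ hne (by rw [h3, one_mul])

theorem om_J_cases (p : ℕ) [hp : Fact p.Prime] [CharP k p] (i : Fin D.n) :
    (Module.Projective (MonoidAlgebra k G) (MonoidAlgebra k G ⧸ D.L i) ∧ D.om i (J k G p) = 1) ∨
    (¬ Module.Projective (MonoidAlgebra k G) (MonoidAlgebra k G ⧸ D.L i) ∧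
      D.om i (J k G p) = 0) := by
  by_cases hP : Module.Projective (MonoidAlgebra k G) (MonoidAlgebra k G ⧸ D.L i)
  · exact Or.inl ⟨hP, om_J_eq_one D p i hP⟩
  · refine Or.inr ⟨hP, ?_⟩
    by_contra h
    exact hP (D.projective_of_om_ne_zero (J_central p)
      (fun x hx => J_mul_rad p x ((D.ker_rad x).1 hx)) i h)

theorem isPE_mul_mem {p : ℕ} (hp : p.Prime) (N : Subgroup G) [hN : N.Normal]
    (hNp : IsPGroup p N) {g x : G} (hx : x ∈ N) (hg : IsPE p g) : IsPE p (g * x) := by
  set a := Fintype.card G with ha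
  have h1 : (g * x) ^ p ^ a ∈ N := by
    rw [← QuotientGroup.eq_one_iff, QuotientGroup.mk_pow, QuotientGroup.mk_mul,
      (QuotientGroup.eq_one_iff x).2 hx, mul_one, ← QuotientGroup.mk_pow]
    have : g ^ p ^ a = 1 := hg
    rw [this]
    rfl
  obtain ⟨b, hb⟩ := hNp ⟨_, h1⟩
  have h2 : ((g * x) ^ p ^ a) ^ p ^ b = 1 := by
    have := congrArg Subtype.val hb
    simpa using this
  rw [← pow_mul, ← pow_add] at h2
  exact isPE_of_pow hp h2

/-- `J * J = 0` if `G` has a nontrivial normal `p`-subgroup -/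
theorem J_mul_J (p : ℕ) [hp : Fact p.Prime] [CharP k p] (N : Subgroup G) [hN : N.Normal]
    (hNp : IsPGroup p N) (hne : N ≠ ⊥) : J k G p * J k G p = 0 := by
  classical
  obtain ⟨x, hx, hx1⟩ := (N.bot_or_exists_ne_one).resolve_left hne
  obtain ⟨m, hm⟩ := hNp ⟨x, hx⟩
  have hm' : x ^ p ^ m = 1 := by
    have := congrArg Subtype.val hm
    simpa using this
  have hPE : ∀ g : G, IsPE p (g * x) ↔ IsPE p g := by
    intro g
    refine ⟨fun h => ?_, fun h => isPE_mul_mem hp.out N hNp hx h⟩
    have := isPE_mul_mem hp.out N hNp (N.inv_mem hx) h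
    rwa [mul_inv_cancel_right] at this
  apply MonoidAlgebra.coeff_injective
  ext h
  rw [coeff_mul_fin]
  let f : Function.End G := fun g => g * x
  have hfp : ∀ n : ℕ, ∀ g, (f ^ n) g = g * x ^ n := by
    intro n
    induction n with
    | zero => intro g; change g = g * x ^ 0; simp
    | succ n ih =>
      intro g
      rw [pow_succ]
      change (f ^ n) (g * x) = _
      rw [ih, mul_assoc, ← pow_succ']
  have hf : f ^ p ^ m = 1 := by
    funext g
    rw [hfp, hm', mul_one]
    rfl
  rw [sum_fixed p m f hf (fun g => (J k G p).coeff g * (J k G p).coeff (g⁻¹ * h))]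
  · have : (Finset.univ.filter fun a : G => f a = a) = ∅ := by
      apply Finset.filter_false_of_mem
      intro a _ h
      exact hx1 (mul_eq_left.1 h)
    rw [this, Finset.sum_empty]
    rfl
  · intro g
    change (J k G p).coeff (g * x) * (J k G p).coeff ((g * x)⁻¹ * h) = _
    rw [J_coeff, J_coeff, J_coeff, J_coeff]
    have e2 : IsPE p ((g * x)⁻¹ * h) ↔ IsPE p (g⁻¹ * h) := by
      rw [← isPE_conj x, ← isPE_inv, ← isPE_inv (g := g⁻¹ * h)]
      have : (x * ((g * x)⁻¹ * h) * x⁻¹)⁻¹ = x * (h⁻¹ * g) := by group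
      rw [this]
      have h3 : (g⁻¹ * h)⁻¹ = h⁻¹ * g := by group
      rw [h3, ← isPE_conj x⁻¹]
      have h4 : x⁻¹ * (x * (h⁻¹ * g)) * x⁻¹⁻¹ = h⁻¹ * g * x := by group
      rw [h4, hPE]
    simp only [hPE, e2]

end GA

section Final
variable {k G : Type} [Field k] [Group G] [Fintype G]

theorem isPE_iff_isPElt {p : ℕ} (hp : p.Prime) (g : G) : IsPE p g ↔ IsPElt p g :=
  isPE_iff_exists hp g

/-- `f0` through the central characters -/
theorem f0_eq (D : SplitData k (MonoidAlgebra k G)) (p : ℕ) [hp : Fact p.Prime] [CharP k p]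
    (e : MonoidAlgebra k G) (he : CI e) :
    f0 e = Nat.card {i : Fin D.n // D.om i (J k G p) = 1 ∧ D.om i e = 1} := by
  unfold f0
  rw [D.simpleClassCount_eq]
  · apply Nat.card_congr
    refine Equiv.subtypeEquivRight fun i => ?_
    rw [D.one_sub_mem_L he.1]
    rcases om_J_cases D p i with ⟨h1, h2⟩ | ⟨h1, h2⟩
    · simp [h1, h2]
    · simp [h1, h2]
  · rintro m m' ⟨φ⟩ ⟨h1, h2⟩
    refine ⟨Module.Projective.of_equiv φ, ?_⟩
    have hc : ∀ s : MonoidAlgebra k G ⧸ m, (1 - e) • s = 0 := by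
      intro s
      obtain ⟨a, rfl⟩ := Submodule.Quotient.mk_surjective _ s
      rw [← Submodule.Quotient.mk_smul, Submodule.Quotient.mk_eq_zero, smul_eq_mul, sub_mul,
        one_mul, he.1]
      have := m.smul_mem a h2
      rwa [smul_eq_mul, mul_sub, mul_one] at this
    have h3 : (1 - e) • (Submodule.Quotient.mk 1 : MonoidAlgebra k G ⧸ m') = 0 := by
      apply φ.symm.injective
      rw [map_smul, hc, map_zero]
    rwa [← Submodule.Quotient.mk_smul, Submodule.Quotient.mk_eq_zero, smul_eq_mul, mul_one] at h3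

theorem om_idem (D : SplitData k (MonoidAlgebra k G)) {e : MonoidAlgebra k G} (he : CI e)
    (i : Fin D.n) : D.om i e = 0 ∨ D.om i e = 1 := by
  have h := D.om_mul_central he.1 e i
  rw [he.2] at h
  rcases eq_or_ne (D.om i e) 0 with h0 | h0
  · exact Or.inl h0
  · exact Or.inr (mul_left_cancel₀ h0 (by rw [← h, mul_one]))

end Final

/-- **J1** -/
theorem sJ1 (p : ℕ) [Fact p.Prime] (k : Type) [Field k] [IsAlgClosed k] [CharP k p] : SJ1 p k := by
  classical
  intro G _ _ e z he hz
  haveI := Fintype.ofFinite G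
  obtain ⟨D⟩ := exists_splitData k (MonoidAlgebra k G)
  have hJ : (MonoidAlgebra.ofCoeff (Finsupp.equivFunOnFinite.symm fun g : G =>
      (open Classical in if IsPElt p g then (1 : k) else 0))) = J k G p := by
    apply MonoidAlgebra.coeff_injective
    ext g
    rw [J_coeff]
    simp only [isPE_iff_isPElt (Fact.out : p.Prime)]
    rfl
  rw [hJ] at hz
  unfold trZ
  rw [D.trace_mul (J_central p) (fun x hx => J_mul_rad p x ((D.ker_rad x).1 hx))
    ⟨e, Subalgebra.mem_center_iff.2 fun x => (he.1 x).symm⟩ z hz, f0_eq D p e he,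
    Nat.card_eq_fintype_card, Fintype.card_subtype, Finset.card_eq_sum_ones, Nat.cast_sum,
    Finset.sum_filter]
  refine Finset.sum_congr rfl fun i _ => ?_
  have h1 : D.om i (J k G p) = 0 ∨ D.om i (J k G p) = 1 := by
    rcases om_J_cases D p i with ⟨_, h⟩ | ⟨_, h⟩
    · exact Or.inr h
    · exact Or.inl h
  rcases h1 with h1 | h1 <;> rcases om_idem D he i with h2 | h2 <;> simp [h1, h2]

/-- **J2** -/
theorem sJ2 (p : ℕ) [Fact p.Prime] (k : Type) [Field k] [IsAlgClosed k] [CharP k p] : SJ2 p k := by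
  rintro G _ _ e he ⟨N, hN, hNp, hne⟩
  haveI := Fintype.ofFinite G
  obtain ⟨D⟩ := exists_splitData k (MonoidAlgebra k G)
  rw [f0_eq D p e he]
  have : IsEmpty {i : Fin D.n // D.om i (J k G p) = 1 ∧ D.om i e = 1} := by
    constructor
    rintro ⟨i, h1, -⟩
    have h2 := D.om_mul_central (J_central p) (J k G p) i
    rw [J_mul_J p N hNp hne, map_zero, h1] at h2
    simp at h2
  exact Nat.card_of_isEmpty

end Crest.Agent.R170.J482
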