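import Crest.Agent.R170.Q_940

/-!
Row 170 (swarm A), leaf Q, part 2 (helper940): a normal `p`-subgroup acts trivially on the simple
modules in characteristic `p`.

* `exists_fixed` : a finite `p`-group acting on a nonzero abelian group of exponent `p` fixes a
  nonzero vector;
* `fix_all` : `n - 1 ∈ m` for every maximal left ideal `m` of `k[G]` and `n` in a normal `p`-subgroup;
* `ker_le` : the kernel of `k[G] → k[G/N]` is in every maximal left ideal;
* `lc_quot`.
-/

set_option autoImplicit false

namespace Crest.Agent.R170.Q940

open Crest.AlgebraR.Weights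

/-- a fixed vector -/
theorem exists_fixed {p : ℕ} [hp : Fact p.Prime] {N V : Type*} [Group N] [Finite N]
    [AddCommGroup V] [DistribMulAction N V] (hN : IsPGroup p N) (hV : ∀ v : V, p • v = 0)
    {v : V} (hv : v ≠ 0) : ∃ w : V, w ≠ 0 ∧ ∀ n : N, n • w = w := by
  classical
  let M : AddSubgroup V := AddSubgroup.closure (Set.range fun n : N => n • v)
  have hst : ∀ n : N, ∀ x ∈ M, n • x ∈ M := by
    intro n x hx
    induction hx using AddSubgroup.closure_induction with
    | mem x hx =>
      obtain ⟨m, rfl⟩ := hx
      exact AddSubgroup.subset_closure ⟨n * m, by simp [mul_smul]⟩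
    | zero => rw [smul_zero]; exact M.zero_mem
    | add x y _ _ hx hy => rw [smul_add]; exact M.add_mem hx hy
    | neg x _ hx => rw [smul_neg]; exact M.neg_mem hx
  have hfg : AddGroup.FG M := by
    rw [AddGroup.fg_iff_addSubgroup_fg]
    exact ⟨(Set.range fun n : N => n • v).toFinite.toFinset, by simp [M]⟩
  have hfin : Finite M := by
    let _ : Module (ZMod p) M := AddCommGroup.zmodModule (fun x => Subtype.ext (by simpa using hV x.1))
    have h1 : Module.Finite ℤ M := Module.Finite.iff_addGroup_fg.2 hfg
    have h2 : Module.Finite (ZMod p) M := Module.Finite.of_restrictScalars_finite ℤ (ZMod p) M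
    exact @Module.finite_of_finite (ZMod p) M _ _ _ _ h2
  let _ : MulAction N M :=
    { smul := fun n x => ⟨n • x.1, hst n x.1 x.2⟩
      one_smul := fun x => Subtype.ext (one_smul _ _)
      mul_smul := fun a b x => Subtype.ext (mul_smul _ _ _) }
  have hvM : v ∈ M := AddSubgroup.subset_closure ⟨1, by simp⟩
  have hdvd : p ∣ Nat.card M := by
    have h1 : addOrderOf (⟨v, hvM⟩ : M) = p := by
      refine addOrderOf_eq_prime (Subtype.ext (hV v)) fun h => hv (congrArg Subtype.val h)
    rw [← h1]
    exact addOrderOf_dvd_natCard _
  have h0 : (0 : M) ∈ MulAction.fixedPoints N M := fun n => Subtype.ext (smul_zero n)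
  obtain ⟨b, hb, hne⟩ := hN.exists_fixed_point_of_prime_dvd_card_of_fixed_point M hdvd h0
  exact ⟨b.1, fun h => hne (Subtype.ext h.symm), fun n => congrArg Subtype.val (hb n)⟩

section ga

variable {k G : Type*} [Field k] [Group G] {p : ℕ} [hp : Fact p.Prime] [CharP k p]
  (N : Subgroup G) [hN : N.Normal] [Finite N]

open MonoidAlgebra

include hp in
/-- a normal `p`-subgroup acts trivially on simple modules -/
theorem fix_all (hNp : IsPGroup p N) {m : Submodule (MonoidAlgebra k G) (MonoidAlgebra k G)}
    (hm : IsCoatom m) {n : G} (hn : n ∈ N) : single n (1 : k) - 1 ∈ m := by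
  have hS : IsSimpleModule (MonoidAlgebra k G) (MonoidAlgebra k G ⧸ m) :=
    isSimpleModule_iff_isCoatom.2 hm
  let W : Submodule (MonoidAlgebra k G) (MonoidAlgebra k G ⧸ m) :=
    { carrier := {s | ∀ n ∈ N, single n (1 : k) • s = s}
      zero_mem' := fun n _ => smul_zero _
      add_mem' := fun {a b} ha hb n hn => by rw [smul_add, ha n hn, hb n hn]
      smul_mem' := fun a s hs n hn => by
        induction a using MonoidAlgebra.induction_linear with
        | zero => simp
        | add x y hx hy => rw [add_smul, smul_add, hx, hy]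
        | single g c =>
          rw [← mul_smul]
          have h1 : single n (1 : k) * single g c = single g c * single (g⁻¹ * n * g) (1 : k) := by
            rw [MonoidAlgebra.single_mul_single, MonoidAlgebra.single_mul_single]
            congr 1
            · group
            · ring
          have h2 : g⁻¹ * n * g ∈ N := by
            have := hN.conj_mem n hn g⁻¹
            simpa using this
          rw [h1, mul_smul, hs _ h2] }
  have hW : W ≠ ⊥ := by
    let _ : MulAction N (MonoidAlgebra k G ⧸ m) :=
      { smul := fun n s => single (n : G) (1 : k) • s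
        one_smul := fun s => by
          show single ((1 : N) : G) (1 : k) • s = s
          rw [Subgroup.coe_one]
          exact one_smul (MonoidAlgebra k G) s
        mul_smul := fun a b s => by
          show single ((a * b : N) : G) (1 : k) • s = single (a : G) (1 : k) • single (b : G) (1 : k) • s
          rw [← mul_smul, MonoidAlgebra.single_mul_single, one_mul, Subgroup.coe_mul] }
    let _ : DistribMulAction N (MonoidAlgebra k G ⧸ m) :=
      { smul_zero := fun n => smul_zero (single (n : G) (1 : k))
        smul_add := fun n x y => smul_add (single (n : G) (1 : k)) x y }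
    have hV : ∀ v : MonoidAlgebra k G ⧸ m, p • v = 0 := by
      intro v
      have h1 : (p : MonoidAlgebra k G) = 0 := by
        rw [← map_natCast (algebraMap k (MonoidAlgebra k G)) p, CharP.cast_eq_zero, map_zero]
      rw [← Nat.cast_smul_eq_nsmul (MonoidAlgebra k G), h1, zero_smul]
    have hv : (Submodule.Quotient.mk 1 : MonoidAlgebra k G ⧸ m) ≠ 0 := by
      intro h
      rw [Submodule.Quotient.mk_eq_zero] at h
      exact hm.1 (Ideal.eq_top_of_isUnit_mem (I := m) h isUnit_one)
    obtain ⟨w, hw, hf⟩ := exists_fixed hNp hV hv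
    intro hb
    have : w ∈ W := fun n hn => hf ⟨n, hn⟩
    rw [hb, Submodule.mem_bot] at this
    exact hw this
  have htop : W = ⊤ := (eq_bot_or_eq_top W).resolve_left hW
  have h1 : (Submodule.Quotient.mk 1 : MonoidAlgebra k G ⧸ m) ∈ W := by rw [htop]; trivial
  have h2 := h1 n hn
  rw [← Submodule.Quotient.mk_smul, smul_eq_mul, mul_one] at h2
  rw [← Submodule.Quotient.mk_eq_zero, Submodule.Quotient.mk_sub, h2, sub_self]

include hp in
/-- the kernel of `k[G] → k[G/N]` is in every maximal left ideal -/
theorem ker_le (hNp : IsPGroup p N) {m : Submodule (MonoidAlgebra k G) (MonoidAlgebra k G)}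
    (hm : IsCoatom m) (a : MonoidAlgebra k G)
    (ha : MonoidAlgebra.mapDomain (QuotientGroup.mk : G → G ⧸ N) a = 0) : a ∈ m := by
  classical
  let F : (G ⧸ N) → (MonoidAlgebra k G ⧸ m) := fun q =>
    Submodule.Quotient.mk (single q.out (1 : k))
  have hF : ∀ g : G, (Submodule.Quotient.mk (single g (1 : k)) : MonoidAlgebra k G ⧸ m) =
      F (QuotientGroup.mk g) := by
    intro g
    show _ = Submodule.Quotient.mk (single (QuotientGroup.mk g : G ⧸ N).out (1 : k))
    obtain ⟨n, hn⟩ := QuotientGroup.mk_out_eq_mul N g
    rw [hn]
    have h1 : single (g * (n : G)) (1 : k) = single g (1 : k) * single (n : G) (1 : k) := by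
      rw [MonoidAlgebra.single_mul_single, one_mul]
    rw [Eq.comm, ← sub_eq_zero, ← Submodule.Quotient.mk_sub, Submodule.Quotient.mk_eq_zero, h1]
    have h2 : single g (1 : k) * single (n : G) (1 : k) - single g (1 : k) =
        single g (1 : k) * (single (n : G) (1 : k) - 1) := by rw [mul_sub, mul_one]
    rw [h2]
    exact m.smul_mem _ (fix_all N hNp hm n.2)
  rw [← Submodule.Quotient.mk_eq_zero]
  -- the `k`-linear map `k[G/N] → k[G]/m`
  let T : MonoidAlgebra k (G ⧸ N) →+ (MonoidAlgebra k G ⧸ m) :=
    { toFun := fun b => b.coeff.sum fun q c => (algebraMap k (MonoidAlgebra k G) c) • F q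
      map_zero' := by simp
      map_add' := fun b b' => by
        show Finsupp.sum (b.coeff + b'.coeff) _ = _
        refine Finsupp.sum_add_index' (fun q => ?_) fun q c c' => ?_
        · rw [map_zero, zero_smul]
        · rw [map_add, add_smul] }
  have key : ∀ x : MonoidAlgebra k G,
      T (MonoidAlgebra.mapDomain (QuotientGroup.mk : G → G ⧸ N) x) = Submodule.Quotient.mk x := by
    intro x
    induction x using MonoidAlgebra.induction_linear with
    | zero => rw [MonoidAlgebra.mapDomain_zero, map_zero, Submodule.Quotient.mk_zero]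
    | add x y hx hy => rw [MonoidAlgebra.mapDomain_add, map_add, hx, hy, Submodule.Quotient.mk_add]
    | single g c =>
      rw [MonoidAlgebra.mapDomain_single]
      have h1 : T (MonoidAlgebra.single (QuotientGroup.mk g : G ⧸ N) c) =
          (algebraMap k (MonoidAlgebra k G) c) • F (QuotientGroup.mk g) :=
        Finsupp.sum_single_index (h := fun q c => (algebraMap k (MonoidAlgebra k G) c) • F q)
          (by rw [map_zero, zero_smul])
      rw [h1, ← hF, ← Submodule.Quotient.mk_smul]
      congr 1
      simp
  rw [← key, ha, map_zero]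

include hp in
/-- **`lc` does not change modulo a normal `p`-subgroup** -/
theorem lc_quot (hNp : IsPGroup p N) (e : MonoidAlgebra k G) :
    blockSimpleCount e =
      blockSimpleCount (MonoidAlgebra.mapDomain (QuotientGroup.mk : G → G ⧸ N) e) := by
  let π : MonoidAlgebra k G →+* MonoidAlgebra k (G ⧸ N) :=
    MonoidAlgebra.mapDomainRingHom k (QuotientGroup.mk' N)
  have hπ : ∀ x, π x = MonoidAlgebra.mapDomain (QuotientGroup.mk : G → G ⧸ N) x := fun x => rfl
  have hs : Function.Surjective π := by
    intro y
    induction y using MonoidAlgebra.induction_linear with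
    | zero => exact ⟨0, map_zero _⟩
    | add x y hx hy =>
      obtain ⟨a, rfl⟩ := hx
      obtain ⟨b, rfl⟩ := hy
      exact ⟨a + b, map_add _ _ _⟩
    | single q c =>
      obtain ⟨g, rfl⟩ := QuotientGroup.mk_surjective q
      exact ⟨single g c, by rw [hπ, MonoidAlgebra.mapDomain_single]⟩
  refine scc_surj π hs _ _ (fun m hm _ a ha => ker_le N hNp hm a (by rw [← hπ]; exact ha))
    fun m' _ => ?_
  show π (1 - e) ∈ m' ↔ _
  rw [map_sub, map_one]
  rfl

end ga

end Crest.Agent.R170.Q940
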