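import Crest.Agent.R170.DefW_995
import Crest.Agent.R170.AB_983
import Crest.Agent.R170.Q2_940
import Crest.Agent.R170.J1_482

/-!
# Row 170, leaf AB, part 2 (helper983)

* `sum_pgroup` : sums of invariant functions vanishing on the fixed points of a `p`-group action.
* `AB2` : `R` normal `p`-subgroup of `H`, `y` central in `k[H]` with no coefficient on `C_H(R)`:
  `y` is nilpotent.
* `AB3` : `z` central in `k[G]`, supported on `p`-regular elements, `σ` a chain:
  `restrictCoeff (st σ) z - br (st σ) (top σ) z` is nilpotent (and both are central).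
-/

set_option autoImplicit false

namespace Crest.Agent.R170.AB983

open Subgroup Crest.AlgebraR.Weights

section sums

theorem sum_pgroup {p : ℕ} [hp : Fact p.Prime] {R α k : Type*} [Group R] [Fintype α]
    [MulAction R α] [Ring k] [CharP k p] (hR : IsPGroup p R) (f : α → k)
    (hf : ∀ (r : R) (a : α), f (r • a) = f a) (h0 : ∀ a ∈ MulAction.fixedPoints R α, f a = 0) :
    ∑ a, f a = 0 := by
  classical
  have h1 : ∑ a, f a = ∑ v ∈ Finset.univ.image f,
      ((Finset.univ.filter (fun a => f a = v)).card : k) * v := by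
    rw [← Finset.sum_fiberwise_of_maps_to (g := f) (t := Finset.univ.image f)
      (fun a _ => Finset.mem_image_of_mem _ (Finset.mem_univ a))]
    refine Finset.sum_congr rfl fun v _ => ?_
    rw [Finset.sum_congr rfl (g := fun _ => v) (fun a ha => (Finset.mem_filter.1 ha).2)]
    rw [Finset.sum_const, nsmul_eq_mul]
  rw [h1]
  refine Finset.sum_eq_zero fun v _ => ?_
  by_cases hv : v = 0
  · rw [hv, mul_zero]
  let β := {a : α // f a = v}
  let _ : MulAction R β :=
    { smul := fun r b => ⟨r • b.1, by rw [hf]; exact b.2⟩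
      one_smul := fun b => Subtype.ext (one_smul R b.1)
      mul_smul := fun r s b => Subtype.ext (mul_smul r s b.1) }
  have h2 := hR.card_modEq_card_fixedPoints (α := β)
  have h3 : IsEmpty (MulAction.fixedPoints R β) := by
    refine ⟨fun x => ?_⟩
    have h4 : x.1.1 ∈ MulAction.fixedPoints R α := fun r => congrArg Subtype.val (x.2 r)
    exact hv (x.1.2.symm.trans (h0 _ h4))
  have h6 : Nat.card (MulAction.fixedPoints R β) = 0 := Nat.card_of_isEmpty
  rw [h6] at h2
  have h5 : Nat.card β = (Finset.univ.filter (fun a => f a = v)).card := by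
    rw [Nat.card_eq_fintype_card, Fintype.card_subtype]
  rw [← h5, (CharP.cast_eq_zero_iff k p _).2 (Nat.modEq_zero_iff_dvd.1 h2), zero_mul]

end sums

section AB2
variable {k H : Type} [Field k] [Group H] [Finite H]

theorem coeff_conj {y : MonoidAlgebra k H} (hy : ∀ x, y * x = x * y) (g h : H) :
    y.coeff (g * h * g⁻¹) = y.coeff h := by
  have h1 := congrArg (fun z : MonoidAlgebra k H => z.coeff (g * h))
    (hy (MonoidAlgebra.single g 1))
  simp only [MonoidAlgebra.coeff_mul_single_apply, MonoidAlgebra.coeff_single_mul_apply] at h1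
  simpa using h1

theorem AB2 {p : ℕ} [hp : Fact p.Prime] [CharP k p] (R : Subgroup H) [hRn : R.Normal]
    (hR : IsPGroup p R) (y : MonoidAlgebra k H) (hy : ∀ x, y * x = x * y)
    (h0 : ∀ h ∈ Subgroup.centralizer (R : Set H), y.coeff h = 0) : IsNilpotent y := by
  classical
  haveI : Fintype H := Fintype.ofFinite H
  haveI : IsArtinianRing (MonoidAlgebra k H) := IsArtinianRing.of_finite k _
  apply J482.isNilpotent_of_mem_jacobson
  rw [Ring.jacobson, Module.jacobson, Submodule.mem_sInf]
  intro m hm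
  apply Q940.ker_le (p := p) R hR hm
  apply MonoidAlgebra.coeff_injective
  ext q
  have h1 : (MonoidAlgebra.mapDomain (QuotientGroup.mk : H → H ⧸ R) y).coeff q =
      ∑ g : H, if (QuotientGroup.mk g : H ⧸ R) = q then y.coeff g else 0 := by
    show (Finsupp.mapDomain _ y.coeff) q = _
    rw [Finsupp.mapDomain, Finsupp.sum_apply, Finsupp.sum_fintype _ _ (by intro i; simp)]
    refine Finset.sum_congr rfl fun g _ => ?_
    rw [Finsupp.single_apply]
  rw [h1, ← Finset.sum_filter, Finset.sum_subtype (p := fun g : H => (QuotientGroup.mk g : H ⧸ R) = q)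
    _ (fun g => by simp) y.coeff]
  show _ = (0 : k)
  have hconj : ∀ (r g : H), r ∈ R → (QuotientGroup.mk (r * g * r⁻¹) : H ⧸ R) = QuotientGroup.mk g := by
    intro r g hr
    rw [eq_comm, QuotientGroup.eq]
    have h2 : g⁻¹ * (r * g * r⁻¹) = (g⁻¹ * r * g⁻¹⁻¹) * r⁻¹ := by group
    rw [h2]
    exact R.mul_mem (hRn.conj_mem r hr g⁻¹) (R.inv_mem hr)
  let _ : MulAction R {g : H // (QuotientGroup.mk g : H ⧸ R) = q} :=
    { smul := fun r g => ⟨r * g.1 * (r : H)⁻¹, by rw [hconj _ _ r.2]; exact g.2⟩
      one_smul := fun g => Subtype.ext (by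
        show ((1 : R) : H) * g.1 * ((1 : R) : H)⁻¹ = g.1
        simp)
      mul_smul := fun r s g => Subtype.ext (by
        show ((r * s : R) : H) * g.1 * ((r * s : R) : H)⁻¹ = r * (s * g.1 * (s : H)⁻¹) * (r : H)⁻¹
        push_cast
        group) }
  refine sum_pgroup (p := p) hR _ (fun r g => coeff_conj hy (r : H) g.1) ?_
  intro g hg
  refine h0 g.1 ?_
  rw [Subgroup.mem_centralizer_iff]
  intro r hr
  have h3 : r * g.1 * r⁻¹ = g.1 := congrArg Subtype.val (hg ⟨r, hr⟩)
  exact mul_inv_eq_iff_eq_mul.1 h3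

end AB2

section AB3
variable {k G : Type} [Field k] [Group G] [Finite G]

theorem restrictCoeff_coeff (H : Subgroup G) (z : MonoidAlgebra k G) (h : H) :
    (restrictCoeff H z).coeff h = z.coeff (h : G) := rfl

open Classical in
theorem br_coeff (H Q : Subgroup G) (z : MonoidAlgebra k G) (h : H) :
    (br H Q z).coeff h = if (h : G) ∈ Subgroup.centralizer (Q : Set G) then z.coeff (h : G)
      else 0 := rfl

/-- an element of `k[H]` with conjugation invariant coefficients is central -/
theorem central_of_conj {H : Type} [Group H] [Finite H] {y : MonoidAlgebra k H}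
    (hy : ∀ g h : H, y.coeff (g * h * g⁻¹) = y.coeff h) (x : MonoidAlgebra k H) :
    y * x = x * y := by
  induction x using MonoidAlgebra.induction_linear with
  | zero => simp
  | add a b ha hb => rw [mul_add, add_mul, ha, hb]
  | single g c =>
    apply MonoidAlgebra.coeff_injective
    ext h
    rw [MonoidAlgebra.coeff_mul_single_apply, MonoidAlgebra.coeff_single_mul_apply, mul_comm]
    congr 1
    have := hy g (g⁻¹ * h)
    rw [← this]
    congr 1
    group

theorem st_le_normalizer_top {p : ℕ} (σ : Ch p G) :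
    st σ ≤ Subgroup.normalizer (top σ : Set G) := by
  rcases σ.1.eq_empty_or_nonempty with h0 | hne
  · have : top σ = ⊥ := by unfold top; rw [h0]; simp
    rw [this, Subgroup.normalizer_eq_top]
    exact le_top
  · obtain ⟨M, hM⟩ := σ.1.exists_maximal hne
    have h1 : top σ = M := by
      refine le_antisymm (iSup₂_le fun Q hQ => ?_) (le_iSup₂_of_le M hM.prop le_rfl)
      by_cases h : Q = M
      · exact h.le
      · rcases σ.2.2 hQ hM.prop h with h1 | h1
        · exact h1
        · exact hM.le_of_ge hQ h1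
    rw [h1]
    exact iInf₂_le M hM.prop

theorem top_isPGroup {p : ℕ} (σ : Ch p G) : IsPGroup p (top σ) := by
  rcases σ.1.eq_empty_or_nonempty with h0 | hne
  · have : top σ = ⊥ := by unfold top; rw [h0]; simp
    rw [this]
    exact IsPGroup.of_bot
  · obtain ⟨M, hM⟩ := σ.1.exists_maximal hne
    have h1 : top σ = M := by
      refine le_antisymm (iSup₂_le fun Q hQ => ?_) (le_iSup₂_of_le M hM.prop le_rfl)
      by_cases h : Q = M
      · exact h.le
      · rcases σ.2.2 hQ hM.prop h with h1 | h1
        · exact h1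
        · exact hM.le_of_ge hQ h1
    rw [h1]
    exact (σ.2.1 M hM.prop).1

/-- restriction of a central element to a subgroup is central -/
theorem restrict_central {z : MonoidAlgebra k G} (hz : ∀ x, z * x = x * z) (H : Subgroup G)
    (x : MonoidAlgebra k H) : restrictCoeff H z * x = x * restrictCoeff H z :=
  central_of_conj (fun g h => by
    rw [restrictCoeff_coeff, restrictCoeff_coeff]
    push_cast
    exact coeff_conj hz _ _) x

theorem mem_centralizer_conj {Q : Subgroup G} {g h : G}
    (hg : g ∈ Subgroup.normalizer (Q : Set G)) :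
    g * h * g⁻¹ ∈ Subgroup.centralizer (Q : Set G) ↔ h ∈ Subgroup.centralizer (Q : Set G) := by
  have key : ∀ g h : G, g ∈ Subgroup.normalizer (Q : Set G) →
      h ∈ Subgroup.centralizer (Q : Set G) → g * h * g⁻¹ ∈ Subgroup.centralizer (Q : Set G) := by
    intro g h hg hh
    rw [Subgroup.mem_centralizer_iff] at hh ⊢
    intro q hq
    have h1 : g⁻¹ * q * g ∈ Q := by
      have h2 := (Subgroup.mem_normalizer_iff.1 ((Subgroup.normalizer (Q : Set G)).inv_mem hg) q).1 hq
      simpa using h2
    have h3 := hh _ h1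
    have h4 : q = g * (g⁻¹ * q * g) * g⁻¹ := by group
    calc q * (g * h * g⁻¹) = g * ((g⁻¹ * q * g) * h) * g⁻¹ := by group
      _ = g * (h * (g⁻¹ * q * g)) * g⁻¹ := by rw [h3]
      _ = g * h * g⁻¹ * q := by group
  refine ⟨fun h1 => ?_, key g h hg⟩
  have h2 := key g⁻¹ _ ((Subgroup.normalizer (Q : Set G)).inv_mem hg) h1
  have h3 : g⁻¹ * (g * h * g⁻¹) * g⁻¹⁻¹ = h := by group
  rwa [h3] at h2

/-- the Brauer map lands in the centre -/
theorem br_central {z : MonoidAlgebra k G} (hz : ∀ x, z * x = x * z) (H Q : Subgroup G)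
    (hH : H ≤ Subgroup.normalizer (Q : Set G)) (x : MonoidAlgebra k H) :
    br H Q z * x = x * br H Q z := by
  classical
  refine central_of_conj (fun g h => ?_) x
  rw [br_coeff, br_coeff]
  push_cast
  rw [coeff_conj hz]
  simp only [mem_centralizer_conj (hH g.2)]

/-- **(AB3)** -/
theorem AB3 {p : ℕ} [hp : Fact p.Prime] [CharP k p] (σ : Ch p G) (z : MonoidAlgebra k G)
    (hz : ∀ x, z * x = x * z) (hreg : ∀ g : G, z.coeff g ≠ 0 → (orderOf g).Coprime p) :
    IsNilpotent (restrictCoeff (st σ) z - br (st σ) (top σ) z) := by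
  classical
  have hR : IsPGroup p ((top σ).subgroupOf (st σ)) := by
    have h1 : IsPGroup p (top σ ⊓ st σ : Subgroup G) :=
      (top_isPGroup σ).to_le inf_le_left
    have h2 : (top σ ⊓ st σ).subgroupOf (st σ) = (top σ).subgroupOf (st σ) := by
      rw [Subgroup.inf_subgroupOf_right]
    rw [← h2]
    exact h1.comap_subtype
  haveI hRn : ((top σ).subgroupOf (st σ)).Normal := by
    refine ⟨fun n hn g => ?_⟩
    rw [Subgroup.mem_subgroupOf] at hn ⊢
    push_cast
    exact (Subgroup.mem_normalizer_iff.1 (st_le_normalizer_top σ g.2) _).1 hn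
  refine AB2 (p := p) ((top σ).subgroupOf (st σ)) hR _ (fun x => ?_) fun h hh => ?_
  · rw [sub_mul, mul_sub, restrict_central hz, br_central hz _ _ (st_le_normalizer_top σ)]
  · show (restrictCoeff (st σ) z).coeff h - (br (st σ) (top σ) z).coeff h = 0
    rw [restrictCoeff_coeff, br_coeff]
    by_cases h0 : z.coeff (h : G) = 0
    · rw [h0]; simp
    · rw [if_pos, sub_self]
      refine AB1 σ (h : G) (hreg _ h0) h.2 ?_
      rw [Subgroup.mem_centralizer_iff] at hh ⊢
      intro x hx
      have h1 := hh ⟨x, hx.2⟩ (by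
        show (⟨x, hx.2⟩ : st σ) ∈ (top σ).subgroupOf (st σ)
        rw [Subgroup.mem_subgroupOf]
        exact hx.1)
      exact congrArg Subtype.val h1

/-- **(AB3), traces** -/
theorem AB3_trZ {p : ℕ} [hp : Fact p.Prime] [CharP k p] (σ : Ch p G) (z : MonoidAlgebra k G)
    (hz : ∀ x, z * x = x * z) (hreg : ∀ g : G, z.coeff g ≠ 0 → (orderOf g).Coprime p)
    (y1 y2 : Subalgebra.center k (MonoidAlgebra k (st σ)))
    (h1 : (y1 : MonoidAlgebra k (st σ)) = restrictCoeff (st σ) z)
    (h2 : (y2 : MonoidAlgebra k (st σ)) = br (st σ) (top σ) z) : trZ y1 = trZ y2 := by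
  have hn : IsNilpotent (y1 - y2) := by
    obtain ⟨n, hn⟩ := AB3 (p := p) σ z hz hreg
    refine ⟨n, Subtype.ext ?_⟩
    push_cast
    rw [h1, h2, hn]
  have h3 : IsNilpotent (LinearMap.mulLeft k (y1 - y2)) := by
    obtain ⟨n, hn⟩ := hn
    refine ⟨n, ?_⟩
    rw [LinearMap.pow_mulLeft, hn]
    exact LinearMap.mulLeft_zero_eq_zero _ _
  have h4 := LinearMap.isNilpotent_trace_of_isNilpotent h3
  have h5 : LinearMap.trace k _ (LinearMap.mulLeft k (y1 - y2)) = 0 := h4.eq_zero
  unfold trZ
  have h6 : LinearMap.mulLeft k (y1 - y2) = LinearMap.mulLeft k y1 - LinearMap.mulLeft k y2 := by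
    ext x
    simp [sub_mul]
  have h7 := (LinearMap.trace k (Subalgebra.center k (MonoidAlgebra k (st σ)))).map_sub
    (LinearMap.mulLeft k y1) (LinearMap.mulLeft k y2)
  rw [h6] at h5
  exact sub_eq_zero.1 (h7.symm.trans h5)

end AB3

end Crest.Agent.R170.AB983

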