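import Mathlib
import Crest.Prelude.Def_Weights
import Crest.Prelude.Def_Blocks

/-!
# Row 170 (S0258): definitions of chain A (helper995). FROZEN after landing.

`k` algebraically closed of characteristic `p`, `G` finite. Central idempotents `e` of `k[G]`.

* `br H Q e` : Brauer map, coefficients on `C_G(Q)`, as an element of `k[H]`.
* `lc e`, `f0 e`, `kc e` : numbers of simple modules, of simple projective modules, dimension of `e Z(kG)`.
* `Ch p G` : chains of nontrivial `p`-subgroups, `st σ` stabiliser, `top σ` the largest member.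
* `eC σ e` : the idempotent `e_σ` of `k[st σ]`.
* `Wt p e` : `|G| W(G, e)` as a natural number; `W p e` the quotient by `|G|`.
* `altSum f` : `∑_{σ/G} (-1)^|σ| f σ` (`altSumK` with values in `k`).
* `WCc p` : the counting lemma, labels `c`.
-/

set_option autoImplicit false

namespace Crest.Agent.R170

open MonoidAlgebra Crest.AlgebraR.Weights Crest.AlgebraR.Blocks

section basic
variable {k G : Type} [Field k] [Group G]

/-- central idempotent -/
def CI (e : MonoidAlgebra k G) : Prop :=
  (∀ x : MonoidAlgebra k G, e * x = x * e) ∧ e * e = e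

/-- number of simple modules in `e` -/
noncomputable def lc (e : MonoidAlgebra k G) : ℕ := blockSimpleCount e

/-- number of simple projective modules in `e` -/
noncomputable def f0 (e : MonoidAlgebra k G) : ℕ :=
  simpleClassCount (MonoidAlgebra k G) fun m =>
    Module.Projective (MonoidAlgebra k G) (MonoidAlgebra k G ⧸ m) ∧ 1 - e ∈ m

/-- `e Z(kG)` -/
def eZ (e : MonoidAlgebra k G) : Submodule k (MonoidAlgebra k G) where
  carrier := {z | (∀ x : MonoidAlgebra k G, z * x = x * z) ∧ e * z = z}
  add_mem' := by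
    rintro a b ⟨ha, ha'⟩ ⟨hb, hb'⟩
    exact ⟨fun x => by rw [add_mul, mul_add, ha, hb], by rw [mul_add, ha', hb']⟩
  zero_mem' := ⟨fun x => by simp, by simp⟩
  smul_mem' := by
    rintro c a ⟨ha, ha'⟩
    exact ⟨fun x => by rw [smul_mul_assoc, mul_smul_comm, ha], by rw [mul_smul_comm, ha']⟩

/-- `dim e Z(kG)` -/
noncomputable def kc (e : MonoidAlgebra k G) : ℕ := Module.finrank k (eZ e)

/-- trace of the multiplication by `z` on the centre -/
noncomputable def trZ (z : Subalgebra.center k (MonoidAlgebra k G)) : k :=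
  LinearMap.trace k (Subalgebra.center k (MonoidAlgebra k G))
    (LinearMap.mulLeft k z)

open Classical in
/-- Brauer map: coefficients on `C_G(Q)`, as an element of `k[H]` -/
noncomputable def br [Finite G] (H Q : Subgroup G) (e : MonoidAlgebra k G) : MonoidAlgebra k H :=
  .ofCoeff (Finsupp.equivFunOnFinite.symm fun h : H =>
    if (h : G) ∈ Subgroup.centralizer (Q : Set G) then e.coeff (h : G) else 0)

end basic

section chains
variable (p : ℕ) (G : Type) [Group G]

/-- finite chains of nontrivial `p`-subgroups -/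
def Ch : Type := {σ : Finset (Subgroup G) //
  (∀ Q ∈ σ, IsPGroup p Q ∧ Q ≠ ⊥) ∧ IsChain (· ≤ ·) (σ : Set (Subgroup G))}

variable {p G}

/-- stabiliser of a chain -/
def st (σ : Ch p G) : Subgroup G := ⨅ Q ∈ σ.1, Subgroup.normalizer (Q : Set G)

/-- largest member of a chain (`⊥` for the empty chain) -/
def top (σ : Ch p G) : Subgroup G := ⨆ Q ∈ σ.1, Q

/-- sign of a chain -/
def sgn (σ : Ch p G) : ℤ := (-1) ^ σ.1.card

/-- two chains are conjugate -/
def chRel (σ τ : Ch p G) : Prop :=
  ∃ g : G, (fun Q : Subgroup G => Q.map (MulAut.conj g).toMonoidHom) '' (σ.1 : Set (Subgroup G)) =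
    (τ.1 : Set (Subgroup G))

/-- `∑_{σ/G} (-1)^|σ| f σ` over representatives of the chains up to conjugation -/
noncomputable def altSum (f : Ch p G → ℤ) : ℤ :=
  ∑ᶠ q : Quot (chRel (p := p) (G := G)), sgn q.out * f q.out

/-- the same with values in a field -/
noncomputable def altSumK {k : Type} [Field k] (f : Ch p G → k) : k :=
  ∑ᶠ q : Quot (chRel (p := p) (G := G)), ((sgn q.out : ℤ) : k) * f q.out

/-- `-χ̃` of the complex of `p`-subgroups normalised by `A` -/
noncomputable def sA (p : ℕ) {G : Type} [Group G] (A : Subgroup G) : ℤ :=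
  ∑ᶠ σ : {σ : Ch p G // A ≤ st σ}, sgn σ.1

end chains

section weights
variable {k G : Type} [Field k] [Group G] [Finite G]

/-- idempotent of the stabiliser of a chain -/
noncomputable def eC {p : ℕ} (σ : Ch p G) (e : MonoidAlgebra k G) : MonoidAlgebra k (st σ) :=
  br (st σ) (top σ) e

/-- `|G| W(G, e)` -/
noncomputable def Wt (p : ℕ) (e : MonoidAlgebra k G) : ℕ :=
  ∑ᶠ Q : {Q : Subgroup G // IsPGroup p Q},
    Nat.card (Subgroup.normalizer (Q.1 : Set G)) * f0 (localImage Q.1 e)

/-- `d(G, e)`, times `|G|` -/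
noncomputable def dG (p : ℕ) (e : MonoidAlgebra k G) : ℤ :=
  (Nat.card G : ℤ) * lc e - Wt p e

end weights

/-- the `p`-part of `n` -/
def pPart (p n : ℕ) : ℕ := p ^ padicValNat p n

/-- an element of `p`-power order -/
def IsPElt {G : Type} [Group G] (p : ℕ) (g : G) : Prop := ∃ n : ℕ, g ^ p ^ n = 1

/-- `O_p(A)` contains `g`: `g` lies in a `p`-subgroup of `G` contained in `A` and normalised by `A` -/
def InOp {G : Type} [Group G] (p : ℕ) (A : Subgroup G) (g : G) : Prop :=
  ∃ P : Subgroup G, IsPGroup p P ∧ P ≤ A ∧ A ≤ Subgroup.normalizer (P : Set G) ∧ g ∈ P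

/-- **THE COUNTING LEMMA (WC_c)** for one group and one label -/
def WCcAt (p : ℕ) (G : Type) [Group G] (c : G) : Prop :=
  p * pPart p (Nat.card (Subgroup.centralizer ({c} : Set G))) ∣
    Nat.card {w : G × G // IsPElt p (c⁻¹ * (w.1 * w.2 * w.1⁻¹ * w.2⁻¹)) ∧
      ¬ InOp p (Subgroup.closure {w.1, w.2, c}) (c⁻¹ * (w.1 * w.2 * w.1⁻¹ * w.2⁻¹))}

/-- **(WC_c)**: all finite groups, all `p`-regular labels -/
def WCc (p : ℕ) : Prop :=
  ∀ (G : Type) [Group G] [Finite G] (c : G), (orderOf c).Coprime p → WCcAt p G c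

end Crest.Agent.R170
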