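import Mathlib
import Crest.Agent.R170.DefW_995

/-!
# Row 170: Thompson's `A × B` lemma for one element, and chains

* `thompson` : `h` of order prime to `p` normalises the `p`-group `S`, commutes with the `p`-group
  `B ≤ N(S)` and with `C_S(B)`; then `h` commutes with `S`.
* `chain_centr` : `h ∈ st σ` of order prime to `p`, commuting with `top σ ⊓ st σ`, commutes with
  `top σ`.
-/

set_option autoImplicit false

open scoped commutatorElement

namespace Crest.Agent.R170.AB312

variable {G : Type} [Group G] {p : ℕ}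

/-- `⁅S, Γ⁆ ≠ S` for a nontrivial subgroup of a nilpotent group -/
theorem comm_ne {S Γ : Subgroup G} (hSΓ : S ≤ Γ) (hΓ : Group.IsNilpotent Γ) (hS : S ≠ ⊥) :
    ⁅S, Γ⁆ ≠ S := by
  intro h
  apply hS
  have key : ∀ n : ℕ, S ≤ Γ.lowerCentralSeries n := by
    intro n
    induction n with
    | zero => exact hSΓ
    | succ n ih =>
      rw [Subgroup.lowerCentralSeries_succ]
      calc S = ⁅S, Γ⁆ := h.symm
        _ ≤ ⁅Γ.lowerCentralSeries n, Γ⁆ := Subgroup.commutator_mono ih le_rfl
  obtain ⟨n, hn⟩ := (Subgroup.isNilpotent_iff_lowerCentralSeries Γ).1 hΓ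
  have h1 := key n
  rw [hn] at h1
  exact le_bot_iff.1 h1

/-- if the commutator of `s` and `h` commutes with `h`, it is trivial (coprime orders) -/
theorem comm_one {h s : G} (hord : (orderOf h).Coprime p) {S : Subgroup G} (hS : IsPGroup p S)
    (hc : h * s * h⁻¹ * s⁻¹ ∈ S) (hcom : Commute h (h * s * h⁻¹ * s⁻¹)) : Commute h s := by
  set c := h * s * h⁻¹ * s⁻¹ with hcdef
  have h1 : ∀ n : ℕ, h ^ n * s * (h ^ n)⁻¹ = c ^ n * s := by
    intro n
    induction n with
    | zero => simp
    | succ n ih =>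
      have h2 : h * (c ^ n * s) * h⁻¹ = c ^ n * (h * s * h⁻¹) := by
        have h3 : h * c ^ n = c ^ n * h := (hcom.pow_right n).eq
        rw [← mul_assoc, h3]
        group
      have h4 : h * s * h⁻¹ = c * s := by
        rw [hcdef]
        group
      calc h ^ (n + 1) * s * (h ^ (n + 1))⁻¹ = h * (h ^ n * s * (h ^ n)⁻¹) * h⁻¹ := by
            rw [pow_succ']
            group
        _ = h * (c ^ n * s) * h⁻¹ := by rw [ih]
        _ = c ^ n * (c * s) := by rw [h2, h4]
        _ = c ^ (n + 1) * s := by rw [pow_succ]; group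
  have h2 := h1 (orderOf h)
  rw [pow_orderOf_eq_one, inv_one, mul_one, one_mul] at h2
  have h3 : c ^ orderOf h = 1 := by
    have : c ^ orderOf h * s = 1 * s := by rw [← h2, one_mul]
    exact mul_right_cancel this
  obtain ⟨k, hk⟩ := hS ⟨c, hc⟩
  have hk' : c ^ p ^ k = 1 := by
    have := congrArg Subtype.val hk
    simpa using this
  have hcop : Nat.Coprime (orderOf h) (p ^ k) := hord.pow_right k
  have hc1 : c = 1 := by
    have e1 := orderOf_dvd_of_pow_eq_one h3
    have e2 := orderOf_dvd_of_pow_eq_one hk'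
    have e3 : orderOf c ∣ 1 := by
      rw [← hcop]
      exact Nat.dvd_gcd e1 e2
    exact orderOf_eq_one_iff.1 (Nat.dvd_one.1 e3)
  have h5 : h * s * h⁻¹ * s⁻¹ = 1 := hc1
  have h6 : h * s = s * h := by
    have : h * s * h⁻¹ = s := mul_inv_eq_one.1 h5
    exact mul_inv_eq_iff_eq_mul.1 this
  exact h6

/-- normaliser membership through generators -/
theorem closure_norm {X : Set G} {g : G} (h1 : ∀ x ∈ X, g * x * g⁻¹ ∈ Subgroup.closure X)
    (h2 : ∀ x ∈ X, g⁻¹ * x * g ∈ Subgroup.closure X) :
    g ∈ Subgroup.normalizer (Subgroup.closure X : Set G) := by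
  have key : ∀ (a : G), (∀ x ∈ X, a * x * a⁻¹ ∈ Subgroup.closure X) →
      ∀ x ∈ Subgroup.closure X, a * x * a⁻¹ ∈ Subgroup.closure X := by
    intro a ha x hx
    have : Subgroup.closure X ≤ (Subgroup.closure X).comap (MulAut.conj a).toMonoidHom := by
      rw [Subgroup.closure_le]
      intro y hy
      exact ha y hy
    exact this hx
  rw [Subgroup.mem_normalizer_iff]
  intro x
  constructor
  · exact key g h1 x
  · intro hx
    have h3 := key g⁻¹ (fun x hx => by simpa using h2 x hx) _ hx
    have e : g⁻¹ * (g * x * g⁻¹) * g⁻¹⁻¹ = x := by group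
    rwa [e] at h3

theorem norm_conj {S : Subgroup G} {g x : G} (hg : g ∈ Subgroup.normalizer (S : Set G))
    (hx : x ∈ S) : g * x * g⁻¹ ∈ S := ((Subgroup.mem_normalizer_iff.1 hg) x).1 hx

theorem norm_conj' {S : Subgroup G} {g x : G} (hg : g ∈ Subgroup.normalizer (S : Set G))
    (hx : x ∈ S) : g⁻¹ * x * g ∈ S := by
  have h1 := norm_conj ((Subgroup.normalizer (S : Set G)).inv_mem hg) hx
  simpa using h1

theorem card_lt [Finite G] {T S : Subgroup G} (h : T < S) : Nat.card T < Nat.card S := by
  have h1 := Set.ncard_lt_ncard (s := (T : Set G)) (t := (S : Set G)) h (Set.toFinite _)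
  rw [← Nat.card_coe_set_eq, ← Nat.card_coe_set_eq] at h1
  exact h1

/-- **Thompson's `A × B` lemma** for one element of order prime to `p` -/
theorem thompson [Finite G] [Fact p.Prime] {h : G} (hord : (orderOf h).Coprime p)
    {B : Subgroup G} (hB : IsPGroup p B) (hhB : ∀ b ∈ B, Commute h b) :
    ∀ (n : ℕ) (S : Subgroup G), Nat.card S ≤ n → IsPGroup p S →
      h ∈ Subgroup.normalizer (S : Set G) → B ≤ Subgroup.normalizer (S : Set G) →
      (∀ x ∈ S, (∀ b ∈ B, Commute b x) → Commute h x) → ∀ x ∈ S, Commute h x := by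
  intro n
  induction n with
  | zero =>
    intro S hn
    have : 0 < Nat.card S := Nat.card_pos
    omega
  | succ n ih =>
    intro S hn hS hhS hBS hC
    by_cases hS1 : S = ⊥
    · intro x hx
      rw [hS1, Subgroup.mem_bot] at hx
      rw [hx]
      exact Commute.one_right h
    -- the subgroup of the commutators with `h`
    set X : Set G := {y | ∃ s ∈ S, y = h * s * h⁻¹ * s⁻¹} with hX
    set T1 : Subgroup G := Subgroup.closure X with hT1
    have hXS : X ⊆ S := by
      rintro y ⟨s, hs, rfl⟩
      exact S.mul_mem (norm_conj hhS hs) (S.inv_mem hs)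
    have hT1S : T1 ≤ S := (Subgroup.closure_le S).2 hXS
    have hconjX : ∀ g : G, g ∈ Subgroup.normalizer (S : Set G) → Commute h g →
        g ∈ Subgroup.normalizer (T1 : Set G) := by
      intro g hg hcom
      refine closure_norm ?_ ?_
      · rintro y ⟨s, hs, rfl⟩
        refine Subgroup.subset_closure ⟨g * s * g⁻¹, norm_conj hg hs, ?_⟩
        have e1 : g * h = h * g := hcom.eq.symm
        have e2 : g * h⁻¹ = h⁻¹ * g := (hcom.inv_left).eq.symm
        calc g * (h * s * h⁻¹ * s⁻¹) * g⁻¹ = (g * h) * s * h⁻¹ * s⁻¹ * g⁻¹ := by group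
          _ = (h * g) * s * h⁻¹ * s⁻¹ * g⁻¹ := by rw [e1]
          _ = h * (g * s * g⁻¹) * (g * h⁻¹) * s⁻¹ * g⁻¹ := by group
          _ = h * (g * s * g⁻¹) * (h⁻¹ * g) * s⁻¹ * g⁻¹ := by rw [e2]
          _ = h * (g * s * g⁻¹) * h⁻¹ * (g * s * g⁻¹)⁻¹ := by group
      · rintro y ⟨s, hs, rfl⟩
        refine Subgroup.subset_closure ⟨g⁻¹ * s * g, norm_conj' hg hs, ?_⟩
        have e1 : g⁻¹ * h = h * g⁻¹ := (hcom.inv_right).eq.symm
        have e2 : g⁻¹ * h⁻¹ = h⁻¹ * g⁻¹ := (hcom.inv_right.inv_left).eq.symm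
        calc g⁻¹ * (h * s * h⁻¹ * s⁻¹) * g = (g⁻¹ * h) * s * h⁻¹ * s⁻¹ * g := by group
          _ = (h * g⁻¹) * s * h⁻¹ * s⁻¹ * g := by rw [e1]
          _ = h * (g⁻¹ * s * g) * (g⁻¹ * h⁻¹) * s⁻¹ * g := by group
          _ = h * (g⁻¹ * s * g) * (h⁻¹ * g⁻¹) * s⁻¹ * g := by rw [e2]
          _ = h * (g⁻¹ * s * g) * h⁻¹ * (g⁻¹ * s * g)⁻¹ := by group
    have hhT1 : h ∈ Subgroup.normalizer (T1 : Set G) := hconjX h hhS (Commute.refl h)
    have hBT1 : B ≤ Subgroup.normalizer (T1 : Set G) := fun b hb => hconjX b (hBS hb) (hhB b hb)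
    by_cases h1 : T1 = S
    · -- second commutator
      set Γ : Subgroup G := S ⊔ B with hΓ
      have hΓp : IsPGroup p Γ := hS.to_sup_of_normal_left' hB hBS
      have hnil : Group.IsNilpotent Γ := IsPGroup.isNilpotent hΓp
      have hSΓ : S ≤ Γ := le_sup_left
      have hΓS : Γ ≤ Subgroup.normalizer (S : Set G) := sup_le Subgroup.le_normalizer hBS
      set T2 : Subgroup G := ⁅S, Γ⁆ with hT2
      have hT2S : T2 ≤ S := by
        rw [hT2, Subgroup.commutator_le]
        intro s hs g hg
        rw [commutatorElement_def]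
        have e : s * g * s⁻¹ * g⁻¹ = s * (g * s⁻¹ * g⁻¹) := by group
        rw [e]
        exact S.mul_mem hs (norm_conj (hΓS hg) (S.inv_mem hs))
      have hT2ne : T2 ≠ S := comm_ne hSΓ hnil hS1
      have hlt : T2 < S := lt_of_le_of_ne hT2S hT2ne
      have hcard : Nat.card T2 < Nat.card S := card_lt hlt
      have hgT2 : ∀ g : G, g ∈ Subgroup.normalizer (S : Set G) →
          g ∈ Subgroup.normalizer (Γ : Set G) → g ∈ Subgroup.normalizer (T2 : Set G) := by
        intro g hgS hgΓ
        have hdef : T2 = Subgroup.closure {y | ∃ s ∈ S, ∃ t ∈ Γ, ⁅s, t⁆ = y} :=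
          Subgroup.commutator_def S Γ
        rw [hdef]
        refine closure_norm ?_ ?_
        · rintro y ⟨s, hs, t, ht, rfl⟩
          refine Subgroup.subset_closure ⟨g * s * g⁻¹, norm_conj hgS hs, g * t * g⁻¹,
            norm_conj hgΓ ht, ?_⟩
          simp only [commutatorElement_def]
          group
        · rintro y ⟨s, hs, t, ht, rfl⟩
          refine Subgroup.subset_closure ⟨g⁻¹ * s * g, norm_conj' hgS hs, g⁻¹ * t * g,
            norm_conj' hgΓ ht, ?_⟩
          simp only [commutatorElement_def]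
          group
      have hhΓ : h ∈ Subgroup.normalizer (Γ : Set G) := by
        have hhB' : h ∈ Subgroup.normalizer (B : Set G) := by
          rw [Subgroup.mem_normalizer_iff]
          intro x
          constructor
          · intro hx
            have : h * x * h⁻¹ = x := by
              rw [(hhB x hx).eq, mul_assoc, mul_inv_cancel, mul_one]
            rwa [this]
          · intro hx
            have h2 := hhB _ hx
            have : h * x * h⁻¹ = x := by
              have h3 := h2.eq
              have h4 : h * (h * x * h⁻¹) = h * x := by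
                rw [h3]
                group
              exact mul_left_cancel h4
            rwa [this] at hx
        rw [Subgroup.mem_normalizer_iff]
        have hle : ∀ a : G, a ∈ Subgroup.normalizer (S : Set G) →
            a ∈ Subgroup.normalizer (B : Set G) → ∀ x ∈ Γ, a * x * a⁻¹ ∈ Γ := by
          intro a haS haB x hx
          have : Γ ≤ Γ.comap (MulAut.conj a).toMonoidHom := by
            refine sup_le ?_ ?_
            · intro y hy
              exact hSΓ (norm_conj haS hy)
            · intro y hy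
              exact (le_sup_right : B ≤ Γ) (norm_conj haB hy)
          exact this hx
        intro x
        constructor
        · exact hle h hhS hhB' x
        · intro hx
          have h3 := hle h⁻¹ ((Subgroup.normalizer (S : Set G)).inv_mem hhS)
            ((Subgroup.normalizer (B : Set G)).inv_mem hhB') _ hx
          have e : h⁻¹ * (h * x * h⁻¹) * h⁻¹⁻¹ = x := by group
          rwa [e] at h3
      have hh2 : ∀ x ∈ T2, Commute h x := by
        refine ih T2 (by omega) (hS.to_le hT2S) (hgT2 h hhS hhΓ) ?_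
          fun x hx hc => hC x (hT2S hx) hc
        intro b hb
        exact hgT2 b (hBS hb) (Subgroup.le_normalizer ((le_sup_right : B ≤ Γ) hb))
      -- every commutator with `h` commutes with `B`
      have hXB : ∀ y ∈ X, ∀ b ∈ B, Commute b y := by
        rintro y ⟨s, hs, rfl⟩ b hb
        have hmem : s⁻¹ * b * s * b⁻¹ ∈ T2 := by
          have h3 : ⁅s⁻¹, b⁆ ∈ T2 :=
            Subgroup.commutator_mem_commutator (S.inv_mem hs) ((le_sup_right : B ≤ Γ) hb)
          rw [commutatorElement_def] at h3
          simpa using h3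
        have hc := (hh2 _ hmem).eq
        have hb' := (hhB b hb).eq
        have hbi := ((hhB b hb).inv_right).eq
        -- h (s⁻¹ b s b⁻¹) h⁻¹ = s⁻¹ b s b⁻¹
        have e1 : h * (s⁻¹ * b * s * b⁻¹) * h⁻¹ = s⁻¹ * b * s * b⁻¹ := by
          rw [hc]
          group
        have e2 : h * (s⁻¹ * b * s * b⁻¹) * h⁻¹ =
            (h * s * h⁻¹)⁻¹ * b * (h * s * h⁻¹) * b⁻¹ := by
          have f1 : h * b * h⁻¹ = b := by rw [hb']; group
          have f2 : h * b⁻¹ * h⁻¹ = b⁻¹ := by rw [hbi]; group
          calc h * (s⁻¹ * b * s * b⁻¹) * h⁻¹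
              = (h * s * h⁻¹)⁻¹ * (h * b * h⁻¹) * (h * s * h⁻¹) * (h * b⁻¹ * h⁻¹) := by group
            _ = _ := by rw [f1, f2]
        rw [e2] at e1
        have e3 : (h * s * h⁻¹)⁻¹ * b * (h * s * h⁻¹) = s⁻¹ * b * s := mul_right_cancel e1
        show b * (h * s * h⁻¹ * s⁻¹) = (h * s * h⁻¹ * s⁻¹) * b
        calc b * (h * s * h⁻¹ * s⁻¹)
            = (h * s * h⁻¹) * ((h * s * h⁻¹)⁻¹ * b * (h * s * h⁻¹)) * s⁻¹ := by group
          _ = (h * s * h⁻¹) * (s⁻¹ * b * s) * s⁻¹ := by rw [e3]
          _ = (h * s * h⁻¹ * s⁻¹) * b := by group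
      have hSB : ∀ x ∈ S, ∀ b ∈ B, Commute b x := by
        intro x hx b hb
        have hle : T1 ≤ Subgroup.centralizer ({b} : Set G) := by
          rw [hT1, Subgroup.closure_le]
          intro y hy
          rw [SetLike.mem_coe, Subgroup.mem_centralizer_singleton_iff]
          exact (hXB y hy b hb).eq.symm
        have hx' : x ∈ T1 := by rw [h1]; exact hx
        have := Subgroup.mem_centralizer_singleton_iff.1 (hle hx')
        exact this.symm
      exact fun x hx => hC x hx (hSB x hx)
    · have hlt : T1 < S := lt_of_le_of_ne hT1S h1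
      have hcard : Nat.card T1 < Nat.card S := card_lt hlt
      have h2 : ∀ x ∈ T1, Commute h x := ih T1 (by omega) (hS.to_le hT1S) hhT1 hBT1
        fun x hx hc => hC x (hT1S hx) hc
      intro s hs
      exact comm_one hord hS (hXS ⟨s, hs, rfl⟩) (h2 _ (Subgroup.subset_closure ⟨s, hs, rfl⟩))

theorem mem_st {σ : Ch p G} {x : G} :
    x ∈ st σ ↔ ∀ Q ∈ σ.1, x ∈ Subgroup.normalizer (Q : Set G) := by
  simp only [st, Subgroup.mem_iInf]

theorem le_top {σ : Ch p G} {Q : Subgroup G} (hQ : Q ∈ σ.1) : Q ≤ top σ :=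
  le_iSup₂_of_le (f := fun (Q : Subgroup G) (_ : Q ∈ σ.1) => Q) Q hQ le_rfl

theorem le_cent {h : G} {Q : Subgroup G} :
    Q ≤ Subgroup.centralizer ({h} : Set G) ↔ ∀ x ∈ Q, Commute h x := by
  constructor
  · intro hle x hx
    exact (Subgroup.mem_centralizer_singleton_iff.1 (hle hx)).symm
  · intro hc x hx
    exact Subgroup.mem_centralizer_singleton_iff.2 (hc x hx).eq.symm

/-- `h ∈ st σ` of order prime to `p` commuting with `top σ ⊓ st σ` commutes with `top σ` -/
theorem chain_centr [Finite G] [Fact p.Prime] (σ : Ch p G) {h : G}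
    (hord : (orderOf h).Coprime p) (hst : h ∈ st σ)
    (hc : ∀ x ∈ top σ, x ∈ st σ → Commute h x) : ∀ x ∈ top σ, Commute h x := by
  have key : ∀ (n : ℕ) (Q : Subgroup G), Nat.card Q ≤ n → Q ∈ σ.1 → ∀ x ∈ Q, Commute h x := by
    intro n
    induction n with
    | zero =>
      intro Q hn
      have : 0 < Nat.card Q := Nat.card_pos
      omega
    | succ n ih =>
      intro Q hn hQ
      set B : Subgroup G := ⨆ (R : Subgroup G) (_ : R ∈ σ.1 ∧ R < Q), R with hB
      have hBQ : B ≤ Q := iSup₂_le fun R hR => hR.2.le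
      have hRB : ∀ R ∈ σ.1, R < Q → R ≤ B := fun R hR hlt =>
        le_iSup₂_of_le (f := fun (R : Subgroup G) (_ : R ∈ σ.1 ∧ R < Q) => R) R ⟨hR, hlt⟩ le_rfl
      have hQp : IsPGroup p Q := (σ.2.1 Q hQ).1
      have hhB : ∀ b ∈ B, Commute h b := by
        rw [← le_cent]
        refine iSup₂_le fun R hR => le_cent.2 (ih R ?_ hR.1)
        have := card_lt hR.2
        omega
      refine thompson hord (hQp.to_le hBQ) hhB (Nat.card Q) Q le_rfl hQp (mem_st.1 hst Q hQ)
        (hBQ.trans Subgroup.le_normalizer) ?_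
      intro x hx hxB
      refine hc x (le_top hQ hx) (mem_st.2 fun R hR => ?_)
      rcases σ.2.2.total hR hQ with h1 | h1
      · by_cases h2 : R = Q
        · rw [h2]
          exact Subgroup.le_normalizer hx
        · have h3 : R ≤ B := hRB R hR (lt_of_le_of_ne h1 h2)
          rw [Subgroup.mem_normalizer_iff]
          intro y
          constructor
          · intro hy
            have h4 : x * y * x⁻¹ = y := by
              rw [← (hxB y (h3 hy)).eq, mul_assoc, mul_inv_cancel, mul_one]
            rwa [h4]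
          · intro hy
            have h4 := (hxB _ (h3 hy)).eq
            have h5 : x * y * x⁻¹ = y := by
              have h6 : x * (x * y * x⁻¹) = x * y := by
                rw [← h4]
                group
              exact mul_left_cancel h6
            rwa [h5] at hy
      · exact Subgroup.le_normalizer (h1 hx)
  rw [← le_cent]
  exact iSup₂_le fun Q hQ => le_cent.2 (key (Nat.card Q) Q le_rfl hQ)

end Crest.Agent.R170.AB312
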