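import Crest.Agent.R170.Cen_482

/-!
Row 170, leaf WW3 (helper538), part 4: the number of classes of simple modules with `e = 1` on which
the central element `j` (with `j * rad = 0`) does not vanish is the number of characters `ω` of the
centre with `ω e = 1`, `ω j = 1`.
-/

set_option autoImplicit false
open scoped BigOperators

namespace Crest.Agent.R170.SCC538

open Crest.AlgebraR.Weights Crest.Agent.R170.J482

variable {k A : Type*} [Field k] [Ring A] [Algebra k A] (D : SplitData k A)

theorem one_sub_mem_iso {e : A} (he : ∀ x, e * x = x * e) (m m' : Submodule A A)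
    (h : Nonempty ((A ⧸ m) ≃ₗ[A] (A ⧸ m'))) (hm : 1 - e ∈ m) : 1 - e ∈ m' := by
  obtain ⟨f⟩ := h
  have h1 : ∀ s : A ⧸ m, (1 - e) • s = 0 := by
    intro s
    obtain ⟨a, rfl⟩ := Submodule.Quotient.mk_surjective _ s
    rw [← Submodule.Quotient.mk_smul, Submodule.Quotient.mk_eq_zero, smul_eq_mul, sub_mul, one_mul,
      he, ← mul_one_sub]
    exact m.smul_mem a hm
  have h2 : (1 - e) • (Submodule.Quotient.mk 1 : A ⧸ m') = 0 := by
    obtain ⟨s, hs⟩ := f.surjective (Submodule.Quotient.mk 1 : A ⧸ m')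
    rw [← hs, ← map_smul, h1, map_zero]
  rw [← Submodule.Quotient.mk_smul, Submodule.Quotient.mk_eq_zero, smul_eq_mul, mul_one] at h2
  exact h2

/-- the central character as an algebra homomorphism -/
noncomputable def omZ (i : Fin D.n) : Subalgebra.center k A →ₐ[k] k :=
  AlgHom.ofLinearMap ((D.om i) ∘ₗ (Subalgebra.center k A).val.toLinearMap)
    (D.om_one i)
    (fun x y => D.om_mul_central (fun a => (Subalgebra.mem_center_iff.1 x.2 a).symm) y.1 i)

theorem omZ_apply (i : Fin D.n) (z : Subalgebra.center k A) : omZ D i z = D.om i z.1 := rfl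

theorem card_chars {j : A} (hj : ∀ x, j * x = x * j) (hjr : ∀ x, D.π x = 0 → j * x = 0)
    (hpr : ∀ i, Module.Projective A (A ⧸ D.L i) ↔ D.om i j = 1)
    (e : A) (he : ∀ x, e * x = x * e) :
    simpleClassCount A (fun m => Module.Projective A (A ⧸ m) ∧ 1 - e ∈ m) =
      Nat.card {w : Subalgebra.center k A →ₐ[k] k //
        w ⟨e, Subalgebra.mem_center_iff.2 fun x => (he x).symm⟩ = 1 ∧
        w ⟨j, Subalgebra.mem_center_iff.2 fun x => (hj x).symm⟩ = 1} := by
  rw [D.simpleClassCount_eq _ (by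
    rintro m m' ⟨f⟩ ⟨h1, h2⟩
    exact ⟨Module.Projective.of_equiv f, one_sub_mem_iso he m m' ⟨f⟩ h2⟩)]
  have hcu : ∀ i, j * D.u i ∈ Subalgebra.center k A := fun i =>
    Subalgebra.mem_center_iff.2 fun x => (D.ju_central hj hjr i x).symm
  refine Nat.card_congr (Equiv.ofBijective (fun i => ⟨omZ D i.1, ?_, ?_⟩) ⟨?_, ?_⟩)
  · exact (D.one_sub_mem_L he i.1).1 i.2.2
  · exact (hpr i.1).1 i.2.1
  · intro a b hab
    have h1 : omZ D a.1 = omZ D b.1 := congrArg Subtype.val hab
    apply Subtype.ext
    by_contra hne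
    have h2 := congrArg (fun w => w ⟨_, hcu a.1⟩) h1
    change D.om a.1 (j * D.u a.1) = D.om b.1 (j * D.u a.1) at h2
    rw [D.om_mul_central hj, D.om_mul_central hj, D.om_apply a.1 (D.u a.1),
      D.om_apply b.1 (D.u a.1), D.π_u, Pi.single_eq_same, Pi.single_eq_of_ne (Ne.symm hne),
      Matrix.one_apply_eq, (hpr a.1).1 a.2.1] at h2
    simp at h2
  · rintro ⟨w, hwe, hwj⟩
    -- `j = ∑ j u_i`
    have h1 : (⟨j, Subalgebra.mem_center_iff.2 fun x => (hj x).symm⟩ : Subalgebra.center k A) =
        ∑ i, ⟨j * D.u i, hcu i⟩ := by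
      apply Subtype.ext
      rw [AddSubmonoidClass.coe_finsetSum]
      have h2 := D.j_mul_central hj hjr (y := (1 : A)) (fun x => by rw [one_mul, mul_one])
      rw [mul_one] at h2
      simp only [D.om_one, one_smul] at h2
      exact h2
    have h2 : ∃ i, w ⟨j * D.u i, hcu i⟩ ≠ 0 := by
      by_contra hcon
      push Not at hcon
      rw [h1, map_sum] at hwj
      rw [Finset.sum_eq_zero fun i _ => hcon i] at hwj
      exact one_ne_zero hwj.symm
    obtain ⟨i, hi⟩ := h2
    have h3 : w = omZ D i := by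
      apply AlgHom.ext
      intro y
      have hy : ∀ x, (y : A) * x = x * y := fun x => (Subalgebra.mem_center_iff.1 y.2 x).symm
      have h4 : y * ⟨j * D.u i, hcu i⟩ = (D.om i y.1) • (⟨j * D.u i, hcu i⟩ : Subalgebra.center k A) := by
        apply Subtype.ext
        change y.1 * (j * D.u i) = D.om i y.1 • (j * D.u i)
        rw [← mul_assoc, hy j, mul_assoc, ← mul_smul_comm]
        apply D.j_congr hjr
        rw [map_mul, map_smul, D.π_u]
        funext l
        by_cases hl : l = i
        · subst hl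
          rw [Pi.mul_apply, Pi.smul_apply, Pi.single_eq_same, D.π_central hy l,
            Algebra.algebraMap_eq_smul_one, mul_one]
        · rw [Pi.mul_apply, Pi.smul_apply, Pi.single_eq_of_ne hl, mul_zero, smul_zero]
      have h5 := congrArg w h4
      rw [map_mul, map_smul, smul_eq_mul] at h5
      exact mul_right_cancel₀ hi h5
    refine ⟨⟨i, (hpr i).2 ?_, (D.one_sub_mem_L he i).2 ?_⟩, Subtype.ext h3.symm⟩
    · rw [h3] at hwj
      exact hwj
    · rw [h3] at hwe
      exact hwe

/-- every character of the centre takes the value `0` or `1` on `j` -/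
theorem char_j {j : A} (hj : ∀ x, j * x = x * j) (hjr : ∀ x, D.π x = 0 → j * x = 0)
    (hpr : ∀ i, Module.Projective A (A ⧸ D.L i) ↔ D.om i j = 1)
    (w : Subalgebra.center k A →ₐ[k] k) :
    w ⟨j, Subalgebra.mem_center_iff.2 fun x => (hj x).symm⟩ = 0 ∨
      w ⟨j, Subalgebra.mem_center_iff.2 fun x => (hj x).symm⟩ = 1 := by
  have hcu : ∀ i, j * D.u i ∈ Subalgebra.center k A := fun i =>
    Subalgebra.mem_center_iff.2 fun x => (D.ju_central hj hjr i x).symm
  set jj : Subalgebra.center k A := ⟨j, Subalgebra.mem_center_iff.2 fun x => (hj x).symm⟩ with hjj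
  by_cases h0 : w jj = 0
  · exact Or.inl h0
  right
  have h1 : jj = ∑ i, ⟨j * D.u i, hcu i⟩ := by
    apply Subtype.ext
    rw [AddSubmonoidClass.coe_finsetSum]
    have h2 := D.j_mul_central hj hjr (y := (1 : A)) (fun x => by rw [one_mul, mul_one])
    rw [mul_one] at h2
    simp only [D.om_one, one_smul] at h2
    exact h2
  have h2 : ∃ i, w ⟨j * D.u i, hcu i⟩ ≠ 0 := by
    by_contra hcon
    push Not at hcon
    rw [h1, map_sum] at h0
    exact h0 (Finset.sum_eq_zero fun i _ => hcon i)
  obtain ⟨i, hi⟩ := h2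
  have h4 : jj * ⟨j * D.u i, hcu i⟩ = (D.om i j) • (⟨j * D.u i, hcu i⟩ : Subalgebra.center k A) := by
    apply Subtype.ext
    change j * (j * D.u i) = D.om i j • (j * D.u i)
    rw [← mul_smul_comm]
    apply D.j_congr hjr
    rw [map_mul, map_smul, D.π_u]
    funext l
    by_cases hl : l = i
    · subst hl
      rw [Pi.mul_apply, Pi.smul_apply, Pi.single_eq_same, D.π_central hj l,
        Algebra.algebraMap_eq_smul_one, mul_one]
    · rw [Pi.mul_apply, Pi.smul_apply, Pi.single_eq_of_ne hl, mul_zero, smul_zero]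
  have h5 := congrArg w h4
  rw [map_mul, map_smul, smul_eq_mul] at h5
  have h6 := mul_right_cancel₀ hi h5
  rw [h6] at h0 ⊢
  exact (hpr i).1 (D.projective_of_om_ne_zero hj hjr i h0)

end Crest.Agent.R170.SCC538
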