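import Crest.Agent.R170.Tens_538
import Crest.Agent.R170.Chars_538
import Crest.Agent.R170.F0iso_538
import Crest.Agent.R170.J1_482

/-!
Row 170, leaf WW3 (helper538), part 5: `f0` of a finite product of groups is the product.
-/

set_option autoImplicit false
set_option linter.unusedSectionVars false

namespace Crest.Agent.R170.SCC538

open MonoidAlgebra Crest.AlgebraR.Weights Crest.AlgebraR.Blocks Crest.Agent.R170

section one
variable {k G : Type} [Field k] [IsAlgClosed k] [Group G] [Finite G]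

open Classical in
/-- the sum of the `p`-elements, as an element of the centre -/
noncomputable def jZ (p : ℕ) (k G : Type) [Field k] [Group G] [Finite G] : ZZ k G :=
  ⟨.ofCoeff (Finsupp.equivFunOnFinite.symm fun g => if IsPElt p g then 1 else 0), by
    rw [mem_center_iff]
    intro g h
    have : IsPElt p (h * g * h⁻¹) ↔ IsPElt p g := by
      unfold IsPElt
      simp only [conj_pow, conj_eq_one_iff]
    change (if IsPElt p (h * g * h⁻¹) then (1 : k) else 0) = if IsPElt p g then (1 : k) else 0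
    simp only [this]⟩

open Classical in
theorem jZ_coeff (p : ℕ) (g : G) : (jZ p k G).1.coeff g = if IsPElt p g then 1 else 0 := rfl

theorem jZ_eq (p : ℕ) [hp : Fact p.Prime] [Fintype G] : (jZ p k G).1 = J482.J k G p := by
  apply MonoidAlgebra.coeff_injective
  ext g
  rw [J482.J_coeff, jZ_coeff]
  have h1 : J482.IsPE p g ↔ IsPElt p g := J482.isPE_iff_exists hp.out g
  by_cases h : IsPElt p g
  · rw [if_pos h, if_pos (h1.2 h)]
  · rw [if_neg h, if_neg (fun h2 => h (h1.1 h2))]

theorem ci_mem_center {e : MonoidAlgebra k G} (he : CI e) :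
    e ∈ Subalgebra.center k (MonoidAlgebra k G) :=
  Subalgebra.mem_center_iff.2 fun x => (he.1 x).symm

/-- `f0 e` is the number of characters `w` of the centre with `w e = 1`, `w J = 1` -/
theorem f0_eq_card_chars (p : ℕ) [hp : Fact p.Prime] [CharP k p] (e : ZZ k G) :
    f0 e.1 = Nat.card {w : ZZ k G →ₐ[k] k // w e = 1 ∧ w (jZ p k G) = 1} := by
  haveI := Fintype.ofFinite G
  obtain ⟨D⟩ := J482.exists_splitData k (MonoidAlgebra k G)
  have h := card_chars D (J482.J_central (k := k) (G := G) p)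
    (fun x hx => J482.J_mul_rad p x ((D.ker_rad x).1 hx))
    (fun i => ⟨fun hP => J482.om_J_eq_one D p i hP, fun h1 => by
      rcases J482.om_J_cases D p i with ⟨h2, _⟩ | ⟨_, h2⟩
      · exact h2
      · rw [h1] at h2; exact absurd h2 one_ne_zero⟩)
    e.1 (fun x => (Subalgebra.mem_center_iff.1 e.2 x).symm)
  unfold f0
  rw [h]
  have e1 : (⟨J482.J k G p, Subalgebra.mem_center_iff.2 fun x =>
      ((J482.J_central (k := k) (G := G) p) x).symm⟩ : ZZ k G) = jZ p k G :=
    Subtype.ext (jZ_eq p).symm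
  rw [e1]

theorem char_jZ (p : ℕ) [hp : Fact p.Prime] [CharP k p] (w : ZZ k G →ₐ[k] k) :
    w (jZ p k G) = 0 ∨ w (jZ p k G) = 1 := by
  haveI := Fintype.ofFinite G
  obtain ⟨D⟩ := J482.exists_splitData k (MonoidAlgebra k G)
  have h := char_j D (J482.J_central (k := k) (G := G) p)
    (fun x hx => J482.J_mul_rad p x ((D.ker_rad x).1 hx))
    (fun i => ⟨fun hP => J482.om_J_eq_one D p i hP, fun h1 => by
      rcases J482.om_J_cases D p i with ⟨h2, _⟩ | ⟨_, h2⟩
      · exact h2
      · rw [h1] at h2; exact absurd h2 one_ne_zero⟩) w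
  have e1 : (⟨J482.J k G p, Subalgebra.mem_center_iff.2 fun x =>
      ((J482.J_central (k := k) (G := G) p) x).symm⟩ : ZZ k G) = jZ p k G :=
    Subtype.ext (jZ_eq p).symm
  rw [e1] at h
  exact h

theorem char_idem (w : ZZ k G →ₐ[k] k) (e : ZZ k G) (he : e * e = e) : w e = 0 ∨ w e = 1 := by
  have h := congrArg w he
  rw [map_mul] at h
  rcases eq_or_ne (w e) 0 with h0 | h0
  · exact Or.inl h0
  · exact Or.inr (mul_left_cancel₀ h0 (by rw [h, mul_one]))

theorem finite_chars : Finite (ZZ k G →ₐ[k] k) := by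
  haveI : Module.Finite k (MonoidAlgebra k G) := inferInstance
  haveI : FiniteDimensional k (ZZ k G) :=
    FiniteDimensional.of_subalgebra_toSubmodule (Module.Finite.of_injective
      (Subalgebra.toSubmodule (Subalgebra.center k (MonoidAlgebra k G))).subtype
        Subtype.val_injective)
  infer_instance

end one

section pi
variable {k : Type} [Field k] [IsAlgClosed k] {ι : Type} [Fintype ι] {M : ι → Type}
  [∀ i, Group (M i)] [∀ i, Finite (M i)]

theorem prod_eq_one_iff {ι : Type} [Fintype ι] {k : Type} [Field k] (f : ι → k)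
    (hf : ∀ i, f i = 0 ∨ f i = 1) : ∏ i, f i = 1 ↔ ∀ i, f i = 1 := by
  constructor
  · intro h i
    rcases hf i with h0 | h1
    · rw [Finset.prod_eq_zero (Finset.mem_univ i) h0] at h
      exact absurd h.symm one_ne_zero
    · exact h1
  · intro h
    exact Finset.prod_eq_one fun i _ => h i

omit [∀ i, Finite (M i)] in
theorem isPElt_pi {p : ℕ} (g : ∀ i, M i) : IsPElt p g ↔ ∀ i, IsPElt p (g i) := by
  constructor
  · rintro ⟨n, hn⟩ i
    exact ⟨n, by have := congrFun hn i; simpa using this⟩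
  · intro h
    choose n hn using h
    refine ⟨∑ i, n i, ?_⟩
    funext i
    rw [Pi.pow_apply, Pi.one_apply]
    have h1 : n i ≤ ∑ i, n i := Finset.single_le_sum (fun _ _ => Nat.zero_le _) (Finset.mem_univ i)
    obtain ⟨m, hm⟩ := Nat.exists_eq_add_of_le h1
    rw [hm, pow_add, pow_mul, hn, one_pow]

theorem jZ_pi (p : ℕ) : jZ p k (∀ i, M i) = tensZ fun i => jZ p k (M i) := by
  classical
  apply Subtype.ext
  apply MonoidAlgebra.coeff_injective
  ext g
  rw [jZ_coeff, tensZ_coeff]
  simp only [jZ_coeff, isPElt_pi]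
  by_cases h : ∀ i, IsPElt p (g i)
  · rw [if_pos h]
    exact (Finset.prod_eq_one fun i _ => if_pos (h i)).symm
  · rw [if_neg h]
    push Not at h
    obtain ⟨i, hi⟩ := h
    exact (Finset.prod_eq_zero (Finset.mem_univ i) (if_neg hi)).symm

/-- **`f0` of a product.** -/
theorem f0_pi (p : ℕ) [hp : Fact p.Prime] [CharP k p] (e : ∀ i, MonoidAlgebra k (M i))
    (he : ∀ i, CI (e i)) (E : MonoidAlgebra k (∀ i, M i))
    (hE : ∀ g, E.coeff g = ∏ i, (e i).coeff (g i)) : f0 E = ∏ i, f0 (e i) := by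
  classical
  let eZ' : ∀ i, ZZ k (M i) := fun i => ⟨e i, ci_mem_center (he i)⟩
  have hEE : E = (tensZ eZ').1 := by
    apply MonoidAlgebra.coeff_injective
    ext g
    rw [hE, tensZ_coeff]
  have h1 : ∀ i, f0 (e i) =
      Nat.card {w : ZZ k (M i) →ₐ[k] k // w (eZ' i) = 1 ∧ w (jZ p k (M i)) = 1} := fun i =>
    f0_eq_card_chars p (eZ' i)
  rw [hEE, f0_eq_card_chars p]
  simp only [h1]
  rw [← Nat.card_pi]
  refine Nat.card_congr ?_
  refine (Equiv.subtypeEquiv charEquiv (q := fun w : (∀ i, ZZ k (M i) →ₐ[k] k) =>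
    ∀ i, w i (eZ' i) = 1 ∧ w i (jZ p k (M i)) = 1) ?_).trans
    (Equiv.subtypePiEquivPi (p := fun i (w : ZZ k (M i) →ₐ[k] k) =>
      w (eZ' i) = 1 ∧ w (jZ p k (M i)) = 1))
  intro w
  rw [jZ_pi, charEquiv_tensZ, charEquiv_tensZ, prod_eq_one_iff, prod_eq_one_iff, forall_and]
  · intro i
    exact char_jZ p _
  · intro i
    exact char_idem _ _ (Subtype.ext (he i).2)

end pi

end Crest.Agent.R170.SCC538
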