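import Mathlib
import Crest.Agent.R170.Stm_995

/-! Leaf J2 of row 170: a simple module is not projective when the group has a nontrivial normal
`p`-subgroup. -/

set_option autoImplicit false

namespace Crest.Agent.R170.J356

open MonoidAlgebra

section fixedvec

variable {p : ℕ} [Fact p.Prime] {k : Type*} [Field k] [CharP k p] {G : Type*} [Group G]

omit [CharP k p] in
/-- auxiliary form with the `ZMod p`-structure as a variable -/
theorem exists_fixed_aux {N : Subgroup G} [Finite N] (hN : IsPGroup p N)
    {S : Type*} [AddCommGroup S] [Module (ZMod p) S] [Module (MonoidAlgebra k G) S]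
    (s0 : S) (h0 : s0 ≠ 0) :
    ∃ s : S, s ≠ 0 ∧ ∀ n ∈ N, (MonoidAlgebra.of k G n) • s = s := by
  classical
  have hO : (Set.range (fun n : N => (MonoidAlgebra.of k G (n : G)) • s0)).Finite :=
    Set.finite_range _
  obtain ⟨H, hH⟩ : ∃ H : Submodule (ZMod p) S,
      H = Submodule.span (ZMod p) (Set.range (fun n : N => (MonoidAlgebra.of k G (n : G)) • s0)) :=
    ⟨_, rfl⟩
  have hfin : Module.Finite (ZMod p) H := by
    rw [hH]; exact Module.Finite.span_of_finite (ZMod p) hO
  have hfinH : Finite H := Module.finite_of_finite (ZMod p)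
  have hstab : ∀ (n : N) (x : S), x ∈ H → (MonoidAlgebra.of k G (n : G)) • x ∈ H := by
    intro n x hx
    rw [hH] at hx
    induction hx using Submodule.span_induction with
    | mem y hy =>
      obtain ⟨m, rfl⟩ := hy
      rw [hH]
      apply Submodule.subset_span
      refine ⟨n * m, ?_⟩
      simp only [Subgroup.coe_mul, map_mul, mul_smul]
    | zero => simp
    | add y z _ _ hy hz => rw [smul_add]; exact H.add_mem hy hz
    | smul c y _ hy =>
      have : (MonoidAlgebra.of k G (n : G)) • (c • y) = c • ((MonoidAlgebra.of k G (n : G)) • y) := by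
        obtain ⟨c', rfl⟩ : ∃ c' : ℕ, (c' : ZMod p) = c := ⟨c.val, ZMod.natCast_zmod_val c⟩
        rw [Nat.cast_smul_eq_nsmul, Nat.cast_smul_eq_nsmul, smul_comm]
      rw [this]
      exact H.smul_mem c hy
  let _ : MulAction N H :=
    { smul := fun n x => ⟨(MonoidAlgebra.of k G (n : G)) • (x : S), hstab n x x.2⟩
      one_smul := by
        intro x
        apply Subtype.ext
        show (MonoidAlgebra.of k G ((1 : N) : G)) • (x : S) = x
        rw [Subgroup.coe_one, map_one, one_smul]
      mul_smul := by
        intro a b x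
        apply Subtype.ext
        show (MonoidAlgebra.of k G ((a * b : N) : G)) • (x : S)
          = (MonoidAlgebra.of k G (a : G)) • ((MonoidAlgebra.of k G (b : G)) • (x : S))
        rw [Subgroup.coe_mul, map_mul, mul_smul] }
  have hsmul : ∀ (n : N) (x : H), ((n • x : H) : S) = (MonoidAlgebra.of k G (n : G)) • (x : S) :=
    fun _ _ => rfl
  have h0H : s0 ∈ H := by
    rw [hH]
    apply Submodule.subset_span
    exact ⟨1, by simp only [Subgroup.coe_one, map_one, one_smul]⟩
  have hnt : Nontrivial H := ⟨⟨⟨s0, h0H⟩, 0, fun h => h0 (by simpa using congrArg Subtype.val h)⟩⟩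
  have hcard : p ∣ Nat.card H := by
    have h1 := Module.natCard_eq_pow_finrank (K := ZMod p) (V := H)
    have h2 : 0 < Module.finrank (ZMod p) H := Module.finrank_pos
    rw [h1, Nat.card_zmod]
    exact dvd_pow_self p h2.ne'
  have hfix0 : (0 : H) ∈ MulAction.fixedPoints N H := by
    intro n
    apply Subtype.ext
    rw [hsmul]
    simp
  obtain ⟨b, hb, hne⟩ := hN.exists_fixed_point_of_prime_dvd_card_of_fixed_point H hcard hfix0
  refine ⟨b, ?_, ?_⟩
  · intro h
    apply hne
    apply Subtype.ext
    rw [h]; rfl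
  · intro n hn
    have := hb ⟨n, hn⟩
    have h2 := congrArg (Subtype.val) this
    rw [hsmul] at h2
    exact h2

/-- A `p`-group acting linearly on a nonzero module in characteristic `p` fixes a nonzero vector. -/
theorem exists_fixed {N : Subgroup G} [Finite N] (hN : IsPGroup p N)
    {S : Type*} [AddCommGroup S] [Module (MonoidAlgebra k G) S] (s0 : S) (h0 : s0 ≠ 0) :
    ∃ s : S, s ≠ 0 ∧ ∀ n ∈ N, (MonoidAlgebra.of k G n) • s = s := by
  have hp : ∀ x : S, p • x = 0 := by
    intro x
    have h1 : (p : MonoidAlgebra k G) = 0 := by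
      rw [← map_natCast (algebraMap k (MonoidAlgebra k G)) p, CharP.cast_eq_zero, map_zero]
    have h2 : p • x = (p : MonoidAlgebra k G) • x := (Nat.cast_smul_eq_nsmul _ _ _).symm
    rw [h2, h1, zero_smul]
  exact @exists_fixed_aux p _ k _ G _ N _ hN S _ (AddCommGroup.zmodModule hp) _ s0 h0

/-- A normal `p`-subgroup acts trivially on a simple module in characteristic `p`. -/
theorem trivial_on_simple {N : Subgroup G} [N.Normal] [Finite N] (hN : IsPGroup p N)
    {S : Type*} [AddCommGroup S] [Module (MonoidAlgebra k G) S]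
    [hS : IsSimpleModule (MonoidAlgebra k G) S] (n : G) (hn : n ∈ N) (s : S) :
    (MonoidAlgebra.of k G n) • s = s := by
  classical
  let F : Submodule (MonoidAlgebra k G) S :=
    { carrier := {s | ∀ n ∈ N, (MonoidAlgebra.of k G n) • s = s}
      add_mem' := by
        intro a b ha hb n hn
        rw [smul_add, ha n hn, hb n hn]
      zero_mem' := by intro n _; simp
      smul_mem' := by
        intro c x hx n hn
        induction c using MonoidAlgebra.induction_on with
        | of g =>
          have h1 : (MonoidAlgebra.of k G n) * (MonoidAlgebra.of k G g)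
              = (MonoidAlgebra.of k G g) * (MonoidAlgebra.of k G (g⁻¹ * n * g)) := by
            rw [← map_mul, ← map_mul]; congr 1; group
          rw [← mul_smul, h1, mul_smul, hx _ (by
            have := Subgroup.Normal.conj_mem (inferInstance : N.Normal) n hn g⁻¹
            simpa using this)]
        | add a b ha hb => rw [add_smul, smul_add, ha, hb]
        | smul c a ha =>
          have h1 : (c • a) • x = (algebraMap k (MonoidAlgebra k G) c) • (a • x) := by
            rw [← mul_smul, Algebra.smul_def]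
          rw [h1, ← mul_smul, ← Algebra.commutes, mul_smul, ha] }
  have hFtop : F = ⊤ := by
    rcases eq_bot_or_eq_top F with h | h
    · exfalso
      have hnt : Nontrivial S := IsSimpleModule.nontrivial (MonoidAlgebra k G) S
      obtain ⟨s0, hs0⟩ := exists_ne (0 : S)
      obtain ⟨s1, hs1, hs1'⟩ := exists_fixed (k := k) hN s0 hs0
      have : s1 ∈ F := hs1'
      rw [h, Submodule.mem_bot] at this
      exact hs1 this
    · exact h
  have : s ∈ F := by rw [hFtop]; trivial
  exact this n hn

end fixedvec

section idem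

variable {p : ℕ} [Fact p.Prime] {k : Type*} [Field k] [CharP k p] {G : Type*} [Group G] [Finite G]

/-- A sum over `G` of a function invariant under right translation by a nontrivial `p`-subgroup
vanishes in characteristic `p`. -/
theorem sum_eq_zero_of_inv [Fintype G] {N : Subgroup G} (hN : IsPGroup p N) (hne : N ≠ ⊥)
    (f : G → k) (hf : ∀ g, ∀ n ∈ N, f (g * n) = f g) : ∑ g, f g = 0 := by
  classical
  have hcard : (Nat.card N : k) = 0 := by
    obtain ⟨r, hr⟩ := (IsPGroup.iff_card (p := p) (G := N)).1 hN
    rw [hr]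
    have hr0 : r ≠ 0 := by
      rintro rfl
      apply hne
      rw [pow_zero] at hr
      exact Subgroup.eq_bot_of_card_eq N hr
    push_cast
    rw [CharP.cast_eq_zero, zero_pow hr0]
  rw [← Finset.sum_fiberwise (s := Finset.univ) (g := fun g : G => (QuotientGroup.mk g : G ⧸ N))]
  apply Finset.sum_eq_zero
  intro q _
  obtain ⟨b, rfl⟩ := QuotientGroup.mk_surjective q
  have h1 : ∀ a ∈ Finset.univ.filter (fun g : G => (QuotientGroup.mk g : G ⧸ N) = QuotientGroup.mk b),
      f a = f b := by
    intro a ha
    rw [Finset.mem_filter] at ha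
    have h2 : b⁻¹ * a ∈ N := QuotientGroup.eq.1 ha.2.symm
    have h3 := hf b _ h2
    rw [← h3]; congr 1; group
  rw [Finset.sum_congr rfl h1, Finset.sum_const]
  have h4 : (Finset.univ.filter (fun g : G => (QuotientGroup.mk g : G ⧸ N) = QuotientGroup.mk b)).card
      = Nat.card N := by
    rw [Nat.card_eq_fintype_card, ← Fintype.card_subtype]
    refine Fintype.card_congr ?_
    refine ⟨fun a => ⟨b⁻¹ * a.1, QuotientGroup.eq.1 a.2.symm⟩,
      fun n => ⟨b * n, QuotientGroup.eq.2 ?_⟩, ?_, ?_⟩
    · have : (b * (n : G))⁻¹ * b = (n : G)⁻¹ := by group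
      rw [this]; exact N.inv_mem n.2
    · intro a; apply Subtype.ext; show b * (b⁻¹ * a.1) = a.1; group
    · intro n; apply Subtype.ext; show b⁻¹ * (b * (n : G)) = n; group
  rw [h4, nsmul_eq_mul, hcard, zero_mul]

theorem idem_eq_zero {N : Subgroup G} [N.Normal] (hN : IsPGroup p N) (hne : N ≠ ⊥)
    (i : MonoidAlgebra k G) (hi : i * i = i)
    (hinv : ∀ n ∈ N, (MonoidAlgebra.of k G n) * i = i) : i = 0 := by
  classical
  let _ : Fintype G := Fintype.ofFinite G
  have hL : ∀ n ∈ N, ∀ g, i.coeff (n * g) = i.coeff g := by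
    intro n hn g
    have h1 := hinv n⁻¹ (N.inv_mem hn)
    have h2 : ((MonoidAlgebra.of k G n⁻¹) * i).coeff g = i.coeff (n * g) := by
      rw [MonoidAlgebra.of_apply, MonoidAlgebra.coeff_single_mul_apply, one_mul, inv_inv]
    rw [← h2, h1]
  have hR : ∀ n ∈ N, ∀ g, i.coeff (g * n) = i.coeff g := by
    intro n hn g
    have h1 := hL (g * n * g⁻¹) (Subgroup.Normal.conj_mem inferInstance n hn g) g
    rw [← h1]; congr 1; group
  rw [← hi]
  apply MonoidAlgebra.ext
  ext g
  have h1 : (i * i).coeff g = ∑ a : G, i.coeff a * i.coeff (a⁻¹ * g) := by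
    rw [MonoidAlgebra.coeff_mul_apply_left, Finsupp.sum_fintype]
    intro a; exact zero_mul _
  rw [h1]
  have h2 := sum_eq_zero_of_inv (p := p) hN hne (fun a => i.coeff a * i.coeff (a⁻¹ * g)) (by
    intro a n hn
    have h3 : (a * n)⁻¹ * g = n⁻¹ * (a⁻¹ * g) := by group
    rw [hR n hn, h3, hL _ (N.inv_mem hn)])
  rw [h2]; simp

/-- **J2**: no simple `k[G]`-module is projective when `G` has a nontrivial normal `p`-subgroup. -/
theorem not_projective {N : Subgroup G} [N.Normal] (hN : IsPGroup p N) (hne : N ≠ ⊥)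
    (m : Submodule (MonoidAlgebra k G) (MonoidAlgebra k G)) (hm : IsCoatom m) :
    ¬ Module.Projective (MonoidAlgebra k G) (MonoidAlgebra k G ⧸ m) := by
  intro hP
  have hS : IsSimpleModule (MonoidAlgebra k G) (MonoidAlgebra k G ⧸ m) :=
    (isSimpleModule_iff_isCoatom).2 hm
  obtain ⟨s, hs⟩ := Module.projective_lifting_property m.mkQ LinearMap.id (Submodule.mkQ_surjective m)
  have hs' : ∀ x, m.mkQ (s x) = x := fun x => LinearMap.congr_fun hs x
  let i : MonoidAlgebra k G := s (m.mkQ 1)
  have hmi : m.mkQ i = m.mkQ 1 := hs' _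
  have hsi : ∀ a, s (m.mkQ a) = a * i := by
    intro a
    have : m.mkQ a = a • m.mkQ 1 := by rw [← map_smul]; simp
    rw [this, map_smul, smul_eq_mul]
  have hi : i * i = i := by rw [← hsi, hmi]
  have hinv : ∀ n ∈ N, (MonoidAlgebra.of k G n) * i = i := by
    intro n hn
    have h1 := trivial_on_simple (p := p) (k := k) (N := N) hN n hn (m.mkQ (1 : MonoidAlgebra k G))
    have h2 := congrArg s h1
    rw [map_smul, smul_eq_mul] at h2
    exact h2
  have h0 := idem_eq_zero hN hne i hi hinv
  rw [h0, map_zero] at hmi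
  apply hm.1
  rw [Ideal.eq_top_iff_one]
  have h5 : m.mkQ (1 : MonoidAlgebra k G) = 0 := hmi.symm
  rwa [Submodule.mkQ_apply, Submodule.Quotient.mk_eq_zero] at h5

end idem

/-- **J2**, literal form. -/
theorem sj2 (p : ℕ) [Fact p.Prime] (k : Type) [Field k] [IsAlgClosed k] [CharP k p] :
    Crest.Agent.R170.SJ2 p k := by
  intro G _ _ e _ hN
  obtain ⟨N, hn, hp, hne⟩ := hN
  show Crest.AlgebraR.Weights.simpleClassCount _ _ = 0
  unfold Crest.AlgebraR.Weights.simpleClassCount
  rw [Nat.card_eq_zero]
  left
  refine ⟨fun q => ?_⟩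
  induction q using Quotient.inductionOn with
  | h m => exact not_projective (p := p) hp hne m.1 m.2.1 m.2.2.1

end Crest.Agent.R170.J356
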