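import Mathlib

/-!
# Row 170: chains of nontrivial `p`-subgroups and the toggle

Chains are `C : Finset (Subgroup G)`, pairwise comparable, members nontrivial `p`-subgroups.
`stb C` = common normaliser, `top C` = union.  For a nontrivial `p`-subgroup `U` normalising all
members, `low U C` = largest member not containing `U` (or `⊥`), `tgl U C = C ∆ {low U C ⊔ U}`.
`tgl U` is a fixed point free involution which preserves `stb C ⊓ normalizer U`,
`stb C ⊓ centralizer U` and `top C ⊔ U`.
-/

set_option autoImplicit false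

namespace Crest.Agent.R170.Tog588

open Finset

variable {G : Type*} [Group G]

/-- chain of nontrivial `p`-subgroups -/
structure IsPC (p : ℕ) (C : Finset (Subgroup G)) : Prop where
  ne : ∀ P ∈ C, P ≠ ⊥
  pg : ∀ P ∈ C, IsPGroup p P
  ch : ∀ P ∈ C, ∀ Q ∈ C, P ≤ Q ∨ Q ≤ P

/-- common normaliser of the members -/
def stb (C : Finset (Subgroup G)) : Subgroup G := ⨅ P ∈ C, Subgroup.normalizer (P : Set G)

/-- the largest member (`⊥` for the empty chain) -/
def top (C : Finset (Subgroup G)) : Subgroup G := C.sup id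

open Classical in
/-- largest member not containing `U` -/
noncomputable def low (U : Subgroup G) (C : Finset (Subgroup G)) : Subgroup G :=
  (C.filter fun P => ¬ U ≤ P).sup id

open Classical in
/-- the toggle -/
noncomputable def tgl (U : Subgroup G) (C : Finset (Subgroup G)) : Finset (Subgroup G) :=
  symmDiff C {low U C ⊔ U}

variable {p : ℕ} {C : Finset (Subgroup G)} {U : Subgroup G}

theorem mem_stb {g : G} : g ∈ stb C ↔ ∀ P ∈ C, g ∈ Subgroup.normalizer (P : Set G) := by
  simp [stb, Subgroup.mem_iInf]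

theorem le_stb : U ≤ stb C ↔ ∀ P ∈ C, U ≤ Subgroup.normalizer (P : Set G) := by
  simp [stb]

theorem stb_empty : stb (∅ : Finset (Subgroup G)) = ⊤ := by simp [stb]

theorem top_empty : top (∅ : Finset (Subgroup G)) = ⊥ := by simp [top]

/-- the supremum of a nonempty finite chain is a member -/
theorem sup_mem_of_chain (S : Finset (Subgroup G)) (hS : ∀ P ∈ S, ∀ Q ∈ S, P ≤ Q ∨ Q ≤ P)
    (hne : S.Nonempty) : S.sup id ∈ S := by
  classical
  induction S using Finset.induction_on with
  | empty => exact absurd hne (by simp)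
  | insert a s ha ih =>
    rw [sup_insert]
    by_cases hs : s.Nonempty
    · have h1 := ih (fun P hP Q hQ => hS P (mem_insert_of_mem hP) Q (mem_insert_of_mem hQ)) hs
      rcases hS a (mem_insert_self a s) _ (mem_insert_of_mem h1) with h | h
      · rw [show id a ⊔ s.sup id = s.sup id from sup_eq_right.mpr h]
        exact mem_insert_of_mem h1
      · rw [show id a ⊔ s.sup id = a from sup_eq_left.mpr h]
        exact mem_insert_self a s
    · rw [not_nonempty_iff_eq_empty] at hs
      subst hs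
      simp

theorem IsPC.low_mem (hC : IsPC p C) (U : Subgroup G) :
    low U C = ⊥ ∨ (low U C ∈ C ∧ ¬ U ≤ low U C) := by
  classical
  by_cases h : (C.filter fun P => ¬ U ≤ P).Nonempty
  · right
    have h1 : low U C ∈ C.filter fun P => ¬ U ≤ P := by
      unfold low
      exact sup_mem_of_chain _ (fun P hP Q hQ => hC.ch P (mem_filter.mp hP).1 Q
        (mem_filter.mp hQ).1) h
    exact mem_filter.mp h1
  · left
    rw [not_nonempty_iff_eq_empty] at h
    unfold low
    rw [h, sup_empty]

theorem le_low {P : Subgroup G} (hP : P ∈ C) (h : ¬ U ≤ P) : P ≤ low U C := by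
  classical
  unfold low
  exact le_sup (f := id) (mem_filter.mpr ⟨hP, h⟩)

theorem IsPC.not_le_low (hC : IsPC p C) (hU : U ≠ ⊥) : ¬ U ≤ low U C := by
  rcases hC.low_mem U with h | h
  · rw [h]
    exact fun h' => hU (le_bot_iff.mp h')
  · exact h.2

theorem mem_tgl {P : Subgroup G} : P ∈ tgl U C ↔
    (P ∈ C ∧ P ≠ low U C ⊔ U) ∨ (P = low U C ⊔ U ∧ P ∉ C) := by
  classical
  unfold tgl
  rw [mem_symmDiff, mem_singleton]

theorem low_tgl : low U (tgl U C) = low U C := by
  classical
  have : (tgl U C).filter (fun P => ¬ U ≤ P) = C.filter fun P => ¬ U ≤ P := by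
    ext P
    rw [mem_filter, mem_filter, mem_tgl]
    constructor
    · rintro ⟨h | h, h2⟩
      · exact ⟨h.1, h2⟩
      · exact absurd (h.1 ▸ le_sup_right) h2
    · rintro ⟨h, h2⟩
      refine ⟨Or.inl ⟨h, ?_⟩, h2⟩
      rintro rfl
      exact h2 le_sup_right
  unfold low
  rw [this]

theorem tgl_tgl : tgl U (tgl U C) = C := by
  classical
  ext P
  rw [mem_tgl, low_tgl, mem_tgl]
  by_cases h : P = low U C ⊔ U <;> by_cases h2 : P ∈ C <;> simp [h, h2]

theorem tgl_ne : tgl U C ≠ C := by
  classical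
  intro h
  have h1 := (mem_tgl (U := U) (C := C) (P := low U C ⊔ U))
  rw [h] at h1
  by_cases h2 : low U C ⊔ U ∈ C
  · simp [h2] at h1
  · simp [h2] at h1

theorem card_tgl : (tgl U C).card = C.card + 1 ∨ C.card = (tgl U C).card + 1 := by
  classical
  by_cases h : low U C ⊔ U ∈ C
  · right
    have : tgl U C = C.erase (low U C ⊔ U) := by
      ext P
      rw [mem_tgl, mem_erase]
      constructor
      · rintro (h1 | h1)
        · exact ⟨h1.2, h1.1⟩
        · exact absurd (h1.1 ▸ h) h1.2
      · rintro ⟨h1, h2⟩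
        exact Or.inl ⟨h2, h1⟩
    rw [this, card_erase_of_mem h]
    have := card_pos.mpr ⟨_, h⟩
    omega
  · left
    have : tgl U C = insert (low U C ⊔ U) C := by
      ext P
      rw [mem_tgl, mem_insert]
      constructor
      · rintro (h1 | h1)
        · exact Or.inr h1.1
        · exact Or.inl h1.1
      · rintro (h1 | h1)
        · exact Or.inr ⟨h1, h1 ▸ h⟩
        · refine Or.inl ⟨h1, ?_⟩
          rintro rfl
          exact h h1
    rw [this, card_insert_of_notMem h]

theorem neg_one_pow_tgl {R : Type*} [Ring R] :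
    (-1 : R) ^ (tgl U C).card = -(-1) ^ C.card := by
  rcases card_tgl (U := U) (C := C) with h | h
  · rw [h, pow_succ]; simp
  · rw [h, pow_succ]; simp

/-- joins of normalised subgroups are normalised -/
theorem mem_normalizer_sup {P Q : Subgroup G} {g : G} (hP : g ∈ Subgroup.normalizer (P : Set G))
    (hQ : g ∈ Subgroup.normalizer (Q : Set G)) :
    g ∈ Subgroup.normalizer ((P ⊔ Q : Subgroup G) : Set G) := by
  rw [Subgroup.mem_normalizer_iff_map_conj_eq] at hP hQ ⊢
  rw [Subgroup.map_sup, hP, hQ]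

theorem mem_normalizer_bot (g : G) :
    g ∈ Subgroup.normalizer ((⊥ : Subgroup G) : Set G) := by
  rw [Subgroup.mem_normalizer_iff_map_conj_eq, Subgroup.map_bot]

theorem IsPC.mem_normalizer_low (hC : IsPC p C) {g : G} (hg : g ∈ stb C) :
    g ∈ Subgroup.normalizer ((low U C : Subgroup G) : Set G) := by
  rcases hC.low_mem U with h | h
  · rw [h]; exact mem_normalizer_bot g
  · exact mem_stb.mp hg _ h.1

/-- the toggled chain is a chain -/
theorem IsPC.tgl (hC : IsPC p C) (hU : IsPGroup p U) (hU1 : U ≠ ⊥) (hUC : U ≤ stb C) :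
    IsPC p (tgl U C) := by
  have hp : IsPGroup p (low U C ⊔ U : Subgroup G) := by
    rcases hC.low_mem U with h | h
    · rw [h, bot_sup_eq]; exact hU
    · rw [sup_comm]
      exact IsPGroup.to_sup_of_normal_right' hU (hC.pg _ h.1) (le_stb.mp hUC _ h.1)
  have hcmp : ∀ P ∈ C, P ≤ low U C ⊔ U ∨ low U C ⊔ U ≤ P := by
    intro P hP
    by_cases h : U ≤ P
    · right
      refine sup_le ?_ h
      rcases hC.low_mem U with h1 | h1
      · rw [h1]; exact bot_le
      · rcases hC.ch _ h1.1 _ hP with h2 | h2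
        · exact h2
        · exact absurd (h.trans h2) h1.2
    · left
      exact (le_low hP h).trans le_sup_left
  refine ⟨?_, ?_, ?_⟩
  · intro P hP
    rcases mem_tgl.mp hP with h | h
    · exact hC.ne P h.1
    · rw [h.1]
      intro h2
      exact hU1 (le_bot_iff.mp (le_sup_right.trans h2.le))
  · intro P hP
    rcases mem_tgl.mp hP with h | h
    · exact hC.pg P h.1
    · rw [h.1]; exact hp
  · intro P hP Q hQ
    rcases mem_tgl.mp hP with h | h <;> rcases mem_tgl.mp hQ with h' | h'
    · exact hC.ch P h.1 Q h'.1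
    · rw [h'.1]; exact hcmp P h.1
    · rw [h.1]; exact (hcmp Q h'.1).symm
    · rw [h.1, h'.1]; exact Or.inl le_rfl

theorem IsPC.stb_le (hC : IsPC p C) :
    stb C ⊓ Subgroup.normalizer (U : Set G) ≤ stb (Tog588.tgl U C) := by
  intro g hg
  rw [Subgroup.mem_inf] at hg
  rw [mem_stb]
  intro P hP
  rcases mem_tgl.mp hP with h | h
  · exact mem_stb.mp hg.1 P h.1
  · rw [h.1]
    exact mem_normalizer_sup (hC.mem_normalizer_low hg.1) hg.2

/-- `stb C ⊓ normalizer U` is preserved -/
theorem IsPC.stb_inf_normalizer (hC : IsPC p C) (hU : IsPGroup p U) (hU1 : U ≠ ⊥)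
    (hUC : U ≤ stb C) :
    stb (Tog588.tgl U C) ⊓ Subgroup.normalizer (U : Set G) =
      stb C ⊓ Subgroup.normalizer (U : Set G) := by
  refine le_antisymm (le_inf ?_ inf_le_right) (le_inf hC.stb_le inf_le_right)
  have h := (hC.tgl hU hU1 hUC).stb_le (U := U)
  rwa [tgl_tgl] at h

theorem IsPC.le_stb_tgl (hC : IsPC p C) (hUC : U ≤ stb C) : U ≤ stb (Tog588.tgl U C) :=
  (le_inf hUC Subgroup.le_normalizer).trans hC.stb_le

/-- `stb C ⊓ H` is preserved for every `H ≤ normalizer U` -/
theorem IsPC.stb_inf (hC : IsPC p C) (hU : IsPGroup p U) (hU1 : U ≠ ⊥)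
    (hUC : U ≤ stb C) {H : Subgroup G} (hH : H ≤ Subgroup.normalizer (U : Set G)) :
    stb (Tog588.tgl U C) ⊓ H = stb C ⊓ H := by
  have h := hC.stb_inf_normalizer hU hU1 hUC
  calc stb (Tog588.tgl U C) ⊓ H
      = stb (Tog588.tgl U C) ⊓ Subgroup.normalizer (U : Set G) ⊓ H := by
        rw [inf_assoc, inf_eq_right.mpr hH]
    _ = stb C ⊓ Subgroup.normalizer (U : Set G) ⊓ H := by rw [h]
    _ = stb C ⊓ H := by rw [inf_assoc, inf_eq_right.mpr hH]

theorem le_top {P : Subgroup G} (hP : P ∈ C) : P ≤ top C := le_sup (f := id) hP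

theorem top_tgl_le : top (Tog588.tgl U C) ≤ top C ⊔ U := by
  unfold top
  refine Finset.sup_le fun P hP => ?_
  rcases mem_tgl.mp hP with h | h
  · exact (le_sup (f := id) h.1).trans le_sup_left
  · show P ≤ _
    rw [h.1]
    refine sup_le (le_trans ?_ le_sup_left) le_sup_right
    classical
    unfold low
    exact sup_mono (filter_subset _ _)

/-- `top C ⊔ U` is preserved -/
theorem top_tgl_sup : top (Tog588.tgl U C) ⊔ U = top C ⊔ U := by
  refine le_antisymm (sup_le top_tgl_le le_sup_right) (sup_le ?_ le_sup_right)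
  have h := top_tgl_le (U := U) (C := Tog588.tgl U C)
  rwa [tgl_tgl] at h

/-- **cancellation**: the alternating sum over the chains normalised by `U` of a quantity which is
invariant under the toggle vanishes -/
theorem sum_cancel {M : Type*} [AddCommGroup M] (hU : IsPGroup p U) (hU1 : U ≠ ⊥)
    (S : Finset (Finset (Subgroup G))) (hS : ∀ C, C ∈ S ↔ IsPC p C ∧ U ≤ stb C)
    (f : Finset (Subgroup G) → M)
    (hf : ∀ C, IsPC p C → U ≤ stb C → f (Tog588.tgl U C) = f C) :
    ∑ C ∈ S, (-1 : ℤ) ^ C.card • f C = 0 := by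
  refine Finset.sum_involution (fun C _ => Tog588.tgl U C) ?_ ?_ ?_ ?_
  · intro C hC
    obtain ⟨h1, h2⟩ := (hS C).mp hC
    rw [hf C h1 h2, neg_one_pow_tgl, neg_smul, add_neg_cancel]
  · intro C hC _
    exact tgl_ne
  · intro C hC
    obtain ⟨h1, h2⟩ := (hS C).mp hC
    exact (hS _).mpr ⟨h1.tgl hU hU1 h2, h1.le_stb_tgl h2⟩
  · intro C hC
    exact tgl_tgl

/-- a nonempty chain has a smallest member, which is normal in `stb C` -/
theorem IsPC.exists_min (hC : IsPC p C) (hne : C.Nonempty) :
    ∃ P ∈ C, (∀ Q ∈ C, P ≤ Q) ∧ P ≤ stb C := by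
  classical
  obtain ⟨P, hP, hmin⟩ := C.exists_minimal hne
  have hle : ∀ Q ∈ C, P ≤ Q := by
    intro Q hQ
    rcases hC.ch P hP Q hQ with h | h
    · exact h
    · exact hmin hQ h
  refine ⟨P, hP, hle, le_stb.mpr fun Q hQ => (hle Q hQ).trans Subgroup.le_normalizer⟩

end Crest.Agent.R170.Tog588
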