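import Crest.Agent.R170.Stm_995
import Crest.Agent.R170.Tog_588
import Crest.Agent.R170.BR_606
import Crest.Agent.R170.F0iso_538
import Crest.Agent.R170.J2_356

/-!
# Row 170, leaf M: `∑_σ (-1)^|σ| |G_σ| W(G_σ, e_σ) = |G| f0(G, e)`
-/

set_option autoImplicit false
set_option linter.unusedSectionVars false
set_option linter.style.haveILetI false

namespace Crest.Agent.R170.M588

open MonoidAlgebra Crest.AlgebraR.Weights Crest.AlgebraR.Blocks Finset

/-! ### chains -/

section chains
variable {p : ℕ} {G : Type} [Group G]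

theorem isPC (σ : Ch p G) : Tog588.IsPC p σ.1 where
  ne P hP := (σ.2.1 P hP).2
  pg P hP := (σ.2.1 P hP).1
  ch P hP Q hQ := by
    rcases eq_or_ne P Q with h | h
    · exact Or.inl h.le
    · exact σ.2.2 hP hQ h

theorem chain_of_isPC {C : Finset (Subgroup G)} (h : Tog588.IsPC p C) :
    (∀ Q ∈ C, IsPGroup p Q ∧ Q ≠ ⊥) ∧ IsChain (· ≤ ·) (C : Set (Subgroup G)) :=
  ⟨fun Q hQ => ⟨h.pg Q hQ, h.ne Q hQ⟩, fun P hP Q hQ _ => h.ch P hP Q hQ⟩

theorem st_eq (σ : Ch p G) : st σ = Tog588.stb σ.1 := rfl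

theorem top_eq (σ : Ch p G) : top σ = Tog588.top σ.1 := by
  unfold top Tog588.top
  rw [Finset.sup_eq_iSup]
  rfl

/-- the toggled chain -/
noncomputable def tog (U : Subgroup G) (hU : IsPGroup p U) (hU1 : U ≠ ⊥) (σ : Ch p G)
    (h : U ≤ st σ) : Ch p G :=
  ⟨Tog588.tgl U σ.1, chain_of_isPC ((isPC σ).tgl hU hU1 h)⟩

end chains

/-! ### group algebra: local image of a toggled chain -/

section alg
variable {k G : Type} [Field k] [Group G]

theorem coeff_br [Finite G] (H Q : Subgroup G) (e : MonoidAlgebra k G) (h : H) :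
    (br H Q e).coeff h =
      (open Classical in if (h : G) ∈ Subgroup.centralizer (Q : Set G) then e.coeff (h : G) else 0) :=
  rfl

theorem coeff_restrict [Finite G] (H : Subgroup G) (e : MonoidAlgebra k G) (h : H) :
    (restrictCoeff H e).coeff h = e.coeff (h : G) := rfl

theorem mapDomain_mapDomain {A B C : Type} (f : A → B) (g : B → C) (x : MonoidAlgebra k A) :
    MonoidAlgebra.mapDomain g (MonoidAlgebra.mapDomain f x) =
      MonoidAlgebra.mapDomain (g ∘ f) x := by
  apply MonoidAlgebra.coeff_injective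
  show Finsupp.mapDomain g (Finsupp.mapDomain f x.coeff) = Finsupp.mapDomain (g ∘ f) x.coeff
  rw [← Finsupp.mapDomain_comp]

theorem coeff_mapDomain_equiv {A B : Type} (f : A ≃ B) (x : MonoidAlgebra k A) (b : B) :
    (MonoidAlgebra.mapDomain f x).coeff b = x.coeff (f.symm b) := by
  show (Finsupp.mapDomain f x.coeff) b = _
  exact Finsupp.mapDomain_equiv_apply _ _

/-- transport of `f0` along group isomorphisms -/
def TrF (k : Type) [Field k] : Prop :=
  ∀ (A B : Type) [Group A] [Group B] (φ : A ≃* B) (x : MonoidAlgebra k A),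
    f0 (MonoidAlgebra.mapDomain φ x) = f0 x

/-- the local image only sees the centraliser -/
def LImg (p : ℕ) (k : Type) [Field k] : Prop :=
  ∀ (S : Type) [Group S] [Finite S] (Q : Subgroup S) (z : MonoidAlgebra k S), IsPGroup p Q →
    (∀ x : MonoidAlgebra k S, z * x = x * z) →
    localImage Q z = MonoidAlgebra.mapDomain
      (QuotientGroup.mk : Subgroup.normalizer (Q : Set S) → NormQuot Q)
      (br (Subgroup.normalizer (Q : Set S)) Q z)

theorem mem_norm {S Q : Subgroup G} (hQ : Q ≤ S) (x : S) :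
    x ∈ Subgroup.normalizer ((Q.subgroupOf S : Subgroup S) : Set S) ↔
      (x : G) ∈ Subgroup.normalizer (Q : Set G) := by
  rw [Subgroup.mem_normalizer_iff, Subgroup.mem_normalizer_iff]
  constructor
  · intro h g
    constructor
    · intro hg
      have := (h ⟨g, hQ hg⟩).mp (Subgroup.mem_subgroupOf.mpr hg)
      exact Subgroup.mem_subgroupOf.mp this
    · intro hg
      have hgS : g ∈ S := by
        have h1 := S.mul_mem (S.mul_mem (S.inv_mem x.2) (hQ hg)) x.2
        have h2 : (x : G)⁻¹ * ((x : G) * g * (x : G)⁻¹) * (x : G) = g := by group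
        rwa [h2] at h1
      have := (h ⟨g, hgS⟩).mpr (Subgroup.mem_subgroupOf.mpr hg)
      exact Subgroup.mem_subgroupOf.mp this
  · intro h g
    rw [Subgroup.mem_subgroupOf, Subgroup.mem_subgroupOf]
    exact h g

/-- the normaliser of `Q` in `S` as a subgroup of `G` -/
def psi (S Q H : Subgroup G) (hQ : Q ≤ S) (hH : H = S ⊓ Subgroup.normalizer (Q : Set G)) :
    ↥(Subgroup.normalizer ((Q.subgroupOf S : Subgroup S) : Set S)) ≃* ↥H where
  toFun x := ⟨(x.1 : G), hH.ge ⟨x.1.2, (mem_norm hQ x.1).mp x.2⟩⟩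
  invFun y := ⟨⟨y.1, (hH.le y.2).1⟩, (mem_norm hQ _).mpr (hH.le y.2).2⟩
  left_inv _ := rfl
  right_inv _ := rfl
  map_mul' _ _ := rfl

theorem coe_psi (S Q H : Subgroup G) (hQ : Q ≤ S)
    (hH : H = S ⊓ Subgroup.normalizer (Q : Set G))
    (x : ↥(Subgroup.normalizer ((Q.subgroupOf S : Subgroup S) : Set S))) :
    ((psi S Q H hQ hH x : H) : G) = ((x : S) : G) := rfl

theorem psi_map (S Q H : Subgroup G) (hQ : Q ≤ S)
    (hH : H = S ⊓ Subgroup.normalizer (Q : Set G)) :
    ((Q.subgroupOf S).subgroupOf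
      (Subgroup.normalizer ((Q.subgroupOf S : Subgroup S) : Set S))).map
        (psi S Q H hQ hH : _ →* ↥H) = Q.subgroupOf H := by
  ext y
  rw [Subgroup.mem_map, Subgroup.mem_subgroupOf]
  constructor
  · rintro ⟨x, hx, rfl⟩
    rw [Subgroup.mem_subgroupOf, Subgroup.mem_subgroupOf] at hx
    exact hx
  · intro hy
    refine ⟨(psi S Q H hQ hH).symm y, ?_, ?_⟩
    · rw [Subgroup.mem_subgroupOf, Subgroup.mem_subgroupOf]
      exact hy
    · exact (psi S Q H hQ hH).apply_symm_apply y

theorem mem_centralizer_sup (T Q : Subgroup G) (h : G) :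
    h ∈ Subgroup.centralizer ((T ⊔ Q : Subgroup G) : Set G) ↔
      h ∈ Subgroup.centralizer (T : Set G) ∧ h ∈ Subgroup.centralizer (Q : Set G) := by
  constructor
  · intro h1
    rw [Subgroup.mem_centralizer_iff] at h1
    constructor
    · rw [Subgroup.mem_centralizer_iff]
      exact fun g hg => h1 g ((le_sup_left : T ≤ T ⊔ Q) hg)
    · rw [Subgroup.mem_centralizer_iff]
      exact fun g hg => h1 g ((le_sup_right : Q ≤ T ⊔ Q) hg)
  · rintro ⟨h1, h2⟩
    rw [Subgroup.mem_centralizer_iff] at h1 h2 ⊢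
    have h3 : T ⊔ Q ≤ Subgroup.centralizer ({h} : Set G) := by
      rw [sup_le_iff]
      constructor
      · intro g hg
        rw [Subgroup.mem_centralizer_iff]
        rintro _ rfl
        exact (h1 g hg).symm
      · intro g hg
        rw [Subgroup.mem_centralizer_iff]
        rintro _ rfl
        exact (h2 g hg).symm
    intro g hg
    have h4 := h3 hg
    rw [Subgroup.mem_centralizer_iff] at h4
    exact (h4 h rfl).symm

/-- the local group algebra element only depends on `S ⊓ N(Q)` and `T ⊔ Q` -/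
theorem f0_local [Finite G] {p : ℕ} (hT : TrF k) (hL : LImg p k) (S Q H P T : Subgroup G)
    (hQS : Q ≤ S) (hQ : IsPGroup p Q) (hH : H = S ⊓ Subgroup.normalizer (Q : Set G))
    (hP : P = T ⊔ Q) [hn : (Q.subgroupOf H).Normal] (e : MonoidAlgebra k G)
    (hz : ∀ x, br S T e * x = x * br S T e) :
    f0 (localImage (Q.subgroupOf S) (br S T e)) =
      f0 (MonoidAlgebra.mapDomain (QuotientGroup.mk : H → H ⧸ Q.subgroupOf H) (br H P e)) := by
  have hQ' : IsPGroup p (Q.subgroupOf S) :=
    hQ.of_equiv (Subgroup.subgroupOfEquivOfLe hQS).symm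
  rw [hL S (Q.subgroupOf S) (br S T e) hQ' hz]
  rw [← hT _ _ (QuotientGroup.congr _ _ (psi S Q H hQS hH) (psi_map S Q H hQS hH))]
  congr 1
  rw [mapDomain_mapDomain]
  have h1 : (⇑(QuotientGroup.congr ((Q.subgroupOf S).subgroupOf
      (Subgroup.normalizer ((Q.subgroupOf S : Subgroup S) : Set S))) (Q.subgroupOf H)
      (psi S Q H hQS hH) (psi_map S Q H hQS hH)) ∘
      (QuotientGroup.mk : ↥(Subgroup.normalizer ((Q.subgroupOf S : Subgroup S) : Set S)) →
        NormQuot (Q.subgroupOf S))) =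
      (QuotientGroup.mk : H → H ⧸ Q.subgroupOf H) ∘ (psi S Q H hQS hH).toEquiv := by
    funext x
    exact QuotientGroup.congr_mk _ _ _ _ x
  rw [h1, ← mapDomain_mapDomain]
  congr 1
  apply MonoidAlgebra.coeff_injective
  ext h
  rw [coeff_mapDomain_equiv, coeff_br, coeff_br, coeff_br]
  have h4 : (((psi S Q H hQS hH).toEquiv.symm h).1 : S) ∈
      Subgroup.centralizer ((Q.subgroupOf S : Subgroup S) : Set S) ↔
      (h : G) ∈ Subgroup.centralizer (Q : Set G) := by
    rw [Subgroup.mem_centralizer_iff, Subgroup.mem_centralizer_iff]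
    constructor
    · intro h5 g hg
      have h6 := h5 ⟨g, hQS hg⟩ (Subgroup.mem_subgroupOf.mpr hg)
      exact congrArg (fun y : S => (y : G)) h6
    · intro h5 g hg
      apply Subtype.ext
      exact h5 (g : G) (Subgroup.mem_subgroupOf.mp hg)
  have h5 : (h : G) ∈ Subgroup.centralizer (P : Set G) ↔
      (h : G) ∈ Subgroup.centralizer (T : Set G) ∧ (h : G) ∈ Subgroup.centralizer (Q : Set G) := by
    rw [hP]
    exact mem_centralizer_sup T Q h
  have h8 : ((((psi S Q H hQS hH).toEquiv.symm h).1 : S) : G) = (h : G) := rfl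
  by_cases h6 : (h : G) ∈ Subgroup.centralizer (Q : Set G)
  · rw [if_pos (h4.mpr h6), h8]
    by_cases h7 : (h : G) ∈ Subgroup.centralizer (T : Set G)
    · rw [if_pos h7, if_pos (h5.mpr ⟨h7, h6⟩)]
    · rw [if_neg h7, if_neg (fun h9 => h7 (h5.mp h9).1)]
  · rw [if_neg (fun h9 => h6 (h4.mp h9)), if_neg (fun h9 => h6 (h5.mp h9).2)]

/-- the trivial subgroup -/
theorem f0_localImage_bot (hT : TrF k) {S : Type} [Group S] [Finite S] (z : MonoidAlgebra k S) :
    f0 (localImage (⊥ : Subgroup S) z) = f0 z := by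
  have hN : ∀ s : S, s ∈ Subgroup.normalizer ((⊥ : Subgroup S) : Set S) := by
    intro s
    rw [Subgroup.mem_normalizer_iff_map_conj_eq, Subgroup.map_bot]
  let f : S ≃* ↥(Subgroup.normalizer ((⊥ : Subgroup S) : Set S)) :=
    { toFun := fun s => ⟨s, hN s⟩
      invFun := fun x => x.1
      left_inv := fun _ => rfl
      right_inv := fun _ => rfl
      map_mul' := fun _ _ => rfl }
  let g : ↥(Subgroup.normalizer ((⊥ : Subgroup S) : Set S)) →* NormQuot (⊥ : Subgroup S) :=
    QuotientGroup.mk' _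
  have hg : Function.Bijective g := by
    refine ⟨?_, QuotientGroup.mk'_surjective _⟩
    intro a b hab
    have h1 := QuotientGroup.eq.mp hab
    rw [Subgroup.mem_subgroupOf, Subgroup.mem_bot] at h1
    apply Subtype.ext
    have h2 : ((a : S))⁻¹ * (b : S) = 1 := h1
    exact inv_mul_eq_one.mp h2
  have h2 : localImage (⊥ : Subgroup S) z =
      MonoidAlgebra.mapDomain (f.trans (MulEquiv.ofBijective g hg)) z := by
    unfold localImage
    have h3 : (⇑(f.trans (MulEquiv.ofBijective g hg))) =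
        (QuotientGroup.mk : ↥(Subgroup.normalizer ((⊥ : Subgroup S) : Set S)) →
          NormQuot (⊥ : Subgroup S)) ∘ f.toEquiv := rfl
    rw [h3, ← mapDomain_mapDomain]
    congr 1
    apply MonoidAlgebra.coeff_injective
    ext h
    rw [coeff_mapDomain_equiv, coeff_restrict]
    rfl
  rw [h2, hT]

end alg

/-! ### the theorem -/

section main
variable {p : ℕ} {k : Type} [Field k]

/-- subgroups of `S` against subgroups of `G` below `S` -/
noncomputable def subEquiv {G : Type} [Group G] (p : ℕ) (S : Subgroup G) :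
    {Q : Subgroup S // IsPGroup p Q} ≃ {Q : Subgroup G // IsPGroup p Q ∧ Q ≤ S} where
  toFun Q := ⟨Q.1.map S.subtype, Q.2.map _, Subgroup.map_subtype_le _⟩
  invFun Q := ⟨Q.1.subgroupOf S, Q.2.1.of_equiv (Subgroup.subgroupOfEquivOfLe Q.2.2).symm⟩
  left_inv Q := Subtype.ext
    (Subgroup.comap_map_eq_self_of_injective S.subtype_injective Q.1)
  right_inv Q := Subtype.ext (Subgroup.map_subgroupOf_eq_of_le Q.2.2)

theorem Wt_eq {G : Type} [Group G] [Finite G] [Fintype (Subgroup G)]
    (S : Subgroup G) (z : MonoidAlgebra k S) :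
    (Wt p z : ℤ) = ∑ Q : Subgroup G, (open Classical in if IsPGroup p Q ∧ Q ≤ S then
      (Nat.card ↥(S ⊓ Subgroup.normalizer (Q : Set G)) : ℤ) *
        f0 (localImage (Q.subgroupOf S) z) else 0) := by
  classical
  have h1 : (Wt p z) = ∑ᶠ Q : {Q : Subgroup G // IsPGroup p Q ∧ Q ≤ S},
      Nat.card ↥(S ⊓ Subgroup.normalizer (Q.1 : Set G)) *
        f0 (localImage (Q.1.subgroupOf S) z) := by
    unfold Wt
    refine (finsum_comp_equiv (subEquiv p S).symm).symm.trans ?_
    refine finsum_congr fun Q => ?_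
    show Nat.card (Subgroup.normalizer ((Q.1.subgroupOf S : Subgroup S) : Set S)) *
      f0 (localImage (Q.1.subgroupOf S) z) = _
    rw [Nat.card_congr (psi S Q.1 _ Q.2.2 rfl).toEquiv]
  rw [h1, finsum_eq_sum_of_fintype, Nat.cast_sum, ← Finset.sum_filter]
  rw [Finset.sum_subtype (Finset.univ.filter fun Q : Subgroup G => IsPGroup p Q ∧ Q ≤ S)
    (p := fun Q : Subgroup G => IsPGroup p Q ∧ Q ≤ S) (fun Q => by simp)]
  refine Finset.sum_congr rfl fun Q _ => ?_
  push_cast
  rfl

theorem top_pgroup {G : Type} [Group G] (σ : Ch p G) : IsPGroup p (top σ) := by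
  rw [top_eq]
  by_cases h : σ.1.Nonempty
  · exact (isPC σ).pg _ (Tog588.sup_mem_of_chain σ.1 (isPC σ).ch h)
  · rw [not_nonempty_iff_eq_empty] at h
    rw [h, Tog588.top_empty]
    exact IsPGroup.of_bot

theorem centralizer_top_le {G : Type} [Group G] (σ : Ch p G) :
    Subgroup.centralizer (top σ : Set G) ≤ st σ := by
  intro g hg
  rw [st_eq, Tog588.mem_stb]
  intro P hP
  have h1 : P ≤ top σ := by rw [top_eq]; exact Tog588.le_top hP
  have h2 : g ∈ Subgroup.centralizer (P : Set G) :=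
    Subgroup.centralizer_le (show (P : Set G) ⊆ (top σ : Set G) from h1) hg
  exact Subgroup.centralizer_le_normalizer _ h2

theorem st_le_normalizer {G : Type} [Group G] (σ : Ch p G) :
    st σ ≤ Subgroup.normalizer (top σ : Set G) := by
  intro g hg
  rw [st_eq] at hg
  rw [top_eq]
  by_cases h : σ.1.Nonempty
  · exact Tog588.mem_stb.mp hg _ (Tog588.sup_mem_of_chain σ.1 (isPC σ).ch h)
  · rw [not_nonempty_iff_eq_empty] at h
    rw [h, Tog588.top_empty]
    exact Tog588.mem_normalizer_bot g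

variable [Fact p.Prime] [IsAlgClosed k] [CharP k p]

theorem eC_CI (hBr : SBrCI p k) {G : Type} [Group G] [Finite G] (σ : Ch p G)
    (e : MonoidAlgebra k G) (he : CI e) : CI (eC σ e) :=
  hBr G e (st σ) (top σ) (top_pgroup σ) (centralizer_top_le σ) (st_le_normalizer σ) he

/-- nonempty chains carry no defect zero -/
theorem f0_eC (hBr : SBrCI p k) (hJ2 : SJ2 p k) {G : Type} [Group G] [Finite G] (σ : Ch p G)
    (hσ : σ.1.Nonempty) (e : MonoidAlgebra k G) (he : CI e) : f0 (eC σ e) = 0 := by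
  obtain ⟨P, hP, -, hPs⟩ := (isPC σ).exists_min hσ
  refine hJ2 _ _ (eC_CI hBr σ e he) ⟨P.subgroupOf (st σ), ?_, ?_, ?_⟩
  · refine Subgroup.normal_subgroupOf_of_le_normalizer ?_
    intro g hg
    exact Tog588.mem_stb.mp hg P hP
  · exact ((isPC σ).pg P hP).of_equiv (Subgroup.subgroupOfEquivOfLe hPs).symm
  · intro h
    rw [Subgroup.subgroupOf_eq_bot] at h
    exact (isPC σ).ne P hP (disjoint_self.mp (h.mono_right hPs))

/-- the empty chain -/
theorem f0_eC_empty (hT : TrF k) {G : Type} [Group G] [Finite G] (σ : Ch p G)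
    (hσ : σ.1 = ∅) (e : MonoidAlgebra k G) : f0 (eC σ e) = f0 e := by
  have h1 : ∀ g : G, g ∈ st σ := by
    intro g
    rw [st_eq, hσ, Tog588.stb_empty]
    trivial
  have h2 : top σ = ⊥ := by rw [top_eq, hσ, Tog588.top_empty]
  let f : st σ ≃* G :=
    { toFun := fun s => s.1
      invFun := fun g => ⟨g, h1 g⟩
      left_inv := fun _ => rfl
      right_inv := fun _ => rfl
      map_mul' := fun _ _ => rfl }
  have h3 : MonoidAlgebra.mapDomain f (eC σ e) = e := by
    apply MonoidAlgebra.coeff_injective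
    ext g
    show (MonoidAlgebra.mapDomain f.toEquiv (eC σ e)).coeff g = _
    rw [coeff_mapDomain_equiv]
    unfold eC
    rw [coeff_br, h2, if_pos]
    · rfl
    · rw [Subgroup.mem_centralizer_iff]
      intro x hx
      have hx' : x = 1 := Subgroup.mem_bot.mp hx
      rw [hx', one_mul, mul_one]
  rw [← hT _ _ f, h3]

/-- summand -/
noncomputable def aa {G : Type} [Group G] [Finite G] (e : MonoidAlgebra k G) (σ : Ch p G)
    (Q : Subgroup G) : ℤ :=
  (Nat.card ↥(st σ ⊓ Subgroup.normalizer (Q : Set G)) : ℤ) *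
    f0 (localImage (Q.subgroupOf (st σ)) (eC σ e))

theorem aa_tog (hBr : SBrCI p k) (hT : TrF k) (hL : LImg p k) {G : Type} [Group G] [Finite G]
    (e : MonoidAlgebra k G) (he : CI e) (σ : Ch p G) (Q : Subgroup G) (hQ : IsPGroup p Q)
    (hQ1 : Q ≠ ⊥) (h : Q ≤ st σ) : aa e (tog Q hQ hQ1 σ h) Q = aa e σ Q := by
  have hst : st (tog Q hQ hQ1 σ h) ⊓ Subgroup.normalizer (Q : Set G) =
      st σ ⊓ Subgroup.normalizer (Q : Set G) :=
    (isPC σ).stb_inf_normalizer hQ hQ1 h
  have htop : top (tog Q hQ hQ1 σ h) ⊔ Q = top σ ⊔ Q := by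
    rw [top_eq, top_eq]
    exact Tog588.top_tgl_sup
  have hle : Q ≤ st (tog Q hQ hQ1 σ h) := (isPC σ).le_stb_tgl h
  haveI : (Q.subgroupOf (st σ ⊓ Subgroup.normalizer (Q : Set G))).Normal :=
    Subgroup.normal_subgroupOf_of_le_normalizer inf_le_right
  unfold aa
  rw [hst]
  congr 2
  unfold eC
  rw [f0_local hT hL (st σ) Q (st σ ⊓ Subgroup.normalizer (Q : Set G)) (top σ ⊔ Q) (top σ) h hQ
    rfl rfl e (eC_CI hBr σ e he).1]
  rw [f0_local hT hL (st (tog Q hQ hQ1 σ h)) Q (st σ ⊓ Subgroup.normalizer (Q : Set G))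
    (top σ ⊔ Q) (top (tog Q hQ hQ1 σ h)) hle hQ hst.symm htop.symm e
    (eC_CI hBr _ e he).1]

theorem sgn_tog {G : Type} [Group G] (σ : Ch p G) (Q : Subgroup G) (hQ : IsPGroup p Q)
    (hQ1 : Q ≠ ⊥) (h : Q ≤ st σ) : sgn (tog Q hQ hQ1 σ h) = - sgn σ :=
  Tog588.neg_one_pow_tgl

/-- **leaf M** from the four inputs -/
theorem SM_of (hBr : SBrCI p k) (hJ2 : SJ2 p k) (hT : TrF k) (hL : LImg p k) : SM p k := by
  intro G _ _ e he
  classical
  haveI : Finite (Ch p G) := by unfold Ch; infer_instance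
  haveI := Fintype.ofFinite (Ch p G)
  haveI := Fintype.ofFinite (Subgroup G)
  rw [finsum_eq_sum_of_fintype]
  have h1 : ∀ σ : Ch p G, sgn σ * (Wt p (eC σ e) : ℤ) =
      ∑ Q : Subgroup G, if IsPGroup p Q ∧ Q ≤ st σ then sgn σ * aa e σ Q else 0 := by
    intro σ
    rw [Wt_eq, Finset.mul_sum]
    refine Finset.sum_congr rfl fun Q _ => ?_
    rw [mul_ite, mul_zero]
    rfl
  rw [Finset.sum_congr rfl fun σ _ => h1 σ, Finset.sum_comm]
  rw [Finset.sum_eq_single (⊥ : Subgroup G)]
  · -- the trivial subgroup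
    have h2 : ∀ σ : Ch p G, aa e σ ⊥ = (Nat.card (st σ) : ℤ) * f0 (eC σ e) := by
      intro σ
      unfold aa
      have h3 : st σ ⊓ Subgroup.normalizer ((⊥ : Subgroup G) : Set G) = st σ := by
        refine inf_eq_left.mpr fun g _ => Tog588.mem_normalizer_bot g
      have h4 : ∀ Q' : Subgroup (st σ), Q' = ⊥ → f0 (localImage Q' (eC σ e)) = f0 (eC σ e) := by
        rintro _ rfl
        exact f0_localImage_bot hT _
      rw [h3, h4 _ (Subgroup.bot_subgroupOf _)]
    let σ0 : Ch p G := ⟨∅, by simp, by simp⟩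
    rw [Finset.sum_eq_single σ0]
    · rw [if_pos ⟨IsPGroup.of_bot, bot_le⟩, h2, f0_eC_empty hT σ0 rfl]
      have h5 : sgn σ0 = 1 := by simp [sgn, σ0]
      have h6 : st σ0 = ⊤ := by rw [st_eq]; exact Tog588.stb_empty
      rw [h5, h6, one_mul, Subgroup.card_top]
    · intro σ _ hσ
      have hne : σ.1.Nonempty := by
        rw [nonempty_iff_ne_empty]
        intro h
        exact hσ (Subtype.ext h)
      rw [h2, f0_eC hBr hJ2 σ hne e he]
      simp
    · intro h
      exact absurd (Finset.mem_univ _) h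
  · intro Q _ hQ1
    by_cases hQ : IsPGroup p Q
    · rw [← Finset.sum_filter]
      have hmem : ∀ σ ∈ (Finset.univ.filter fun σ : Ch p G => IsPGroup p Q ∧ Q ≤ st σ),
          Q ≤ st σ := fun σ hσ => (Finset.mem_filter.mp hσ).2.2
      refine Finset.sum_involution (fun σ hσ => tog Q hQ hQ1 σ (hmem σ hσ)) ?_ ?_ ?_ ?_
      · intro σ hσ
        rw [aa_tog hBr hT hL e he σ Q hQ hQ1 (hmem σ hσ), sgn_tog]
        ring
      · intro σ hσ _ h
        exact Tog588.tgl_ne (congrArg Subtype.val h)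
      · intro σ hσ
        refine Finset.mem_filter.mpr ⟨Finset.mem_univ _, hQ, ?_⟩
        exact (isPC σ).le_stb_tgl (hmem σ hσ)
      · intro σ hσ
        exact Subtype.ext Tog588.tgl_tgl
    · refine Finset.sum_eq_zero fun σ _ => ?_
      rw [if_neg fun h => hQ h.1]
  · intro h
    exact absurd (Finset.mem_univ _) h

end main

/-! ### the inputs -/

theorem trF (k : Type) [Field k] : TrF k := by
  intro A B _ _ φ x
  refine SCC538.f0_congr φ x _ fun g => ?_
  show (MonoidAlgebra.mapDomain φ.toEquiv x).coeff (φ.toEquiv g) = _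
  rw [coeff_mapDomain_equiv, Equiv.symm_apply_apply]

theorem lImg (p : ℕ) [Fact p.Prime] (k : Type) [Field k] [CharP k p] : LImg p k := by
  intro S _ _ Q z hQ hz
  exact BR606.localImage_eq (Fact.out : p.Prime) hQ hz

/-- **leaf M, literal** -/
theorem sM (p : ℕ) [Fact p.Prime] (k : Type) [Field k] [IsAlgClosed k] [CharP k p] : SM p k :=
  SM_of (BR606.sBrCI p k) (J356.sj2 p k) (trF k) (lImg p k)

end Crest.Agent.R170.M588
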