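import Mathlib

/-!
Row 170 (swarm A): the modular trace lemma, inside `kG` only.

* `sum_fixed`: a function on a finite set invariant under a map of `p`-power order, with values
  in a ring of characteristic `p`, has the same sum as over the fixed points.
* `trace_pow` (P1): `lam ((∑ x_i)^(p^n)) = ∑ lam (x_i^(p^n))` for `lam` additive with
  `lam (a b) = lam (b a)`.
-/

set_option autoImplicit false
open scoped BigOperators

namespace Crest.Agent.R170.J482

/-! ### Sums over sets with a map of `p`-power order -/

section SumFixed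
variable {α R : Type*} [Fintype α] [DecidableEq α] [Ring R] [DecidableEq R]

open Function in
theorem sum_fixed (p n : ℕ) [hp : Fact p.Prime] [CharP R p] (f : Function.End α)
    (hf : f ^ p ^ n = 1) (φ : α → R) (hφ : ∀ a, φ (f a) = φ a) :
    ∑ a, φ a = ∑ a with f a = a, φ a := by
  classical
  have key : ∀ v : R, ((Finset.univ.filter (fun a => φ a = v)).card : R)
      = ((Finset.univ.filter (fun a => f a = a ∧ φ a = v)).card : R) := by
    intro v
    -- restrict `f` to the level set
    let β := {a : α // φ a = v}
    let g : Function.End β := fun b => ⟨f b.1, by rw [hφ]; exact b.2⟩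
    have hg : ∀ m (b : β), ((g ^ m) b).1 = (f ^ m) b.1 := by
      intro m
      induction m with
      | zero => intro b; rfl
      | succ m ih =>
        intro b
        rw [pow_succ', pow_succ']
        change (g ((g ^ m) b)).1 = f ((f ^ m) b.1)
        rw [← ih b]
    have hg1 : g ^ p ^ n = 1 := by
      funext b
      apply Subtype.ext
      rw [hg, hf]
      rfl
    have h := Equiv.Perm.card_fixedPoints_modEq (p := p) (n := n) hg1
    have h2 := (CharP.natCast_eq_natCast R p).2 h
    have e1 : Fintype.card β = (Finset.univ.filter (fun a => φ a = v)).card :=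
      Fintype.card_subtype _
    have e2 : Fintype.card (Function.fixedPoints g)
        = (Finset.univ.filter (fun a => f a = a ∧ φ a = v)).card := by
      rw [← Fintype.card_subtype]
      apply Fintype.card_congr
      exact
        { toFun := fun x => ⟨x.1.1, congrArg Subtype.val x.2, x.1.2⟩
          invFun := fun x => ⟨⟨x.1, x.2.2⟩, Subtype.ext x.2.1⟩
          left_inv := fun _ => rfl
          right_inv := fun _ => rfl }
    rw [e1, e2] at h2
    exact h2
  have h1 : ∑ a, φ a = ∑ v ∈ Finset.univ.image φ,
      ((Finset.univ.filter (fun a => φ a = v)).card : R) * v := by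
    rw [← Finset.sum_fiberwise_of_maps_to (g := φ) (t := Finset.univ.image φ)
      (fun a _ => Finset.mem_image_of_mem _ (Finset.mem_univ a))]
    refine Finset.sum_congr rfl fun v _ => ?_
    rw [Finset.sum_congr rfl (g := fun _ => v) (fun a ha => (Finset.mem_filter.1 ha).2)]
    rw [Finset.sum_const, nsmul_eq_mul]
  have h2 : ∑ a with f a = a, φ a = ∑ v ∈ Finset.univ.image φ,
      ((Finset.univ.filter (fun a => f a = a ∧ φ a = v)).card : R) * v := by
    rw [← Finset.sum_fiberwise_of_maps_to (g := φ) (t := Finset.univ.image φ)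
      (fun a _ => Finset.mem_image_of_mem _ (Finset.mem_univ a))]
    refine Finset.sum_congr rfl fun v _ => ?_
    rw [Finset.filter_filter]
    rw [Finset.sum_congr rfl (g := fun _ => v) (fun a ha => (Finset.mem_filter.1 ha).2.2)]
    rw [Finset.sum_const, nsmul_eq_mul]
  rw [h1, h2]
  exact Finset.sum_congr rfl fun v _ => by rw [key]

end SumFixed

/-! ### Words -/

section Words
variable {ι A : Type*} [Fintype ι] [Ring A]

theorem sum_pow_words (x : ι → A) (N : ℕ) :
    (∑ i, x i) ^ N = ∑ f : Fin N → ι, (List.ofFn fun j => x (f j)).prod := by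
  classical
  induction N with
  | zero => simp
  | succ N ih =>
    rw [pow_succ', ih, Finset.sum_mul_sum, ← Finset.sum_product', Finset.univ_product_univ]
    refine Fintype.sum_equiv (Fin.consEquiv (fun _ : Fin (N + 1) => ι)) _ _ ?_
    rintro ⟨i, g⟩
    simp [Fin.consEquiv, List.ofFn_succ]

end Words

section P1
variable {ι A R : Type*} [Fintype ι] [Ring A] [Ring R]

/-- rotation of words -/
def rot (N : ℕ) [NeZero N] (ι : Type*) : Function.End (Fin N → ι) := fun f i => f (i + 1)

theorem rot_pow_apply (N : ℕ) [NeZero N] (m : ℕ) (f : Fin N → ι) (i : Fin N) :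
    ((rot N ι) ^ m) f i = f (i + Fin.ofNat N m) := by
  induction m generalizing f i with
  | zero =>
    change f i = f (i + Fin.ofNat N 0)
    simp
  | succ m ih =>
    rw [pow_succ]
    change ((rot N ι) ^ m) (rot N ι f) i = _
    rw [ih]
    change f (i + Fin.ofNat N m + 1) = _
    congr 1
    rw [add_assoc]
    congr 1
    apply Fin.ext
    simp [Fin.val_add, Fin.ofNat]

theorem rot_pow_card (N : ℕ) [NeZero N] : (rot N ι) ^ N = 1 := by
  funext f i
  rw [rot_pow_apply]
  change _ = f i
  congr 1
  have : (Fin.ofNat N N : Fin N) = 0 := by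
    apply Fin.ext
    simp [Fin.ofNat]
  rw [this, add_zero]

omit [Fintype ι] in
theorem lam_rot (lam : A →+ R) (hlam : ∀ a b, lam (a * b) = lam (b * a)) (x : ι → A)
    (N : ℕ) [NeZero N] (f : Fin N → ι) :
    lam (List.ofFn fun j => x (rot N ι f j)).prod = lam (List.ofFn fun j => x (f j)).prod := by
  obtain ⟨M, rfl⟩ : ∃ M, N = M + 1 := ⟨N - 1, by have := NeZero.ne N; omega⟩
  rw [List.ofFn_succ (f := fun j => x (f j)), List.ofFn_succ' (f := fun j => x (rot (M+1) ι f j))]
  rw [List.prod_cons, List.concat_eq_append, List.prod_append, List.prod_singleton]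
  rw [hlam]
  have e1 : rot (M+1) ι f (Fin.last M) = f 0 := by
    change f (Fin.last M + 1) = f 0
    simp
  have e2 : ∀ i : Fin M, rot (M+1) ι f (Fin.castSucc i) = f i.succ := by
    intro i
    change f (Fin.castSucc i + 1) = _
    simp
  simp only [e1, e2]

/-- (P1): a trace form with values in characteristic `p` is additive on `p^n`-th powers. -/
theorem trace_pow (p n : ℕ) [hp : Fact p.Prime] [CharP R p] (lam : A →+ R)
    (hlam : ∀ a b, lam (a * b) = lam (b * a)) (x : ι → A) :
    lam ((∑ i, x i) ^ p ^ n) = ∑ i, lam (x i ^ p ^ n) := by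
  classical
  have hN : NeZero (p ^ n) := ⟨(pow_pos hp.out.pos n).ne'⟩
  rw [sum_pow_words, map_sum]
  rw [sum_fixed p n (rot (p ^ n) ι) (rot_pow_card _) (fun f => lam (List.ofFn fun j => x (f j)).prod)
    (fun f => lam_rot lam hlam x _ f)]
  -- fixed points are constants
  symm
  refine Finset.sum_bij (fun i _ => fun _ => i) ?_ ?_ ?_ ?_
  · intro i _
    simp only [Finset.mem_filter, Finset.mem_univ, true_and]
    rfl
  · intro i _ j _ h
    exact congrFun h 0
  · intro f hf
    simp only [Finset.mem_filter, Finset.mem_univ, true_and] at hf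
    refine ⟨f 0, Finset.mem_univ _, ?_⟩
    have hpow : ∀ m, ((rot (p ^ n) ι) ^ m) f = f := by
      intro m
      induction m with
      | zero => rfl
      | succ m ih =>
        rw [pow_succ]
        change ((rot (p ^ n) ι) ^ m) (rot (p ^ n) ι f) = f
        rw [hf, ih]
    funext j
    have := congrFun (hpow j.1) 0
    rw [rot_pow_apply] at this
    rw [← this]
    congr 1
    apply Fin.ext
    simp [Fin.ofNat, Nat.mod_eq_of_lt j.2]
  · intro i _
    simp

end P1

end Crest.Agent.R170.J482
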