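import Mathlib
import Crest.Agent.R170.DefW_995
import Crest.Agent.R170.Stm_995
import Crest.Agent.R170.J_482
import Crest.Agent.R170.P2_482
import Crest.Agent.R170.Q2_940

/-!
# Row 170, leaf QW (helper544): `W(G, e) = W(G/N, image of e)` for a normal `p`-subgroup `N`

* `exists_normal_p_normQuot`: `N` normal `p`-subgroup, `Q` a `p`-subgroup not containing `N`:
  `N_G(Q)/Q` has a nontrivial normal `p`-subgroup.
* `psi`: `N_G(π⁻¹ Q')/π⁻¹ Q' ≃* N_{G/N}(Q')/Q'`, `mapDomain_psi_localImage`.
* `Wt_quot_of`: `Wt p e = |N| * Wt p (π e)`.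
-/

set_option autoImplicit false

namespace Crest.Agent.R170.QW544

open MonoidAlgebra Crest.AlgebraR.Weights Crest.AlgebraR.Blocks Crest.Agent.R170

/-! ### coefficients of `mapDomain` -/

section coeff
variable {k : Type} [Field k] {M M' : Type}

theorem coeff_mapDomain_fin [Fintype M] [DecidableEq M'] (f : M → M') (x : MonoidAlgebra k M)
    (h : M') : (mapDomain f x).coeff h = ∑ g : M, if f g = h then x.coeff g else 0 := by
  classical
  change (Finsupp.mapDomain f x.coeff) h = _
  rw [Finsupp.mapDomain, Finsupp.sum_fintype _ _ (by simp), Finsupp.finsetSum_apply]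
  refine Finset.sum_congr rfl fun g _ => ?_
  rw [Finsupp.single_apply]

end coeff

/-! ### group theory -/

section groups
variable {G : Type} [Group G] [Finite G] {p : ℕ} [hp : Fact p.Prime]

omit [Finite G] in
theorem normalizer_le_normalizer_sup (N Q : Subgroup G) [N.Normal] :
    Subgroup.normalizer (Q : Set G) ≤ Subgroup.normalizer ((N ⊔ Q : Subgroup G) : Set G) := by
  intro x hx
  rw [Subgroup.mem_normalizer_iff_map_conj_eq] at hx ⊢
  rw [Subgroup.map_sup, hx]
  have : N.map ((MulAut.conj x) : G →* G) = N := by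
    have h := (Subgroup.normalizer_eq_top_iff (H := N)).2 inferInstance
    have hx : x ∈ Subgroup.normalizer (N : Set G) := by rw [h]; trivial
    exact Subgroup.mem_normalizer_iff_map_conj_eq.1 hx
  rw [this]

/-- a `p`-subgroup not containing the normal `p`-subgroup `N`: `N_G(Q)/Q` has a nontrivial
normal `p`-subgroup -/
theorem exists_normal_p_normQuot (N : Subgroup G) [N.Normal] (hN : IsPGroup p N)
    (Q : Subgroup G) (hQ : IsPGroup p Q) (hNQ : ¬ N ≤ Q) :
    ∃ P : Subgroup (NormQuot Q), P.Normal ∧ IsPGroup p P ∧ P ≠ ⊥ := by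
  classical
  set R : Subgroup G := N ⊔ Q with hR
  have hRp : IsPGroup p R := IsPGroup.to_sup_of_normal_left hN hQ
  have hQR : Q ≤ R := le_sup_right
  have hlt : Q.subgroupOf R < ⊤ := by
    refine lt_top_iff_ne_top.2 fun h => hNQ ?_
    rw [Subgroup.subgroupOf_eq_top] at h
    exact le_sup_left.trans h
  have : Finite R := inferInstance
  have : Group.IsNilpotent R := hRp.isNilpotent
  have hnc : NormalizerCondition R := Group.normalizerCondition_of_isNilpotent
  have h1 := hnc _ hlt
  obtain ⟨g, hg1, hg2⟩ := SetLike.exists_of_lt h1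
  rw [← Subgroup.subgroupOf_normalizer_eq hQR, Subgroup.mem_subgroupOf] at hg1
  rw [Subgroup.mem_subgroupOf] at hg2
  set NQ : Subgroup G := Subgroup.normalizer (Q : Set G) with hNQdef
  let mk : NQ →* NormQuot Q := QuotientGroup.mk' _
  have hmk : Function.Surjective mk := QuotientGroup.mk'_surjective _
  refine ⟨(R.subgroupOf NQ).map mk, ?_, ?_, ?_⟩
  · have hn : (R.subgroupOf NQ).Normal := by
      constructor
      intro n hn x
      rw [Subgroup.mem_subgroupOf] at hn ⊢
      have := normalizer_le_normalizer_sup N Q x.2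
      exact ((Subgroup.mem_normalizer_iff.1 this) _).1 hn
    exact hn.map _ hmk
  · refine IsPGroup.map ?_ _
    exact hRp.comap_of_injective NQ.subtype NQ.subtype_injective
  · intro hbot
    rw [Subgroup.map_eq_bot_iff, QuotientGroup.ker_mk'] at hbot
    have : (⟨(g : G), hg1⟩ : NQ) ∈ R.subgroupOf NQ := by
      rw [Subgroup.mem_subgroupOf]
      exact g.2
    have h3 := hbot this
    rw [Subgroup.mem_subgroupOf] at h3
    exact hg2 h3

end groups

section quot
variable {G : Type} [Group G] (N : Subgroup G) [N.Normal] (Q' : Subgroup (G ⧸ N))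

local notation "π" => (QuotientGroup.mk' N)

theorem normalizer_comap : Subgroup.normalizer ((Q'.comap π : Subgroup G) : Set G) =
    (Subgroup.normalizer (Q' : Set (G ⧸ N))).comap π :=
  (Subgroup.comap_normalizer_eq_of_surjective Q' (QuotientGroup.mk'_surjective N)).symm

/-- the restriction of `π` to the normalisers -/
def phi : Subgroup.normalizer ((Q'.comap π : Subgroup G) : Set G) →*
    Subgroup.normalizer (Q' : Set (G ⧸ N)) where
  toFun x := ⟨π x.1, (SetLike.ext_iff.1 (normalizer_comap N Q') x.1).1 x.2⟩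
  map_one' := Subtype.ext (map_one π)
  map_mul' x y := Subtype.ext (map_mul π x.1 y.1)

theorem phi_coe (x) : ((phi N Q' x : Subgroup.normalizer (Q' : Set (G ⧸ N))) : G ⧸ N) = π x.1 := rfl

theorem phi_surjective : Function.Surjective (phi N Q') := by
  intro y
  obtain ⟨x, hx⟩ := QuotientGroup.mk'_surjective N y.1
  refine ⟨⟨x, ?_⟩, ?_⟩
  · rw [normalizer_comap, Subgroup.mem_comap, hx]
    exact y.2
  · ext
    exact hx

/-- normaliser of the preimage to `N(Q')/Q'` -/
def theta : Subgroup.normalizer ((Q'.comap π : Subgroup G) : Set G) →* NormQuot Q' :=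
  (QuotientGroup.mk' _).comp (phi N Q')

theorem theta_surjective : Function.Surjective (theta N Q') :=
  (QuotientGroup.mk'_surjective _).comp (phi_surjective N Q')

theorem ker_theta : (theta N Q').ker =
    (Q'.comap π).subgroupOf (Subgroup.normalizer ((Q'.comap π : Subgroup G) : Set G)) := by
  ext x
  rw [theta, MonoidHom.mem_ker, MonoidHom.comp_apply, ← MonoidHom.mem_ker, QuotientGroup.ker_mk',
    Subgroup.mem_subgroupOf, Subgroup.mem_subgroupOf, phi_coe, Subgroup.mem_comap]

/-- `N_G(π⁻¹ Q')/π⁻¹ Q' ≃* N_{G/N}(Q')/Q'` -/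
noncomputable def psi : NormQuot (Q'.comap π) ≃* NormQuot Q' :=
  (QuotientGroup.quotientMulEquivOfEq (ker_theta N Q').symm).trans
    (QuotientGroup.quotientKerEquivOfSurjective (theta N Q') (theta_surjective N Q'))

theorem psi_mk (x : Subgroup.normalizer ((Q'.comap π : Subgroup G) : Set G)) :
    psi N Q' (QuotientGroup.mk x) = QuotientGroup.mk (phi N Q' x) := rfl

theorem card_normalizer_comap [Finite G] :
    Nat.card (Subgroup.normalizer ((Q'.comap π : Subgroup G) : Set G)) =
      Nat.card N * Nat.card (Subgroup.normalizer (Q' : Set (G ⧸ N))) := by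
  rw [normalizer_comap]
  exact QuotientGroup.card_preimage_mk N (Subgroup.normalizer (Q' : Set (G ⧸ N)) : Set (G ⧸ N))

end quot

section local_image
variable {k G : Type} [Field k] [Group G] [Finite G] (N : Subgroup G) [N.Normal]
  (Q' : Subgroup (G ⧸ N))

theorem restrictCoeff_quot (e : MonoidAlgebra k G) :
    mapDomain (phi N Q') (restrictCoeff (Subgroup.normalizer ((Q'.comap (QuotientGroup.mk' N) :
      Subgroup G) : Set G)) e) =
    restrictCoeff (Subgroup.normalizer (Q' : Set (G ⧸ N))) (mapDomain (QuotientGroup.mk' N) e) := by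
  classical
  have := Fintype.ofFinite G
  ext h
  rw [coeff_mapDomain_fin]
  change _ = (mapDomain (QuotientGroup.mk' N) e).coeff (h : G ⧸ N)
  rw [coeff_mapDomain_fin]
  refine Fintype.sum_of_injective
    (Subtype.val : Subgroup.normalizer ((Q'.comap (QuotientGroup.mk' N) : Subgroup G) : Set G) → G)
    Subtype.val_injective _ _ ?_ ?_
  · intro g hg
    rw [if_neg]
    intro hgh
    apply hg
    refine ⟨⟨g, ?_⟩, rfl⟩
    rw [normalizer_comap, Subgroup.mem_comap, hgh]
    exact h.2
  · intro x
    have hiff : phi N Q' x = h ↔ (QuotientGroup.mk' N) (x : G) = (h : G ⧸ N) := by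
      rw [Subtype.ext_iff, phi_coe]
    simp only [hiff]
    rfl

theorem mapDomain_psi_localImage (e : MonoidAlgebra k G) :
    mapDomain (psi N Q') (localImage (Q'.comap (QuotientGroup.mk' N)) e) =
      localImage Q' (mapDomain (QuotientGroup.mk' N) e) := by
  unfold localImage
  rw [← restrictCoeff_quot]
  ext h
  simp only [coeff_mapDomain, ← Finsupp.mapDomain_comp]
  rfl

end local_image

/-! ### transport along a ring isomorphism -/

section transport
variable {A B : Type} [Ring A] [Ring B] (φ : A ≃+* B)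

/-- image of a left ideal under a ring isomorphism -/
def mp (m : Submodule A A) : Submodule B B where
  carrier := {b | φ.symm b ∈ m}
  add_mem' := by
    intro a b ha hb
    simp only [Set.mem_ofPred_eq, map_add] at *
    exact m.add_mem ha hb
  zero_mem' := by simp
  smul_mem' := by
    intro c b hb
    simp only [Set.mem_ofPred_eq, smul_eq_mul, map_mul] at *
    exact m.smul_mem _ hb

theorem mem_mp (m : Submodule A A) (b : B) : b ∈ mp φ m ↔ φ.symm b ∈ m := Iff.rfl

/-- left ideals of isomorphic rings -/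
def mpIso : Submodule A A ≃o Submodule B B where
  toFun := mp φ
  invFun := mp φ.symm
  left_inv m := by ext x; simp [mem_mp]
  right_inv m := by
    ext x
    change φ.symm.symm (φ.symm x) ∈ m ↔ x ∈ m
    rw [RingEquiv.symm_symm, RingEquiv.apply_symm_apply]
  map_rel_iff' := by
    intro m m'
    constructor
    · intro h x hx
      have := h (show φ x ∈ mp φ m by simpa [mem_mp] using hx)
      simpa [mem_mp] using this
    · intro h x hx
      exact h hx

theorem mp_symm_mp (m : Submodule A A) : mp φ.symm (mp φ m) = m := (mpIso φ).left_inv m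

/-- quotients of isomorphic rings by corresponding left ideals, additively -/
def quotAdd (m : Submodule A A) : (A ⧸ m) ≃+ (B ⧸ mp φ m) :=
  QuotientAddGroup.congr m.toAddSubgroup (mp φ m).toAddSubgroup φ.toAddEquiv (by
    ext b
    simp only [AddSubgroup.mem_map, Submodule.mem_toAddSubgroup, mem_mp]
    constructor
    · rintro ⟨a, ha, rfl⟩
      simpa using ha
    · intro h
      exact ⟨φ.symm b, h, by simp⟩)

theorem quotAdd_mk (m : Submodule A A) (a : A) :
    quotAdd φ m (Submodule.Quotient.mk a) = Submodule.Quotient.mk (φ a) := rfl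

theorem quotAdd_smul (m : Submodule A A) (a : A) (x : A ⧸ m) :
    quotAdd φ m (a • x) = φ a • quotAdd φ m x := by
  obtain ⟨x, rfl⟩ := Submodule.Quotient.mk_surjective _ x
  rw [← Submodule.Quotient.mk_smul, quotAdd_mk, quotAdd_mk, ← Submodule.Quotient.mk_smul,
    smul_eq_mul, smul_eq_mul, map_mul]

theorem nonempty_quot_iff_aux (m m' : Submodule A A) (h : Nonempty ((A ⧸ m) ≃ₗ[A] (A ⧸ m'))) :
    Nonempty ((B ⧸ mp φ m) ≃ₗ[B] (B ⧸ mp φ m')) := by
  obtain ⟨f⟩ := h
  refine ⟨{ ((quotAdd φ m).symm.trans (f.toAddEquiv.trans (quotAdd φ m'))) with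
    map_smul' := ?_ }⟩
  intro b x
  obtain ⟨a, rfl⟩ := φ.surjective b
  obtain ⟨y, rfl⟩ := (quotAdd φ m).surjective x
  simp only [AddEquiv.toEquiv_eq_coe, Equiv.toFun_as_coe, EquivLike.coe_coe, AddEquiv.trans_apply,
    RingHom.id_apply]
  rw [← quotAdd_smul]
  simp only [AddEquiv.symm_apply_apply]
  change quotAdd φ m' (f (a • y)) = φ a • quotAdd φ m' (f y)
  rw [map_smul, quotAdd_smul]

theorem nonempty_quot_iff (m m' : Submodule A A) :
    Nonempty ((A ⧸ m) ≃ₗ[A] (A ⧸ m')) ↔ Nonempty ((B ⧸ mp φ m) ≃ₗ[B] (B ⧸ mp φ m')) := by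
  refine ⟨nonempty_quot_iff_aux φ m m', fun h => ?_⟩
  have := nonempty_quot_iff_aux φ.symm _ _ h
  rwa [mp_symm_mp, mp_symm_mp] at this

/-- `simpleClassCount` is invariant under ring isomorphisms -/
theorem simpleClassCount_congr (P : Submodule A A → Prop) (P' : Submodule B B → Prop)
    (h : ∀ m, P m ↔ P' (mp φ m)) : simpleClassCount A P = simpleClassCount B P' := by
  unfold simpleClassCount
  apply Nat.card_congr
  let E : {m : Submodule A A // IsCoatom m ∧ P m} ≃ {m : Submodule B B // IsCoatom m ∧ P' m} :=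
    (mpIso φ).toEquiv.subtypeEquiv (by
      intro m
      have h1 : IsCoatom m ↔ IsCoatom (mpIso φ m) := (OrderIso.isCoatom_iff (mpIso φ) m).symm
      rw [h m, h1]
      rfl)
  refine Quotient.congr E ?_
  intro a b
  exact nonempty_quot_iff φ a.1 b.1

theorem projective_iff_aux (m : Submodule A A) (h : Module.Projective A (A ⧸ m)) :
    Module.Projective B (B ⧸ mp φ m) := by
  have : RingHomInvPair (φ : A →+* B) (φ.symm : B →+* A) := RingHomInvPair.of_ringEquiv φ
  have : RingHomInvPair (φ.symm : B →+* A) (φ : A →+* B) := RingHomInvPair.of_ringEquiv φ.symm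
  let e₂ : (A ⧸ m) ≃ₛₗ[(φ : A →+* B)] (B ⧸ mp φ m) :=
    { quotAdd φ m with
      map_smul' := fun a x => quotAdd_smul φ m a x }
  exact Module.Projective.of_equiv e₂

theorem projective_iff (m : Submodule A A) :
    Module.Projective A (A ⧸ m) ↔ Module.Projective B (B ⧸ mp φ m) := by
  refine ⟨projective_iff_aux φ m, fun h => ?_⟩
  have := projective_iff_aux φ.symm _ h
  rwa [mp_symm_mp] at this

end transport

section f0
variable {k G H : Type} [Field k] [Group G] [Group H]

theorem one_sub_mem_mp (ψ : G ≃* H) (x : MonoidAlgebra k G)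
    (m : Submodule (MonoidAlgebra k G) (MonoidAlgebra k G)) :
    1 - x ∈ m ↔ 1 - mapDomain ψ x ∈ mp (mapDomainRingEquiv k ψ) m := by
  have h : mapDomainRingEquiv k ψ (1 - x) = 1 - mapDomain ψ x := by
    rw [map_sub, map_one]
    rfl
  rw [← h, mem_mp, RingEquiv.symm_apply_apply]

theorem f0_congr (ψ : G ≃* H) (x : MonoidAlgebra k G) : f0 (mapDomain ψ x) = f0 x := by
  unfold f0
  symm
  apply simpleClassCount_congr (mapDomainRingEquiv k ψ)
  intro m
  rw [← projective_iff (mapDomainRingEquiv k ψ) m, one_sub_mem_mp ψ x m]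

theorem lc_congr (ψ : G ≃* H) (x : MonoidAlgebra k G) : lc (mapDomain ψ x) = lc x := by
  unfold lc blockSimpleCount
  symm
  apply simpleClassCount_congr (mapDomainRingEquiv k ψ)
  intro m
  rw [one_sub_mem_mp ψ x m]

end f0

/-! ### the main statement -/

section main
variable {k G : Type} [Field k] [Group G] [Finite G] {p : ℕ} [hp : Fact p.Prime]

omit [Finite G] hp in
theorem isPGroup_comap {N : Subgroup G} [N.Normal] (hN : IsPGroup p N) (Q' : Subgroup (G ⧸ N))
    (hQ' : IsPGroup p Q') : IsPGroup p (Q'.comap (QuotientGroup.mk' N) : Subgroup G) := by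
  apply hQ'.comap_of_ker_isPGroup
  rwa [QuotientGroup.ker_mk']

theorem f0_local_quot (N : Subgroup G) [N.Normal] (Q' : Subgroup (G ⧸ N))
    (e : MonoidAlgebra k G) :
    f0 (localImage (Q'.comap (QuotientGroup.mk' N)) e) =
      f0 (localImage Q' (mapDomain (QuotientGroup.mk' N) e)) := by
  rw [← mapDomain_psi_localImage, f0_congr]

/-- `W(G, e) = W(G/N, image of e)`, with vanishing of `f0` for groups with a nontrivial normal
`p`-subgroup (J2) as a hypothesis. -/
theorem Wt_quot_of (N : Subgroup G) [N.Normal] (hN : IsPGroup p N) (e : MonoidAlgebra k G)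
    (hJ2 : ∀ Q : Subgroup G, IsPGroup p Q → ∀ P : Subgroup (NormQuot Q), P.Normal →
      IsPGroup p P → P ≠ ⊥ → f0 (localImage Q e) = 0) :
    Wt p e = Nat.card N * Wt p (mapDomain (QuotientGroup.mk' N) e) := by
  classical
  have := Fintype.ofFinite {Q : Subgroup G // IsPGroup p Q}
  have := Fintype.ofFinite {Q : Subgroup (G ⧸ N) // IsPGroup p Q}
  unfold Wt
  rw [finsum_eq_sum_of_fintype, finsum_eq_sum_of_fintype, Finset.mul_sum]
  symm
  refine Fintype.sum_of_injective
    (fun Q' : {Q : Subgroup (G ⧸ N) // IsPGroup p Q} =>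
      (⟨Q'.1.comap (QuotientGroup.mk' N), isPGroup_comap hN Q'.1 Q'.2⟩ :
        {Q : Subgroup G // IsPGroup p Q})) ?_ _ _ ?_ ?_
  · intro a b hab
    have h := congrArg Subtype.val hab
    exact Subtype.ext (Subgroup.comap_injective (QuotientGroup.mk'_surjective N) h)
  · intro Q hQ
    have hNQ : ¬ N ≤ Q.1 := by
      intro h
      apply hQ
      refine ⟨⟨Q.1.map (QuotientGroup.mk' N), Q.2.map _⟩, ?_⟩
      apply Subtype.ext
      change (Q.1.map (QuotientGroup.mk' N)).comap (QuotientGroup.mk' N) = Q.1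
      rw [Subgroup.comap_map_eq, QuotientGroup.ker_mk']
      exact sup_eq_left.2 h
    obtain ⟨P, h1, h2, h3⟩ := exists_normal_p_normQuot N hN Q.1 Q.2 hNQ
    rw [hJ2 Q.1 Q.2 P h1 h2 h3, mul_zero]
  · intro Q'
    change Nat.card N * (Nat.card (Subgroup.normalizer (Q'.1 : Set (G ⧸ N))) * _) =
      Nat.card (Subgroup.normalizer ((Q'.1.comap (QuotientGroup.mk' N) : Subgroup G) : Set G)) * _
    rw [card_normalizer_comap, f0_local_quot, mul_assoc]

end main

/-! ### `f0 = 0` in the presence of a nontrivial normal `p`-subgroup -/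

section J2
variable {k G : Type} [Field k] [Group G] [Finite G] {p : ℕ} [hp : Fact p.Prime] [CharP k p]

/-- a left `N`-invariant element squares to zero, `N` a nontrivial normal `p`-subgroup -/
theorem sq_zero (N : Subgroup G) [hN : N.Normal] (hNp : IsPGroup p N) (hne : N ≠ ⊥)
    (f : MonoidAlgebra k G) (hf : ∀ n ∈ N, single n (1 : k) * f = f) : f * f = 0 := by
  classical
  have := Fintype.ofFinite G
  have hinv : ∀ n ∈ N, ∀ g : G, f.coeff (n * g) = f.coeff g := by
    intro n hn g
    have h := hf n⁻¹ (N.inv_mem hn)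
    have h2 : (single n⁻¹ (1 : k) * f).coeff g = f.coeff (n * g) := by
      rw [MonoidAlgebra.coeff_single_mul_eq_mul_coeff (n * g) (by
      intro m' _
      rw [inv_mul_eq_iff_eq_mul]), one_mul]
    rw [← h2, h]
  -- an element of order `p` in `N`
  obtain ⟨x, hxN, hxo⟩ : ∃ x ∈ N, orderOf x = p := by
    have hnt : Nontrivial N := (Subgroup.nontrivial_iff_ne_bot N).2 hne
    have hdvd : p ∣ Nat.card N := by
      rcases hNp.card_eq_or_dvd with h | h
      · exact absurd h (by rw [Nat.card_eq_one_iff_unique]; rintro ⟨h1, _⟩; exact not_subsingleton N h1)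
      · exact h
    obtain ⟨x, hx⟩ := exists_prime_orderOf_dvd_card' p hdvd
    exact ⟨x.1, x.2, by rw [Subgroup.orderOf_coe]; exact hx⟩
  ext g
  rw [J482.coeff_mul_fin]
  let F : Function.End G := fun h => x * h
  have hFpow : ∀ n : ℕ, ∀ h : G, (F ^ n) h = x ^ n * h := by
    intro n
    induction n with
    | zero => intro h; simp; rfl
    | succ n ih =>
      intro h
      rw [pow_succ', pow_succ']
      change x * ((F ^ n) h) = _
      rw [ih, mul_assoc]
  have hF1 : F ^ p ^ 1 = 1 := by
    funext h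
    rw [hFpow, pow_one, ← hxo, pow_orderOf_eq_one, one_mul]
    rfl
  have key := J482.sum_fixed (R := k) p 1 F hF1 (fun h => f.coeff h * f.coeff (h⁻¹ * g)) (by
    intro h
    change f.coeff (x * h) * f.coeff ((x * h)⁻¹ * g) = _
    rw [hinv x hxN]
    have h3 : (x * h)⁻¹ * g = (h⁻¹ * x⁻¹ * h) * (h⁻¹ * g) := by group
    have h4 : h⁻¹ * x⁻¹ * h ∈ N := by
      have := hN.conj_mem x⁻¹ (N.inv_mem hxN) h⁻¹
      simpa using this
    rw [h3, hinv _ h4])
  have hempty : (Finset.univ.filter fun a : G => F a = a) = ∅ := by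
    apply Finset.filter_eq_empty_iff.2
    intro a _ ha
    change x * a = a at ha
    rw [mul_eq_right] at ha
    rw [ha, orderOf_one] at hxo
    exact hp.out.one_lt.ne hxo
  rw [hempty, Finset.sum_empty] at key
  exact key

/-- (J2) in the strong form: no hypothesis on `e` -/
theorem f0_eq_zero (N : Subgroup G) [hN : N.Normal] (hNp : IsPGroup p N) (hne : N ≠ ⊥)
    (e : MonoidAlgebra k G) : f0 e = 0 := by
  unfold f0 simpleClassCount
  rw [Nat.card_eq_zero]
  left
  rw [← not_nonempty_iff]
  rintro ⟨q⟩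
  obtain ⟨⟨m, hm, hpr, _⟩, rfl⟩ := Quotient.exists_rep q
  rw [Q940.proj_iff] at hpr
  obtain ⟨f, hf1, hf2⟩ := hpr
  have h1 : ∀ n ∈ N, single n (1 : k) * f = f := by
    intro n hn
    have := hf2 _ (Q940.fix_all N hNp hm hn)
    rw [sub_mul, one_mul, sub_eq_zero] at this
    exact this
  have h2 := sq_zero N hNp hne f h1
  have h3 := hf2 _ hf1
  rw [sub_mul, one_mul, h2, sub_zero] at h3
  rw [h3, sub_zero] at hf1
  exact hm.1 (Ideal.eq_top_of_isUnit_mem (I := m) hf1 isUnit_one)

end J2

/-! ### the literal joints -/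

section final
variable (p : ℕ) [hp : Fact p.Prime] (k : Type) [Field k] [IsAlgClosed k] [CharP k p]

omit [IsAlgClosed k] in
theorem sJ2 : SJ2 p k := by
  rintro G _ _ e _ ⟨N, hN, hNp, hne⟩
  exact f0_eq_zero N hNp hne e

omit [IsAlgClosed k] in
theorem Wt_quot (G : Type) [Group G] [Finite G] (e : MonoidAlgebra k G) (N : Subgroup G)
    [N.Normal] (hN : IsPGroup p N) :
    Wt p e = Nat.card N * Wt p (MonoidAlgebra.mapDomain (QuotientGroup.mk : G → G ⧸ N) e) :=
  Wt_quot_of N hN e fun _ _ P hP hPp hne => @f0_eq_zero k _ _ _ _ p hp _ P hP hPp hne _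

omit [IsAlgClosed k] in
theorem sQl : SQl p k := by
  intro G _ _ e N _ hN _
  exact (Q940.lc_quot N hN e).symm

omit [IsAlgClosed k] in
theorem sQd : SQd p k := by
  intro G _ _ e N _ hN he
  unfold dG
  rw [Wt_quot p k G e N hN, ← sQl p k G e N hN he,
    Subgroup.card_eq_card_quotient_mul_card_subgroup N]
  push_cast
  ring

end final

end Crest.Agent.R170.QW544
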