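import Crest.Agent.R170.P2_714
import Crest.Agent.R170.QW_544
import Crest.Agent.R170.BR_606

/-!
# Row 170, leaf P (helper714), part 3: `SP` from `STP` and `SM` only
-/

set_option autoImplicit false

namespace Crest.Agent.R170.P714

/-- **LEAF P**: everything except `STP` and `SM` plugged -/
theorem sp' (p : ℕ) [Fact p.Prime] (k : Type) [Field k] [IsAlgClosed k] [CharP k p]
    (hTP : STP p k) (hM : SM p k) : SP p k :=
  sp p k hTP hM (QW544.sQd p k) (BR606.sBrCI p k)

end Crest.Agent.R170.P714
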