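import Mathlib

/-!
# Row 170, leaf FIN, part 1: the valuation argument (helper534)

`amp_dvd` : if `p ∣ l - w` and `(l^p - l)/p + l`, `(w^p - w)/p + w` are the amplified numbers then
the `p`-part of the difference drops by exactly one factor `p`.
`eq_of_amp` : two numerical functions `l`, `w` on a class closed under the amplification, congruent
mod `p` everywhere, are equal.
-/

set_option autoImplicit false

namespace Crest.Agent.R170.FIN534

/-- the amplified number: number of orbits of `C_p` on `p`-tuples, plus the `p - 1` extra ones of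
every constant tuple removed: `(l ^ p - l) / p + l` -/
def amp (p l : ℕ) : ℕ := (l ^ p - l) / p + l

theorem dvd_pow_sub (p : ℕ) (hp : p.Prime) (l : ℕ) : p ∣ l ^ p - l := by
  have := Fact.mk hp
  have h1 : l ≤ l ^ p := Nat.le_self_pow hp.ne_zero l
  have h2 : ((l ^ p - l : ℕ) : ZMod p) = 0 := by
    rw [Nat.cast_sub h1, Nat.cast_pow, ZMod.pow_card, sub_self]
  exact (ZMod.natCast_eq_zero_iff _ _).1 h2

/-- `p * amp l = l ^ p - l + p * l` in `ℤ` -/
theorem amp_mul (p : ℕ) (hp : p.Prime) (l : ℕ) :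
    (p : ℤ) * (amp p l : ℤ) = (l : ℤ) ^ p - l + p * l := by
  obtain ⟨c, hc⟩ := dvd_pow_sub p hp l
  have h1 : l ≤ l ^ p := Nat.le_self_pow hp.ne_zero l
  have h2 : (l ^ p - l) / p = c := by
    rw [hc]; exact Nat.mul_div_cancel_left c hp.pos
  have h3 : ((l : ℤ) ^ p - l) = p * c := by
    have h4 : ((l ^ p - l : ℕ) : ℤ) = ((p * c : ℕ) : ℤ) := by rw [hc]
    rw [Nat.cast_sub h1] at h4
    push_cast at h4
    linarith
  unfold amp
  rw [h2]
  push_cast
  linarith

/-- the power difference gains one factor `p` -/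
theorem dvd_pow_sub_pow (p : ℕ) (l w : ℤ) (a : ℕ) (h : (p : ℤ) ^ (a + 1) ∣ l - w) :
    (p : ℤ) ^ (a + 2) ∣ l ^ p - w ^ p := by
  have h1 : (∑ i ∈ Finset.range p, l ^ i * w ^ (p - 1 - i)) * (l - w) = l ^ p - w ^ p :=
    (Commute.all l w).geom_sum₂_mul p
  have h2 : (p : ℤ) ∣ ∑ i ∈ Finset.range p, l ^ i * w ^ (p - 1 - i) := by
    have h3 : (p : ℤ) ∣ l - w := (dvd_pow_self _ (Nat.succ_ne_zero a)).trans h
    have h4 : (((∑ i ∈ Finset.range p, l ^ i * w ^ (p - 1 - i) : ℤ)) : ZMod p) = 0 := by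
      have h5 : ((l : ℤ) : ZMod p) = ((w : ℤ) : ZMod p) := by
        have := (ZMod.intCast_zmod_eq_zero_iff_dvd (l - w) p).2 h3
        rw [Int.cast_sub, sub_eq_zero] at this
        exact this
      push_cast
      rw [h5]
      have h6 : ∀ i ∈ Finset.range p, ((w : ℤ) : ZMod p) ^ i * ((w : ℤ) : ZMod p) ^ (p - 1 - i) =
          ((w : ℤ) : ZMod p) ^ (p - 1) := by
        intro i hi
        rw [← pow_add]
        congr 1
        have := Finset.mem_range.1 hi
        omega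
      rw [Finset.sum_congr rfl h6, Finset.sum_const, Finset.card_range, nsmul_eq_mul]
      simp
    exact (ZMod.intCast_zmod_eq_zero_iff_dvd _ p).1 h4
  rw [← h1, pow_succ' (p : ℤ) (a + 1)]
  exact mul_dvd_mul h2 h

/-- the difference of the amplified numbers has exactly one factor `p` less -/
theorem amp_dvd (p : ℕ) (hp : p.Prime) (l w a : ℕ)
    (h : (p : ℤ) ^ (a + 1) ∣ (l : ℤ) - w) (h' : ¬ (p : ℤ) ^ (a + 2) ∣ (l : ℤ) - w) :
    ¬ (p : ℤ) ^ (a + 1) ∣ (amp p l : ℤ) - amp p w := by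
  intro hd
  apply h'
  have e : (p : ℤ) * ((amp p l : ℤ) - amp p w) =
      ((l : ℤ) ^ p - (w : ℤ) ^ p) + ((p : ℤ) * ((l : ℤ) - w) - ((l : ℤ) - w)) := by
    rw [mul_sub, amp_mul p hp, amp_mul p hp]; ring
  have h1 : (p : ℤ) ^ (a + 2) ∣ (p : ℤ) * ((amp p l : ℤ) - amp p w) := by
    rw [pow_succ' (p : ℤ) (a + 1)]
    exact mul_dvd_mul_left _ hd
  have h2 := dvd_pow_sub_pow p l w a h
  have h3 : (p : ℤ) ^ (a + 2) ∣ (p : ℤ) * ((l : ℤ) - w) := by
    rw [pow_succ' (p : ℤ) (a + 1)]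
    exact mul_dvd_mul_left _ h
  have h4 : ((l : ℤ) - w) = ((l : ℤ) ^ p - (w : ℤ) ^ p) + (p : ℤ) * ((l : ℤ) - w) -
      (p : ℤ) * ((amp p l : ℤ) - amp p w) := by
    rw [e]; ring
  rw [h4]
  exact dvd_sub (dvd_add h2 h3) h1

/-- **the valuation argument** -/
theorem eq_of_amp {S : Type*} (p : ℕ) (hp : p.Prime) (l w : S → ℕ)
    (hamp : ∀ s, ∃ s', l s' = amp p (l s) ∧ w s' = amp p (w s))
    (hmod : ∀ s, (p : ℤ) ∣ (l s : ℤ) - w s) (s : S) : l s = w s := by
  -- no difference has finite positive valuation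
  have key : ∀ (a : ℕ) (s : S), (p : ℤ) ^ (a + 1) ∣ (l s : ℤ) - w s := by
    intro a
    induction a with
    | zero => intro s; simpa using hmod s
    | succ a ih =>
      intro s
      by_contra hno
      obtain ⟨s', h1, h2⟩ := hamp s
      have h3 := amp_dvd p hp (l s) (w s) a (ih s) hno
      rw [← h1, ← h2] at h3
      exact h3 (ih s')
  by_contra hne
  have hne' : (l s : ℤ) - w s ≠ 0 := by
    intro h0
    apply hne
    have : (l s : ℤ) = w s := by linarith
    exact_mod_cast this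
  have hpos : 0 < ((l s : ℤ) - w s).natAbs := Int.natAbs_pos.2 hne'
  have h4 := key ((l s : ℤ) - w s).natAbs s
  have h5 : p ^ (((l s : ℤ) - w s).natAbs + 1) ∣ ((l s : ℤ) - w s).natAbs := by
    have := Int.natAbs_dvd_natAbs.2 h4
    rwa [Int.natAbs_pow, Int.natAbs_natCast] at this
  have h6 := Nat.le_of_dvd hpos h5
  have h7 : ((l s : ℤ) - w s).natAbs + 1 < p ^ (((l s : ℤ) - w s).natAbs + 1) :=
    Nat.lt_pow_self hp.one_lt
  omega

end Crest.Agent.R170.FIN534
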