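import Crest.Agent.R170.Wr_350
import Crest.Agent.R170.SCC_538

/-!
# Row 170, leaf WW4 (helper148): local images in the wreath product `G ≀ᵣ Q`

`wE Q e` is the element `e ⊗ ... ⊗ e` of `k[G^Q] ⊆ k[G ≀ᵣ Q]` (definitions of Wr_350).

* `CI_wE`: it is a central idempotent if `e` is.
* `f0_prodSub_const`, `f0_prodSub_base`, `f0_wrSub`: `f0` of the local images.
* `localImage_coeff`: coefficients of a local image.
* `mem_norm_prodSub_const`, `mem_norm_prodSub_left`, `mem_norm_wrSub`: the normalisers.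
-/

set_option autoImplicit false

namespace Crest.Agent.R170.WW4148

open RegularWreathProduct Crest.AlgebraR.Weights

variable {k G Q : Type} [Field k] [Group G] [Group Q] [Finite G] [Fintype Q]

theorem wE_coeff_one (e : MonoidAlgebra k G) (x : G ≀ᵣ Q) (h : x.right = 1) :
    (wE Q e).coeff x = ∏ i, e.coeff (x.left i) := by
  rw [wE_coeff, if_pos h]

theorem wE_coeff_ne (e : MonoidAlgebra k G) (x : G ≀ᵣ Q) (h : x.right ≠ 1) :
    (wE Q e).coeff x = 0 := by
  rw [wE_coeff, if_neg h]

/-- the coefficients of a product in a finite group algebra -/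
theorem coeff_mul_sum {H : Type*} [Group H] [Fintype H] (a b : MonoidAlgebra k H) (g : H) :
    (a * b).coeff g = ∑ h, a.coeff h * b.coeff (h⁻¹ * g) := by
  rw [MonoidAlgebra.coeff_mul_apply_left, Finsupp.sum_fintype _ _ (by simp)]

omit [Group G] [Group Q] [Finite G] in
/-- `G^Q × Q` -/
theorem sum_wr {H : Type*} [AddCommMonoid H] [Fintype G] [Fintype (G ≀ᵣ Q)] [DecidableEq Q]
    (f : G ≀ᵣ Q → H) : ∑ x, f x = ∑ q : Q, ∑ y : Q → G, f ⟨y, q⟩ := by
  rw [← (equivProd G Q).symm.sum_comp, Fintype.sum_prod_type_right]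
  rfl

theorem wE_mul (a b : MonoidAlgebra k G) : wE Q (a * b) = wE Q a * wE Q b := by
  classical
  let _ : Fintype G := Fintype.ofFinite G
  let _ : Fintype (G ≀ᵣ Q) := Fintype.ofFinite _
  ext x
  rw [coeff_mul_sum, sum_wr]
  rw [Finset.sum_eq_single (1 : Q)]
  · by_cases hx : x.right = 1
    · rw [wE_coeff_one _ _ hx]
      have h1 : ∀ y : Q → G, (wE Q a).coeff ⟨y, 1⟩ * (wE Q b).coeff ((⟨y, 1⟩ : G ≀ᵣ Q)⁻¹ * x)
          = ∏ i, (a.coeff (y i) * b.coeff ((y i)⁻¹ * x.left i)) := by
        intro y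
        rw [wE_coeff_one _ _ rfl, wE_coeff_one _ _ (by simp [hx]), ← Finset.prod_mul_distrib]
        refine Finset.prod_congr rfl fun i _ => ?_
        simp
      simp only [h1, coeff_mul_sum]
      exact Fintype.prod_sum _
    · rw [wE_coeff_ne _ _ hx, Finset.sum_eq_zero]
      intro y _
      rw [wE_coeff_ne b _ (by simpa using hx), mul_zero]
  · intro q _ hq
    refine Finset.sum_eq_zero fun y _ => ?_
    rw [wE_coeff_ne a _ hq, zero_mul]
  · simp

theorem wE_idem (e : MonoidAlgebra k G) (h : e * e = e) : wE Q e * wE Q e = wE Q e := by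
  rw [← wE_mul, h]

/-- central elements = class functions -/
theorem central_iff {H : Type*} [Group H] (z : MonoidAlgebra k H) :
    (∀ x, z * x = x * z) ↔ ∀ g h, z.coeff (g * h * g⁻¹) = z.coeff h := by
  constructor
  · intro hz g h
    have h1 := congrArg (fun w : MonoidAlgebra k H => w.coeff (g * h)) (hz (MonoidAlgebra.single g 1))
    simp only [MonoidAlgebra.coeff_mul_single_apply, MonoidAlgebra.coeff_single_mul_apply] at h1
    simpa using h1
  · intro hz x
    induction x using MonoidAlgebra.induction_linear with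
    | zero => simp
    | add a b ha hb => rw [mul_add, add_mul, ha, hb]
    | single g r =>
      ext h
      rw [MonoidAlgebra.coeff_mul_single_apply, MonoidAlgebra.coeff_single_mul_apply]
      have := hz g (g⁻¹ * h)
      rw [mul_comm r, ← this]
      simp

theorem wE_central (e : MonoidAlgebra k G) (h : ∀ x, e * x = x * e) (x : MonoidAlgebra k (G ≀ᵣ Q)) :
    wE Q e * x = x * wE Q e := by
  revert x
  rw [central_iff]
  rw [central_iff] at h
  intro g x
  by_cases hx : x.right = 1
  · rw [wE_coeff_one _ _ hx, wE_coeff_one _ _ (by simp [hx])]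
    have h1 : ∀ i, (g * x * g⁻¹).left i = g.left i * x.left (g.right⁻¹ * i) * (g.left i)⁻¹ := by
      intro i
      simp [hx, mul_assoc]
    simp only [h1, h]
    exact Fintype.prod_equiv (Equiv.mulLeft g.right⁻¹) _ _ fun i => rfl
  · rw [wE_coeff_ne _ _ hx, wE_coeff_ne]
    simpa using hx

/-! ### coefficients of local images -/

omit [Group G] in
theorem sum_subgroup' {H A : Type*} [Group H] [Fintype H] [AddCommMonoid A] (K : Subgroup H)
    [Fintype K] [DecidablePred (· ∈ K)] (F : H → A) :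
    ∑ m : K, F m = ∑ x, if x ∈ K then F x else 0 := by
  rw [← Finset.sum_filter]
  exact (Finset.sum_subtype (Finset.univ.filter (· ∈ K)) (by simp) F).symm

theorem coeff_mapDomain_sum {M N : Type*} [Fintype M] [DecidableEq N] (f : M → N)
    (x : MonoidAlgebra k M) (n : N) :
    (MonoidAlgebra.mapDomain f x).coeff n = ∑ m, if f m = n then x.coeff m else 0 := by
  classical
  show (Finsupp.mapDomain f x.coeff) n = _
  rw [Finsupp.mapDomain, Finsupp.sum_apply, Finsupp.sum_fintype _ _ (by simp)]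
  refine Finset.sum_congr rfl fun m _ => ?_
  rw [Finsupp.single_apply]

theorem localImage_coeff (Q : Subgroup G) [Fintype Q] (z : MonoidAlgebra k G)
    (g : Subgroup.normalizer (Q : Set G)) :
    (localImage Q z).coeff (QuotientGroup.mk g : NormQuot Q) = ∑ q : Q, z.coeff ((g : G) * q) := by
  classical
  let _ : Fintype G := Fintype.ofFinite G
  let _ : Fintype (Subgroup.normalizer (Q : Set G)) := Fintype.ofFinite _
  rw [localImage, coeff_mapDomain_sum]
  rw [← Equiv.sum_comp (Equiv.mulLeft g)]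
  rw [sum_subgroup' Q (fun x => z.coeff ((g : G) * x))]
  have h1 : ∀ m : Subgroup.normalizer (Q : Set G),
      (if (QuotientGroup.mk ((Equiv.mulLeft g) m) : NormQuot Q) = QuotientGroup.mk g then
        (restrictCoeff (Subgroup.normalizer (Q : Set G)) z).coeff ((Equiv.mulLeft g) m) else 0)
      = (fun x : G => if x ∈ Q then z.coeff ((g : G) * x) else 0) m := by
    intro m
    have h2 : (QuotientGroup.mk ((Equiv.mulLeft g) m) : NormQuot Q) = QuotientGroup.mk g ↔
        (m : G) ∈ Q := by
      rw [eq_comm, QuotientGroup.eq]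
      simp [Subgroup.mem_subgroupOf]
    beta_reduce
    by_cases hm : (m : G) ∈ Q
    · rw [if_pos (h2.2 hm), if_pos hm]
      simp [restrictCoeff]
    · rw [if_neg (fun h => hm (h2.1 h)), if_neg hm]
  simp only [h1]
  rw [sum_subgroup' (Subgroup.normalizer (Q : Set G)) (fun x : G => if x ∈ Q then z.coeff ((g : G) * x) else 0)]
  refine Finset.sum_congr rfl fun x _ => ?_
  by_cases hx : x ∈ Q
  · simp [hx, Subgroup.le_normalizer hx]
  · simp [hx]

omit [Finite G] [Fintype Q] in
theorem conj_left (g x : G ≀ᵣ Q) (i : Q) : (g * x * g⁻¹).left i =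
    g.left i * x.left (g.right⁻¹ * i) * (g.left (g.right * x.right⁻¹ * g.right⁻¹ * i))⁻¹ := by
  simp [mul_assoc]

omit [Finite G] [Fintype Q] in
theorem mem_norm_prodSub_const {R : Subgroup G} {x : G ≀ᵣ Q} :
    x ∈ Subgroup.normalizer ((prodSub fun _ : Q => R : Subgroup (G ≀ᵣ Q)) : Set (G ≀ᵣ Q)) ↔
      ∀ i, x.left i ∈ Subgroup.normalizer (R : Set G) := by
  classical
  rw [Subgroup.mem_normalizer_iff]
  constructor
  · intro h i
    rw [Subgroup.mem_normalizer_iff]
    intro r
    have h1 := h ⟨Pi.mulSingle (x.right⁻¹ * i) r, 1⟩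
    rw [mem_prodSub, mem_prodSub] at h1
    have h2 : (∀ j, (⟨Pi.mulSingle (x.right⁻¹ * i) r, 1⟩ : G ≀ᵣ Q).left j ∈ R) ↔ r ∈ R := by
      constructor
      · intro h
        simpa using h (x.right⁻¹ * i)
      · intro hr j
        by_cases hj : j = x.right⁻¹ * i
        · subst hj; simpa using hr
        · simp [Pi.mulSingle_eq_of_ne hj, R.one_mem]
    have h3 : (∀ j, (x * ⟨Pi.mulSingle (x.right⁻¹ * i) r, 1⟩ * x⁻¹ : G ≀ᵣ Q).left j ∈ R) ↔
        x.left i * r * (x.left i)⁻¹ ∈ R := by
      constructor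
      · intro h
        have := h i
        rw [conj_left] at this
        simpa using this
      · intro hr j
        rw [conj_left]
        by_cases hj : j = i
        · subst hj; simpa using hr
        · have hne : x.right⁻¹ * j ≠ x.right⁻¹ * i := fun h => hj (mul_left_cancel h)
          simp [Pi.mulSingle_eq_of_ne hne, R.one_mem]
    have h4 : (x * ⟨Pi.mulSingle (x.right⁻¹ * i) r, 1⟩ * x⁻¹ : G ≀ᵣ Q).right = 1 := by simp
    rw [h2, h3] at h1
    simpa [h4] using h1
  · intro h y
    rw [mem_prodSub, mem_prodSub]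
    by_cases hy : y.right = 1
    · have h4 : (x * y * x⁻¹ : G ≀ᵣ Q).right = 1 := by simp [hy]
      simp only [hy, h4, true_and, conj_left]
      have h5 : ∀ i, x.left i * y.left (x.right⁻¹ * i) *
          (x.left (x.right * (1 : Q)⁻¹ * x.right⁻¹ * i))⁻¹ ∈ R ↔ y.left (x.right⁻¹ * i) ∈ R := by
        intro i
        have := (Subgroup.mem_normalizer_iff.1 (h i)) (y.left (x.right⁻¹ * i))
        rw [this]
        simp
      simp only [h5]
      constructor
      · intro h i; exact h _
      · intro h i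
        have := h (x.right * i)
        simpa using this
    · simp [hy]

omit [Finite G] [Fintype Q] in
theorem mem_norm_wrSub {R : Subgroup G} {x : G ≀ᵣ Q} :
    x ∈ Subgroup.normalizer ((wrSub R : Subgroup (G ≀ᵣ Q)) : Set (G ≀ᵣ Q)) ↔
      (∀ i, x.left i ∈ Subgroup.normalizer (R : Set G)) ∧
        ∀ i j, (x.left i) * (x.left j)⁻¹ ∈ R := by
  classical
  rw [Subgroup.mem_normalizer_iff]
  constructor
  · intro h
    have hA : ∀ i j, (x.left i) * (x.left j)⁻¹ ∈ R := by
      intro i j
      -- conjugate the pure shift taking `j` to `i`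
      have h1 := (h (inl (x.right⁻¹ * i * j⁻¹ * x.right))).1 (by intro i; simp [R.one_mem])
      have h2 := h1 i
      rw [conj_left] at h2
      simpa [mul_assoc] using h2
    refine ⟨fun i => ?_, hA⟩
    rw [Subgroup.mem_normalizer_iff]
    intro r
    have h1 := h ⟨Pi.mulSingle (x.right⁻¹ * i) r, 1⟩
    rw [mem_wrSub, mem_wrSub] at h1
    have h2 : (∀ j, (⟨Pi.mulSingle (x.right⁻¹ * i) r, 1⟩ : G ≀ᵣ Q).left j ∈ R) ↔ r ∈ R := by
      constructor
      · intro h
        simpa using h (x.right⁻¹ * i)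
      · intro hr j
        by_cases hj : j = x.right⁻¹ * i
        · subst hj; simpa using hr
        · simp [Pi.mulSingle_eq_of_ne hj, R.one_mem]
    have h3 : (∀ j, (x * ⟨Pi.mulSingle (x.right⁻¹ * i) r, 1⟩ * x⁻¹ : G ≀ᵣ Q).left j ∈ R) ↔
        x.left i * r * (x.left i)⁻¹ ∈ R := by
      constructor
      · intro h
        have := h i
        rw [conj_left] at this
        simpa using this
      · intro hr j
        rw [conj_left]
        by_cases hj : j = i
        · subst hj; simpa using hr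
        · have hne : x.right⁻¹ * j ≠ x.right⁻¹ * i := fun h => hj (mul_left_cancel h)
          simp [Pi.mulSingle_eq_of_ne hne, R.one_mem]
    rw [h2, h3] at h1
    exact h1
  · rintro ⟨h, hA⟩ y
    rw [mem_wrSub, mem_wrSub]
    have h5 : ∀ i, (x * y * x⁻¹).left i ∈ R ↔ y.left (x.right⁻¹ * i) ∈ R := by
      intro i
      rw [conj_left]
      have h6 := hA i (x.right * y.right⁻¹ * x.right⁻¹ * i)
      rw [(Subgroup.mem_normalizer_iff.1 (h i)) (y.left (x.right⁻¹ * i))]
      rw [← Subgroup.mul_mem_cancel_right R h6 (y := x.left i * y.left (x.right⁻¹ * i) * (x.left i)⁻¹)]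
      simp [mul_assoc]
    simp only [h5]
    constructor
    · intro h i; exact h _
    · intro h i
      have := h (x.right * i)
      simpa using this

/-- the local group `N(Q)/Q` described by a surjection -/
noncomputable def locEquiv {Γ M : Type} [Group Γ] [Group M] (P : Subgroup Γ)
    (φ : Subgroup.normalizer (P : Set Γ) →* M) (hs : Function.Surjective φ)
    (hk : φ.ker = P.subgroupOf (Subgroup.normalizer (P : Set Γ))) : NormQuot P ≃* M :=
  (QuotientGroup.quotientMulEquivOfEq hk.symm).trans (QuotientGroup.quotientKerEquivOfSurjective φ hs)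

theorem locEquiv_mk {Γ M : Type} [Group Γ] [Group M] (P : Subgroup Γ)
    (φ : Subgroup.normalizer (P : Set Γ) →* M) (hs : Function.Surjective φ)
    (hk : φ.ker = P.subgroupOf (Subgroup.normalizer (P : Set Γ)))
    (x : Subgroup.normalizer (P : Set Γ)) :
    locEquiv P φ hs hk (QuotientGroup.mk x : NormQuot P) = φ x := rfl

/-- `f0` of a local image through a description of the local group -/
theorem f0_local_eq {k Γ M : Type} [Field k] [Group Γ] [Finite Γ] [Group M] (P : Subgroup Γ)
    [Fintype P] (φ : Subgroup.normalizer (P : Set Γ) →* M) (hs : Function.Surjective φ)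
    (hk : φ.ker = P.subgroupOf (Subgroup.normalizer (P : Set Γ)))
    (z : MonoidAlgebra k Γ) (w : MonoidAlgebra k M)
    (h : ∀ x : Subgroup.normalizer (P : Set Γ), w.coeff (φ x) = ∑ q : P, z.coeff ((x : Γ) * q)) :
    f0 (localImage P z) = f0 w := by
  have h1 := SCC538.count_proj_one_sub
    (MonoidAlgebra.mapDomainRingEquiv k (locEquiv P φ hs hk)) (localImage P z)
  have h2 : MonoidAlgebra.mapDomainRingEquiv k (locEquiv P φ hs hk) (localImage P z) = w := by
    ext y
    obtain ⟨x, rfl⟩ := hs y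
    rw [h x, ← localImage_coeff, ← locEquiv_mk P φ hs hk]
    rw [MonoidAlgebra.coeff_mapDomainRingEquiv]
    exact Finsupp.equivMapDomain_apply _ _ _ |>.trans (by simp)
  rw [h2] at h1
  exact h1

section
variable {k G Q : Type} [Field k] [Group G] [Group Q] [Finite G] [Fintype Q]

/-! ### (a) constant families -/

noncomputable def constHom (R : Subgroup G) :
    Subgroup.normalizer ((prodSub fun _ : Q => R : Subgroup (G ≀ᵣ Q)) : Set (G ≀ᵣ Q)) →*
      (NormQuot R) ≀ᵣ Q where
  toFun x := ⟨fun i => QuotientGroup.mk ⟨x.1.left i, mem_norm_prodSub_const.1 x.2 i⟩, x.1.right⟩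
  map_one' := RegularWreathProduct.ext (funext fun i => rfl) rfl
  map_mul' x y := RegularWreathProduct.ext (funext fun i => rfl) rfl

omit [Finite G] [Fintype Q] in
theorem constHom_surjective (R : Subgroup G) :
    Function.Surjective (constHom (Q := Q) R) := by
  rintro ⟨f, q⟩
  have h1 : ∀ i, ∃ n : Subgroup.normalizer (R : Set G), (QuotientGroup.mk n : NormQuot R) = f i :=
    fun i => QuotientGroup.mk_surjective (f i)
  choose n hn using h1
  refine ⟨⟨⟨fun i => (n i : G), q⟩, mem_norm_prodSub_const.2 fun i => (n i).2⟩, ?_⟩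
  exact RegularWreathProduct.ext (funext fun i => hn i) rfl

omit [Finite G] [Fintype Q] in
theorem constHom_ker (R : Subgroup G) :
    (constHom (Q := Q) R).ker = (prodSub fun _ : Q => R : Subgroup (G ≀ᵣ Q)).subgroupOf
      (Subgroup.normalizer ((prodSub fun _ : Q => R : Subgroup (G ≀ᵣ Q)) : Set (G ≀ᵣ Q))) := by
  ext x
  rw [MonoidHom.mem_ker, Subgroup.mem_subgroupOf, mem_prodSub]
  constructor
  · intro h
    have h1 : x.1.right = 1 := congrArg RegularWreathProduct.right h
    refine ⟨h1, fun i => ?_⟩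
    have h2 : (QuotientGroup.mk ⟨x.1.left i, mem_norm_prodSub_const.1 x.2 i⟩ : NormQuot R) = 1 :=
      congrFun (congrArg RegularWreathProduct.left h) i
    rw [QuotientGroup.eq_one_iff] at h2
    exact h2
  · rintro ⟨h1, h2⟩
    refine RegularWreathProduct.ext (funext fun i => ?_) h1
    exact (QuotientGroup.eq_one_iff _).2 (h2 i)

/-- elements of `∏ R i` -/
def prodSubEquiv (R : Q → Subgroup G) : prodSub R ≃ ∀ i, R i where
  toFun x i := ⟨x.1.left i, x.2.2 i⟩
  invFun f := ⟨⟨fun i => (f i : G), 1⟩, rfl, fun i => (f i).2⟩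
  left_inv x := Subtype.ext (RegularWreathProduct.ext rfl x.2.1.symm)
  right_inv f := rfl

theorem sum_prodSub (R : Q → Subgroup G) [Fintype (prodSub R)] [∀ i, Fintype (R i)] [DecidableEq Q]
    (e : MonoidAlgebra k G) (x : G ≀ᵣ Q) (hx : x.right = 1) :
    ∑ q : prodSub R, (wE Q e).coeff (x * q) = ∏ i, ∑ r : R i, e.coeff (x.left i * r) := by
  rw [← (prodSubEquiv R).symm.sum_comp, Finset.prod_univ_sum, Fintype.piFinset_univ]
  refine Finset.sum_congr rfl fun f _ => ?_
  rw [wE_coeff_one _ _ (by simp [hx, prodSubEquiv])]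
  refine Finset.prod_congr rfl fun i _ => ?_
  have h5 : x.right⁻¹ * i = i := by simp [hx]
  exact congrArg (fun j => e.coeff (x.left i * (f j : G))) h5

theorem f0_prodSub_const (R : Subgroup G) (e : MonoidAlgebra k G) :
    f0 (localImage (prodSub fun _ : Q => R) (wE Q e)) = f0 (wE Q (localImage R e)) := by
  classical
  let _ : Fintype G := Fintype.ofFinite G
  let _ : Fintype (prodSub fun _ : Q => R) := Fintype.ofFinite _
  refine f0_local_eq _ (constHom R) (constHom_surjective R) (constHom_ker R) _ _ fun x => ?_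
  by_cases hx : x.1.right = 1
  · rw [sum_prodSub _ _ _ hx, wE_coeff_one (localImage R e) (constHom R x) hx]
    refine Finset.prod_congr rfl fun i _ => ?_
    exact localImage_coeff R e ⟨x.1.left i, mem_norm_prodSub_const.1 x.2 i⟩
  · rw [wE_coeff_ne (localImage R e) (constHom R x) hx, Finset.sum_eq_zero]
    intro q _
    refine wE_coeff_ne _ _ ?_
    have := q.2.1
    simpa [this] using hx

/-! ### (b) families whose normaliser lies in the base -/

omit [Finite G] [Fintype Q] in
theorem mem_norm_prodSub_left {R : Q → Subgroup G} {x : G ≀ᵣ Q} (hx : x.right = 1) :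
    x ∈ Subgroup.normalizer ((prodSub R : Subgroup (G ≀ᵣ Q)) : Set (G ≀ᵣ Q)) ↔
      ∀ i, x.left i ∈ Subgroup.normalizer (R i : Set G) := by
  classical
  rw [Subgroup.mem_normalizer_iff]
  constructor
  · intro h i
    rw [Subgroup.mem_normalizer_iff]
    intro r
    have h1 := h ⟨Pi.mulSingle i r, 1⟩
    rw [mem_prodSub, mem_prodSub] at h1
    have h2 : (∀ j, (⟨Pi.mulSingle i r, 1⟩ : G ≀ᵣ Q).left j ∈ R j) ↔ r ∈ R i := by
      constructor
      · intro h
        simpa using h i
      · intro hr j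
        by_cases hj : j = i
        · subst hj; simpa using hr
        · simp [Pi.mulSingle_eq_of_ne hj, (R j).one_mem]
    have h3 : (∀ j, (x * ⟨Pi.mulSingle i r, 1⟩ * x⁻¹ : G ≀ᵣ Q).left j ∈ R j) ↔
        x.left i * r * (x.left i)⁻¹ ∈ R i := by
      constructor
      · intro h
        have := h i
        rw [conj_left] at this
        simpa [hx] using this
      · intro hr j
        rw [conj_left]
        by_cases hj : j = i
        · subst hj; simpa [hx] using hr
        · simp [hx, Pi.mulSingle_eq_of_ne hj, (R j).one_mem]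
    have h4 : (x * ⟨Pi.mulSingle i r, 1⟩ * x⁻¹ : G ≀ᵣ Q).right = 1 := by simp
    rw [h2, h3] at h1
    simpa [h4] using h1
  · intro h y
    rw [mem_prodSub, mem_prodSub]
    by_cases hy : y.right = 1
    · have h4 : (x * y * x⁻¹ : G ≀ᵣ Q).right = 1 := by simp [hy]
      simp only [hy, h4, true_and, conj_left]
      refine forall_congr' fun i => ?_
      rw [(Subgroup.mem_normalizer_iff.1 (h i)) (y.left i)]
      simp [hx]
    · simp [hy]

noncomputable def piHom (R : Q → Subgroup G)
    (hR : ∀ x ∈ Subgroup.normalizer ((prodSub R : Subgroup (G ≀ᵣ Q)) : Set (G ≀ᵣ Q)), x.right = 1) :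
    Subgroup.normalizer ((prodSub R : Subgroup (G ≀ᵣ Q)) : Set (G ≀ᵣ Q)) →*
      (∀ i, NormQuot (R i)) where
  toFun x i := QuotientGroup.mk ⟨x.1.left i, (mem_norm_prodSub_left (hR _ x.2)).1 x.2 i⟩
  map_one' := rfl
  map_mul' x y := by
    funext i
    rw [Pi.mul_apply, ← QuotientGroup.mk_mul]
    congr 1
    refine Subtype.ext ?_
    simp [hR _ x.2]

omit [Finite G] [Fintype Q] in
theorem piHom_surjective (R : Q → Subgroup G)
    (hR : ∀ x ∈ Subgroup.normalizer ((prodSub R : Subgroup (G ≀ᵣ Q)) : Set (G ≀ᵣ Q)), x.right = 1) :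
    Function.Surjective (piHom R hR) := by
  intro f
  have h1 : ∀ i, ∃ n : Subgroup.normalizer (R i : Set G),
      (QuotientGroup.mk n : NormQuot (R i)) = f i := fun i => QuotientGroup.mk_surjective (f i)
  choose n hn using h1
  refine ⟨⟨⟨fun i => (n i : G), 1⟩, (mem_norm_prodSub_left rfl).2 fun i => (n i).2⟩, ?_⟩
  exact funext fun i => hn i

omit [Finite G] [Fintype Q] in
theorem piHom_ker (R : Q → Subgroup G)
    (hR : ∀ x ∈ Subgroup.normalizer ((prodSub R : Subgroup (G ≀ᵣ Q)) : Set (G ≀ᵣ Q)), x.right = 1) :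
    (piHom R hR).ker = (prodSub R).subgroupOf
      (Subgroup.normalizer ((prodSub R : Subgroup (G ≀ᵣ Q)) : Set (G ≀ᵣ Q))) := by
  ext x
  rw [MonoidHom.mem_ker, Subgroup.mem_subgroupOf, mem_prodSub]
  constructor
  · intro h
    refine ⟨hR _ x.2, fun i => ?_⟩
    have h2 : (QuotientGroup.mk ⟨x.1.left i, (mem_norm_prodSub_left (hR _ x.2)).1 x.2 i⟩ :
        NormQuot (R i)) = 1 := congrFun h i
    rw [QuotientGroup.eq_one_iff] at h2
    exact h2
  · rintro ⟨h1, h2⟩
    funext i
    exact (QuotientGroup.eq_one_iff _).2 (h2 i)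

theorem f0_prodSub_base (R : Q → Subgroup G)
    (hR : ∀ x ∈ Subgroup.normalizer ((prodSub R : Subgroup (G ≀ᵣ Q)) : Set (G ≀ᵣ Q)), x.right = 1)
    (e : MonoidAlgebra k G) :
    f0 (localImage (prodSub R) (wE Q e)) = f0 (tens fun i => localImage (R i) e) := by
  classical
  let _ : Fintype G := Fintype.ofFinite G
  let _ : Fintype (prodSub R) := Fintype.ofFinite _
  let _ : ∀ i, Fintype (R i) := fun i => Fintype.ofFinite _
  refine f0_local_eq _ (piHom R hR) (piHom_surjective R hR) (piHom_ker R hR) _ _ fun x => ?_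
  rw [sum_prodSub _ _ _ (hR _ x.2)]
  rw [tens_coeff]
  refine Finset.prod_congr rfl fun i _ => ?_
  exact localImage_coeff (R i) e ⟨x.1.left i, (mem_norm_prodSub_left (hR _ x.2)).1 x.2 i⟩

/-! ### (c) `R ≀ Q` -/

noncomputable def wrHom (R : Subgroup G) :
    Subgroup.normalizer ((wrSub R : Subgroup (G ≀ᵣ Q)) : Set (G ≀ᵣ Q)) →* NormQuot R where
  toFun x := QuotientGroup.mk ⟨x.1.left 1, (mem_norm_wrSub.1 x.2).1 1⟩
  map_one' := rfl
  map_mul' x y := by
    rw [← QuotientGroup.mk_mul]
    refine QuotientGroup.eq.2 ?_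
    rw [Subgroup.mem_subgroupOf]
    have h1 := (mem_norm_wrSub.1 y.2).2 (x.1.right⁻¹ * 1) 1
    have h2 := (mem_norm_wrSub.1 y.2).1 1
    have h3 := (Subgroup.mem_normalizer_iff''.1 h2 _).1 (R.inv_mem h1)
    simpa [mul_assoc] using h3

omit [Finite G] [Fintype Q] in
theorem wrHom_apply (R : Subgroup G)
    (x : Subgroup.normalizer ((wrSub R : Subgroup (G ≀ᵣ Q)) : Set (G ≀ᵣ Q))) (i : Q) :
    wrHom R x = QuotientGroup.mk ⟨x.1.left i, (mem_norm_wrSub.1 x.2).1 i⟩ := by
  refine QuotientGroup.eq.2 ?_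
  rw [Subgroup.mem_subgroupOf]
  have h1 := (mem_norm_wrSub.1 x.2).2 i 1
  have h2 := (mem_norm_wrSub.1 x.2).1 1
  have h3 := (Subgroup.mem_normalizer_iff''.1 h2 _).1 h1
  simpa [mul_assoc] using h3

omit [Finite G] [Fintype Q] in
theorem wrHom_surjective (R : Subgroup G) : Function.Surjective (wrHom (Q := Q) R) := by
  intro y
  obtain ⟨n, rfl⟩ := QuotientGroup.mk_surjective y
  exact ⟨⟨⟨fun _ => (n : G), 1⟩, mem_norm_wrSub.2 ⟨fun _ => n.2, fun _ _ => by simp [R.one_mem]⟩⟩, rfl⟩

omit [Finite G] [Fintype Q] in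
theorem wrHom_ker (R : Subgroup G) :
    (wrHom (Q := Q) R).ker = (wrSub R : Subgroup (G ≀ᵣ Q)).subgroupOf
      (Subgroup.normalizer ((wrSub R : Subgroup (G ≀ᵣ Q)) : Set (G ≀ᵣ Q))) := by
  ext x
  rw [MonoidHom.mem_ker, Subgroup.mem_subgroupOf, mem_wrSub]
  constructor
  · intro h i
    rw [wrHom_apply R x i, QuotientGroup.eq_one_iff] at h
    exact h
  · intro h
    rw [wrHom_apply R x 1, QuotientGroup.eq_one_iff]
    exact h 1

/-- elements of `R ≀ Q` -/
def wrSubEquiv (R : Subgroup G) : (wrSub R : Subgroup (G ≀ᵣ Q)) ≃ Q × (Q → R) where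
  toFun x := (x.1.right, fun i => ⟨x.1.left i, x.2 i⟩)
  invFun f := ⟨⟨fun i => (f.2 i : G), f.1⟩, fun i => (f.2 i).2⟩
  left_inv x := rfl
  right_inv f := rfl

theorem sum_wrSub (R : Subgroup G) [Fintype (wrSub R : Subgroup (G ≀ᵣ Q))] [Fintype R]
    [DecidableEq Q] (e : MonoidAlgebra k G) (x : G ≀ᵣ Q) :
    ∑ q : (wrSub R : Subgroup (G ≀ᵣ Q)), (wE Q e).coeff (x * q) =
      ∏ i, ∑ r : R, e.coeff (x.left i * r) := by
  rw [← (wrSubEquiv R).symm.sum_comp, Fintype.sum_prod_type, Finset.sum_eq_single x.right⁻¹]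
  · rw [Finset.prod_univ_sum, Fintype.piFinset_univ]
    rw [← (Equiv.arrowCongr (Equiv.mulLeft x.right⁻¹) (Equiv.refl R)).sum_comp]
    refine Finset.sum_congr rfl fun f _ => ?_
    rw [wE_coeff_one _ _ (by simp [wrSubEquiv])]
    refine Finset.prod_congr rfl fun i _ => ?_
    simp [wrSubEquiv]
  · intro q _ hq
    refine Finset.sum_eq_zero fun f _ => wE_coeff_ne _ _ ?_
    intro h
    apply hq
    have : x.right * q = 1 := by simpa [wrSubEquiv] using h
    exact eq_inv_of_mul_eq_one_right this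
  · simp

theorem f0_wrSub (p : ℕ) (hQ : Fintype.card Q = p) (R : Subgroup G) (e : MonoidAlgebra k G) :
    f0 (localImage (wrSub R : Subgroup (G ≀ᵣ Q)) (wE Q e)) = f0 (frob p (localImage R e)) := by
  classical
  let _ : Fintype G := Fintype.ofFinite G
  let _ : Fintype (wrSub R : Subgroup (G ≀ᵣ Q)) := Fintype.ofFinite _
  refine f0_local_eq _ (wrHom R) (wrHom_surjective R) (wrHom_ker R) _ _ fun x => ?_
  rw [sum_wrSub, frob_coeff]
  have h2 : ∀ i, ∑ r : R, e.coeff (x.1.left i * r) = (localImage R e).coeff (wrHom R x) := by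
    intro i
    rw [wrHom_apply R x i, localImage_coeff]
  simp only [h2, Finset.prod_const, Finset.card_univ, hQ]

theorem CI_wE (Q : Type) [Group Q] [Fintype Q] (e : MonoidAlgebra k G) (he : CI e) : CI (wE Q e) :=
  ⟨wE_central e he.1, wE_idem e he.2⟩

end

end Crest.Agent.R170.WW4148
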