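import Crest.Agent.R170.WLd_512
import Crest.Agent.R170.WW4_148
import Crest.Agent.R170.FIN0_534

/-! Row 170, leaf WL, final form (helper512). -/

set_option autoImplicit false

namespace Crest.Agent.R170.WL512

open Crest.Agent.R170

variable {k : Type} [Field k] [IsAlgClosed k] {G : Type} [Group G] [Finite G]

/-- **WL**: the number of simple modules of the wreath product with a group `C` of prime order `p`. -/
theorem WL (p : ℕ) [Fact p.Prime] [CharP k p] (C : Type) [Group C] [Fintype C]
    (hC : Nat.card C = p) (e : MonoidAlgebra k G) (he : CI e) :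
    lc (wE C e) = (lc e ^ p - lc e) / p + lc e :=
  lc_wE p C hC he (WW4148.CI_wE C e he)

/-- WL for `C = Multiplicative (ZMod p)`. -/
theorem WL_ZMod (p : ℕ) [hp : Fact p.Prime] [CharP k p] [Fintype (Multiplicative (ZMod p))]
    (e : MonoidAlgebra k G) (he : CI e) :
    lc (wE (Multiplicative (ZMod p)) e) = (lc e ^ p - lc e) / p + lc e :=
  WL p _ (by
    rw [Nat.card_congr Multiplicative.toAdd, Nat.card_zmod]) e he

/-- WL in the form of `SWR`. -/
theorem WL_int (p : ℕ) [hp : Fact p.Prime] [CharP k p] (C : Type) [Group C] [Fintype C]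
    (hC : Nat.card C = p) (e : MonoidAlgebra k G) (he : CI e) :
    (p : ℤ) * lc (wE C e) = (lc e : ℤ) ^ p - lc e + p * lc e := by
  rw [WL p C hC e he]
  exact_mod_cast FIN534.amp_mul p hp.out (lc e)

end Crest.Agent.R170.WL512
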