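import Crest.Agent.R170.WW1b_628

/-! Row 170, leaf WW1 (helper628), third part: normalisers, conjugacy, orders. -/

set_option autoImplicit false

namespace Crest.Agent.R170.WW1628

open RegularWreathProduct Crest.Agent.R170
open scoped Pointwise

variable {p : ℕ} {G C : Type} [Group G] [Group C]

theorem mem_map_conj {H : Type} [Group H] {K : Subgroup H} {g x : H} :
    x ∈ K.map (MulAut.conj g).toMonoidHom ↔ g⁻¹ * x * g ∈ K := by
  constructor
  · rintro ⟨y, hy, rfl⟩
    simpa [mul_assoc] using hy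
  · intro h
    exact ⟨_, h, by simp [mul_assoc]⟩

/-! ### conjugacy of the `wrSub R` -/

theorem wrSub_map_const (R : Subgroup G) (x : G) :
    (wrSub (C := C) R).map (MulAut.conj (⟨fun _ => x, 1⟩ : G ≀ᵣ C)).toMonoidHom =
      wrSub (R.map (MulAut.conj x).toMonoidHom) := by
  ext g
  rw [mem_map_conj, mem_wrSub, mem_wrSub]
  apply forall_congr'
  intro i
  rw [mem_map_conj]
  simp

theorem wrSub_conj_iff (R R' : Subgroup G) :
    (∃ g : G ≀ᵣ C, wrSub (C := C) R' = (wrSub R).map (MulAut.conj g).toMonoidHom) ↔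
      ∃ x : G, R' = R.map (MulAut.conj x).toMonoidHom := by
  constructor
  · rintro ⟨g, hg⟩
    refine ⟨g.left 1, ?_⟩
    ext y
    rw [mem_map_conj]
    have key : (⟨fun _ => y, 1⟩ : G ≀ᵣ C) ∈ wrSub (C := C) R' ↔
        (⟨fun _ => y, 1⟩ : G ≀ᵣ C) ∈ (wrSub R).map (MulAut.conj g).toMonoidHom := by rw [hg]
    rw [mem_map_conj, mem_wrSub, mem_wrSub] at key
    constructor
    · intro hy
      have h1 := key.1 (fun _ => hy) (g.right⁻¹ * 1)
      simpa using h1
    · intro hy
      -- use that g * const * g⁻¹ lies in R'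
      have h2 : (g * (⟨fun _ => (g.left 1)⁻¹ * y * g.left 1, 1⟩ : G ≀ᵣ C) * g⁻¹) ∈
          wrSub (C := C) R' := by
        rw [hg, mem_map_conj, mem_wrSub]
        intro i
        have : g⁻¹ * (g * (⟨fun _ => (g.left 1)⁻¹ * y * g.left 1, 1⟩ : G ≀ᵣ C) * g⁻¹) * g =
            (⟨fun _ => (g.left 1)⁻¹ * y * g.left 1, 1⟩ : G ≀ᵣ C) := by group
        rw [this]
        exact hy
      have h3 := h2 1
      rw [conj_left _ _ rfl] at h3
      simpa [mul_assoc] using h3
  · rintro ⟨x, rfl⟩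
    exact ⟨⟨fun _ => x, 1⟩, (wrSub_map_const R x).symm⟩

theorem wrSub_injective : Function.Injective (wrSub : Subgroup G → Subgroup (G ≀ᵣ C)) := by
  intro R R' h
  ext x
  have : (⟨fun _ => x, 1⟩ : G ≀ᵣ C) ∈ wrSub (C := C) R ↔ (⟨fun _ => x, 1⟩ : G ≀ᵣ C) ∈ wrSub (C := C) R' := by
    rw [h]
  rw [mem_wrSub, mem_wrSub] at this
  simpa using this

/-! ### p-groups -/

theorem isPGroup_prodSub_iff [Finite C] (R : C → Subgroup G) :
    IsPGroup p (prodSub R : Subgroup (G ≀ᵣ C)) ↔ ∀ i, IsPGroup p (R i) := by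
  constructor
  · intro h i
    have := isPGroup_proj h i
    rwa [proj_prodSub] at this
  · exact isPGroup_prodSub

theorem prodSub_const_le (R : Subgroup G) : prodSub (fun _ : C => R) ≤ wrSub R :=
  fun _ hg => hg.2

theorem isPGroup_wrSub_iff [Finite C] (hC : Nat.card C = p) (R : Subgroup G) :
    IsPGroup p (wrSub R : Subgroup (G ≀ᵣ C)) ↔ IsPGroup p R := by
  constructor
  · intro h
    have h1 : IsPGroup p (prodSub (fun _ : C => R)) := h.to_le (prodSub_const_le R)
    exact (isPGroup_prodSub_iff _).1 h1 1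
  · intro h
    have h1 : IsPGroup p (prodSub (fun _ : C => R)) := isPGroup_prodSub fun _ => h
    rintro ⟨g, hg⟩
    have h2 : g ^ p ∈ prodSub (fun _ : C => R) := by
      refine ⟨?_, ?_⟩
      · rw [pow_right, ← hC, pow_card_eq_one']
      · exact (wrSub (C := C) R).pow_mem hg p
    obtain ⟨n, hn⟩ := h1 ⟨g ^ p, h2⟩
    refine ⟨n + 1, Subtype.ext ?_⟩
    have h3 : (g ^ p) ^ p ^ n = 1 := congrArg Subtype.val hn
    change g ^ p ^ (n + 1) = 1
    rw [pow_succ', pow_mul, h3]

/-! ### normaliser of `prodSub R` -/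

theorem mem_normalizer_prodSub (R : C → Subgroup G) (g : G ≀ᵣ C) :
    g ∈ Subgroup.normalizer ((prodSub R : Subgroup (G ≀ᵣ C)) : Set (G ≀ᵣ C)) ↔
      ∀ i, R i = (R (g.right⁻¹ * i)).map (MulAut.conj (g.left i)).toMonoidHom := by
  classical
  have hsingle : ∀ (i : C) (x : G), x ∈ R i →
      (⟨Pi.mulSingle i x, 1⟩ : G ≀ᵣ C) ∈ prodSub R := by
    intro i x hx
    refine ⟨rfl, fun j => ?_⟩
    by_cases h : j = i
    · subst h; simpa using hx
    · simp [Pi.mulSingle_eq_of_ne h]
  constructor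
  · intro hg i
    ext y
    rw [mem_map_conj]
    constructor
    · intro hy
      have h1 := norm_conj_mem (Subgroup.inv_mem _ hg) (hsingle i y hy)
      have h2 := h1.2 (g.right⁻¹ * i)
      rw [conj_left _ _ rfl] at h2
      simpa using h2
    · intro hy
      have h1 := norm_conj_mem hg (hsingle _ _ hy)
      have h2 := h1.2 i
      rw [conj_left _ _ rfl] at h2
      simpa [mul_assoc] using h2
  · intro h
    refine mem_norm_of ?_ ?_
    · rintro b ⟨hb1, hb⟩
      refine ⟨conj_right g b hb1, fun i => ?_⟩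
      rw [conj_left g b hb1, h i, mem_map_conj]
      have := hb (g.right⁻¹ * i)
      simpa [mul_assoc] using this
    · rintro b ⟨hb1, hb⟩
      have e : g⁻¹ * b * g = g⁻¹ * b * (g⁻¹)⁻¹ := by rw [inv_inv]
      rw [e]
      refine ⟨conj_right g⁻¹ b hb1, fun i => ?_⟩
      rw [conj_left g⁻¹ b hb1]
      have h1 := hb (g.right * i)
      rw [h (g.right * i), mem_map_conj] at h1
      simpa using h1

theorem mem_normalizer_iff_map {K : Subgroup G} {x : G} :
    x ∈ Subgroup.normalizer (K : Set G) ↔ K = K.map (MulAut.conj x).toMonoidHom := by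
  constructor
  · intro h
    ext y
    rw [mem_map_conj]
    constructor
    · intro hy
      exact norm_conj_mem' h hy
    · intro hy
      have := norm_conj_mem h hy
      simpa [mul_assoc] using this
  · intro h
    refine mem_norm_of ?_ ?_
    · intro k hk
      rw [h, mem_map_conj]
      simpa [mul_assoc] using hk
    · intro k hk
      rw [h, mem_map_conj] at hk
      exact hk

theorem normalizer_prodSub_inf_base (R : C → Subgroup G) :
    Subgroup.normalizer ((prodSub R : Subgroup (G ≀ᵣ C)) : Set (G ≀ᵣ C)) ⊓ baseG G C =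
      prodSub (fun i => Subgroup.normalizer (R i : Set G)) := by
  ext g
  constructor
  · rintro ⟨h1, h2⟩
    refine ⟨h2, fun i => ?_⟩
    have := (mem_normalizer_prodSub R g).1 h1 i
    have h2' : g.right = 1 := h2
    rw [h2', inv_one, one_mul] at this
    exact mem_normalizer_iff_map.2 this
  · rintro ⟨h1, h2⟩
    refine ⟨(mem_normalizer_prodSub R g).2 fun i => ?_, h1⟩
    rw [h1, inv_one, one_mul]
    exact mem_normalizer_iff_map.1 (h2 i)

/-- if the normaliser of `prodSub R` is not inside the base group, all `R i` are conjugate. -/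
theorem conj_of_not_le_base [Finite C] [Fact p.Prime] (hC : Nat.card C = p) (R : C → Subgroup G)
    (h : ¬ Subgroup.normalizer ((prodSub R : Subgroup (G ≀ᵣ C)) : Set (G ≀ᵣ C)) ≤ baseG G C)
    (i : C) : ∃ x : G, R i = (R 1).map (MulAut.conj x).toMonoidHom := by
  have hp : p.Prime := Fact.out
  obtain ⟨t, htN, ht⟩ := Set.not_subset.1 h
  have hc : t.right ≠ 1 := fun h => ht h
  have horder : orderOf t.right = p := by
    have h1 : orderOf t.right ∣ p := hC ▸ orderOf_dvd_natCard t.right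
    rcases (Nat.dvd_prime hp).1 h1 with h | h
    · exact absurd (orderOf_eq_one_iff.1 h) hc
    · exact h
  obtain ⟨n, hn⟩ : ∃ n : ℕ, t.right ^ n = i := by
    have h1 : Subgroup.zpowers t.right = ⊤ := by
      apply Subgroup.eq_top_of_card_eq
      rw [Nat.card_zpowers, horder, hC]
    have h2 : i ∈ Subgroup.zpowers t.right := by rw [h1]; trivial
    exact (mem_powers_iff_mem_zpowers (x := t.right) (y := i)).2 h2
  have h3 : t ^ n ∈ Subgroup.normalizer ((prodSub R : Subgroup (G ≀ᵣ C)) : Set (G ≀ᵣ C)) :=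
    Subgroup.pow_mem _ htN n
  have h4 := (mem_normalizer_prodSub R _).1 h3 i
  rw [pow_right, hn, inv_mul_cancel] at h4
  exact ⟨_, h4⟩

/-! ### orders -/

theorem card_prodSub [Fintype C] (R : C → Subgroup G) :
    Nat.card (prodSub R : Subgroup (G ≀ᵣ C)) = ∏ i, Nat.card (R i) := by
  rw [← Nat.card_pi]
  refine Nat.card_congr
    { toFun := fun g i => ⟨g.1.left i, g.2.2 i⟩
      invFun := fun f => ⟨⟨fun i => f i, 1⟩, rfl, fun i => (f i).2⟩
      left_inv := ?_
      right_inv := ?_ }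
  · rintro ⟨g, hg1, hg⟩
    apply Subtype.ext
    ext i
    · rfl
    · exact hg1.symm
  · intro f
    rfl

theorem card_normalizer_of_le_base [Fintype C] (R : C → Subgroup G)
    (h : Subgroup.normalizer ((prodSub R : Subgroup (G ≀ᵣ C)) : Set (G ≀ᵣ C)) ≤ baseG G C) :
    Nat.card (Subgroup.normalizer ((prodSub R : Subgroup (G ≀ᵣ C)) : Set (G ≀ᵣ C))) =
      ∏ i, Nat.card (Subgroup.normalizer (R i : Set G)) := by
  have := normalizer_prodSub_inf_base R
  rw [inf_eq_left.2 h] at this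
  rw [this, card_prodSub]

theorem card_normalizer_of_conj [Fintype C] (R : C → Subgroup G)
    (h : ∀ i, ∃ x : G, R i = (R 1).map (MulAut.conj x).toMonoidHom) :
    Nat.card (Subgroup.normalizer ((prodSub R : Subgroup (G ≀ᵣ C)) : Set (G ≀ᵣ C))) =
      Nat.card C * ∏ i, Nat.card (Subgroup.normalizer (R i : Set G)) := by
  choose x hx using h
  have hmap : ∀ i j, R i = (R j).map (MulAut.conj (x i * (x j)⁻¹)).toMonoidHom := by
    intro i j
    ext y
    rw [mem_map_conj, hx i, hx j, mem_map_conj, mem_map_conj]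
    have : (x j)⁻¹ * ((x i * (x j)⁻¹)⁻¹ * y * (x i * (x j)⁻¹)) * x j = (x i)⁻¹ * y * x i := by group
    rw [this]
  have hg : ∀ c : C, (⟨fun i => x i * (x (c⁻¹ * i))⁻¹, c⟩ : G ≀ᵣ C) ∈
      Subgroup.normalizer ((prodSub R : Subgroup (G ≀ᵣ C)) : Set (G ≀ᵣ C)) := by
    intro c
    rw [mem_normalizer_prodSub]
    intro i
    exact hmap _ _
  rw [← card_prodSub, ← Nat.card_prod, ← normalizer_prodSub_inf_base]
  refine Nat.card_congr
    { toFun := fun n => (n.1.right, ⟨n.1 * (⟨fun i => x i * (x (n.1.right⁻¹ * i))⁻¹, n.1.right⟩ : G ≀ᵣ C)⁻¹,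
        Subgroup.mul_mem _ n.2 (Subgroup.inv_mem _ (hg _)), by simp [mem_baseG]⟩)
      invFun := fun q => ⟨q.2.1 * (⟨fun i => x i * (x (q.1⁻¹ * i))⁻¹, q.1⟩ : G ≀ᵣ C),
        Subgroup.mul_mem _ q.2.2.1 (hg _)⟩
      left_inv := ?_
      right_inv := ?_ }
  · rintro ⟨n, hn⟩
    apply Subtype.ext
    simp
  · rintro ⟨c, ⟨b, hb, hb1⟩⟩
    have hb2 : b.right = 1 := hb1
    have h1 : (b * (⟨fun i => x i * (x (c⁻¹ * i))⁻¹, c⟩ : G ≀ᵣ C)).right = c := by simp [hb2]
    refine Prod.ext h1 (Subtype.ext ?_)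
    change b * (⟨fun i => x i * (x (c⁻¹ * i))⁻¹, c⟩ : G ≀ᵣ C) *
      (⟨fun i => x i * (x ((b * (⟨fun i => x i * (x (c⁻¹ * i))⁻¹, c⟩ : G ≀ᵣ C)).right⁻¹ * i))⁻¹,
        (b * (⟨fun i => x i * (x (c⁻¹ * i))⁻¹, c⟩ : G ≀ᵣ C)).right⟩ : G ≀ᵣ C)⁻¹ = b
    rw [h1, mul_inv_cancel_right]

/-! ### normaliser of `wrSub R` -/

theorem mem_normalizer_wrSub (R : Subgroup G) (g : G ≀ᵣ C) :
    g ∈ Subgroup.normalizer ((wrSub R : Subgroup (G ≀ᵣ C)) : Set (G ≀ᵣ C)) ↔
      (∀ i, g.left i ∈ Subgroup.normalizer (R : Set G)) ∧ ∀ i j, (g.left i)⁻¹ * g.left j ∈ R := by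
  have hinl : ∀ s : C, (inl s : G ≀ᵣ C) ∈ wrSub R := by
    intro s i
    simp
  constructor
  · intro hg
    have h1 : ∀ i, g.left i ∈ Subgroup.normalizer (R : Set G) := by
      intro i
      refine mem_norm_of ?_ ?_
      · intro x hx
        have h1 := norm_conj_mem hg (show (⟨fun _ => x, 1⟩ : G ≀ᵣ C) ∈ wrSub R from fun _ => hx)
        have h2 := h1 i
        rw [conj_left _ _ rfl] at h2
        exact h2
      · intro x hx
        have h1 := norm_conj_mem (Subgroup.inv_mem _ hg)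
          (show (⟨fun _ => x, 1⟩ : G ≀ᵣ C) ∈ wrSub R from fun _ => hx)
        have h2 := h1 (g.right⁻¹ * i)
        rw [conj_left _ _ rfl] at h2
        simpa using h2
    refine ⟨h1, ?_⟩
    intro i j
    -- multiply by inl g.right⁻¹ to get into the base group
    have h2 : g * (inl g.right)⁻¹ ∈ Subgroup.normalizer ((wrSub R : Subgroup (G ≀ᵣ C)) : Set (G ≀ᵣ C)) :=
      Subgroup.mul_mem _ hg (Subgroup.inv_mem _ (Subgroup.le_normalizer (hinl _)))
    have h3 := norm_conj_mem' h2 (hinl (i * j⁻¹))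
    have h4 := h3 i
    have e : ((g * (inl g.right)⁻¹)⁻¹ * inl (i * j⁻¹) * (g * (inl g.right)⁻¹)).left i =
        (g.left i)⁻¹ * g.left j := by
      simp
    rwa [e] at h4
  · rintro ⟨h1, h2⟩
    have h3 : ∀ i j, g.left i * (g.left j)⁻¹ ∈ R := by
      intro i j
      have := norm_conj_mem (h1 i) (h2 j i)
      have h4 := norm_conj_mem (Subgroup.inv_mem _ (h1 i)) this
      have h5 := norm_conj_mem (h1 j) (h2 j i)
      simpa [mul_assoc] using h5
    have key : ∀ n : G ≀ᵣ C, (∀ i, n.left i ∈ Subgroup.normalizer (R : Set G)) →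
        (∀ i j, n.left i * (n.left j)⁻¹ ∈ R) → ∀ k ∈ (wrSub R : Subgroup (G ≀ᵣ C)), n * k * n⁻¹ ∈ wrSub (C := C) R := by
      intro n hn1 hn2 k hk i
      have e : (n * k * n⁻¹).left i =
          (n.left i * k.left (n.right⁻¹ * i) * (n.left i)⁻¹) *
            (n.left i * (n.left (n.right * (k.right⁻¹ * (n.right⁻¹ * i))))⁻¹) := by
        simp [mul_assoc]
      rw [e]
      exact R.mul_mem (norm_conj_mem (hn1 i) (hk _)) (hn2 _ _)
    refine mem_norm_of (key g h1 h3) ?_
    intro k hk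
    have := key g⁻¹ ?_ ?_ k hk
    · rwa [inv_inv] at this
    · intro i
      have : (g⁻¹).left i = (g.left (g.right * i))⁻¹ := by simp
      rw [this]
      exact Subgroup.inv_mem _ (h1 _)
    · intro i j
      have : (g⁻¹).left i * ((g⁻¹).left j)⁻¹ = (g.left (g.right * i))⁻¹ * g.left (g.right * j) := by simp
      rw [this]
      exact h2 _ _

open Classical in
theorem card_normalizer_wrSub [Finite C] [Finite G] (R : Subgroup G) :
    Nat.card (Subgroup.normalizer ((wrSub R : Subgroup (G ≀ᵣ C)) : Set (G ≀ᵣ C))) * Nat.card R =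
      Nat.card R ^ Nat.card C * Nat.card C * Nat.card (Subgroup.normalizer (R : Set G)) := by
  have e : Nat.card R ^ Nat.card C * Nat.card C * Nat.card (Subgroup.normalizer (R : Set G)) =
      Nat.card (C × (Subgroup.normalizer (R : Set G)) × (C → R)) := by
    rw [Nat.card_prod, Nat.card_prod, Nat.card_fun]
    ring
  rw [e, ← Nat.card_prod]
  refine Nat.card_congr
    { toFun := fun q => (q.1.1.right, ⟨q.1.1.left 1, ((mem_normalizer_wrSub R _).1 q.1.2).1 1⟩,
        fun i => if i = 1 then q.2 else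
          ⟨(q.1.1.left 1)⁻¹ * q.1.1.left i, ((mem_normalizer_wrSub R _).1 q.1.2).2 1 i⟩)
      invFun := fun q => (⟨⟨fun i => if i = 1 then (q.2.1 : G) else q.2.1 * q.2.2 i, q.1⟩, ?_⟩, q.2.2 1)
      left_inv := ?_
      right_inv := ?_ }
  · rw [mem_normalizer_wrSub]
    have hx := q.2.1.2
    constructor
    · intro i
      change (if i = 1 then (q.2.1 : G) else q.2.1 * q.2.2 i) ∈ _
      split_ifs
      · exact hx
      · exact Subgroup.mul_mem _ hx (Subgroup.le_normalizer (q.2.2 i).2)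
    · intro i j
      change (if i = 1 then (q.2.1 : G) else q.2.1 * q.2.2 i)⁻¹ *
        (if j = 1 then (q.2.1 : G) else q.2.1 * q.2.2 j) ∈ R
      split_ifs
      · simp
      · simpa using (q.2.2 j).2
      · have : (↑q.2.1 * (↑(q.2.2 i) : G))⁻¹ * ↑q.2.1 = (↑(q.2.2 i) : G)⁻¹ := by group
        rw [this]
        exact R.inv_mem (q.2.2 i).2
      · have : (↑q.2.1 * (↑(q.2.2 i) : G))⁻¹ * (↑q.2.1 * ↑(q.2.2 j)) =
          (↑(q.2.2 i) : G)⁻¹ * ↑(q.2.2 j) := by group
        rw [this]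
        exact R.mul_mem (R.inv_mem (q.2.2 i).2) (q.2.2 j).2
  · rintro ⟨⟨g, hg⟩, r⟩
    refine Prod.ext (Subtype.ext ?_) ?_
    · ext i
      · by_cases h : i = 1
        · subst h; simp
        · simp [h]
      · rfl
    · simp
  · rintro ⟨c, ⟨x, hx⟩, f⟩
    refine Prod.ext rfl (Prod.ext (Subtype.ext ?_) ?_)
    · simp
    · funext i
      by_cases h : i = 1
      · subst h; simp
      · simp [h]

end Crest.Agent.R170.WW1628
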