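import Crest.Agent.R170.FIN_534
import Crest.Agent.R170.SCC_538

/-!
# Row 170, leaf HD (helper534): `|G|` divides the weighted count `Wt p e`

* `dvd_finsum` : orbit counting.
* `localImage_transport`, `f0_transport` : `localImage` and `f0 (localImage Q e)` under a group
  isomorphism `F : G ≃* H`.
* `domConj_eq` : a central element is invariant under conjugation.
* **`hDvd : HDvd p k`**.
-/

set_option autoImplicit false

namespace Crest.Agent.R170.HD534

open MonoidAlgebra Crest.AlgebraR.Weights Crest.AlgebraR.Blocks

section orbits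
variable {G X : Type*} [Group G] [Finite G] [MulAction G X] [Finite X]

theorem card_stabilizer_smul (g : G) (x : X) :
    Nat.card (MulAction.stabilizer G (g • x)) = Nat.card (MulAction.stabilizer G x) := by
  have h1 := Subgroup.card_mul_index (MulAction.stabilizer G (g • x))
  have h2 := Subgroup.card_mul_index (MulAction.stabilizer G x)
  rw [MulAction.index_stabilizer, MulAction.orbit_smul] at h1
  rw [MulAction.index_stabilizer] at h2
  have h3 : 0 < (MulAction.orbit G x).ncard :=
    (Set.ncard_pos (Set.toFinite _)).2 ⟨x, MulAction.mem_orbit_self x⟩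
  exact Nat.eq_of_mul_eq_mul_right h3 (h1.trans h2.symm)

/-- orbit counting -/
theorem dvd_finsum (F : X → ℕ) (hF : ∀ (g : G) (x : X), F (g • x) = F x) :
    Nat.card G ∣ ∑ᶠ x : X, Nat.card (MulAction.stabilizer G x) * F x := by
  classical
  haveI := Fintype.ofFinite X
  haveI := Fintype.ofFinite (Quotient (MulAction.orbitRel G X))
  rw [finsum_eq_sum_of_fintype]
  rw [← Finset.sum_fiberwise Finset.univ
    (fun x : X => (Quotient.mk (MulAction.orbitRel G X) x))]
  refine Finset.dvd_sum fun q _ => ?_
  obtain ⟨x0, rfl⟩ := Quotient.exists_rep q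
  have h1 : ∀ x ∈ Finset.univ.filter (fun x : X => (Quotient.mk (MulAction.orbitRel G X) x) =
      Quotient.mk (MulAction.orbitRel G X) x0),
      Nat.card (MulAction.stabilizer G x) * F x = Nat.card (MulAction.stabilizer G x0) * F x0 := by
    intro x hx
    have h2 := (Finset.mem_filter.1 hx).2
    have h3 : x ∈ MulAction.orbit G x0 := Quotient.exact h2
    obtain ⟨g, rfl⟩ := h3
    rw [show (fun m : G => m • x0) g = g • x0 from rfl, card_stabilizer_smul, hF]
  rw [Finset.sum_congr rfl h1, Finset.sum_const, smul_eq_mul]
  have h4 : (Finset.univ.filter (fun x : X => (Quotient.mk (MulAction.orbitRel G X) x) =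
      Quotient.mk (MulAction.orbitRel G X) x0)).card = (MulAction.orbit G x0).ncard := by
    rw [← Set.ncard_coe_finset]
    congr 1
    ext x
    simp only [Finset.coe_filter, Finset.mem_univ, true_and, Set.mem_ofPred_eq]
    exact ⟨fun h => Quotient.exact h, fun h => Quotient.sound h⟩
  rw [h4, ← MulAction.index_stabilizer, ← mul_assoc, mul_comm (Subgroup.index _),
    Subgroup.card_mul_index]
  exact dvd_mul_right _ _

end orbits

section transport
variable {k G H : Type} [Field k] [Group G] [Group H] [Finite G] [Finite H]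

/-- the isomorphism of the normalisers -/
def normEquiv (F : G ≃* H) (Q : Subgroup G) :
    Subgroup.normalizer (Q : Set G) ≃*
      Subgroup.normalizer ((Q.map F.toMonoidHom : Subgroup H) : Set H) :=
  (F.subgroupMap (Subgroup.normalizer (Q : Set G))).trans
    (MulEquiv.subgroupCongr (Subgroup.map_equiv_normalizer_eq Q F))

theorem coe_normEquiv (F : G ≃* H) (Q : Subgroup G) (n : Subgroup.normalizer (Q : Set G)) :
    ((normEquiv F Q n : Subgroup.normalizer ((Q.map F.toMonoidHom : Subgroup H) : Set H)) : H) =
      F n := rfl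

theorem normEquiv_map (F : G ≃* H) (Q : Subgroup G) :
    (Q.subgroupOf (Subgroup.normalizer (Q : Set G))).map (normEquiv F Q : _ →* _) =
      (Q.map F.toMonoidHom).subgroupOf
        (Subgroup.normalizer ((Q.map F.toMonoidHom : Subgroup H) : Set H)) := by
  ext y
  rw [Subgroup.mem_map, Subgroup.mem_subgroupOf, Subgroup.mem_map]
  constructor
  · rintro ⟨n, hn, rfl⟩
    exact ⟨n, Subgroup.mem_subgroupOf.1 hn, rfl⟩
  · rintro ⟨q, hq, hqy⟩
    refine ⟨(normEquiv F Q).symm y, ?_, (normEquiv F Q).apply_symm_apply y⟩
    rw [Subgroup.mem_subgroupOf]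
    have h1 : F ((normEquiv F Q).symm y : Subgroup.normalizer (Q : Set G)) = (y : H) := by
      rw [← coe_normEquiv, (normEquiv F Q).apply_symm_apply]
    have h2 : F q = (y : H) := hqy
    have h3 : (((normEquiv F Q).symm y : Subgroup.normalizer (Q : Set G)) : G) = q :=
      F.injective (h1.trans h2.symm)
    rw [h3]
    exact hq

/-- the isomorphism of the quotients `N(Q)/Q` -/
noncomputable def quotEquiv (F : G ≃* H) (Q : Subgroup G) :
    NormQuot Q ≃* NormQuot (Q.map F.toMonoidHom) :=
  QuotientGroup.congr _ _ (normEquiv F Q) (normEquiv_map F Q)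

/-- `restrictCoeff` under an isomorphism -/
theorem restrict_transport (F : G ≃* H) (Q : Subgroup G) (e : MonoidAlgebra k G) :
    restrictCoeff (Subgroup.normalizer ((Q.map F.toMonoidHom : Subgroup H) : Set H))
      (MonoidAlgebra.mapDomainRingEquiv k F e) =
      MonoidAlgebra.mapDomainRingEquiv k (normEquiv F Q)
        (restrictCoeff (Subgroup.normalizer (Q : Set G)) e) := by
  apply MonoidAlgebra.coeff_injective
  ext y
  rw [MonoidAlgebra.coeff_mapDomainRingEquiv]
  have h1 : (((normEquiv F Q).symm y : Subgroup.normalizer (Q : Set G)) : G) = F.symm (y : H) := by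
    apply F.injective
    rw [← coe_normEquiv, (normEquiv F Q).apply_symm_apply, F.apply_symm_apply]
  show (MonoidAlgebra.mapDomainRingEquiv k F e).coeff (y : H) =
    e.coeff (((normEquiv F Q).symm y : Subgroup.normalizer (Q : Set G)) : G)
  rw [MonoidAlgebra.coeff_mapDomainRingEquiv, h1]
  rfl

/-- `localImage` under an isomorphism -/
theorem localImage_transport (F : G ≃* H) (Q : Subgroup G) (e : MonoidAlgebra k G) :
    localImage (Q.map F.toMonoidHom) (MonoidAlgebra.mapDomainRingEquiv k F e) =
      MonoidAlgebra.mapDomainRingEquiv k (quotEquiv F Q) (localImage Q e) := by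
  unfold localImage
  rw [restrict_transport]
  apply MonoidAlgebra.coeff_injective
  rw [MonoidAlgebra.coeff_mapDomainRingEquiv]
  show Finsupp.mapDomain _ (MonoidAlgebra.mapDomainRingEquiv k (normEquiv F Q) _).coeff =
    Finsupp.equivMapDomain _ (Finsupp.mapDomain _ _)
  rw [MonoidAlgebra.coeff_mapDomainRingEquiv, Finsupp.equivMapDomain_eq_mapDomain,
    Finsupp.equivMapDomain_eq_mapDomain, ← Finsupp.mapDomain_comp, ← Finsupp.mapDomain_comp]
  rfl

/-- `f0` of the local image under an isomorphism -/
theorem f0_transport (F : G ≃* H) (Q : Subgroup G) (e : MonoidAlgebra k G) :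
    f0 (localImage (Q.map F.toMonoidHom) (MonoidAlgebra.mapDomainRingEquiv k F e)) =
      f0 (localImage Q e) := by
  rw [localImage_transport]
  exact (SCC538.count_proj_one_sub (MonoidAlgebra.mapDomainRingEquiv k (quotEquiv F Q))
    (localImage Q e)).symm

end transport

section conj
variable {k G : Type} [Field k] [Group G]

/-- coefficients of a central element are constant on conjugacy classes -/
theorem coeff_conj {e : MonoidAlgebra k G} (he : ∀ x : MonoidAlgebra k G, e * x = x * e) (g x : G) :
    e.coeff (g⁻¹ * x * g) = e.coeff x := by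
  have h1 := congrArg (fun y : MonoidAlgebra k G => y.coeff (x * g)) (he (MonoidAlgebra.single g 1))
  change (e * MonoidAlgebra.single g 1).coeff (x * g) = (MonoidAlgebra.single g 1 * e).coeff (x * g)
    at h1
  rw [MonoidAlgebra.coeff_mul_single_eq_coeff_mul (m₂ := x) (fun m' _ => by simp),
    MonoidAlgebra.coeff_single_mul_eq_mul_coeff (m₂ := g⁻¹ * x * g) (fun m' _ => by
      constructor
      · intro h
        rw [mul_assoc, ← h]; group
      · intro h
        rw [h]; group), mul_one, one_mul] at h1
  exact h1.symm

/-- a central element is invariant under conjugation -/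
theorem domConj_eq {e : MonoidAlgebra k G} (he : ∀ x : MonoidAlgebra k G, e * x = x * e) (g : G) :
    MonoidAlgebra.mapDomainRingEquiv k (MulAut.conj g) e = e := by
  apply MonoidAlgebra.coeff_injective
  ext x
  rw [MonoidAlgebra.coeff_mapDomainRingEquiv]
  show e.coeff ((MulAut.conj g).symm x) = e.coeff x
  rw [← coeff_conj he g x]
  rfl

variable (p : ℕ) (G)

/-- `p`-subgroups -/
abbrev PSub : Type := {Q : Subgroup G // IsPGroup p Q}

/-- conjugation of `p`-subgroups -/
instance conjAction : MulAction G (PSub G p) where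
  smul g Q := ⟨Q.1.map (MulAut.conj g).toMonoidHom, Q.2.map _⟩
  one_smul Q := by
    apply Subtype.ext
    show Q.1.map (MulAut.conj (1 : G)).toMonoidHom = Q.1
    ext x
    simp [Subgroup.mem_map]
  mul_smul g h Q := by
    apply Subtype.ext
    show Q.1.map (MulAut.conj (g * h)).toMonoidHom =
      (Q.1.map (MulAut.conj h).toMonoidHom).map (MulAut.conj g).toMonoidHom
    rw [Subgroup.map_map]
    congr 1
    ext x
    simp [mul_assoc]

variable {p G}

theorem smul_coe (g : G) (Q : PSub G p) :
    ((g • Q : PSub G p) : Subgroup G) = Q.1.map (MulAut.conj g).toMonoidHom := rfl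

theorem stabilizer_eq (Q : PSub G p) :
    MulAction.stabilizer G Q = Subgroup.normalizer (Q.1 : Set G) := by
  ext g
  rw [MulAction.mem_stabilizer_iff, Subgroup.mem_normalizer_iff_map_conj_eq, Subtype.ext_iff]
  rfl

/-- the term of `Wt` is invariant under conjugation -/
theorem f0_conj [Finite G] {e : MonoidAlgebra k G} (he : ∀ x : MonoidAlgebra k G, e * x = x * e)
    (g : G) (Q : PSub G p) :
    f0 (localImage ((g • Q : PSub G p) : Subgroup G) e) = f0 (localImage Q.1 e) := by
  have h := f0_transport (MulAut.conj g) Q.1 e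
  rw [domConj_eq he] at h
  exact h

end conj

/-- **leaf HD** -/
theorem hDvd (p : ℕ) (k : Type) [Field k] : FIN534.HDvd p k := by
  intro G _ _ e he
  unfold Wt
  have h := dvd_finsum (G := G) (X := PSub G p) (fun Q => f0 (localImage Q.1 e))
    (fun g Q => f0_conj he.1 g Q)
  refine h.trans (dvd_of_eq ?_)
  refine finsum_congr fun Q => ?_
  rw [stabilizer_eq]

end Crest.Agent.R170.HD534
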