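import Mathlib
import Crest.Agent.R170.DefW_995

/-!
# Row 170, leaf WW: common definitions for the wreath product (helper350)

`Γ = G ≀ᵣ C` (Mathlib `RegularWreathProduct`), `C` a finite group (later `Multiplicative (ZMod p)`).

* `prodSub R`, `R : C → Subgroup G`: the subgroup `∏ R i` of the base group.
* `wrSub R`: the subgroup `R ≀ C`.
* `tens e` for a family `e i : k[M i]`: the element of `k[∀ i, M i]` with coefficients `∏ i, e i (g i)`.
* `wE e`: the element `e ⊗ … ⊗ e` of `k[G^C] ⊆ k[G ≀ C]`.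
* `frob p e`: coefficientwise `p`-th power.
* `IsRad p Q`: `Q` is a radical `p`-subgroup.
-/

set_option autoImplicit false

namespace Crest.Agent.R170

open MonoidAlgebra Crest.AlgebraR.Weights Crest.AlgebraR.Blocks

section subgroups
variable {G C : Type} [Group G] [Group C]

/-- `∏ R i` in the base group -/
def prodSub (R : C → Subgroup G) : Subgroup (G ≀ᵣ C) where
  carrier := {x | x.right = 1 ∧ ∀ i, x.left i ∈ R i}
  mul_mem' := by
    rintro a b ⟨ha, ha'⟩ ⟨hb, hb'⟩
    refine ⟨by simp [ha, hb], fun i => ?_⟩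
    have h1 : (a * b).left i = a.left i * b.left i := by simp [ha]
    rw [h1]
    exact (R i).mul_mem (ha' i) (hb' i)
  one_mem' := ⟨rfl, fun i => (R i).one_mem⟩
  inv_mem' := by
    rintro a ⟨ha, ha'⟩
    refine ⟨by simp [ha], fun i => ?_⟩
    have h1 : (a⁻¹).left i = (a.left i)⁻¹ := by simp [ha]
    rw [h1]
    exact (R i).inv_mem (ha' i)

/-- `R ≀ C` -/
def wrSub (R : Subgroup G) : Subgroup (G ≀ᵣ C) where
  carrier := {x | ∀ i, x.left i ∈ R}
  mul_mem' := by
    intro a b ha hb i
    exact R.mul_mem (ha i) (hb _)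
  one_mem' := fun i => R.one_mem
  inv_mem' := by
    intro a ha i
    have h1 : (a⁻¹).left i = (a.left (a.right * i))⁻¹ := by simp
    rw [h1]
    exact R.inv_mem (ha _)

theorem mem_prodSub (R : C → Subgroup G) (x : G ≀ᵣ C) :
    x ∈ prodSub R ↔ x.right = 1 ∧ ∀ i, x.left i ∈ R i := Iff.rfl

theorem mem_wrSub (R : Subgroup G) (x : G ≀ᵣ C) :
    x ∈ (wrSub R : Subgroup (G ≀ᵣ C)) ↔ ∀ i, x.left i ∈ R := Iff.rfl

/-- the base group `G^C` -/
def baseG (G C : Type) [Group G] [Group C] : Subgroup (G ≀ᵣ C) :=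
  (RegularWreathProduct.rightHom : G ≀ᵣ C →* C).ker

theorem mem_baseG (x : G ≀ᵣ C) : x ∈ baseG G C ↔ x.right = 1 := Iff.rfl

/-- `Q` is a `p`-subgroup and every `p`-subgroup normalised by `N(Q)` and contained in it lies in `Q` -/
def IsRad (p : ℕ) (Q : Subgroup G) : Prop :=
  IsPGroup p Q ∧ ∀ K : Subgroup G, IsPGroup p K → K ≤ Subgroup.normalizer (Q : Set G) →
    Subgroup.normalizer (Q : Set G) ≤ Subgroup.normalizer (K : Set G) → K ≤ Q

end subgroups

section elements
variable {k : Type} [Field k]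

/-- `⊗ e i` -/
noncomputable def tens {ι : Type} [Fintype ι] {M : ι → Type} [∀ i, Group (M i)] [∀ i, Finite (M i)]
    (e : ∀ i, MonoidAlgebra k (M i)) : MonoidAlgebra k (∀ i, M i) :=
  .ofCoeff (Finsupp.equivFunOnFinite.symm fun g : ∀ i, M i => ∏ i, (e i).coeff (g i))

open Classical in
/-- `e ⊗ … ⊗ e` as an element of the group algebra of the wreath product -/
noncomputable def wE {G : Type} [Group G] [Finite G] (C : Type) [Group C] [Fintype C]
    (e : MonoidAlgebra k G) : MonoidAlgebra k (G ≀ᵣ C) :=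
  .ofCoeff (Finsupp.equivFunOnFinite.symm fun g : G ≀ᵣ C =>
    if g.right = 1 then ∏ i, e.coeff (g.left i) else 0)

/-- coefficientwise `p`-th power -/
noncomputable def frob {G : Type} [Group G] [Finite G] (p : ℕ) (e : MonoidAlgebra k G) :
    MonoidAlgebra k G :=
  .ofCoeff (Finsupp.equivFunOnFinite.symm fun g : G => e.coeff g ^ p)

open Classical in
theorem wE_coeff {G : Type} [Group G] [Finite G] (C : Type) [Group C] [Fintype C]
    (e : MonoidAlgebra k G) (g : G ≀ᵣ C) :
    (wE C e).coeff g = if g.right = 1 then ∏ i, e.coeff (g.left i) else 0 := by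
  simp [wE]

theorem tens_coeff {ι : Type} [Fintype ι] {M : ι → Type} [∀ i, Group (M i)] [∀ i, Finite (M i)]
    (e : ∀ i, MonoidAlgebra k (M i)) (g : ∀ i, M i) :
    (tens e).coeff g = ∏ i, (e i).coeff (g i) := by
  simp [tens]

theorem frob_coeff {G : Type} [Group G] [Finite G] (p : ℕ) (e : MonoidAlgebra k G) (g : G) :
    (frob p e).coeff g = e.coeff g ^ p := by
  simp [frob]

end elements

end Crest.Agent.R170
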