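import Mathlib
import Crest.Agent.R170.Wr_350

/-!
# Row 170, leaf WW, part a: sums over conjugacy classes of subgroups (helper350)
-/

set_option autoImplicit false

namespace Crest.Agent.R170

open MonoidAlgebra Crest.AlgebraR.Weights Crest.AlgebraR.Blocks

section conj
variable {G : Type} [Group G]

/-- conjugate subgroup -/
def cj (g : G) (Q : Subgroup G) : Subgroup G := Q.map (MulAut.conj g).toMonoidHom

theorem mem_cj (g x : G) (Q : Subgroup G) : x ∈ cj g Q ↔ g⁻¹ * x * g ∈ Q := by
  unfold cj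
  rw [Subgroup.mem_map]
  constructor
  · rintro ⟨y, hy, rfl⟩
    simpa [MulAut.conj_apply, mul_assoc] using hy
  · intro h
    exact ⟨_, h, by simp [MulAut.conj_apply, mul_assoc]⟩

theorem cj_one (Q : Subgroup G) : cj 1 Q = Q := by
  ext x; simp [mem_cj]

theorem cj_mul (g h : G) (Q : Subgroup G) : cj (g * h) Q = cj g (cj h Q) := by
  ext x; simp [mem_cj, mul_assoc]

theorem cj_inv_cj (g : G) (Q : Subgroup G) : cj g⁻¹ (cj g Q) = Q := by
  rw [← cj_mul, inv_mul_cancel, cj_one]

theorem cj_cj_inv (g : G) (Q : Subgroup G) : cj g (cj g⁻¹ Q) = Q := by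
  rw [← cj_mul, mul_inv_cancel, cj_one]

theorem cj_eq_iff (g : G) (Q : Subgroup G) :
    cj g Q = Q ↔ g ∈ Subgroup.normalizer (Q : Set G) := by
  rw [Subgroup.mem_normalizer_iff]
  constructor
  · intro h x
    have h1 : g * x * g⁻¹ ∈ cj g Q ↔ x ∈ Q := by
      rw [mem_cj]; simp [mul_assoc]
    rw [h] at h1
    exact h1.symm
  · intro h
    ext x
    rw [mem_cj]
    have h1 := h (g⁻¹ * x * g)
    have h2 : g * (g⁻¹ * x * g) * g⁻¹ = x := by group
    rw [h2] at h1
    exact h1

theorem isPGroup_cj {p : ℕ} (g : G) {Q : Subgroup G} (h : IsPGroup p Q) : IsPGroup p (cj g Q) :=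
  h.map _

theorem normalizer_cj (g : G) (Q : Subgroup G) :
    Subgroup.normalizer ((cj g Q : Subgroup G) : Set G) =
      cj g (Subgroup.normalizer (Q : Set G)) := by
  ext x
  rw [← cj_eq_iff, mem_cj, ← cj_eq_iff]
  constructor
  · intro h
    rw [cj_mul, cj_mul, h, cj_inv_cj]
  · intro h
    have h1 : cj g (cj (g⁻¹ * x * g) Q) = cj g Q := by rw [h]
    rw [← cj_mul] at h1
    have h2 : g * (g⁻¹ * x * g) = x * g := by group
    rw [h2, cj_mul] at h1
    exact h1

theorem card_cj (g : G) (Q : Subgroup G) : Nat.card (cj g Q : Subgroup G) = Nat.card Q := by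
  unfold cj
  exact Nat.card_congr (Subgroup.equivMapOfInjective Q _ (MulAut.conj g).injective).toEquiv.symm

theorem card_normalizer_cj (g : G) (Q : Subgroup G) :
    Nat.card (Subgroup.normalizer ((cj g Q : Subgroup G) : Set G)) =
      Nat.card (Subgroup.normalizer (Q : Set G)) := by
  rw [normalizer_cj, card_cj]

/-- the action of `G` on its subgroups by conjugation -/
@[reducible] def cjAct : MulAction G (Subgroup G) where
  smul g Q := cj g Q
  one_smul := cj_one
  mul_smul := cj_mul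

/-- orbit-stabiliser for conjugation of subgroups -/
theorem card_conj_mul [Finite G] (Q : Subgroup G) :
    Nat.card {R : Subgroup G // ∃ g : G, R = cj g Q} *
      Nat.card (Subgroup.normalizer (Q : Set G)) = Nat.card G := by
  let _i : MulAction G (Subgroup G) := cjAct
  have h1 : MulAction.stabilizer G Q = Subgroup.normalizer (Q : Set G) := by
    ext x
    rw [MulAction.mem_stabilizer_iff, ← cj_eq_iff]
    rfl
  have h2 := MulAction.orbitEquivQuotientStabilizer G Q
  have h3 : Nat.card {R : Subgroup G // ∃ g : G, R = cj g Q} = Nat.card (G ⧸ MulAction.stabilizer G Q) := by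
    rw [← Nat.card_congr h2]
    apply Nat.card_congr
    apply Equiv.subtypeEquivRight
    intro R
    constructor
    · rintro ⟨g, rfl⟩; exact ⟨g, rfl⟩
    · rintro ⟨g, rfl⟩; exact ⟨g, rfl⟩
  rw [h3, ← h1]
  exact (Subgroup.card_eq_card_quotient_mul_card_subgroup _).symm

/-- conjugacy of the subgroups with property `P` -/
def cRel (P : Subgroup G → Prop) (Q R : {Q : Subgroup G // P Q}) : Prop := ∃ g : G, R.1 = cj g Q.1

theorem cRel_equiv (P : Subgroup G → Prop) : Equivalence (cRel P) where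
  refl Q := ⟨1, (cj_one _).symm⟩
  symm := by
    rintro Q R ⟨g, hg⟩
    exact ⟨g⁻¹, by rw [hg, cj_inv_cj]⟩
  trans := by
    rintro Q R S ⟨g, hg⟩ ⟨h, hh⟩
    exact ⟨h * g, by rw [hh, hg, cj_mul]⟩

theorem cRel_of_mk (P : Subgroup G → Prop) {Q R : {Q : Subgroup G // P Q}}
    (h : Quot.mk (cRel P) Q = Quot.mk (cRel P) R) : cRel P Q R := by
  have h1 := Quot.eqvGen_exact h
  exact (cRel_equiv P).eqvGen_iff.1 h1

/-- sums over a conjugation invariant set of subgroups -/
theorem conjSum [Finite G] (P : Subgroup G → Prop) (hP : ∀ g Q, P Q → P (cj g Q))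
    (f : Subgroup G → ℕ) (hf : ∀ g Q, f (cj g Q) = f Q) :
    ∑ᶠ Q : {Q : Subgroup G // P Q}, Nat.card (Subgroup.normalizer (Q.1 : Set G)) * f Q.1 =
      Nat.card G * ∑ᶠ ω : Quot (cRel P), f ω.out.1 := by
  classical
  have : Fintype {Q : Subgroup G // P Q} := Fintype.ofFinite _
  have : Finite (Quot (cRel P)) := Finite.of_surjective _ Quot.mk_surjective
  have : Fintype (Quot (cRel P)) := Fintype.ofFinite _
  rw [finsum_eq_sum_of_fintype, finsum_eq_sum_of_fintype, Finset.mul_sum,
    ← Finset.sum_fiberwise (s := Finset.univ) (g := fun Q => Quot.mk (cRel P) Q)]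
  apply Finset.sum_congr rfl
  intro ω _
  have h1 : ∀ Q ∈ Finset.univ.filter (fun Q : {Q : Subgroup G // P Q} => Quot.mk (cRel P) Q = ω),
      Nat.card (Subgroup.normalizer (Q.1 : Set G)) * f Q.1 =
        Nat.card (Subgroup.normalizer (ω.out.1 : Set G)) * f ω.out.1 := by
    intro Q hQ
    rw [Finset.mem_filter] at hQ
    have h2 : cRel P ω.out Q := cRel_of_mk P (by rw [hQ.2]; exact Quot.out_eq ω)
    obtain ⟨g, hg⟩ := h2
    rw [hg, card_normalizer_cj, hf]
  rw [Finset.sum_congr rfl h1, Finset.sum_const, smul_eq_mul, ← mul_assoc]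
  congr 1
  have h3 := card_conj_mul (ω.out.1)
  have h4 : (Finset.univ.filter (fun Q : {Q : Subgroup G // P Q} => Quot.mk (cRel P) Q = ω)).card =
      Nat.card {R : Subgroup G // ∃ g : G, R = cj g ω.out.1} := by
    rw [← Fintype.card_subtype, ← Nat.card_eq_fintype_card]
    refine Nat.card_congr ⟨fun Q => ⟨Q.1.1, ?_⟩, fun R => ⟨⟨R.1, ?_⟩, ?_⟩, fun _ => rfl, fun _ => rfl⟩
    · exact cRel_of_mk P (by rw [Q.2]; exact Quot.out_eq ω)
    · obtain ⟨g, hg⟩ := R.2
      rw [hg]
      exact hP g _ ω.out.2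
    · have h5 : ∃ g : G, R.1 = cj g ω.out.1 := R.2
      have h6 : Quot.mk (cRel P) ω.out = Quot.mk (cRel P) ⟨R.1, by
          obtain ⟨g, hg⟩ := h5
          rw [hg]
          exact hP g _ ω.out.2⟩ := Quot.sound h5
      exact h6.symm.trans (Quot.out_eq ω)
  rw [h4]
  exact h3

end conj

end Crest.Agent.R170
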