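import Mathlib
import Crest.Agent.R170.WWa_350
import Crest.Agent.R170.HD_534
import Crest.Agent.R170.J2_356
import Crest.Agent.R170.BR_606

/-!
# Row 170, leaf WW, part b: type 2 subgroups `R ≀ C` and the assembly (helper350)
-/

set_option autoImplicit false

namespace Crest.Agent.R170

open MonoidAlgebra Crest.AlgebraR.Weights Crest.AlgebraR.Blocks

section inv
variable {k G : Type} [Field k] [Group G] [Finite G]

/-- `f0` of the local image is invariant under conjugation -/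
theorem f0_cj {e : MonoidAlgebra k G} (he : ∀ x : MonoidAlgebra k G, e * x = x * e)
    (g : G) (Q : Subgroup G) :
    f0 (localImage (cj g Q) e) = f0 (localImage Q e) := by
  have h := HD534.f0_transport (MulAut.conj g) Q e
  rw [HD534.domConj_eq he] at h
  exact h

/-- only radical `p`-subgroups contribute -/
theorem isRad_of_f0 {p : ℕ} [Fact p.Prime] [IsAlgClosed k] [CharP k p] {Q : Subgroup G}
    (hQ : IsPGroup p Q) {x : MonoidAlgebra k (NormQuot Q)} (hx : CI x)
    (h : f0 x ≠ 0) : IsRad p Q := by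
  refine ⟨hQ, fun K hK hKN hNK => ?_⟩
  by_contra hKQ
  apply h
  refine J356.sj2 p k (NormQuot Q) x hx
    ⟨(K.subgroupOf (Subgroup.normalizer (Q : Set G))).map (QuotientGroup.mk' _), ?_, ?_, ?_⟩
  · have h1 : (K.subgroupOf (Subgroup.normalizer (Q : Set G))).Normal := by
      constructor
      intro n hn g
      rw [Subgroup.mem_subgroupOf] at hn ⊢
      have h2 := Subgroup.mem_normalizer_iff.1 (hNK g.2) (n : G)
      exact h2.1 hn
    exact h1.map _ (QuotientGroup.mk'_surjective _)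
  · exact IsPGroup.map (IsPGroup.comap_subtype hK) _
  · intro h2
    apply hKQ
    intro x hxK
    have h3 : (QuotientGroup.mk' (Q.subgroupOf (Subgroup.normalizer (Q : Set G)))
        ⟨x, hKN hxK⟩) ∈ ((K.subgroupOf (Subgroup.normalizer (Q : Set G))).map
          (QuotientGroup.mk' (Q.subgroupOf (Subgroup.normalizer (Q : Set G))))) :=
      Subgroup.mem_map_of_mem _ (Subgroup.mem_subgroupOf.2 hxK)
    rw [h2, Subgroup.mem_bot, QuotientGroup.mk'_apply, QuotientGroup.eq_one_iff,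
      Subgroup.mem_subgroupOf] at h3
    exact h3

end inv

section type2
variable {k G C : Type} [Field k] [Group G] [Finite G] [Group C] [Fintype C]

/-- subgroups conjugate to some `R ≀ C` -/
def P2 (p : ℕ) (G C : Type) [Group G] [Group C] (Q : Subgroup (G ≀ᵣ C)) : Prop :=
  ∃ (g : G ≀ᵣ C) (R : Subgroup G), IsPGroup p R ∧ Q = cj g (wrSub R)

theorem P2_cj {p : ℕ} (g : G ≀ᵣ C) (Q : Subgroup (G ≀ᵣ C)) (h : P2 p G C Q) :
    P2 p G C (cj g Q) := by
  obtain ⟨h, R, hR, rfl⟩ := h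
  exact ⟨g * h, R, hR, by rw [cj_mul]⟩

theorem sum_type2 {p : ℕ} {e : MonoidAlgebra k G} (hE : CI (wE C e)) (he : CI e)
    (hd : ∀ R R' : Subgroup G, (∃ g : G ≀ᵣ C, wrSub R' = cj g (wrSub R)) ↔ ∃ g : G, R' = cj g R)
    (hf : ∀ R : Subgroup G, IsPGroup p R →
      f0 (localImage (wrSub R) (wE C e)) = f0 (localImage R e)) :
    ∑ᶠ Q : {Q : Subgroup (G ≀ᵣ C) // P2 p G C Q},
      Nat.card (Subgroup.normalizer (Q.1 : Set (G ≀ᵣ C))) * f0 (localImage Q.1 (wE C e)) =
      Nat.card (G ≀ᵣ C) * ∑ᶠ ω : Quot (cRel fun R : Subgroup G => IsPGroup p R),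
        f0 (localImage ω.out.1 e) := by
  have h1 := conjSum (P2 p G C) P2_cj (fun Q => f0 (localImage Q (wE C e)))
    (fun g Q => f0_cj hE.1 g Q)
  rw [h1]
  congr 1
  symm
  let F : {R : Subgroup G // IsPGroup p R} → {Q : Subgroup (G ≀ᵣ C) // P2 p G C Q} :=
    fun R => ⟨wrSub R.1, 1, R.1, R.2, (cj_one _).symm⟩
  have hF : ∀ R R', cRel (fun R : Subgroup G => IsPGroup p R) R R' → cRel (P2 p G C) (F R) (F R') := by
    intro R R' h
    exact (hd R.1 R'.1).2 h
  refine finsum_eq_of_bijective (Quot.map F hF) ⟨?_, ?_⟩ ?_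
  · intro a b
    induction a using Quot.inductionOn with
    | h a =>
      induction b using Quot.inductionOn with
      | h b =>
        intro h
        exact Quot.sound ((hd a.1 b.1).1 (cRel_of_mk _ h))
  · intro q
    induction q using Quot.inductionOn with
    | h Q =>
      obtain ⟨Q, g, R, hR, rfl⟩ := Q
      refine ⟨Quot.mk _ ⟨R, hR⟩, ?_⟩
      exact Quot.sound ⟨g, rfl⟩
  · intro ω
    have h2 : Quot.mk (cRel (P2 p G C)) (F ω.out) =
        Quot.mk (cRel (P2 p G C)) (Quot.map F hF ω).out := by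
      rw [Quot.out_eq]
      exact congrArg (Quot.map F hF) (Quot.out_eq ω)
    obtain ⟨g, hg⟩ := cRel_of_mk _ h2
    rw [hg, f0_cj hE.1]
    exact (hf _ ω.out.2).symm

end type2

section assembly
variable {k G C : Type} [Field k] [Group G] [Finite G] [Group C] [Fintype C]

/-- tuples of `p`-subgroups -/
abbrev Tup (p : ℕ) (G C : Type) [Group G] : Type := C → {R : Subgroup G // IsPGroup p R}

/-- the product subgroup of a tuple -/
abbrev tSub {p : ℕ} (R : Tup p G C) : Subgroup (G ≀ᵣ C) := prodSub fun i => (R i).1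

/-- splitting of the weighted count of the wreath product -/
theorem Wt_split {p : ℕ} (e : MonoidAlgebra k G)
    (hrad : ∀ Q : Subgroup (G ≀ᵣ C), IsPGroup p Q → f0 (localImage Q (wE C e)) ≠ 0 → IsRad p Q)
    (hb : ∀ Q : Subgroup (G ≀ᵣ C), IsRad p Q → Q ≤ baseG G C → ∃ R : C → Subgroup G,
      (∀ i, IsPGroup p (R i)) ∧ Q = prodSub R)
    (hc : ∀ Q : Subgroup (G ≀ᵣ C), IsRad p Q → ¬ Q ≤ baseG G C → P2 p G C Q)
    (hinj : ∀ R R' : C → Subgroup G, prodSub R = prodSub R' → R = R')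
    (hp1 : ∀ R : C → Subgroup G, (∀ i, IsPGroup p (R i)) →
      IsPGroup p (prodSub R : Subgroup (G ≀ᵣ C)))
    (hp2 : ∀ Q : Subgroup (G ≀ᵣ C), P2 p G C Q → IsPGroup p Q)
    (hnb : ∀ Q : Subgroup (G ≀ᵣ C), P2 p G C Q → ¬ Q ≤ baseG G C) :
    Wt p (wE C e) =
      ∑ᶠ R : Tup p G C, Nat.card (Subgroup.normalizer ((tSub R : Subgroup (G ≀ᵣ C)) :
        Set (G ≀ᵣ C))) * f0 (localImage (tSub R) (wE C e)) +
      ∑ᶠ Q : {Q : Subgroup (G ≀ᵣ C) // P2 p G C Q},
        Nat.card (Subgroup.normalizer (Q.1 : Set (G ≀ᵣ C))) * f0 (localImage Q.1 (wE C e)) := by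
  classical
  set F : Subgroup (G ≀ᵣ C) → ℕ := fun Q =>
    Nat.card (Subgroup.normalizer (Q : Set (G ≀ᵣ C))) * f0 (localImage Q (wE C e)) with hF
  have : Fintype (Subgroup (G ≀ᵣ C)) := Fintype.ofFinite _
  have : Fintype (Tup p G C) := Fintype.ofFinite _
  have h1 : Wt p (wE C e) = ∑ Q ∈ Finset.univ.filter (fun Q : Subgroup (G ≀ᵣ C) => IsPGroup p Q),
      F Q := by
    unfold Wt
    rw [finsum_eq_sum_of_fintype]
    exact (Finset.sum_subtype _ (fun x => by simp) F).symm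
  have h2 : ∑ᶠ Q : {Q : Subgroup (G ≀ᵣ C) // P2 p G C Q}, F Q.1 =
      ∑ Q ∈ Finset.univ.filter (fun Q : Subgroup (G ≀ᵣ C) => P2 p G C Q), F Q := by
    rw [finsum_eq_sum_of_fintype]
    exact (Finset.sum_subtype _ (fun x => by simp) F).symm
  have h3 : ∑ᶠ R : Tup p G C, F (tSub R) =
      ∑ Q ∈ Finset.univ.image (fun R : Tup p G C => (tSub R : Subgroup (G ≀ᵣ C))), F Q := by
    rw [finsum_eq_sum_of_fintype, Finset.sum_image]
    intro R _ R' _ h
    have h4 := hinj _ _ h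
    funext i
    exact Subtype.ext (congrFun h4 i)
  rw [h1]
  show _ = ∑ᶠ R : Tup p G C, F (tSub R) + ∑ᶠ Q : {Q : Subgroup (G ≀ᵣ C) // P2 p G C Q}, F Q.1
  rw [h2, h3, ← Finset.sum_union]
  · symm
    apply Finset.sum_subset
    · intro Q hQ
      rw [Finset.mem_union] at hQ
      rw [Finset.mem_filter]
      refine ⟨Finset.mem_univ _, ?_⟩
      rcases hQ with hQ | hQ
      · rw [Finset.mem_image] at hQ
        obtain ⟨R, -, rfl⟩ := hQ
        exact hp1 _ fun i => (R i).2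
      · exact hp2 _ (Finset.mem_filter.1 hQ).2
    · intro Q hQ hQ'
      by_contra hne
      have h5 : f0 (localImage Q (wE C e)) ≠ 0 := by
        intro h
        apply hne
        simp [hF, h]
      have h6 := hrad Q (Finset.mem_filter.1 hQ).2 h5
      apply hQ'
      rw [Finset.mem_union]
      by_cases hQb : Q ≤ baseG G C
      · left
        obtain ⟨R, hR, rfl⟩ := hb Q h6 hQb
        exact Finset.mem_image.2 ⟨fun i => ⟨R i, hR i⟩, Finset.mem_univ _, rfl⟩
      · right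
        exact Finset.mem_filter.2 ⟨Finset.mem_univ _, hc Q h6 hQb⟩
  · rw [Finset.disjoint_left]
    intro Q hQ hQ'
    rw [Finset.mem_image] at hQ
    obtain ⟨R, -, rfl⟩ := hQ
    exact hnb _ (Finset.mem_filter.1 hQ').2 fun x hx => hx.1

/-- final arithmetic -/
theorem WW_arith {p g w T1 T : ℕ} (hp : p.Prime) (hT : T = g * w)
    (h1 : T1 + g ^ (p - 1) * T = T ^ p) :
    T1 + (g ^ p * p) * w = (g ^ p * p) * ((w ^ p - w) / p + w) := by
  have := Fact.mk hp
  have hdvd : p ∣ w ^ p - w := by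
    have h2 : (w ^ p : ℤ) ≡ w [ZMOD p] := by
      rw [← ZMod.intCast_eq_intCast_iff]
      push_cast
      exact ZMod.pow_card _
    have h3 : w ≤ w ^ p := Nat.le_self_pow hp.ne_zero w
    have h4 : ((w ^ p - w : ℕ) : ℤ) = (w ^ p : ℤ) - w := by
      push_cast [Nat.cast_sub h3]
      ring
    have h5 := (Int.modEq_iff_dvd.1 h2.symm)
    have h6 : (p : ℤ) ∣ ((w ^ p - w : ℕ) : ℤ) := by rw [h4]; exact h5
    exact_mod_cast h6
  obtain ⟨m, hm⟩ := hdvd
  have hle : w ≤ w ^ p := Nat.le_self_pow hp.ne_zero w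
  have hm' : w ^ p = p * m + w := by omega
  rw [hm, Nat.mul_div_cancel_left _ hp.pos]
  have hg : g ^ (p - 1) * (g * w) = g ^ p * w := by
    rw [← mul_assoc, ← pow_succ, Nat.sub_add_cancel hp.one_le]
  rw [hT, hg, mul_pow, hm'] at h1
  have h7 : T1 = g ^ p * (p * m) := by
    have : T1 + g ^ p * w = g ^ p * (p * m) + g ^ p * w := by rw [h1]; ring
    omega
  rw [h7]
  ring

end assembly

end Crest.Agent.R170
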