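import Mathlib
import Crest.Agent.R170.WWb_350
import Crest.Agent.R170.WW1c_628

/-!
# Row 170, leaf WW, part c: the sum over the tuples (type 1) (helper350)
-/

set_option autoImplicit false

namespace Crest.Agent.R170

open MonoidAlgebra Crest.AlgebraR.Weights Crest.AlgebraR.Blocks

section
variable {G : Type} [Group G] [Finite G]

/-- the sum of the orders of the normalisers over one class of `p`-subgroups -/
theorem sum_norm_class {p : ℕ} [Fintype {R : Subgroup G // IsPGroup p R}]
    (S : {R : Subgroup G // IsPGroup p R}) [DecidablePred fun T : {R : Subgroup G // IsPGroup p R} =>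
      ∃ x : G, T.1 = cj x S.1] :
    ∑ T : {R : Subgroup G // IsPGroup p R}, (if ∃ x : G, T.1 = cj x S.1 then
      Nat.card (Subgroup.normalizer (T.1 : Set G)) else 0) = Nat.card G := by
  rw [← Finset.sum_filter]
  have h1 : ∀ T ∈ Finset.univ.filter (fun T : {R : Subgroup G // IsPGroup p R} =>
      ∃ x : G, T.1 = cj x S.1), Nat.card (Subgroup.normalizer (T.1 : Set G)) =
        Nat.card (Subgroup.normalizer (S.1 : Set G)) := by
    intro T hT
    obtain ⟨x, hx⟩ := (Finset.mem_filter.1 hT).2
    rw [hx, card_normalizer_cj]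
  rw [Finset.sum_congr rfl h1, Finset.sum_const, smul_eq_mul, ← card_conj_mul S.1]
  congr 1
  rw [← Fintype.card_subtype, ← Nat.card_eq_fintype_card]
  exact Nat.card_congr
    { toFun := fun T => ⟨T.1.1, T.2⟩
      invFun := fun T => ⟨⟨T.1, by obtain ⟨x, hx⟩ := T.2; rw [hx]; exact isPGroup_cj x S.2⟩, T.2⟩
      left_inv := fun _ => rfl
      right_inv := fun _ => rfl }

end

section
variable {k G C : Type} [Field k] [Group G] [Finite G] [Group C] [Fintype C]

theorem prodSub_conj (R : C → Subgroup G) (x : C → G) (S : Subgroup G)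
    (h : ∀ i, R i = cj (x i) S) :
    (prodSub R : Subgroup (G ≀ᵣ C)) = cj ⟨x, 1⟩ (prodSub fun _ => S) := by
  ext y
  rw [mem_cj, mem_prodSub, mem_prodSub]
  constructor
  · rintro ⟨h1, h2⟩
    refine ⟨by simp [h1], fun i => ?_⟩
    have h3 := h2 i
    rw [h i, mem_cj] at h3
    simpa [h1] using h3
  · rintro ⟨h1, h2⟩
    have h4 : y.right = 1 := by simpa using h1
    refine ⟨h4, fun i => ?_⟩
    rw [h i, mem_cj]
    simpa [h4] using h2 i

/-- **T1** : the sum over the tuples -/
theorem sum_type1 {p : ℕ} [Fact p.Prime] (hC : Nat.card C = p) (e : MonoidAlgebra k G) (he : CI e)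
    (hE : CI (wE C e))
    (h_pi : ∀ R : C → Subgroup G, (∀ i, IsPGroup p (R i)) →
      Subgroup.normalizer ((prodSub R : Subgroup (G ≀ᵣ C)) : Set (G ≀ᵣ C)) ≤ baseG G C →
      f0 (localImage (prodSub R) (wE C e)) = ∏ i, f0 (localImage (R i) e))
    (h_wr : ∀ R : Subgroup G, IsPGroup p R →
      p * f0 (localImage (prodSub fun _ : C => R) (wE C e)) + f0 (localImage R e) =
        f0 (localImage R e) ^ p) :
    (∑ᶠ R : Tup p G C, Nat.card (Subgroup.normalizer ((tSub R : Subgroup (G ≀ᵣ C)) :
        Set (G ≀ᵣ C))) * f0 (localImage (tSub R) (wE C e))) + Nat.card G ^ (p - 1) * Wt p e =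
      Wt p e ^ p := by
  classical
  have : Fintype {R : Subgroup G // IsPGroup p R} := Fintype.ofFinite _
  have hCc : Fintype.card C = p := by rw [← Nat.card_eq_fintype_card]; exact hC
  set n : {R : Subgroup G // IsPGroup p R} → ℕ :=
    fun S => Nat.card (Subgroup.normalizer (S.1 : Set G)) with hn
  set f : {R : Subgroup G // IsPGroup p R} → ℕ := fun S => f0 (localImage S.1 e) with hf
  have hW : Wt p e = ∑ S, n S * f S := by
    unfold Wt
    rw [finsum_eq_sum_of_fintype]
  set ψ : {R : Subgroup G // IsPGroup p R} → C → {R : Subgroup G // IsPGroup p R} → ℕ :=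
    fun S i T => if i = 1 then (if T = S then n T else 0) else
      (if ∃ x : G, T.1 = cj x S.1 then n T else 0) with hψ
  -- pointwise identity
  have hpt : ∀ R : Tup p G C,
      Nat.card (Subgroup.normalizer ((tSub R : Subgroup (G ≀ᵣ C)) : Set (G ≀ᵣ C))) *
        f0 (localImage (tSub R) (wE C e)) + ∑ S, f S * ∏ i, ψ S i (R i) =
      ∏ i, (n (R i) * f (R i)) := by
    intro R
    have h0 : ∑ S, f S * ∏ i, ψ S i (R i) = f (R 1) * ∏ i, ψ (R 1) i (R i) := by
      refine Finset.sum_eq_single (R 1) (fun S _ hS => ?_) (fun h => absurd (Finset.mem_univ _) h)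
      have h1 : ∏ i, ψ S i (R i) = 0 := by
        refine Finset.prod_eq_zero (Finset.mem_univ (1 : C)) ?_
        simp only [hψ, if_true]
        rw [if_neg (Ne.symm hS)]
      rw [h1, mul_zero]
    rw [h0]
    by_cases hall : ∀ i, ∃ x : G, (R i).1 = cj x (R 1).1
    · have h1 : ∏ i, ψ (R 1) i (R i) = ∏ i, n (R i) := by
        refine Finset.prod_congr rfl fun i _ => ?_
        simp only [hψ]
        by_cases hi : i = 1
        · subst hi; simp
        · rw [if_neg hi, if_pos (hall i)]
      have h2 := WW1628.card_normalizer_of_conj (fun i => (R i).1) hall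
      have h3 : ∀ i, f (R i) = f (R 1) := by
        intro i
        obtain ⟨x, hx⟩ := hall i
        simp only [hf]
        rw [hx, f0_cj he.1]
      choose x hx using hall
      have h4 : f0 (localImage (tSub R) (wE C e)) =
          f0 (localImage (prodSub fun _ : C => (R 1).1) (wE C e)) := by
        rw [show (tSub R : Subgroup (G ≀ᵣ C)) = cj ⟨x, 1⟩ (prodSub fun _ => (R 1).1) from
          prodSub_conj _ x _ hx, f0_cj hE.1]
      have h5 := h_wr (R 1).1 (R 1).2
      have h6 : ∏ i, f (R i) = f (R 1) ^ p := by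
        rw [Finset.prod_congr rfl (fun i _ => h3 i), Finset.prod_const, Finset.card_univ, hCc]
      rw [h1, Finset.prod_mul_distrib, h6, h4]
      have h2' : Nat.card (Subgroup.normalizer ((tSub R : Subgroup (G ≀ᵣ C)) : Set (G ≀ᵣ C))) =
          Nat.card C * ∏ i, n (R i) := h2
      rw [h2', hC]
      have h5' : p * f0 (localImage (prodSub fun _ : C => (R 1).1) (wE C e)) + f (R 1) =
          f (R 1) ^ p := h5
      rw [← h5']
      ring
    · have hN : Subgroup.normalizer ((tSub R : Subgroup (G ≀ᵣ C)) : Set (G ≀ᵣ C)) ≤ baseG G C := by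
        by_contra hcon
        exact hall (WW1628.conj_of_not_le_base hC _ hcon)
      have h1 : ∏ i, ψ (R 1) i (R i) = 0 := by
        push Not at hall
        obtain ⟨i, hi⟩ := hall
        refine Finset.prod_eq_zero (Finset.mem_univ i) ?_
        simp only [hψ]
        have hi1 : i ≠ 1 := by
          rintro rfl
          exact hi 1 (cj_one _).symm
        rw [if_neg hi1, if_neg]
        rintro ⟨x, hx⟩
        exact hi x hx
      rw [h1, mul_zero, add_zero, Finset.prod_mul_distrib]
      have h2 : Nat.card (Subgroup.normalizer ((tSub R : Subgroup (G ≀ᵣ C)) : Set (G ≀ᵣ C))) =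
          ∏ i, n (R i) := WW1628.card_normalizer_of_le_base _ hN
      rw [h2]
      congr 1
      exact h_pi _ (fun i => (R i).2) hN
  have hsum1 : ∀ g : C → {R : Subgroup G // IsPGroup p R} → ℕ,
      ∑ R : Tup p G C, ∏ i, g i (R i) = ∏ i, ∑ S, g i S := by
    intro g
    rw [Finset.prod_univ_sum, Fintype.piFinset_univ]
  have hpsi : ∑ R : Tup p G C, ∑ S, f S * ∏ i, ψ S i (R i) = Nat.card G ^ (p - 1) * Wt p e := by
    rw [Finset.sum_comm, hW, Finset.mul_sum]
    refine Finset.sum_congr rfl fun S _ => ?_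
    rw [← Finset.mul_sum, hsum1 (ψ S), ← Finset.mul_prod_erase Finset.univ _ (Finset.mem_univ (1 : C))]
    have h1 : ∑ T, ψ S 1 T = n S := by
      simp only [hψ, if_true]
      rw [Finset.sum_ite_eq' Finset.univ S n, if_pos (Finset.mem_univ _)]
    have h2 : ∏ i ∈ Finset.univ.erase (1 : C), ∑ T, ψ S i T = Nat.card G ^ (p - 1) := by
      have h3 : ∀ i ∈ Finset.univ.erase (1 : C), ∑ T, ψ S i T = Nat.card G := by
        intro i hi
        have hi1 : i ≠ 1 := (Finset.mem_erase.1 hi).1
        simp only [hψ, if_neg hi1]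
        exact sum_norm_class S
      rw [Finset.prod_congr rfl h3, Finset.prod_const, Finset.card_erase_of_mem (Finset.mem_univ _),
        Finset.card_univ, hCc]
    rw [h1, h2]
    ring
  rw [finsum_eq_sum_of_fintype, ← hpsi, ← Finset.sum_add_distrib,
    Finset.sum_congr rfl (fun R _ => hpt R), hsum1 (fun _ S => n S * f S), hW,
    Finset.prod_const, Finset.card_univ, hCc]

end

end Crest.Agent.R170
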