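import Mathlib
import Crest.Agent.R170.WWc_350
import Crest.Agent.R170.WW4_148
import Crest.Agent.R170.F0iso_538

/-!
# Row 170, leaf WW: the weights of the wreath product `G ≀ C_p` (helper350)
-/

set_option autoImplicit false

namespace Crest.Agent.R170

open MonoidAlgebra Crest.AlgebraR.Weights Crest.AlgebraR.Blocks

/-- leaf WW2 (752) : `f0` of the wreath product -/
def HWr (p : ℕ) (k : Type) [Field k] : Prop :=
  ∀ (C : Type) [Group C] [Fintype C], Nat.card C = p →
    ∀ (G : Type) [Group G] [Finite G] (e : MonoidAlgebra k G), CI e →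
      p * f0 (wE C e) + f0 e = f0 e ^ p

/-- leaf WW3 (538) : `f0` of a tensor product -/
def HPi (k : Type) [Field k] : Prop :=
  ∀ (ι : Type) [Fintype ι] (M : ι → Type) [∀ i, Group (M i)] [∀ i, Finite (M i)]
    (e : ∀ i, MonoidAlgebra k (M i)), (∀ i, CI (e i)) → f0 (tens e) = ∏ i, f0 (e i)

theorem WW_of (p : ℕ) [Fact p.Prime] (k : Type) [Field k] [IsAlgClosed k] [CharP k p]
    (hWr : HWr p k) (hPi : HPi k) (C : Type) [Group C] [Fintype C] (hC : Nat.card C = p)
    (G : Type) [Group G] [Finite G] (e : MonoidAlgebra k G) (he : CI e) (w : ℕ)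
    (hw : Wt p e = Nat.card G * w) :
    Wt p (wE C e) = Nat.card (G ≀ᵣ C) * ((w ^ p - w) / p + w) := by
  have hp : p.Prime := Fact.out
  have hE : CI (wE C e) := WW4148.CI_wE C e he
  have hCf : Fintype.card C = p := by rw [← Nat.card_eq_fintype_card]; exact hC
  have hsplit := Wt_split (p := p) (C := C) e
    (fun Q hQ h => isRad_of_f0 (p := p) hQ (BR606.localImage_CI hp hQ hE) h)
    (fun Q hQ hb => ⟨WW1628.proj Q, fun i => WW1628.isPGroup_proj hQ.1 i, WW1628.rad_base hQ hb⟩)
    (fun Q hQ hb => by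
      obtain ⟨g, -, R, hR⟩ := WW1628.rad_nonbase hC hQ hb
      refine ⟨g, R, ?_, hR⟩
      have h1 : IsPGroup p ((wrSub R : Subgroup (G ≀ᵣ C))) := by
        have h2 : (wrSub R : Subgroup (G ≀ᵣ C)) = cj g⁻¹ Q := by
          rw [show Q = cj g (wrSub R) from hR, cj_inv_cj]
        rw [h2]
        exact isPGroup_cj _ hQ.1
      exact (WW1628.isPGroup_wrSub_iff hC R).1 h1)
    (fun R R' h => WW1628.prodSub_injective h)
    (fun R hR => WW1628.isPGroup_prodSub hR)
    (fun Q hQ => by
      obtain ⟨g, R, hR, rfl⟩ := hQ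
      exact isPGroup_cj _ ((WW1628.isPGroup_wrSub_iff hC R).2 hR))
    (fun Q hQ hb => by
      obtain ⟨g, R, hR, rfl⟩ := hQ
      have h1 : ∃ c : C, c ≠ 1 := by
        by_contra h
        push Not at h
        have h2 : Subsingleton C := ⟨fun a b => by rw [h a, h b]⟩
        have h3 : Nat.card C = 1 := Nat.card_eq_one_iff_unique.2 ⟨h2, ⟨1⟩⟩
        exact hp.one_lt.ne' (hC.symm.trans h3)
      obtain ⟨c, hc⟩ := h1
      have h2 : g * (⟨1, c⟩ : G ≀ᵣ C) * g⁻¹ ∈ cj g (wrSub R : Subgroup (G ≀ᵣ C)) := by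
        rw [mem_cj]
        have h3 : g⁻¹ * (g * (⟨1, c⟩ : G ≀ᵣ C) * g⁻¹) * g = ⟨1, c⟩ := by group
        rw [h3]
        exact fun i => R.one_mem
      have h4 := hb h2
      rw [mem_baseG] at h4
      apply hc
      have h5 : g.right * c * g.right⁻¹ = 1 := by simpa using h4
      have h6 : g.right * c = g.right := mul_inv_eq_one.1 h5
      simpa using h6)
  have hT2 := sum_type2 (p := p) (C := C) hE he
    (fun R R' => WW1628.wrSub_conj_iff R R')
    (fun R hR => by
      rw [WW4148.f0_wrSub p hCf R e]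
      exact SCC538.f0_frob p (localImage R e) (frob p (localImage R e)) (fun g => frob_coeff p _ g))
  have hT1 := sum_type1 (C := C) hC e he hE
    (fun R hR hb => by
      rw [WW4148.f0_prodSub_base R (fun x hx => hb hx) e]
      exact hPi C (fun i => NormQuot (R i)) (fun i => localImage (R i) e)
        (fun i => BR606.localImage_CI hp (hR i) he))
    (fun R hR => by
      rw [WW4148.f0_prodSub_const R e]
      exact hWr C hC (NormQuot R) (localImage R e) (BR606.localImage_CI hp hR he))
  have hsum : Nat.card G * ∑ᶠ ω : Quot (cRel fun R : Subgroup G => IsPGroup p R),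
      f0 (localImage ω.out.1 e) = Nat.card G * w := by
    rw [← hw, ← conjSum (fun R : Subgroup G => IsPGroup p R) (fun g Q h => isPGroup_cj g h)
      (fun Q => f0 (localImage Q e)) (fun g Q => f0_cj he.1 g Q)]
    rfl
  have hsum' := Nat.eq_of_mul_eq_mul_left Nat.card_pos hsum
  have hcard : Nat.card (G ≀ᵣ C) = Nat.card G ^ p * p := by
    rw [RegularWreathProduct.card, hC]
  rw [hsplit, hT2, hsum', hcard]
  exact WW_arith hp hw hT1

end Crest.Agent.R170
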