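import Crest.Agent.R170.FIN2_534
import Crest.Agent.R170.WL_512
import Crest.Agent.R170.WW_350
import Crest.Agent.R170.F0pi_538
import Crest.Agent.R170.P3_714
import Crest.Agent.R170.M_588

/-!
# Row 170, AMP (helper534): the amplification `SWR` from WL_512, WW_350, F0pi_538 and `HWr`;
S0258 from the three joints `STP`, `HWr`, `WCc`
-/

set_option autoImplicit false

namespace Crest.Agent.R170

open MonoidAlgebra Crest.AlgebraR.Weights Crest.AlgebraR.Blocks

namespace FIN534

theorem hPi (p : ℕ) [Fact p.Prime] (k : Type) [Field k] [IsAlgClosed k] [CharP k p] : HPi k := by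
  intro ι _ M _ _ e he
  exact SCC538.f0_pi p e he (tens e) (fun g => tens_coeff e g)

/-- (WL) + (WW) with `Γ = G ≀ C_p` -/
theorem hAmpW (p : ℕ) [Fact p.Prime] (k : Type) [Field k] [IsAlgClosed k] [CharP k p]
    (hWr : HWr p k) : HAmpW p k := by
  intro G _ _ e W he hW
  have : NeZero p := ⟨(Fact.out : p.Prime).ne_zero⟩
  have hC : Nat.card (Multiplicative (ZMod p)) = p := by
    rw [Nat.card_congr Multiplicative.toAdd, Nat.card_zmod]
  refine ⟨G ≀ᵣ Multiplicative (ZMod p), inferInstance, inferInstance,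
    wE (Multiplicative (ZMod p)) e, WW4148.CI_wE _ e he, WL512.WL p _ hC e he,
    WW_of p k hWr (hPi p k) _ hC G e he W hW⟩

/-- the joint `SWR` -/
theorem sWR_of (p : ℕ) [Fact p.Prime] (k : Type) [Field k] [IsAlgClosed k] [CharP k p]
    (hWr : HWr p k) : SWR p k :=
  sWR_of_W (hAmpW p k hWr)

/-- **S0258 from the joints `STP`, `HWr` and `WCc`** -/
theorem s0258_joints {p : ℕ} (hp : p.Prime) {k : Type} [Field k] [IsAlgClosed k] [CharP k p]
    (hTP : haveI : Fact p.Prime := ⟨hp⟩; STP p k) (hWr : HWr p k) (hW : WCc p)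
    (G : Type) [Group G] [Finite G] (e : MonoidAlgebra k G)
    (he : IsBlockIdempotent e) : Nat.card G * blockSimpleCount e = weightedWeightCount p e := by
  haveI : Fact p.Prime := ⟨hp⟩
  exact s0258 hp (P714.sp' p k hTP (M588.sM p k)) (sWR_of p k hWr) hW G e he

end FIN534

end Crest.Agent.R170
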