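import Crest.Agent.R170.DefW_995
import Crest.Agent.R170.P2_482

/-!
Row 170, leaf B2 (helper334): `dim e Z(kG) = ∑_u l(C(u), e_u)`, through class functions.
-/

set_option autoImplicit false
open scoped BigOperators

namespace Crest.Agent.R170.B2334

open Crest.Agent.R170 Crest.Agent.R170.J482

variable {k : Type} [Field k]

/-- class functions `φ` on `G` fixed by the operator `φ ↦ φ(e ·)` -/
def CFe {G : Type} [Group G] [Fintype G] (e : MonoidAlgebra k G) : Submodule k (G → k) where
  carrier := {φ | (∀ g h, φ (h * g * h⁻¹) = φ g) ∧ ∀ g, ∑ h, e.coeff h * φ (h * g) = φ g}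
  add_mem' := by
    rintro a b ⟨ha, ha'⟩ ⟨hb, hb'⟩
    refine ⟨fun g h => ?_, fun g => ?_⟩
    · simp only [Pi.add_apply, ha, hb]
    · simp only [Pi.add_apply, mul_add, Finset.sum_add_distrib, ha', hb']
  zero_mem' := ⟨fun g h => rfl, fun g => by simp⟩
  smul_mem' := by
    rintro c a ⟨ha, ha'⟩
    refine ⟨fun g h => ?_, fun g => ?_⟩
    · simp only [Pi.smul_apply, ha]
    · simp only [Pi.smul_apply, smul_eq_mul]
      rw [← ha' g, Finset.mul_sum]
      exact Finset.sum_congr rfl fun h _ => by ring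

/-- (B2a) `e Z(kG)` and the class functions fixed by `e` -/
noncomputable def eZequiv {G : Type} [Group G] [Fintype G] (e : MonoidAlgebra k G)
    (he : CI e) : eZ e ≃ₗ[k] CFe e where
  toFun z := ⟨fun g => z.1.coeff g⁻¹, by
    have hz := z.2.1
    refine ⟨fun g h => ?_, fun g => ?_⟩
    · have h1 : (z.1 * MonoidAlgebra.single h (1 : k)).coeff (h * g⁻¹) =
          (MonoidAlgebra.single h (1 : k) * z.1).coeff (h * g⁻¹) := by rw [hz]
      rw [MonoidAlgebra.coeff_mul_single_apply, MonoidAlgebra.coeff_single_mul_apply,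
        mul_one, one_mul, inv_mul_cancel_left] at h1
      have e1 : (h * g * h⁻¹)⁻¹ = h * g⁻¹ * h⁻¹ := by group
      change z.1.coeff (h * g * h⁻¹)⁻¹ = z.1.coeff g⁻¹
      rw [e1, h1]
    · have h1 : z.1 * e = z.1 := by rw [z.2.1, z.2.2]
      change ∑ h, e.coeff h * z.1.coeff (h * g)⁻¹ = z.1.coeff g⁻¹
      conv_rhs => rw [← h1, coeff_mul_fin]
      refine (Fintype.sum_equiv ((Equiv.inv G).trans (Equiv.mulLeft g⁻¹)) _ _ ?_)
      intro h
      simp only [Equiv.trans_apply, Equiv.inv_apply, Equiv.coe_mulLeft]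
      rw [mul_comm]
      congr 2
      · group
      · group⟩
  invFun φ := ⟨MonoidAlgebra.ofCoeff (Finsupp.equivFunOnFinite.symm fun g => φ.1 g⁻¹), by
    have hcoeff : ∀ g, (MonoidAlgebra.ofCoeff (Finsupp.equivFunOnFinite.symm
      fun g => φ.1 g⁻¹) : MonoidAlgebra k G).coeff g = φ.1 g⁻¹ := fun g => rfl
    have hcen : ∀ x : MonoidAlgebra k G, (MonoidAlgebra.ofCoeff (Finsupp.equivFunOnFinite.symm
      fun g => φ.1 g⁻¹) : MonoidAlgebra k G) * x = x * (MonoidAlgebra.ofCoeff
        (Finsupp.equivFunOnFinite.symm fun g => φ.1 g⁻¹)) := by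
      intro x
      rw [eq_sum_single x, Finset.mul_sum, Finset.sum_mul]
      refine Finset.sum_congr rfl fun g _ => ?_
      apply MonoidAlgebra.coeff_injective
      ext h
      rw [MonoidAlgebra.coeff_mul_single_apply, MonoidAlgebra.coeff_single_mul_apply, hcoeff,
        hcoeff, mul_comm]
      congr 1
      have := φ.2.1 (h * g⁻¹)⁻¹ g⁻¹
      rw [← this]
      congr 1
      group
    refine ⟨hcen, ?_⟩
    rw [← hcen]
    apply MonoidAlgebra.coeff_injective
    ext g
    rw [coeff_mul_fin, hcoeff]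
    rw [← φ.2.2 g⁻¹]
    refine (Fintype.sum_equiv ((Equiv.inv G).trans (Equiv.mulLeft g)) _ _ ?_).symm
    intro h
    simp only [Equiv.trans_apply, Equiv.inv_apply, Equiv.coe_mulLeft]
    rw [hcoeff, mul_comm]
    congr 2
    · group
    · group⟩
  left_inv z := by
    apply Subtype.ext
    apply MonoidAlgebra.coeff_injective
    ext g
    change z.1.coeff (g⁻¹)⁻¹ = _
    rw [inv_inv]
  right_inv φ := by
    apply Subtype.ext
    funext g
    change φ.1 (g⁻¹)⁻¹ = _
    rw [inv_inv]
  map_add' a b := rfl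
  map_smul' c a := rfl

theorem kc_eq {G : Type} [Group G] [Fintype G] (e : MonoidAlgebra k G)
    (he : CI e) : kc e = Module.finrank k (CFe e) :=
  LinearEquiv.finrank_eq (eZequiv e he)

/-! ### good exponents -/

/-- `g ^ p ^ n` is the `p'`-part of `g` -/
structure Good (p n : ℕ) (G : Type) [Group G] : Prop where
  pos : 1 ≤ n
  idem : ∀ g : G, (g ^ p ^ n) ^ p ^ n = g ^ p ^ n
  pel : ∀ g : G, IsPElt p (g * (g ^ p ^ n)⁻¹)

theorem exists_good (p : ℕ) [hp : Fact p.Prime] (G : Type) [Group G] [Finite G] :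
    ∃ n, Good p n G := by
  obtain ⟨a, m, hm, hG⟩ : ∃ a m, p.Coprime m ∧ Nat.card G = p ^ a * m := by
    have h0 : Nat.card G ≠ 0 := Nat.card_pos.ne'
    obtain ⟨a, m, hm, h⟩ := Nat.exists_eq_pow_mul_and_not_dvd h0 p hp.out.ne_one
    exact ⟨a, m, (Nat.Prime.coprime_iff_not_dvd hp.out).2 hm, h⟩
  have hm0 : 0 < m := by
    rcases Nat.eq_zero_or_pos m with h | h
    · subst h
      have h0 : Nat.card G ≠ 0 := Nat.card_pos.ne'
      simp at hG
      omega
    · exact h
  set n := (a + 1) * Nat.totient m with hn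
  have htot : 0 < Nat.totient m := Nat.totient_pos.2 hm0
  have han : a ≤ n := by nlinarith
  have hmod : p ^ n ≡ 1 [MOD m] := by
    have h := Nat.ModEq.pow_totient hm
    have h2 := h.pow (a + 1)
    rw [← pow_mul, one_pow, mul_comm] at h2
    exact h2
  have hdvd : m ∣ p ^ n - 1 := (Nat.modEq_iff_dvd' (Nat.one_le_pow _ _ hp.out.pos)).1 hmod.symm
  have hcard : ∀ g : G, g ^ (p ^ a * (p ^ n - 1)) = 1 := by
    intro g
    have : Nat.card G ∣ p ^ a * (p ^ n - 1) := by rw [hG]; exact Nat.mul_dvd_mul_left _ hdvd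
    obtain ⟨c, hc⟩ := this
    rw [hc, pow_mul, pow_card_eq_one', one_pow]
  have hkey : ∀ g : G, (g ^ p ^ n) ^ p ^ a = g ^ p ^ a := by
    intro g
    rw [← pow_mul]
    have : p ^ n * p ^ a = p ^ a * (p ^ n - 1) + p ^ a := by
      have h1 : 1 ≤ p ^ n := Nat.one_le_pow _ _ hp.out.pos
      obtain ⟨q, hq⟩ := Nat.exists_eq_add_of_le h1
      rw [hq]
      simp only [Nat.add_sub_cancel_left]
      ring
    rw [this, pow_add, hcard, one_mul]
  refine ⟨n, ?_, ?_, ?_⟩
  · rw [hn]
    exact Nat.one_le_iff_ne_zero.2 (Nat.mul_ne_zero (by omega) htot.ne')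
  · intro g
    obtain ⟨b, hb⟩ := Nat.exists_eq_add_of_le han
    have e1 : (g ^ p ^ n) ^ p ^ n = ((g ^ p ^ n) ^ p ^ a) ^ p ^ b := by
      rw [← pow_mul (g ^ p ^ n), ← pow_add, ← hb]
    have e2 : g ^ p ^ n = (g ^ p ^ a) ^ p ^ b := by
      rw [← pow_mul, ← pow_add, ← hb]
    rw [e1, hkey, ← e2]
  · intro g
    refine ⟨a, ?_⟩
    have hcomm : Commute g (g ^ p ^ n)⁻¹ := ((Commute.refl g).pow_right _).inv_right
    rw [hcomm.mul_pow, inv_pow, hkey, mul_inv_cancel]

theorem Good.sub {p n : ℕ} {G : Type} [Group G] (h : Good p n G) (H : Subgroup G) :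
    Good p n H := by
  refine ⟨h.pos, fun g => ?_, fun g => ?_⟩
  · apply Subtype.ext
    simpa using h.idem (g : G)
  · obtain ⟨m, hm⟩ := h.pel (g : G)
    refine ⟨m, ?_⟩
    apply Subtype.ext
    simpa using hm

theorem Good.pow_pel {p n : ℕ} {G : Type} [Group G] (h : Good p n G) {u : G}
    (hu : IsPElt p u) : u ^ p ^ n = 1 := by
  obtain ⟨m, hm⟩ := hu
  have h1 : ∀ j, (u ^ p ^ n) ^ p ^ (n * j) = u ^ p ^ n := by
    intro j
    induction j with
    | zero => simp
    | succ j ih => rw [mul_add, mul_one, pow_add, pow_mul, ih, h.idem]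
  have h2 : m ≤ n * m := Nat.le_mul_of_pos_left _ h.pos
  obtain ⟨b, hb⟩ := Nat.exists_eq_add_of_le h2
  rw [← h1 m, hb, ← pow_mul, mul_comm, pow_add p m b, mul_assoc, pow_mul, hm, one_pow]

/-! ### trace forms of class functions -/

section lam
variable {H : Type} [Group H] [Fintype H]

/-- the functional of a function on the group -/
noncomputable def lam (ψ : H → k) : MonoidAlgebra k H →+ k where
  toFun a := ∑ h, a.coeff h * ψ h
  map_zero' := by simp
  map_add' a b := by
    rw [← Finset.sum_add_distrib]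
    refine Finset.sum_congr rfl fun h _ => ?_
    rw [MonoidAlgebra.coeff_add, Finsupp.add_apply, add_mul]

theorem lam_apply (ψ : H → k) (a : MonoidAlgebra k H) : lam ψ a = ∑ h, a.coeff h * ψ h := rfl

theorem lam_mul (ψ : H → k) (a b : MonoidAlgebra k H) :
    lam ψ (a * b) = ∑ h, ∑ y, a.coeff h * (b.coeff y * ψ (h * y)) := by
  rw [lam_apply]
  simp only [coeff_mul_fin, Finset.sum_mul]
  rw [Finset.sum_comm]
  refine Finset.sum_congr rfl fun h _ => ?_
  refine Fintype.sum_equiv (Equiv.mulLeft h⁻¹) _ _ ?_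
  intro y
  simp only [Equiv.coe_mulLeft, mul_inv_cancel_left]
  ring

theorem lam_comm (ψ : H → k) (hψ : ∀ g h, ψ (h * g * h⁻¹) = ψ g) (a b : MonoidAlgebra k H) :
    lam ψ (a * b) = lam ψ (b * a) := by
  rw [lam_mul, lam_mul, Finset.sum_comm]
  refine Finset.sum_congr rfl fun y _ => Finset.sum_congr rfl fun h _ => ?_
  have : ψ (y * h) = ψ (h * y) := by
    have := hψ (h * y) y
    rw [← this]
    congr 1
    group
  rw [this]
  ring

theorem lam_single (ψ : H → k) (h : H) (c : k) : lam ψ (MonoidAlgebra.single h c) = c * ψ h := by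
  classical
  rw [lam_apply]
  rw [Finset.sum_eq_single h]
  · rw [MonoidAlgebra.coeff_single_apply, if_pos rfl]
  · intro b _ hb
    rw [MonoidAlgebra.coeff_single_apply, if_neg (Ne.symm hb), zero_mul]
  · intro hh
    exact absurd (Finset.mem_univ h) hh

theorem lam_mul_single (ψ : H → k) (a : MonoidAlgebra k H) (x : H) :
    lam ψ (a * MonoidAlgebra.single x 1) = ∑ h, a.coeff h * ψ (h * x) := by
  rw [lam_mul]
  refine Finset.sum_congr rfl fun h _ => ?_
  classical
  rw [Finset.sum_eq_single x]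
  · rw [MonoidAlgebra.coeff_single_apply, if_pos rfl, one_mul]
  · intro b _ hb
    rw [MonoidAlgebra.coeff_single_apply, if_neg (Ne.symm hb), zero_mul, mul_zero]
  · intro hh
    exact absurd (Finset.mem_univ x) hh

theorem lam_pow (p n : ℕ) [hp : Fact p.Prime] [CharP k p] (ψ : H → k)
    (hψ : ∀ g h, ψ (h * g * h⁻¹) = ψ g) (a : MonoidAlgebra k H) :
    lam ψ (a ^ p ^ n) = ∑ h, a.coeff h ^ p ^ n * ψ (h ^ p ^ n) := by
  have h := trace_pow p n (lam ψ) (lam_comm ψ hψ) (fun h : H => MonoidAlgebra.single h (a.coeff h))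
  rw [← eq_sum_single] at h
  rw [h]
  refine Finset.sum_congr rfl fun h _ => ?_
  rw [MonoidAlgebra.single_pow, lam_single]

/-- the passage from `x` to its `p'`-part under a central idempotent -/
theorem key (p n : ℕ) [hp : Fact p.Prime] [CharP k p] (hn : Good p n H)
    (ε : MonoidAlgebra k H) (hε : CI ε) (l : H → k) (hl : ∀ g h, l (h * g * h⁻¹) = l g) (x : H) :
    ∑ h, ε.coeff h * l (h * x ^ p ^ n) = ∑ h, ε.coeff h * l ((h * x) ^ p ^ n) := by
  set ψ : H → k := fun y => l (y ^ p ^ n) with hψ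
  have hψc : ∀ g h, ψ (h * g * h⁻¹) = ψ g := by
    intro g h
    simp only [hψ, conj_pow, hl]
  have hψp : ∀ g, ψ (g ^ p ^ n) = ψ g := by
    intro g
    simp only [hψ, hn.idem]
  have hpow : ∀ y : H, (ε * MonoidAlgebra.single y 1) ^ p ^ n =
      ε * MonoidAlgebra.single (y ^ p ^ n) 1 := by
    intro y
    have hc : Commute ε (MonoidAlgebra.single y 1) := hε.1 _
    rw [hc.mul_pow, MonoidAlgebra.single_pow, one_pow]
    congr 1
    exact IsIdempotentElem.pow_eq hε.2 (pow_pos hp.out.pos n).ne'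
  -- step 1
  set c := ε * MonoidAlgebra.single (x ^ p ^ n) (1 : k) with hc
  have hcp : c ^ p ^ n = c := by rw [hc, hpow, hn.idem]
  have s1 : lam l c = lam ψ c := by
    have e1 := lam_pow p n l hl c
    have e2 := lam_pow p n ψ hψc c
    rw [hcp] at e1 e2
    rw [e1, e2]
    refine Finset.sum_congr rfl fun h _ => ?_
    rw [hψp]
  -- step 2
  have s2 : lam ψ (ε * MonoidAlgebra.single x 1) = lam ψ c := by
    set a := ε * MonoidAlgebra.single x (1 : k) - c with ha
    have ha0 : a ^ p ^ n = 0 := by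
      have e1 : a = ε * (MonoidAlgebra.single x 1 - MonoidAlgebra.single (x ^ p ^ n) 1) := by
        rw [ha, hc, mul_sub]
      have hcm : Commute (MonoidAlgebra.single x (1 : k))
          (MonoidAlgebra.single (x ^ p ^ n) (1 : k)) := by
        change MonoidAlgebra.single x (1 : k) * MonoidAlgebra.single (x ^ p ^ n) (1 : k) = _ * _
        rw [MonoidAlgebra.single_mul_single, MonoidAlgebra.single_mul_single]
        congr 1
        exact ((Commute.refl x).pow_right _).eq
      have hchar : CharP (MonoidAlgebra k H) p :=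
        charP_of_injective_algebraMap (algebraMap k (MonoidAlgebra k H)).injective p
      rw [e1, (show Commute ε _ from hε.1 _).mul_pow, sub_pow_char_pow_of_commute _ _ hcm,
        MonoidAlgebra.single_pow, MonoidAlgebra.single_pow, one_pow, hn.idem, sub_self, mul_zero]
    have hχ : ∀ g h, (fun y => ψ y ^ p ^ n) (h * g * h⁻¹) = (fun y => ψ y ^ p ^ n) g := by
      intro g h
      simp only [hψc]
    have e2 := lam_pow p n (fun y => ψ y ^ p ^ n) hχ a
    rw [ha0, map_zero] at e2
    simp only [hψp, ← mul_pow] at e2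
    rw [← sum_pow_char_pow] at e2
    have e3 : lam ψ a = 0 := by
      rw [lam_apply]
      exact (pow_eq_zero_iff (pow_pos hp.out.pos n).ne').1 e2.symm
    rw [ha, map_sub, sub_eq_zero] at e3
    exact e3
  rw [← lam_mul_single, ← hc, s1, ← s2, lam_mul_single]

end lam

/-! ### the local step -/

section loc
variable {G : Type} [Group G] [Fintype G]

theorem coeff_class (e : MonoidAlgebra k G) (he : CI e) (g h : G) :
    e.coeff (h * g * h⁻¹) = e.coeff g := by
  have h1 : (e * MonoidAlgebra.single h (1 : k)).coeff (h * g) =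
      (MonoidAlgebra.single h (1 : k) * e).coeff (h * g) := by rw [he.1]
  rw [MonoidAlgebra.coeff_mul_single_apply, MonoidAlgebra.coeff_single_mul_apply,
    mul_one, one_mul, inv_mul_cancel_left] at h1
  exact h1

/-- conjugation by a `p`-element: only the centraliser counts -/
theorem sum_cent (p : ℕ) [hp : Fact p.Prime] [CharP k p] (u : G) (hu : IsPElt p u) (F : G → k)
    (hF : ∀ g, F (u * g * u⁻¹) = F g) [Fintype (Subgroup.centralizer ({u} : Set G))] :
    ∑ g, F g = ∑ g : Subgroup.centralizer ({u} : Set G), F g := by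
  classical
  obtain ⟨m, hm⟩ := hu
  let f : Function.End G := fun g => u * g * u⁻¹
  have hfj : ∀ j, ∀ g, (f ^ j) g = u ^ j * g * (u ^ j)⁻¹ := by
    intro j
    induction j with
    | zero =>
      intro g
      change g = u ^ 0 * g * (u ^ 0)⁻¹
      simp
    | succ j ih =>
      intro g
      rw [pow_succ']
      change f ((f ^ j) g) = _
      rw [ih]
      change u * (u ^ j * g * (u ^ j)⁻¹) * u⁻¹ = _
      rw [pow_succ']
      group
  have hf : f ^ p ^ m = 1 := by
    funext g
    rw [hfj, hm]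
    change 1 * g * 1⁻¹ = g
    simp
  rw [sum_fixed p m f hf F hF]
  refine Finset.sum_bij' (fun g hg => (⟨g, ?_⟩ : Subgroup.centralizer ({u} : Set G)))
    (fun g _ => (g : G)) ?_ ?_ ?_ ?_ ?_
  · rw [Subgroup.mem_centralizer_singleton_iff]
    have hg' : u * g * u⁻¹ = g := (Finset.mem_filter.1 hg).2
    rw [mul_inv_eq_iff_eq_mul] at hg'
    exact hg'.symm
  · intro g hg
    exact Finset.mem_univ _
  · intro g _
    rw [Finset.mem_filter]
    refine ⟨Finset.mem_univ _, ?_⟩
    change u * g * u⁻¹ = g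
    have := Subgroup.mem_centralizer_singleton_iff.1 g.2
    rw [mul_inv_eq_iff_eq_mul, this]
  · intro g hg
    rfl
  · intro g _
    rfl
  · intro g hg
    rfl

/-- the Brauer idempotent at `u`, as a central idempotent of `k[C(u)]` -/
theorem br_coeff (e : MonoidAlgebra k G) (u : G)
    (x : Subgroup.centralizer ({u} : Set G)) :
    (br (Subgroup.centralizer ({u} : Set G)) (Subgroup.zpowers u) e).coeff x = e.coeff (x : G) := by
  classical
  have : (x : G) ∈ Subgroup.centralizer ((Subgroup.zpowers u : Subgroup G) : Set G) := by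
    rw [Subgroup.mem_centralizer_iff]
    intro y hy
    obtain ⟨j, rfl⟩ := Subgroup.mem_zpowers_iff.1 hy
    have hc : Commute u (x : G) := (Subgroup.mem_centralizer_singleton_iff.1 x.2).symm
    exact (hc.zpow_left j).eq
  change (if (x : G) ∈ Subgroup.centralizer ((Subgroup.zpowers u : Subgroup G) : Set G)
    then e.coeff (x : G) else 0) = _
  rw [if_pos this]

theorem br_CI (p : ℕ) [hp : Fact p.Prime] [CharP k p] (e : MonoidAlgebra k G) (he : CI e)
    (u : G) (hu : IsPElt p u) :
    CI (br (Subgroup.centralizer ({u} : Set G)) (Subgroup.zpowers u) e) := by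
  classical
  letI : Fintype (Subgroup.centralizer ({u} : Set G)) := Fintype.ofFinite _
  constructor
  · intro x
    rw [eq_sum_single x, Finset.mul_sum, Finset.sum_mul]
    refine Finset.sum_congr rfl fun g _ => ?_
    apply MonoidAlgebra.coeff_injective
    ext h
    rw [MonoidAlgebra.coeff_mul_single_apply, MonoidAlgebra.coeff_single_mul_apply, br_coeff,
      br_coeff, mul_comm]
    congr 1
    have := coeff_class e he ((g⁻¹ * h : Subgroup.centralizer ({u} : Set G)) : G) (g : G)
    rw [← this]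
    congr 1
    push_cast
    group
  · apply MonoidAlgebra.coeff_injective
    ext x
    rw [coeff_mul_fin, br_coeff]
    have h1 : e.coeff (x : G) = ∑ h : G, e.coeff h * e.coeff (h⁻¹ * (x : G)) := by
      conv_lhs => rw [← he.2]
      rw [coeff_mul_fin]
    rw [h1, sum_cent p u hu (fun h => e.coeff h * e.coeff (h⁻¹ * (x : G)))]
    · refine Finset.sum_congr rfl fun h _ => ?_
      rw [br_coeff, br_coeff]
      rfl
    · intro h
      have hx : u * (x : G) = (x : G) * u := (Subgroup.mem_centralizer_singleton_iff.1 x.2).symm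
      have e1 : (u * h * u⁻¹)⁻¹ * (x : G) = u * (h⁻¹ * (x : G)) * u⁻¹ := by
        have : u⁻¹ * (x : G) = (x : G) * u⁻¹ := by
          rw [inv_mul_eq_iff_eq_mul, ← mul_assoc, hx, mul_assoc, mul_inv_cancel, mul_one]
        calc (u * h * u⁻¹)⁻¹ * (x : G) = u * h⁻¹ * (u⁻¹ * (x : G)) := by group
          _ = u * h⁻¹ * ((x : G) * u⁻¹) := by rw [this]
          _ = _ := by group
      simp only [e1, coeff_class e he]

/-- the operator of `e` on class functions, in the section of `u` -/
theorem local_step (p n : ℕ) [hp : Fact p.Prime] [CharP k p] (hn : Good p n G)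
    (e : MonoidAlgebra k G) (he : CI e) (φ : G → k) (hφ : ∀ g h, φ (h * g * h⁻¹) = φ g)
    (u : G) (hu : IsPElt p u) [Fintype (Subgroup.centralizer ({u} : Set G))]
    (x : Subgroup.centralizer ({u} : Set G)) :
    ∑ h, e.coeff h * φ (h * (u * (x : G) ^ p ^ n)) =
      ∑ h : Subgroup.centralizer ({u} : Set G),
        (br (Subgroup.centralizer ({u} : Set G)) (Subgroup.zpowers u) e).coeff h *
          φ (u * ((h : G) * (x : G)) ^ p ^ n) := by
  have hcx : ∀ y : Subgroup.centralizer ({u} : Set G), (y : G) * u = u * (y : G) := fun y =>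
    Subgroup.mem_centralizer_singleton_iff.1 y.2
  set l : Subgroup.centralizer ({u} : Set G) → k := fun y => φ (u * (y : G)) with hl
  have hlc : ∀ g h, l (h * g * h⁻¹) = l g := by
    intro g h
    simp only [hl]
    rw [← hφ (u * (g : G)) (h : G)]
    congr 1
    push_cast
    calc u * ((h : G) * (g : G) * (h : G)⁻¹) = (u * (h : G)) * (g : G) * (h : G)⁻¹ := by group
      _ = ((h : G) * u) * (g : G) * (h : G)⁻¹ := by rw [hcx]
      _ = _ := by group
  have h1 := key p n (hn.sub _) _ (br_CI p e he u hu) l hlc x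
  have h2 : ∑ h, e.coeff h * φ (h * (u * (x : G) ^ p ^ n)) =
      ∑ h : Subgroup.centralizer ({u} : Set G),
        (br (Subgroup.centralizer ({u} : Set G)) (Subgroup.zpowers u) e).coeff h *
          l (h * x ^ p ^ n) := by
    have hx' : u * (x : G) ^ p ^ n = (x : G) ^ p ^ n * u := by
      have := hcx (x ^ p ^ n)
      push_cast at this
      exact this.symm
    rw [sum_cent p u hu (fun h => e.coeff h * φ (h * (u * (x : G) ^ p ^ n)))]
    · refine Finset.sum_congr rfl fun h _ => ?_
      rw [br_coeff]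
      simp only [hl]
      congr 2
      push_cast
      rw [← mul_assoc, hcx, mul_assoc]
    · intro g
      simp only [coeff_class e he]
      congr 1
      rw [← hφ (g * (u * (x : G) ^ p ^ n)) u]
      congr 1
      have t1 : u * (g * (u * (x : G) ^ p ^ n)) * u⁻¹ = u * g * (x : G) ^ p ^ n := by
        rw [hx']; group
      rw [t1]
      group
  rw [h2, h1]
  refine Finset.sum_congr rfl fun h _ => ?_
  simp only [hl]
  push_cast
  rfl

end loc

end Crest.Agent.R170.B2334
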