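import Crest.Agent.R170.B2_334

/-!
Row 170, leaf B2 (helper334), second part: class functions split over the classes of `p`-elements.
-/

set_option autoImplicit false
open scoped BigOperators

namespace Crest.Agent.R170.B2334

open Crest.Agent.R170 Crest.Agent.R170.J482

variable {k : Type} [Field k]

/-- class functions `ψ` with `ψ g = ψ g_{p'}`, fixed by `ε` -/
def RFe {H : Type} [Group H] [Fintype H] (p n : ℕ) (ε : MonoidAlgebra k H) :
    Submodule k (H → k) where
  carrier := {ψ | (∀ g h, ψ (h * g * h⁻¹) = ψ g) ∧ (∀ g, ψ (g ^ p ^ n) = ψ g) ∧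
    ∀ g, ∑ h, ε.coeff h * ψ (h * g) = ψ g}
  add_mem' := by
    rintro a b ⟨ha, ha', ha''⟩ ⟨hb, hb', hb''⟩
    refine ⟨fun g h => ?_, fun g => ?_, fun g => ?_⟩
    · simp only [Pi.add_apply, ha, hb]
    · simp only [Pi.add_apply, ha', hb']
    · simp only [Pi.add_apply, mul_add, Finset.sum_add_distrib, ha'', hb'']
  zero_mem' := ⟨fun g h => rfl, fun g => rfl, fun g => by simp⟩
  smul_mem' := by
    rintro c a ⟨ha, ha', ha''⟩
    refine ⟨fun g h => ?_, fun g => ?_, fun g => ?_⟩
    · simp only [Pi.smul_apply, ha]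
    · simp only [Pi.smul_apply, ha']
    · simp only [Pi.smul_apply, smul_eq_mul]
      rw [← ha'' g, Finset.mul_sum]
      exact Finset.sum_congr rfl fun h _ => by ring

section decomp
variable {G : Type} [Group G]

theorem IsPElt.conj {p : ℕ} {g : G} (h : IsPElt p g) (t : G) : IsPElt p (t * g * t⁻¹) := by
  obtain ⟨m, hm⟩ := h
  exact ⟨m, by rw [conj_pow, hm]; simp⟩

/-- index set: classes of `p`-elements -/
abbrev PC (p : ℕ) (G : Type) [Group G] : Type := {c : ConjClasses G // IsPElt p c.out}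

/-- representative of a class -/
noncomputable def rp (c : ConjClasses G) : G := c.out

theorem rp_mk (c : ConjClasses G) : ConjClasses.mk (rp c) = c := Quotient.out_eq c

theorem exists_conj_out (v : G) : ∃ t : G, t * v * t⁻¹ = rp (ConjClasses.mk v) := by
  have h : ConjClasses.mk v = ConjClasses.mk (rp (ConjClasses.mk v)) :=
    (rp_mk (ConjClasses.mk v)).symm
  rw [ConjClasses.mk_eq_mk_iff_isConj, isConj_iff] at h
  exact h

theorem isPElt_out {p : ℕ} {v : G} (hv : IsPElt p v) : IsPElt p (rp (ConjClasses.mk v)) := by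
  obtain ⟨t, ht⟩ := exists_conj_out v
  rw [← ht]
  exact IsPElt.conj hv t

/-- the `p`-part -/
def vp (p n : ℕ) (g : G) : G := g * (g ^ p ^ n)⁻¹

theorem vp_conj (p n : ℕ) (g t : G) : vp p n (t * g * t⁻¹) = t * vp p n g * t⁻¹ := by
  unfold vp
  rw [conj_pow]
  group

theorem vp_mul_pow (p n : ℕ) (g : G) : vp p n g * g ^ p ^ n = g := by
  unfold vp
  rw [inv_mul_cancel_right]

theorem conj_decomp (p n : ℕ) (t g : G) :
    t * vp p n g * t⁻¹ * (t * g ^ p ^ n * t⁻¹) = t * g * t⁻¹ := by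
  have h : t * (vp p n g * g ^ p ^ n) * t⁻¹ = t * g * t⁻¹ := by rw [vp_mul_pow]
  rw [← h]
  group

theorem vp_comm (p n : ℕ) (g : G) : vp p n g * g ^ p ^ n = g ^ p ^ n * vp p n g := by
  unfold vp
  rw [inv_mul_cancel_right, ← mul_assoc]
  have : g ^ p ^ n * g = g * g ^ p ^ n := ((Commute.refl g).pow_left _).eq
  rw [this, mul_inv_cancel_right]

theorem pow_mul_pel {p n : ℕ} (hn : Good p n G) {u : G} (hu : IsPElt p u) (x : G)
    (hx : x * u = u * x) : (u * x ^ p ^ n) ^ p ^ n = x ^ p ^ n := by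
  have hc : Commute u (x ^ p ^ n) := (Commute.pow_left (show Commute x u from hx) _).symm
  rw [hc.mul_pow, hn.pow_pel hu, one_mul, hn.idem]

theorem vp_mul_pel {p n : ℕ} (hn : Good p n G) {u : G} (hu : IsPElt p u) (x : G)
    (hx : x * u = u * x) : vp p n (u * x ^ p ^ n) = u := by
  unfold vp
  rw [pow_mul_pel hn hu x hx, mul_inv_cancel_right]

theorem mem_cent_of (p n : ℕ) (u g t : G) (h : t * vp p n g * t⁻¹ = u) :
    t * g ^ p ^ n * t⁻¹ ∈ Subgroup.centralizer ({u} : Set G) := by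
  rw [Subgroup.mem_centralizer_singleton_iff, ← h]
  calc t * g ^ p ^ n * t⁻¹ * (t * vp p n g * t⁻¹) = t * (g ^ p ^ n * vp p n g) * t⁻¹ := by group
    _ = t * (vp p n g * g ^ p ^ n) * t⁻¹ := by rw [vp_comm]
    _ = _ := by group

/-- restriction to a section -/
theorem res_mem [Fintype G] (p n : ℕ) [hp : Fact p.Prime] [CharP k p] (hn : Good p n G)
    (e : MonoidAlgebra k G) (he : CI e) (φ : G → k) (hφ : φ ∈ CFe e) (u : G) (hu : IsPElt p u)
    [Fintype (Subgroup.centralizer ({u} : Set G))] :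
    (fun x : Subgroup.centralizer ({u} : Set G) => φ (u * (x : G) ^ p ^ n)) ∈
      RFe p n (br (Subgroup.centralizer ({u} : Set G)) (Subgroup.zpowers u) e) := by
  refine ⟨fun g h => ?_, fun g => ?_, fun g => ?_⟩
  · change φ (u * ((h * g * h⁻¹ : Subgroup.centralizer ({u} : Set G)) : G) ^ p ^ n) =
      φ (u * (g : G) ^ p ^ n)
    rw [← hφ.1 (u * (g : G) ^ p ^ n) (h : G)]
    congr 1
    push_cast
    rw [conj_pow]
    have hh : (h : G) * u = u * (h : G) := Subgroup.mem_centralizer_singleton_iff.1 h.2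
    calc u * ((h : G) * (g : G) ^ p ^ n * (h : G)⁻¹)
        = (u * (h : G)) * (g : G) ^ p ^ n * (h : G)⁻¹ := by group
      _ = ((h : G) * u) * (g : G) ^ p ^ n * (h : G)⁻¹ := by rw [hh]
      _ = _ := by group
  · change φ (u * ((g ^ p ^ n : Subgroup.centralizer ({u} : Set G)) : G) ^ p ^ n) =
      φ (u * (g : G) ^ p ^ n)
    push_cast
    rw [hn.idem]
  · have h1 := local_step p n hn e he φ hφ.1 u hu g
    rw [hφ.2] at h1
    change _ = φ (u * (g : G) ^ p ^ n)
    rw [h1]
    refine Finset.sum_congr rfl fun h _ => ?_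
    push_cast
    rfl

section family
variable {p n : ℕ} (hn : Good p n G)

/-- the class of the `p`-part -/
noncomputable def cl (g : G) : PC p G := ⟨ConjClasses.mk (vp p n g), isPElt_out (hn.pel g)⟩

/-- a conjugating element -/
noncomputable def tt (p n : ℕ) (g : G) : G := (exists_conj_out (vp p n g)).choose

theorem tt_spec (g : G) : tt p n g * vp p n g * (tt p n g)⁻¹ = rp (cl hn g).1 :=
  (exists_conj_out (vp p n g)).choose_spec

/-- extension of a family -/
noncomputable def ext (ψ : ∀ c : PC p G, Subgroup.centralizer ({rp c.1} : Set G) → k) (g : G) : k :=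
  ψ (cl hn g) ⟨tt p n g * g ^ p ^ n * (tt p n g)⁻¹, mem_cent_of p n _ g _ (tt_spec hn g)⟩

theorem ext_eq (ψ : ∀ c : PC p G, Subgroup.centralizer ({rp c.1} : Set G) → k)
    (hψ : ∀ c g h, ψ c (h * g * h⁻¹) = ψ c g) (g : G) (c : PC p G) (t : G)
    (ht : t * vp p n g * t⁻¹ = rp c.1) :
    ext hn ψ g = ψ c ⟨t * g ^ p ^ n * t⁻¹, mem_cent_of p n _ g t ht⟩ := by
  have hc : c = cl hn g := by
    apply Subtype.ext
    change c.1 = ConjClasses.mk (vp p n g)
    have h1 : c.1 = ConjClasses.mk (rp c.1) := (rp_mk c.1).symm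
    rw [h1, ← ht, ConjClasses.mk_eq_mk_iff_isConj, isConj_comm, isConj_iff]
    exact ⟨t, rfl⟩
  subst hc
  unfold ext
  have hw : t * (tt p n g)⁻¹ ∈ Subgroup.centralizer ({rp (cl hn g).1} : Set G) := by
    rw [Subgroup.mem_centralizer_singleton_iff]
    have h0 := tt_spec hn g
    calc t * (tt p n g)⁻¹ * rp (cl hn g).1
        = t * (tt p n g)⁻¹ * (tt p n g * vp p n g * (tt p n g)⁻¹) := by rw [h0]
      _ = (t * vp p n g * t⁻¹) * (t * (tt p n g)⁻¹) := by group
      _ = _ := by rw [ht]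
  rw [← hψ (cl hn g) _ ⟨_, hw⟩]
  congr 1
  apply Subtype.ext
  push_cast
  group

end family

section final
variable {p n : ℕ} [hp : Fact p.Prime] [CharP k p] [Fintype G] (hn : Good p n G)
  (e : MonoidAlgebra k G) (he : CI e)
  [hfin : ∀ u : G, Fintype (Subgroup.centralizer ({u} : Set G))]

/-- the idempotent at a class -/
noncomputable abbrev bc (e : MonoidAlgebra k G) (c : PC p G) :
    MonoidAlgebra k (Subgroup.centralizer ({rp c.1} : Set G)) :=
  br (Subgroup.centralizer ({rp c.1} : Set G)) (Subgroup.zpowers (rp c.1)) e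

/-- class functions of `e` to families -/
noncomputable def toFam : CFe e →ₗ[k] (∀ c : PC p G, RFe p n (bc e c)) where
  toFun φ := fun c => ⟨fun x => φ.1 (rp c.1 * (x : G) ^ p ^ n),
    res_mem p n hn e he φ.1 φ.2 (rp c.1) c.2⟩
  map_add' a b := rfl
  map_smul' a b := rfl

theorem toFam_inj : Function.Injective (toFam hn e he) := by
  rw [← LinearMap.ker_eq_bot, LinearMap.ker_eq_bot']
  intro φ hφ
  apply Subtype.ext
  funext g
  change φ.1 g = 0
  have h1 := congrFun (congrArg Subtype.val (congrFun hφ (cl hn g)))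
    ⟨tt p n g * g ^ p ^ n * (tt p n g)⁻¹, mem_cent_of p n _ g _ (tt_spec hn g)⟩
  change φ.1 (rp (cl hn g).1 * (tt p n g * g ^ p ^ n * (tt p n g)⁻¹) ^ p ^ n) = 0 at h1
  rw [← tt_spec hn g, conj_pow, hn.idem] at h1
  rw [← φ.2.1 g (tt p n g), ← h1, conj_decomp]

theorem toFam_surj : Function.Surjective (toFam hn e he) := by
  intro Ψ
  set ψ : ∀ c : PC p G, Subgroup.centralizer ({rp c.1} : Set G) → k := fun c => (Ψ c).1 with hψdef
  have hψ : ∀ c g h, ψ c (h * g * h⁻¹) = ψ c g := fun c => (Ψ c).2.1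
  -- value on a section
  have hval : ∀ (c : PC p G) (x : Subgroup.centralizer ({rp c.1} : Set G)),
      ext hn ψ (rp c.1 * (x : G) ^ p ^ n) = ψ c x := by
    intro c x
    have hx : (x : G) * rp c.1 = rp c.1 * (x : G) := Subgroup.mem_centralizer_singleton_iff.1 x.2
    have hv : vp p n (rp c.1 * (x : G) ^ p ^ n) = rp c.1 := vp_mul_pel hn c.2 _ hx
    have ht : (1 : G) * vp p n (rp c.1 * (x : G) ^ p ^ n) * 1⁻¹ = rp c.1 := by
      rw [hv]; simp
    have h4 : ψ c (x ^ p ^ n) = ψ c x := (Ψ c).2.2.1 x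
    rw [ext_eq hn ψ hψ _ c 1 ht, ← h4]
    have hpm : (rp c.1 * (x : G) ^ p ^ n) ^ p ^ n = (x : G) ^ p ^ n := pow_mul_pel hn c.2 _ hx
    congr 1
    apply Subtype.ext
    change 1 * (rp c.1 * (x : G) ^ p ^ n) ^ p ^ n * 1⁻¹ = _
    rw [hpm]
    simp
  have hclass : ∀ g h, ext hn ψ (h * g * h⁻¹) = ext hn ψ g := by
    intro g h
    have ht : (tt p n g * h⁻¹) * vp p n (h * g * h⁻¹) * (tt p n g * h⁻¹)⁻¹ = rp (cl hn g).1 := by
      rw [vp_conj, ← tt_spec hn g]
      group
    rw [ext_eq hn ψ hψ _ (cl hn g) _ ht, ext_eq hn ψ hψ g (cl hn g) _ (tt_spec hn g)]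
    congr 1
    apply Subtype.ext
    push_cast
    rw [conj_pow]
    group
  have hmem : ext hn ψ ∈ CFe e := by
    refine ⟨hclass, fun g => ?_⟩
    -- move to the section
    set u := rp (cl hn g).1 with hu
    have hx0 := mem_cent_of p n _ g _ (tt_spec hn g)
    set x : Subgroup.centralizer ({rp (cl hn g).1} : Set G) :=
      ⟨tt p n g * g ^ p ^ n * (tt p n g)⁻¹, hx0⟩ with hx
    have hg : tt p n g * g * (tt p n g)⁻¹ = rp (cl hn g).1 * (x : G) ^ p ^ n := by
      rw [hx]
      change _ = _ * (tt p n g * g ^ p ^ n * (tt p n g)⁻¹) ^ p ^ n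
      rw [conj_pow, hn.idem, ← tt_spec hn g, conj_decomp]
    have h1 : ∑ h, e.coeff h * ext hn ψ (h * g) =
        ∑ h, e.coeff h * ext hn ψ (h * (tt p n g * g * (tt p n g)⁻¹)) := by
      refine Fintype.sum_equiv (MulAut.conj (tt p n g)).toEquiv _ _ ?_
      intro h
      change _ = e.coeff (tt p n g * h * (tt p n g)⁻¹) *
        ext hn ψ (tt p n g * h * (tt p n g)⁻¹ * (tt p n g * g * (tt p n g)⁻¹))
      rw [coeff_class e he]
      congr 1
      rw [← hclass (h * g) (tt p n g)]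
      congr 1
      group
    rw [h1, hg, local_step p n hn e he (ext hn ψ) hclass (rp (cl hn g).1) (cl hn g).2 x]
    have h2 : ∀ h : Subgroup.centralizer ({rp (cl hn g).1} : Set G),
        ext hn ψ (rp (cl hn g).1 * ((h : G) * (x : G)) ^ p ^ n) = ψ (cl hn g) (h * x) := by
      intro h
      rw [← hval (cl hn g) (h * x)]
      push_cast
      rfl
    simp only [h2]
    have h3 := (Ψ (cl hn g)).2.2.2 x
    change ∑ h, _ * ψ (cl hn g) (h * x) = ψ (cl hn g) x at h3
    rw [h3, ← hval (cl hn g) x, ← hg, hclass]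
  refine ⟨⟨ext hn ψ, hmem⟩, ?_⟩
  funext c
  apply Subtype.ext
  funext x
  exact hval c x

include hn he in
theorem finrank_CFe [Fintype (PC p G)] :
    Module.finrank k (CFe e) = ∑ c : PC p G, Module.finrank k (RFe p n (bc e c)) := by
  rw [LinearEquiv.finrank_eq (LinearEquiv.ofBijective (toFam hn e he)
    ⟨toFam_inj hn e he, toFam_surj hn e he⟩)]
  exact Module.finrank_pi_fintype k

end final

end decomp

end Crest.Agent.R170.B2334
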