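import Crest.Agent.R170.LC2_806
import Crest.Agent.R170.LD_170

/-!
Row 170 (swarm A), leaf LC, part 3 (helper806): Brauer's count for a central idempotent `e`.

`blockSimpleCount e` = dimension of the space of class functions `φ` with `φ g = φ (g_{p'})` and
`φ(e x) = φ(x)`.
-/

set_option autoImplicit false
open scoped BigOperators

namespace Crest.Agent.R170.LC806

open Crest.Agent.R170.J482 Crest.AlgebraR.Weights

variable {k G : Type*} [Field k] [Group G]

/-- class functions constant on `p`-sections and fixed by `e` -/
noncomputable def SF (p n : ℕ) (e : MonoidAlgebra k G) : Submodule k (G → k) where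
  carrier := {φ | (∀ g h, φ (g * h) = φ (h * g)) ∧ (∀ g, φ g = φ (g ^ p ^ n)) ∧
    ∀ x, lin φ (e * x) = lin φ x}
  zero_mem' := ⟨fun _ _ => rfl, fun _ => rfl, fun x => by
    have : lin (0 : G → k) = 0 := ext_single fun g => by rw [lin_single]; simp
    rw [this]; simp⟩
  add_mem' := by
    rintro φ ψ ⟨h1, h2, h3⟩ ⟨h1', h2', h3'⟩
    refine ⟨fun g h => by rw [Pi.add_apply, Pi.add_apply, h1, h1'],
      fun g => by rw [Pi.add_apply, Pi.add_apply, h2 g, h2' g], fun x => ?_⟩
    have : lin (φ + ψ) = lin φ + lin ψ := ext_single fun g => by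
      rw [LinearMap.add_apply, lin_single, lin_single, lin_single, Pi.add_apply, mul_add]
    rw [this, LinearMap.add_apply, LinearMap.add_apply, h3, h3']
  smul_mem' := by
    rintro c φ ⟨h1, h2, h3⟩
    refine ⟨fun g h => by rw [Pi.smul_apply, Pi.smul_apply, h1],
      fun g => by rw [Pi.smul_apply, Pi.smul_apply, h2 g], fun x => ?_⟩
    have : lin (c • φ) = c • lin φ := ext_single fun g => by
      rw [LinearMap.smul_apply, lin_single, lin_single, Pi.smul_apply, one_mul, one_mul]
    rw [this, LinearMap.smul_apply, LinearMap.smul_apply, h3]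

theorem lin_injective : Function.Injective (lin : (G → k) → (MonoidAlgebra k G →ₗ[k] k)) := by
  intro φ ψ h
  funext g
  have := congrArg (fun f => f (MonoidAlgebra.single g 1)) h
  simpa [lin_single] using this

variable [Finite G]

theorem finiteDimensional_ga (k G : Type*) [Field k] [Group G] [Finite G] :
    FiniteDimensional k (MonoidAlgebra k G) :=
  Module.Finite.equiv (MonoidAlgebra.coeffLinearEquiv (S := k) (M := G) k).symm

variable (p : ℕ) [hp : Fact p.Prime] [CharP k p] {n : ℕ}

/-- **BRL**: Brauer's theorem for a central idempotent -/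
theorem blockSimpleCount_eq_finrank [IsAlgClosed k] (hn : Good p n G) {e : MonoidAlgebra k G}
    (hc : ∀ x, e * x = x * e) (he : e * e = e) :
    blockSimpleCount e = Module.finrank k (SF p n e) := by
  haveI : FiniteDimensional k (MonoidAlgebra k G) := finiteDimensional_ga k G
  unfold blockSimpleCount
  rw [LD170.simpleClassCount_eq_finrank_dual (k := k) e hc he]
  have hTT : ∀ f : MonoidAlgebra k G →ₗ[k] k, (∀ x ∈ LD170.TT k (MonoidAlgebra k G), f x = 0) ↔
      (∀ g h : G, f (MonoidAlgebra.single (g * h) 1) = f (MonoidAlgebra.single (h * g) 1)) ∧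
        ∀ g : G, f (MonoidAlgebra.single g 1) = f (MonoidAlgebra.single (g ^ p ^ n) 1) := by
    intro f
    rw [← kills_TA_iff p hn f]
    have : TA k (MonoidAlgebra k G) p = LD170.TT k (MonoidAlgebra k G) := TA_eq_sup_jacobson p
    rw [this]
  symm
  refine LinearEquiv.finrank_eq ?_
  exact
    { toFun := fun φ => ⟨lin φ.1, (hTT _).2 ⟨fun g h => by
          rw [lin_single, lin_single, φ.2.1], fun g => by
          rw [lin_single, lin_single, ← φ.2.2.1]⟩, φ.2.2.2⟩
      map_add' := by
        intro φ ψ
        apply Subtype.ext
        exact ext_single fun g => by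
          change lin (φ.1 + ψ.1) _ = (lin φ.1 + lin ψ.1) _
          rw [LinearMap.add_apply, lin_single, lin_single, lin_single, Pi.add_apply, mul_add]
      map_smul' := by
        intro c φ
        apply Subtype.ext
        exact ext_single fun g => by
          change lin (c • φ.1) _ = (c • lin φ.1) _
          rw [LinearMap.smul_apply, lin_single, lin_single, Pi.smul_apply, one_mul, one_mul]
      invFun := fun l => ⟨fun g => l.1 (MonoidAlgebra.single g 1), ((hTT _).1 l.2.1).1,
        ((hTT _).1 l.2.1).2, fun x => by
          rw [← eq_lin l.1]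
          exact l.2.2 x⟩
      left_inv := fun φ => Subtype.ext (by
        funext g
        change lin φ.1 _ = _
        rw [lin_single, one_mul])
      right_inv := fun l => Subtype.ext (eq_lin l.1).symm }

end Crest.Agent.R170.LC806
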