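import Crest.Agent.R170.B2b_334
import Crest.Agent.R170.LC3_806
import Crest.Agent.R170.Stm_995

/-!
Row 170, leaf B2 (helper334), third part: the literal statement `SB2`.
-/

set_option autoImplicit false
open scoped BigOperators

namespace Crest.Agent.R170.B2334

open Crest.Agent.R170 Crest.Agent.R170.J482

variable {k : Type} [Field k]

theorem RFe_eq_SF {H : Type} [Group H] [Fintype H] (p n : ℕ) (ε : MonoidAlgebra k H) :
    RFe p n ε = LC806.SF p n ε := by
  ext ψ
  have hthird : (∀ g, ∑ h, ε.coeff h * ψ (h * g) = ψ g) ↔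
      ∀ x, LC806.lin ψ (ε * x) = LC806.lin ψ x := by
    have h0 : ∀ g : H, LC806.lin ψ (ε * MonoidAlgebra.single g 1) =
        ∑ h, ε.coeff h * ψ (h * g) := by
      intro g
      rw [LC806.lin_eq_sum, ← lam_mul_single, lam_apply]
    have h1 : ∀ g : H, LC806.lin ψ (MonoidAlgebra.single g 1) = ψ g := by
      intro g
      rw [LC806.lin_single, one_mul]
    constructor
    · intro h x
      have : (LC806.lin ψ).comp (LinearMap.mulLeft k ε) = LC806.lin ψ := by
        apply LC806.ext_single
        intro g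
        rw [h1]
        change LC806.lin ψ (ε * MonoidAlgebra.single g 1) = ψ g
        rw [h0, h]
      exact congrArg (fun f : MonoidAlgebra k H →ₗ[k] k => f x) this
    · intro h g
      rw [← h0, h, h1]
  constructor
  · rintro ⟨h1, h2, h3⟩
    refine ⟨fun g h => ?_, fun g => (h2 g).symm, hthird.1 h3⟩
    have := h1 (h * g) g
    rw [← this]
    congr 1
    group
  · rintro ⟨h1, h2, h3⟩
    refine ⟨fun g h => ?_, fun g => (h2 g).symm, hthird.2 h3⟩
    rw [h1]
    congr 1
    group

theorem lc_eq {H : Type} [Group H] [Fintype H] (p n : ℕ) [hp : Fact p.Prime] [CharP k p]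
    [IsAlgClosed k] (hn : Good p n H) (ε : MonoidAlgebra k H) (hε : CI ε) :
    lc ε = Module.finrank k (RFe p n ε) := by
  rw [RFe_eq_SF]
  exact LC806.blockSimpleCount_eq_finrank p ⟨hn.pos, hn.idem⟩ hε.1 hε.2

/-- **B2** -/
theorem B2 (p : ℕ) [hp : Fact p.Prime] (k : Type) [Field k] [IsAlgClosed k] [CharP k p] :
    SB2 p k := by
  intro G _ _ e he
  classical
  letI : Fintype G := Fintype.ofFinite G
  letI hfin : ∀ u : G, Fintype (Subgroup.centralizer ({u} : Set G)) :=
    fun u => Fintype.ofFinite _
  haveI : Finite (PC p G) := inferInstance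
  letI : Fintype (PC p G) := Fintype.ofFinite _
  obtain ⟨n, hn⟩ := exists_good p G
  rw [kc_eq e he, finrank_CFe (p := p) hn e he, finsum_eq_sum_of_fintype]
  refine Finset.sum_congr rfl fun c _ => ?_
  exact (lc_eq p n (hn.sub _) _ (br_CI p e he (rp c.1) c.2)).symm

end Crest.Agent.R170.B2334
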