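import Crest.Agent.R170.BR_606
import Crest.Agent.R170.F0iso_538

/-!
Row 170 (swarm A), leaf BR, part 2: composition and transport of the Brauer map.
-/

set_option autoImplicit false
open scoped BigOperators

namespace Crest.Agent.R170.BR606

open Crest.AlgebraR.Weights

section comp

variable {k G : Type} [Field k] [Group G] [Finite G]

omit [Finite G] in
theorem mem_centralizer_sup {P Q : Subgroup G} {g : G} :
    g ∈ Subgroup.centralizer ((P ⊔ Q : Subgroup G) : Set G) ↔
      g ∈ Subgroup.centralizer (P : Set G) ∧ g ∈ Subgroup.centralizer (Q : Set G) := by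
  rw [← Subgroup.mem_inf]
  have h : Subgroup.centralizer ((P ⊔ Q : Subgroup G) : Set G) =
      Subgroup.centralizer (P : Set G) ⊓ Subgroup.centralizer (Q : Set G) := by
    apply le_antisymm
    · exact le_inf (Subgroup.centralizer_le (by exact_mod_cast le_sup_left))
        (Subgroup.centralizer_le (by exact_mod_cast le_sup_right))
    · have h1 : P ⊔ Q ≤ Subgroup.centralizer
          ((Subgroup.centralizer (P : Set G) ⊓ Subgroup.centralizer (Q : Set G) : Subgroup G) :
            Set G) := by
        apply sup_le
        · intro x hx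
          rw [Subgroup.mem_centralizer_iff]
          intro y hy
          exact (Subgroup.mem_centralizer_iff.1 (Subgroup.mem_inf.1 hy).1 x hx).symm
        · intro x hx
          rw [Subgroup.mem_centralizer_iff]
          intro y hy
          exact (Subgroup.mem_centralizer_iff.1 (Subgroup.mem_inf.1 hy).2 x hx).symm
      intro y hy
      rw [Subgroup.mem_centralizer_iff]
      intro x hx
      exact (Subgroup.mem_centralizer_iff.1 (h1 hx) y hy).symm
  rw [h]

omit [Finite G] in
theorem mem_centralizer_map {H : Subgroup G} {R : Subgroup H} {x : H} :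
    (x : G) ∈ Subgroup.centralizer ((R.map H.subtype : Subgroup G) : Set G) ↔
      x ∈ Subgroup.centralizer (R : Set H) := by
  rw [Subgroup.mem_centralizer_iff, Subgroup.mem_centralizer_iff]
  constructor
  · intro h r hr
    apply Subtype.ext
    exact h (r : G) ⟨r, hr, rfl⟩
  · rintro h _ ⟨r, hr, rfl⟩
    exact congrArg Subtype.val (h r hr)

omit [Finite G] in
theorem mem_centralizer_subgroupOf {H R : Subgroup G} (hRH : R ≤ H) {x : H} :
    x ∈ Subgroup.centralizer ((R.subgroupOf H : Subgroup H) : Set H) ↔
      (x : G) ∈ Subgroup.centralizer (R : Set G) := by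
  rw [← mem_centralizer_map, Subgroup.subgroupOf_map_subtype, inf_eq_left.2 hRH]

open Classical in
/-- `br` of `br`, coefficients -/
theorem br_br_coeff (H Q : Subgroup G) (L R : Subgroup H) (z : MonoidAlgebra k G) (l : L) :
    (br L R (br H Q z)).coeff l =
      if ((l : H) : G) ∈ Subgroup.centralizer ((Q ⊔ R.map H.subtype : Subgroup G) : Set G) then
        z.coeff ((l : H) : G) else 0 := by
  rw [br_coeff, br_coeff]
  simp only [mem_centralizer_sup, mem_centralizer_map]
  split_ifs with h1 h2 h3 h4 <;> first | rfl | (exfalso; tauto)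

/-- `br` of `br`, transported along `L ≃* L.map H.subtype` -/
theorem br_br_map (H Q : Subgroup G) (L R : Subgroup H) (z : MonoidAlgebra k G) (l : L) :
    (br (L.map H.subtype) (Q ⊔ R.map H.subtype) z).coeff
      (L.equivMapOfInjective H.subtype H.subtype_injective l) = (br L R (br H Q z)).coeff l := by
  classical
  rw [br_br_coeff, br_coeff]
  rfl

/-- `br` of `br` for subgroups `L`, `R ≤ H` of `G` -/
theorem br_br_subgroupOf {H Q L R : Subgroup G} (hL : L ≤ H) (hR : R ≤ H)
    (z : MonoidAlgebra k G) (l : L.subgroupOf H) :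
    (br L (Q ⊔ R) z).coeff (Subgroup.subgroupOfEquivOfLe hL l) =
      (br (L.subgroupOf H) (R.subgroupOf H) (br H Q z)).coeff l := by
  classical
  rw [br_br_coeff, br_coeff, Subgroup.subgroupOf_map_subtype, inf_eq_left.2 hR]
  rfl

/-- dependence of `br` on its arguments, for equal subgroups -/
theorem br_congr_left {H H' : Subgroup G} (h : H = H') (Q : Subgroup G) (z : MonoidAlgebra k G)
    (x : H) : (br H' Q z).coeff (MulEquiv.subgroupCongr h x) = (br H Q z).coeff x := by
  subst h
  rfl

/-- `br` only depends on the trace of the centraliser on `H` and on the coefficients there -/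
theorem br_congr {H Q Q' : Subgroup G} {z z' : MonoidAlgebra k G}
    (h : ∀ x ∈ H, (x ∈ Subgroup.centralizer (Q : Set G) ↔ x ∈ Subgroup.centralizer (Q' : Set G)))
    (hz : ∀ x ∈ H, x ∈ Subgroup.centralizer (Q : Set G) → z.coeff x = z'.coeff x) :
    br H Q z = br H Q' z' := by
  classical
  apply ext_coeff
  intro x
  rw [br_coeff, br_coeff]
  by_cases hx : (x : G) ∈ Subgroup.centralizer (Q : Set G)
  · rw [if_pos hx, if_pos ((h x x.2).1 hx), hz x x.2 hx]
  · rw [if_neg hx, if_neg (fun h' => hx ((h x x.2).2 h'))]

/-- transport of `br` along an isomorphism of the ambient groups -/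
theorem br_map {G' : Type} [Group G'] [Finite G'] (f : G ≃* G') {z : MonoidAlgebra k G}
    {z' : MonoidAlgebra k G'} (h : ∀ g, z'.coeff (f g) = z.coeff g) (H Q : Subgroup G) (x : H) :
    (br (H.map f.toMonoidHom) (Q.map f.toMonoidHom) z').coeff
      (H.equivMapOfInjective f.toMonoidHom f.injective x) = (br H Q z).coeff x := by
  classical
  rw [br_coeff, br_coeff]
  have h1 : ((H.equivMapOfInjective f.toMonoidHom f.injective x : H.map f.toMonoidHom) : G') =
      f (x : G) := rfl
  rw [h1, h]
  have h2 : f (x : G) ∈ Subgroup.centralizer ((Q.map f.toMonoidHom : Subgroup G') : Set G') ↔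
      (x : G) ∈ Subgroup.centralizer (Q : Set G) := by
    rw [Subgroup.mem_centralizer_iff, Subgroup.mem_centralizer_iff]
    constructor
    · intro hh q hq
      have := hh (f q) ⟨q, hq, rfl⟩
      rw [← map_mul, ← map_mul] at this
      exact f.injective this
    · rintro hh _ ⟨q, hq, rfl⟩
      change f q * f (x : G) = f (x : G) * f q
      rw [← map_mul, ← map_mul, hh q hq]
  simp only [h2]

/-- transport of `br` along conjugation -/
theorem br_conj (g : G) {z : MonoidAlgebra k G} (hz : ∀ x, z * x = x * z) (H Q : Subgroup G)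
    (x : H) :
    (br (H.map (MulAut.conj g).toMonoidHom) (Q.map (MulAut.conj g).toMonoidHom) z).coeff
      (H.equivMapOfInjective (MulAut.conj g).toMonoidHom (MulAut.conj g).injective x) =
      (br H Q z).coeff x :=
  br_map (MulAut.conj g) (fun h => (central_iff z).1 hz g h) H Q x

/-- the element of `k[H]` given by `br` is invariant under elements of `H` normalising `Q` -/
theorem br_conj_coeff {H Q : Subgroup G} {z : MonoidAlgebra k G} (hz : ∀ x, z * x = x * z)
    (a x : H) (ha : (a : G) ∈ Subgroup.normalizer (Q : Set G)) :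
    (br H Q z).coeff (a * x * a⁻¹) = (br H Q z).coeff x := by
  classical
  rw [br_coeff, br_coeff]
  simp only [Subgroup.coe_mul, Subgroup.coe_inv]
  have h1 := conj_mem_centralizer_iff (Q := Q) (g := (a : G)) (h := (x : G)) ha
  by_cases hh : (x : G) ∈ Subgroup.centralizer (Q : Set G)
  · rw [if_pos hh, if_pos (h1.2 hh), (central_iff z).1 hz]
  · rw [if_neg hh, if_neg (fun h' => hh (h1.1 h'))]

end comp

/-! ### `localImage` of `br` -/

section loc

variable {k G : Type} [Field k] [Group G] [Finite G]

omit [Finite G] in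
theorem normalizer_subgroupOf {H R : Subgroup G} (hRH : R ≤ H) :
    Subgroup.normalizer ((R.subgroupOf H : Subgroup H) : Set H) =
      (H ⊓ Subgroup.normalizer (R : Set G)).subgroupOf H := by
  ext x
  rw [Subgroup.mem_subgroupOf, Subgroup.mem_inf, Subgroup.mem_normalizer_iff,
    Subgroup.mem_normalizer_iff]
  constructor
  · intro h
    refine ⟨x.2, fun y => ?_⟩
    constructor
    · intro hy
      have := (h ⟨y, hRH hy⟩).1 hy
      exact this
    · intro hy
      have hyH : y ∈ H := by
        have h1 : (x : G)⁻¹ * ((x : G) * y * (x : G)⁻¹) * x ∈ H :=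
          H.mul_mem (H.mul_mem (H.inv_mem x.2) (hRH hy)) x.2
        have h2 : (x : G)⁻¹ * ((x : G) * y * (x : G)⁻¹) * x = y := by group
        rwa [h2] at h1
      exact (h ⟨y, hyH⟩).2 hy
  · rintro ⟨_, h⟩ y
    exact h (y : G)

/-- the group `(H ∩ N_G(R))/R` -/
abbrev NQ (H R : Subgroup G) : Type _ :=
  ↥(H ⊓ Subgroup.normalizer (R : Set G)) ⧸ R.subgroupOf (H ⊓ Subgroup.normalizer (R : Set G))

omit [Finite G] in
theorem normal_NQ (H R : Subgroup G) :
    (R.subgroupOf (H ⊓ Subgroup.normalizer (R : Set G))).Normal := by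
  constructor
  intro n hn g
  rw [Subgroup.mem_subgroupOf] at hn ⊢
  exact (Subgroup.mem_normalizer_iff.1 (Subgroup.mem_inf.1 g.2).2 _).1 hn

end loc

end Crest.Agent.R170.BR606
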