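import Crest.Agent.R170.BR2_606

/-!
Row 170 (swarm A), leaf BR, part 3: `localImage` of `br`, and the invariance used by the toggles.
-/

set_option autoImplicit false
open scoped BigOperators

namespace Crest.Agent.R170.BR606

open Crest.AlgebraR.Weights Crest.Agent.R170.SCC538

section loc

variable {k G : Type} [Field k] [Group G]

instance normal_NQ_inst (H R : Subgroup G) :
    (R.subgroupOf (H ⊓ Subgroup.normalizer (R : Set G))).Normal := normal_NQ H R

/-- `mapDomain` along an isomorphism, in the shape of `f0_congr` -/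
theorem mapDomain_equiv_coeff {A B : Type} [Group A] [Group B] (f : A ≃* B)
    (x : MonoidAlgebra k A) (a : A) : (MonoidAlgebra.mapDomain f x).coeff (f a) = x.coeff a :=
  Finsupp.mapDomain_apply f.injective x.coeff a

/-- a coefficient statement determines the push-forward along an isomorphism -/
theorem mapDomain_eq_of_coeff {A B : Type} [Group A] [Group B] (f : A ≃* B)
    (x : MonoidAlgebra k A) (y : MonoidAlgebra k B) (h : ∀ a, y.coeff (f a) = x.coeff a) :
    MonoidAlgebra.mapDomain f x = y := by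
  apply ext_coeff
  intro b
  obtain ⟨a, rfl⟩ := f.surjective b
  rw [mapDomain_equiv_coeff, h]

theorem mapDomain_mapDomain {A B C : Type} (f : A → B) (g : B → C) (x : MonoidAlgebra k A) :
    MonoidAlgebra.mapDomain g (MonoidAlgebra.mapDomain f x) =
      MonoidAlgebra.mapDomain (g ∘ f) x := by
  apply MonoidAlgebra.coeff_injective
  exact (Finsupp.mapDomain_comp).symm

variable [Finite G]

/-- the local part: image of `br M (Q ⊔ R) z` in `k[M/R]`, `M = H ∩ N_G(R)` -/
noncomputable def loc (H Q R : Subgroup G) (z : MonoidAlgebra k G) : MonoidAlgebra k (NQ H R) :=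
  MonoidAlgebra.mapDomain (QuotientGroup.mk : ↥(H ⊓ Subgroup.normalizer (R : Set G)) → NQ H R)
    (br (H ⊓ Subgroup.normalizer (R : Set G)) (Q ⊔ R) z)

/-- `N_H(R) ≃ H ∩ N_G(R)` -/
noncomputable def nIso {H R : Subgroup G} (hRH : R ≤ H) :
    Subgroup.normalizer ((R.subgroupOf H : Subgroup H) : Set H) ≃*
      ↥(H ⊓ Subgroup.normalizer (R : Set G)) :=
  (MulEquiv.subgroupCongr (normalizer_subgroupOf hRH)).trans
    (Subgroup.subgroupOfEquivOfLe inf_le_left)

omit [Finite G] in
theorem nIso_coe {H R : Subgroup G} (hRH : R ≤ H)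
    (x : Subgroup.normalizer ((R.subgroupOf H : Subgroup H) : Set H)) :
    ((nIso hRH x : ↥(H ⊓ Subgroup.normalizer (R : Set G))) : G) = ((x : H) : G) := rfl

omit [Finite G] in
theorem nIso_map {H R : Subgroup G} (hRH : R ≤ H) :
    ((R.subgroupOf H).subgroupOf (Subgroup.normalizer ((R.subgroupOf H : Subgroup H) : Set H))).map
      (nIso hRH).toMonoidHom = R.subgroupOf (H ⊓ Subgroup.normalizer (R : Set G)) := by
  ext x
  constructor
  · rintro ⟨y, hy, rfl⟩
    exact hy
  · intro hx
    refine ⟨(nIso hRH).symm x, ?_, ?_⟩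
    · change (((nIso hRH).symm x : Subgroup.normalizer ((R.subgroupOf H : Subgroup H) : Set H)) : H)
        ∈ R.subgroupOf H
      rw [Subgroup.mem_subgroupOf, ← nIso_coe hRH, MulEquiv.apply_symm_apply]
      exact hx
    · exact (nIso hRH).apply_symm_apply x

/-- `N_H(R)/R ≃ (H ∩ N_G(R))/R` -/
noncomputable def nqIso {H R : Subgroup G} (hRH : R ≤ H) :
    NormQuot (R.subgroupOf H) ≃* NQ H R :=
  QuotientGroup.congr _ _ (nIso hRH) (nIso_map hRH)

variable {p : ℕ}

theorem localImage_br (hp : p.Prime) [CharP k p] {H Q R : Subgroup G} (hR : IsPGroup p R)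
    (hRH : R ≤ H) (hHQ : H ≤ Subgroup.normalizer (Q : Set G)) {z : MonoidAlgebra k G}
    (hz : ∀ x, z * x = x * z) :
    MonoidAlgebra.mapDomain (nqIso hRH) (localImage (R.subgroupOf H) (br H Q z)) =
      loc H Q R z := by
  have hR' : IsPGroup p (R.subgroupOf H) := hR.comap_of_injective _ H.subtype_injective
  rw [localImage_eq' (G := H) hp hR' (z := br H Q z) ?_, loc, mapDomain_mapDomain]
  · have h1 : (nqIso hRH : NormQuot (R.subgroupOf H) → NQ H R) ∘
        (QuotientGroup.mk : Subgroup.normalizer ((R.subgroupOf H : Subgroup H) : Set H) →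
          NormQuot (R.subgroupOf H)) =
        (QuotientGroup.mk : ↥(H ⊓ Subgroup.normalizer (R : Set G)) → NQ H R) ∘ (nIso hRH) := by
      funext x
      rfl
    rw [h1, ← mapDomain_mapDomain]
    congr 1
    apply mapDomain_eq_of_coeff
    intro x
    classical
    rw [br_br_coeff, br_coeff, Subgroup.subgroupOf_map_subtype, inf_eq_left.2 hRH]
    rfl
  · intro q hq g
    exact br_conj_coeff hz q g (hHQ q.2)

theorem f0_local (hp : p.Prime) [CharP k p] {H Q R : Subgroup G} (hR : IsPGroup p R)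
    (hRH : R ≤ H) (hHQ : H ≤ Subgroup.normalizer (Q : Set G)) {z : MonoidAlgebra k G}
    (hz : ∀ x, z * x = x * z) :
    f0 (localImage (R.subgroupOf H) (br H Q z)) = f0 (loc H Q R z) := by
  symm
  apply f0_congr (nqIso hRH)
  intro g
  rw [← localImage_br hp hR hRH hHQ hz, mapDomain_equiv_coeff]

omit [Finite G] in
theorem loc_congr_aux [Finite G] {M M' P P' R : Subgroup G} (hM : M = M') (hP : P = P')
    [h1 : (R.subgroupOf M).Normal] [h2 : (R.subgroupOf M').Normal] (z : MonoidAlgebra k G) :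
    f0 (MonoidAlgebra.mapDomain (QuotientGroup.mk : M → M ⧸ R.subgroupOf M) (br M P z)) =
      f0 (MonoidAlgebra.mapDomain (QuotientGroup.mk : M' → M' ⧸ R.subgroupOf M') (br M' P' z)) := by
  subst hM
  subst hP
  rfl

/-- **the invariance**: `f0 (localImage R (br H Q z))` depends only on `H ∩ N_G(R)` and `Q ⊔ R` -/
theorem f0_local_congr (hp : p.Prime) [CharP k p] {H H' Q Q' R : Subgroup G}
    (hR : IsPGroup p R) (hRH : R ≤ H) (hRH' : R ≤ H')
    (hHQ : H ≤ Subgroup.normalizer (Q : Set G)) (hHQ' : H' ≤ Subgroup.normalizer (Q' : Set G))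
    (hM : H ⊓ Subgroup.normalizer (R : Set G) = H' ⊓ Subgroup.normalizer (R : Set G))
    (hP : Q ⊔ R = Q' ⊔ R) {z : MonoidAlgebra k G} (hz : ∀ x, z * x = x * z) :
    f0 (localImage (R.subgroupOf H) (br H Q z)) =
      f0 (localImage (R.subgroupOf H') (br H' Q' z)) := by
  rw [f0_local hp hR hRH hHQ hz, f0_local hp hR hRH' hHQ' hz]
  exact loc_congr_aux hM hP z

/-- the same for `lc (br (C_H(u)) ⟨u⟩ (br H Q z))`: general form, `L` and `R` subgroups of `H` -/
theorem lc_br_br (H Q L R : Subgroup G) (hL : L ≤ H) (hR : R ≤ H) (z : MonoidAlgebra k G) :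
    lc (br (L.subgroupOf H) (R.subgroupOf H) (br H Q z)) = lc (br L (Q ⊔ R) z) :=
  (lc_congr (Subgroup.subgroupOfEquivOfLe hL) _ _ (br_br_subgroupOf hL hR z)).symm

theorem f0_br_br (H Q L R : Subgroup G) (hL : L ≤ H) (hR : R ≤ H) (z : MonoidAlgebra k G) :
    f0 (br (L.subgroupOf H) (R.subgroupOf H) (br H Q z)) = f0 (br L (Q ⊔ R) z) :=
  (f0_congr (Subgroup.subgroupOfEquivOfLe hL) _ _ (br_br_subgroupOf hL hR z)).symm

/-- the centraliser in `H` of an element of `H` -/
theorem centralizer_singleton_subgroupOf {H : Subgroup G} (u : H) :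
    Subgroup.centralizer ({u} : Set H) =
      (H ⊓ Subgroup.centralizer ({(u : G)} : Set G)).subgroupOf H := by
  ext x
  rw [Subgroup.mem_subgroupOf, Subgroup.mem_inf, Subgroup.mem_centralizer_iff,
    Subgroup.mem_centralizer_iff]
  simp only [Set.mem_singleton_iff, forall_eq]
  constructor
  · intro h
    exact ⟨x.2, congrArg Subtype.val h⟩
  · rintro ⟨_, h⟩
    exact Subtype.ext h

theorem zpowers_subgroupOf {H : Subgroup G} (u : H) :
    Subgroup.zpowers u = (Subgroup.zpowers (u : G)).subgroupOf H := by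
  ext x
  rw [Subgroup.mem_subgroupOf, Subgroup.mem_zpowers_iff, Subgroup.mem_zpowers_iff]
  constructor
  · rintro ⟨n, rfl⟩
    exact ⟨n, by simp⟩
  · rintro ⟨n, hn⟩
    exact ⟨n, Subtype.ext (by simpa using hn)⟩

/-- `lc (br (C_H(u)) ⟨u⟩ (br H Q z)) = lc (br (H ∩ C_G(u)) (Q ⊔ ⟨u⟩) z)` -/
theorem lc_centralizer (H Q : Subgroup G) (u : H) (z : MonoidAlgebra k G) :
    lc (br (Subgroup.centralizer ({u} : Set H)) (Subgroup.zpowers u) (br H Q z)) =
      lc (br (H ⊓ Subgroup.centralizer ({(u : G)} : Set G)) (Q ⊔ Subgroup.zpowers (u : G)) z) := by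
  rw [centralizer_singleton_subgroupOf, zpowers_subgroupOf]
  exact lc_br_br H Q _ _ inf_le_left (by rw [Subgroup.zpowers_le]; exact u.2) z

end loc

end Crest.Agent.R170.BR606
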