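import Crest.Agent.R170.Split_482

/-!
Row 170 (swarm A): central characters of `SplitData`, and the trace of `z J` on the centre.
-/

set_option autoImplicit false
open scoped BigOperators

namespace Crest.Agent.R170.J482

open Crest.AlgebraR.Weights

namespace SplitData
variable {k A : Type*} [Field k] [Ring A] [Algebra k A] (D : SplitData k A)

/-- the `(0,0)` entry of `π_i` (the central character on the centre) -/
def om (i : Fin D.n) : A →ₗ[k] k where
  toFun a := D.π a i 0 0
  map_add' a b := by simp
  map_smul' c a := by simp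

theorem om_apply (i : Fin D.n) (a : A) : D.om i a = D.π a i 0 0 := rfl

theorem π_central {z : A} (hz : ∀ x, z * x = x * z) (i : Fin D.n) :
    D.π z i = algebraMap k (Matrix (Fin (D.d i)) (Fin (D.d i)) k) (D.om i z) := by
  have h : D.π z i ∈ Set.range (Matrix.scalar (Fin (D.d i))) := by
    apply Matrix.mem_range_scalar_of_commute_single
    intro r s _
    obtain ⟨x, hx⟩ := D.surj (Pi.single i (Matrix.single r s 1))
    have h1 := congrArg (fun y => D.π y i) (hz x)
    simp only [map_mul, Pi.mul_apply, hx, Pi.single_eq_same] at h1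
    exact h1.symm
  obtain ⟨c, hc⟩ := h
  have h2 : D.om i z = c := by
    rw [om_apply, ← hc]
    simp
  rw [h2, ← hc]
  rfl

theorem om_one (i : Fin D.n) : D.om i 1 = 1 := by
  rw [om_apply]; simp

theorem om_mul_central {z : A} (hz : ∀ x, z * x = x * z) (x : A) (i : Fin D.n) :
    D.om i (z * x) = D.om i z * D.om i x := by
  rw [om_apply, map_mul, Pi.mul_apply, D.π_central hz i, Algebra.algebraMap_eq_smul_one,
    smul_mul_assoc, one_mul, Matrix.smul_apply, smul_eq_mul]
  rfl

/-- a central element acts on `A / L i` through `om i` -/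
theorem central_smul {z : A} (hz : ∀ x, z * x = x * z) (i : Fin D.n) (s : A ⧸ D.L i) :
    z • s = algebraMap k A (D.om i z) • s := by
  obtain ⟨a, rfl⟩ := Submodule.Quotient.mk_surjective _ s
  rw [← sub_eq_zero, ← sub_smul, ← Submodule.Quotient.mk_smul, Submodule.Quotient.mk_eq_zero, mem_L]
  intro r
  have h : D.π (z - algebraMap k A (D.om i z)) i = 0 := by
    rw [map_sub, Pi.sub_apply, D.π_central hz i, AlgHom.commutes]
    exact sub_self _
  rw [smul_eq_mul, map_mul, Pi.mul_apply, h, zero_mul]
  rfl

theorem one_sub_mem_L {g : A} (hg : ∀ x, g * x = x * g) (i : Fin D.n) :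
    1 - g ∈ D.L i ↔ D.om i g = 1 := by
  rw [mem_L]
  simp only [map_sub, map_one, Pi.sub_apply, Pi.one_apply, D.π_central hg i]
  constructor
  · intro h
    have := h 0
    simp [Matrix.algebraMap_matrix_apply] at this
    exact (sub_eq_zero.1 this).symm
  · intro h r
    rw [h, map_one, sub_self]
    rfl

/-- lifts of the unit elements of the components -/
noncomputable def u (i : Fin D.n) : A := (D.surj (Pi.single i 1)).choose

theorem π_u (i : Fin D.n) : D.π (D.u i) = Pi.single i 1 := (D.surj (Pi.single i 1)).choose_spec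

section J
variable {j : A} (hj : ∀ x, j * x = x * j) (hjr : ∀ x, D.π x = 0 → j * x = 0)
include hjr

theorem j_congr {x y : A} (h : D.π x = D.π y) : j * x = j * y := by
  rw [← sub_eq_zero, ← mul_sub]
  exact hjr _ (by rw [map_sub, h, sub_self])

include hj

theorem ju_central (i : Fin D.n) (x : A) : (j * D.u i) * x = x * (j * D.u i) := by
  rw [mul_assoc, ← mul_assoc x, ← hj x, mul_assoc]
  apply D.j_congr hjr
  rw [map_mul, map_mul, π_u]
  funext l
  by_cases hl : l = i
  · subst hl
    simp
  · simp [Pi.single_eq_of_ne hl]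

theorem j_mul_central {y : A} (hy : ∀ x, y * x = x * y) :
    j * y = ∑ i, D.om i y • (j * D.u i) := by
  simp only [← mul_smul_comm]
  rw [← Finset.mul_sum]
  apply D.j_congr hjr
  rw [map_sum]
  funext l
  rw [Finset.sum_apply, Finset.sum_eq_single l]
  · rw [map_smul, π_u, Pi.smul_apply, Pi.single_eq_same, D.π_central hy l,
      Algebra.algebraMap_eq_smul_one]
  · intro i _ hi
    rw [map_smul, π_u, Pi.smul_apply, Pi.single_eq_of_ne' hi, smul_zero]
  · intro h
    exact absurd (Finset.mem_univ l) h

/-- (S4) -/
theorem trace_mul (z w : Subalgebra.center k A) (hw : (w : A) = z * j)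
    [FiniteDimensional k A] :
    LinearMap.trace k (Subalgebra.center k A) (LinearMap.mulLeft k w)
      = ∑ i, D.om i (z : A) * D.om i j := by
  have hz : ∀ x, (z : A) * x = x * z := fun x => (Subalgebra.mem_center_iff.1 z.2 x).symm
  let f : Fin D.n → Subalgebra.center k A := fun i =>
    ⟨j * D.u i, Subalgebra.mem_center_iff.2 fun x => (D.ju_central hj hjr i x).symm⟩
  let o : Fin D.n → (Subalgebra.center k A →ₗ[k] k) := fun i =>
    (D.om i (z : A)) • (D.om i ∘ₗ (Subalgebra.center k A).val.toLinearMap)
  have h1 : LinearMap.mulLeft k w = ∑ i, (o i).smulRight (f i) := by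
    ext y
    have hy : ∀ x, (y : A) * x = x * y := fun x => (Subalgebra.mem_center_iff.1 y.2 x).symm
    rw [LinearMap.sum_apply, LinearMap.mulLeft_apply, AddSubmonoidClass.coe_finset_sum]
    have h2 : ((w * y : Subalgebra.center k A) : A) = j * (z * y) := by
      rw [MulMemClass.coe_mul, hw, hz j, mul_assoc]
    rw [h2, D.j_mul_central hj hjr (y := (z : A) * y)
      (fun x => by rw [mul_assoc, hy, ← mul_assoc, hz, mul_assoc])]
    refine Finset.sum_congr rfl fun i _ => ?_
    rw [D.om_mul_central hz]
    rfl
  rw [h1, map_sum]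
  refine Finset.sum_congr rfl fun i _ => ?_
  haveI : FiniteDimensional k (Subalgebra.center k A) :=
    FiniteDimensional.of_subalgebra_toSubmodule (Module.Finite.of_injective
      (Subalgebra.toSubmodule (Subalgebra.center k A)).subtype Subtype.val_injective)
  rw [LinearMap.trace_smulRight]
  change D.om i (z : A) * D.om i (j * D.u i) = _
  rw [D.om_mul_central hj, D.om_apply i (D.u i), π_u, Pi.single_eq_same, Matrix.one_apply_eq,
    mul_one]

/-- (S5), second half: if `om i j ≠ 0` then `A / L i` is projective -/
theorem projective_of_om_ne_zero (i : Fin D.n) (hi : D.om i j ≠ 0) :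
    Module.Projective A (A ⧸ D.L i) := by
  -- `g = (om i j)⁻¹ j u_i`, `ee = g ε_i`
  set c := (D.om i j)⁻¹ with hc
  let ee : A := c • (j * D.ε i)
  have hπ : ∀ y : A, D.π (c • (j * (D.u i * y))) = Pi.single i (D.π y i) := by
    intro y
    rw [map_smul, map_mul, map_mul, π_u]
    funext l
    by_cases hl : l = i
    · subst hl
      rw [Pi.smul_apply, Pi.mul_apply, Pi.mul_apply, Pi.single_eq_same, one_mul,
        D.π_central hj l, Algebra.algebraMap_eq_smul_one, smul_mul_assoc, one_mul, smul_smul, hc,
        inv_mul_cancel₀ hi, one_smul, Pi.single_eq_same]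
    · simp [Pi.single_eq_of_ne hl]
  have hee : ee = c • (j * (D.u i * D.ε i)) := by
    change c • _ = c • _
    congr 1
    apply D.j_congr hjr
    rw [map_mul, π_u, π_ε, ← Pi.single_mul, one_mul]
  have hπe : D.π ee = Pi.single i (Matrix.single 0 0 1) := by
    rw [hee, hπ, π_ε, Pi.single_eq_same]
  -- the section
  have hL : D.L i ≤ LinearMap.ker (LinearMap.toSpanSingleton A A ee) := by
    intro a ha
    rw [LinearMap.mem_ker, LinearMap.toSpanSingleton_apply, smul_eq_mul]
    change a * (c • (j * D.ε i)) = 0
    rw [mul_smul_comm, ← mul_assoc, ← hj a, mul_assoc]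
    have : j * (a * D.ε i) = j * 0 := by
      apply D.j_congr hjr
      rw [map_mul, π_ε, map_zero]
      funext l
      by_cases hl : l = i
      · subst hl
        rw [Pi.mul_apply, Pi.single_eq_same]
        ext r s
        by_cases hs : s = 0
        · subst hs
          rw [Matrix.mul_single_apply_same, ha r]
          simp
        · rw [Matrix.mul_single_apply_of_ne _ _ _ _ _ hs]
          rfl
      · rw [Pi.mul_apply, Pi.single_eq_of_ne hl, mul_zero]
        rfl
    rw [this, mul_zero, smul_zero]
  refine Module.Projective.of_split ((D.L i).liftQ (LinearMap.toSpanSingleton A A ee) hL)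
    (D.L i).mkQ ?_
  apply LinearMap.ext
  intro s
  obtain ⟨a, rfl⟩ := Submodule.Quotient.mk_surjective _ s
  change (D.L i).mkQ (a • ee) = (D.L i).mkQ a
  rw [← sub_eq_zero, ← map_sub, Submodule.mkQ_apply, Submodule.Quotient.mk_eq_zero, mem_L]
  intro r
  rw [smul_eq_mul, map_sub, map_mul, hπe, Pi.sub_apply, Pi.mul_apply, Pi.single_eq_same,
    Matrix.sub_apply, Matrix.mul_single_apply_same, mul_one, sub_self]

end J

end SplitData

end Crest.Agent.R170.J482
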