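import Crest.Prelude.Def_Weights

/-!
Row 170 (swarm A): the simple modules of a finite-dimensional algebra `A` over an algebraically
closed field `k`, through `pi : A → ∏ M_{d i}(k)` with kernel the Jacobson radical.
-/

set_option autoImplicit false
open scoped BigOperators

namespace Crest.Agent.R170.J482

open Crest.AlgebraR.Weights

/-- `A / rad A` as a product of matrix algebras. -/
structure SplitData (k A : Type*) [Field k] [Ring A] [Algebra k A] where
  n : ℕ
  d : Fin n → ℕ
  ne : ∀ i, NeZero (d i)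
  π : A →ₐ[k] (Π i, Matrix (Fin (d i)) (Fin (d i)) k)
  surj : Function.Surjective π
  ker_rad : ∀ x, π x = 0 ↔ x ∈ Ring.jacobson A

theorem exists_splitData (k A : Type*) [Field k] [IsAlgClosed k] [Ring A] [Algebra k A]
    [FiniteDimensional k A] : Nonempty (SplitData k A) := by
  haveI : IsArtinianRing A := IsArtinianRing.of_finite k A
  haveI : FiniteDimensional k (A ⧸ Ring.jacobson A) :=
    Module.Finite.of_surjective (Ideal.Quotient.mkₐ k (Ring.jacobson A)).toLinearMap
      (Ideal.Quotient.mkₐ_surjective k _)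
  obtain ⟨n, d, hd, ⟨e⟩⟩ := IsSemisimpleRing.exists_algEquiv_pi_matrix_of_isAlgClosed k
    (A ⧸ Ring.jacobson A)
  refine ⟨⟨n, d, hd, e.toAlgHom.comp (Ideal.Quotient.mkₐ k (Ring.jacobson A)), ?_, ?_⟩⟩
  · exact e.surjective.comp (Ideal.Quotient.mkₐ_surjective k _)
  · intro x
    change e (Ideal.Quotient.mk _ x) = 0 ↔ _
    rw [map_eq_zero_iff e e.injective, Ideal.Quotient.eq_zero_iff_mem]

namespace SplitData
variable {k A : Type*} [Field k] [Ring A] [Algebra k A] (D : SplitData k A)

instance (i : Fin D.n) : NeZero (D.d i) := D.ne i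

/-- the left ideal `L i`: column `0` of `(π a) i` vanishes -/
def L (i : Fin D.n) : Submodule A A where
  carrier := {a | ∀ r, D.π a i r 0 = 0}
  zero_mem' := by intro r; simp
  add_mem' := by
    intro a b ha hb r
    simp [ha r, hb r]
  smul_mem' := by
    intro c a ha r
    simp only [smul_eq_mul, map_mul, Pi.mul_apply, Matrix.mul_apply]
    exact Finset.sum_eq_zero fun s _ => by rw [ha s, mul_zero]

theorem mem_L {i : Fin D.n} {a : A} : a ∈ D.L i ↔ ∀ r, D.π a i r 0 = 0 := Iff.rfl

theorem jac_smul {m : Submodule A A} (hm : IsCoatom m) {x : A} (hx : D.π x = 0) (s : A ⧸ m) :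
    x • s = 0 := by
  haveI : IsSimpleModule A (A ⧸ m) := isSimpleModule_iff_isCoatom.2 hm
  have h : x ∈ Ring.jacobson A := (D.ker_rad x).1 hx
  have h2 : Ring.jacobson A ≤ Module.annihilator A (A ⧸ m) :=
    IsSemisimpleModule.jacobson_le_annihilator A (A ⧸ m)
  exact Module.mem_annihilator.1 (h2 h) s

theorem L_isCoatom (i : Fin D.n) : IsCoatom (D.L i) := by
  constructor
  · intro h
    have h1 : (1 : A) ∈ D.L i := by rw [h]; trivial
    have := h1 0
    simp at this
  · intro K hK
    obtain ⟨a, haK, haL⟩ := Set.exists_of_ssubset hK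
    rw [SetLike.mem_coe, mem_L] at haL
    push_neg at haL
    obtain ⟨r, hr⟩ := haL
    obtain ⟨b, hb⟩ := D.surj (Pi.single i (Matrix.single 0 r (D.π a i r 0)⁻¹))
    have h1 : 1 - b * a ∈ D.L i := by
      intro s
      rw [map_sub, map_one, map_mul, hb, Pi.sub_apply, Pi.one_apply, Pi.mul_apply,
        Pi.single_eq_same, Matrix.sub_apply]
      by_cases hs : s = 0
      · subst hs
        rw [Matrix.single_mul_apply_same, Matrix.one_apply_eq, inv_mul_cancel₀ hr, sub_self]
      · rw [Matrix.single_mul_apply_of_ne _ _ _ _ _ hs, Matrix.one_apply_ne hs, sub_self]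
    rw [Submodule.eq_top_iff']
    intro x
    have h2 : (1 : A) ∈ K := by
      have h3 := K.add_mem (hK.le h1) (K.smul_mem b haK)
      simpa using h3
    have := K.smul_mem x h2
    simpa using this

/-- a lift of the matrix unit `E_{00}` of the `i`-th component -/
noncomputable def ε (i : Fin D.n) : A := (D.surj (Pi.single i (Matrix.single 0 0 1))).choose

theorem π_ε (i : Fin D.n) : D.π (D.ε i) = Pi.single i (Matrix.single 0 0 1) :=
  (D.surj (Pi.single i (Matrix.single 0 0 1))).choose_spec

theorem π_ε_mul (i : Fin D.n) : D.π (D.ε i * D.ε i - D.ε i) = 0 := by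
  rw [map_sub, map_mul, π_ε, ← Pi.single_mul, Matrix.single_mul_single_same, mul_one, sub_self]

/-- some `ε i` acts nontrivially on every simple module -/
theorem exists_ε {m : Submodule A A} (hm : IsCoatom m) : ∃ i, ∃ s : A ⧸ m, D.ε i • s ≠ 0 := by
  by_contra hcon
  push_neg at hcon
  have hx : ∀ i : Fin D.n, ∀ r : Fin (D.d i), ∃ x : A, D.π x = Pi.single i (Matrix.single r 0 1) :=
    fun i r => D.surj _
  have hy : ∀ i : Fin D.n, ∀ r : Fin (D.d i), ∃ x : A, D.π x = Pi.single i (Matrix.single 0 r 1) :=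
    fun i r => D.surj _
  choose x hx using hx
  choose y hy using hy
  have h1 : D.π (1 - ∑ i, ∑ r, x i r * D.ε i * y i r) = 0 := by
    rw [map_sub, map_one, map_sum, sub_eq_zero]
    simp only [map_sum, map_mul, hx, hy, π_ε, ← Pi.single_mul, Matrix.single_mul_single_same,
      mul_one]
    funext i
    rw [Finset.sum_apply, Finset.sum_eq_single i]
    · rw [Finset.sum_apply]
      simp only [Pi.single_eq_same]
      ext a b
      rw [Matrix.sum_apply]
      simp only [Matrix.single_apply, Pi.one_apply, Matrix.one_apply]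
      by_cases hab : a = b
      · subst hab
        simp
      · rw [if_neg hab]
        symm
        apply Finset.sum_eq_zero
        intro c _
        rw [if_neg]
        rintro ⟨rfl, rfl⟩
        exact hab rfl
    · intro j _ hj
      rw [Finset.sum_apply]
      exact Finset.sum_eq_zero fun c _ => by rw [Pi.single_eq_of_ne' hj]
    · intro h
      exact absurd (Finset.mem_univ i) h
  have h2 : ∀ s : A ⧸ m, s = 0 := by
    intro s
    have h3 := D.jac_smul hm h1 s
    rw [sub_smul, one_smul, Finset.sum_smul, sub_eq_zero] at h3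
    rw [h3]
    refine Finset.sum_eq_zero fun i _ => ?_
    rw [Finset.sum_smul]
    refine Finset.sum_eq_zero fun r _ => ?_
    rw [mul_smul, mul_smul, hcon, smul_zero]
  apply hm.1
  rw [Submodule.eq_top_iff']
  intro a
  have := h2 (Submodule.Quotient.mk a)
  rwa [Submodule.Quotient.mk_eq_zero] at this

theorem equiv_of_ε {m : Submodule A A} (hm : IsCoatom m) {i : Fin D.n} {s : A ⧸ m}
    (hs : D.ε i • s ≠ 0) : Nonempty ((A ⧸ m) ≃ₗ[A] (A ⧸ D.L i)) := by
  haveI : IsSimpleModule A (A ⧸ m) := isSimpleModule_iff_isCoatom.2 hm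
  set t := D.ε i • s with ht
  have htt : D.ε i • t = t := by
    have := D.jac_smul hm (D.π_ε_mul i) s
    rw [sub_smul, mul_smul, sub_eq_zero] at this
    exact this
  have hsurj := IsSimpleModule.toSpanSingleton_surjective A hs
  have hker : D.L i ≤ LinearMap.ker (LinearMap.toSpanSingleton A (A ⧸ m) t) := by
    intro a ha
    rw [LinearMap.mem_ker, LinearMap.toSpanSingleton_apply]
    have h1 : D.π (a * D.ε i) = 0 := by
      rw [map_mul, π_ε]
      funext j
      by_cases hj : j = i
      · subst hj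
        rw [Pi.mul_apply, Pi.single_eq_same]
        ext r c
        by_cases hc : c = 0
        · subst hc
          rw [Matrix.mul_single_apply_same, ha r]
          simp
        · rw [Matrix.mul_single_apply_of_ne _ _ _ _ _ hc]
          rfl
      · rw [Pi.mul_apply, Pi.single_eq_of_ne hj, mul_zero]
        rfl
    rw [← htt, ← mul_smul]
    exact D.jac_smul hm h1 t
  have hne : LinearMap.ker (LinearMap.toSpanSingleton A (A ⧸ m) t) ≠ ⊤ := by
    intro h
    have h1 : (1 : A) ∈ LinearMap.ker (LinearMap.toSpanSingleton A (A ⧸ m) t) := by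
      rw [h]; trivial
    rw [LinearMap.mem_ker, LinearMap.toSpanSingleton_apply, one_smul] at h1
    exact hs h1
  have heq : D.L i = LinearMap.ker (LinearMap.toSpanSingleton A (A ⧸ m) t) := by
    rcases hker.lt_or_eq with h | h
    · exact absurd ((D.L_isCoatom i).2 _ h) hne
    · exact h
  rw [heq]
  exact ⟨((LinearMap.toSpanSingleton A (A ⧸ m) t).quotKerEquivOfSurjective hsurj).symm⟩

theorem exists_equiv_L {m : Submodule A A} (hm : IsCoatom m) :
    ∃ i, Nonempty ((A ⧸ m) ≃ₗ[A] (A ⧸ D.L i)) := by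
  obtain ⟨i, s, hs⟩ := D.exists_ε hm
  exact ⟨i, D.equiv_of_ε hm hs⟩

theorem eq_of_equiv_L {i j : Fin D.n} (h : Nonempty ((A ⧸ D.L i) ≃ₗ[A] (A ⧸ D.L j))) : i = j := by
  obtain ⟨f⟩ := h
  by_contra hij
  have h1 : ∀ s : A ⧸ D.L j, D.ε i • s = 0 := by
    intro s
    obtain ⟨a, rfl⟩ := Submodule.Quotient.mk_surjective _ s
    rw [← Submodule.Quotient.mk_smul, Submodule.Quotient.mk_eq_zero, mem_L]
    intro r
    rw [smul_eq_mul, map_mul, Pi.mul_apply, π_ε, Pi.single_eq_of_ne (Ne.symm hij), zero_mul]
    rfl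
  have h2 : D.ε i • (Submodule.Quotient.mk 1 : A ⧸ D.L i) = 0 := by
    apply f.injective
    rw [map_smul, h1, map_zero]
  rw [← Submodule.Quotient.mk_smul, Submodule.Quotient.mk_eq_zero, mem_L, smul_eq_mul, mul_one] at h2
  have := h2 0
  rw [π_ε, Pi.single_eq_same] at this
  simp at this

/-- (S2): the number of classes of simple modules with an isomorphism-invariant property -/
theorem simpleClassCount_eq (P : Submodule A A → Prop)
    (hP : ∀ m m' : Submodule A A, Nonempty ((A ⧸ m) ≃ₗ[A] (A ⧸ m')) → P m → P m') :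
    simpleClassCount A P = Nat.card {i : Fin D.n // P (D.L i)} := by
  unfold simpleClassCount
  symm
  refine Nat.card_congr (Equiv.ofBijective
    (fun i => Quotient.mk (quotIsoSetoid A P) ⟨D.L i.1, D.L_isCoatom i.1, i.2⟩) ⟨?_, ?_⟩)
  · intro i j h
    have h1 := Quotient.exact h
    exact Subtype.ext (D.eq_of_equiv_L h1)
  · intro q
    obtain ⟨⟨m, hm, hPm⟩, rfl⟩ := Quotient.exists_rep q
    obtain ⟨i, hi⟩ := D.exists_equiv_L hm
    refine ⟨⟨i, hP _ _ hi hPm⟩, ?_⟩
    apply Quotient.sound
    obtain ⟨f⟩ := hi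
    exact ⟨f.symm⟩

end SplitData

end Crest.Agent.R170.J482
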