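import Crest.Agent.R170.DefW_995
import Crest.Agent.R170.Split_482

/-!
Row 170 (swarm A), leaf WW2-FE (helper234): the functional equation for `f0`.

`f0 e = Nat.card (Y e)` where `Y e` is the set of functions `φ ≠ 0` on `G` with
`∑ g, φ (a g b g⁻¹) = φ a φ b` and `e * φ = φ`.
-/

set_option autoImplicit false
open scoped BigOperators

namespace Crest.Agent.R170.FE

open Crest.AlgebraR.Weights Crest.Agent.R170.J482 MonoidAlgebra

section basic
variable {k G : Type} [Field k] [Group G] [Fintype G]

/-- the functional equation -/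
def Y (e : MonoidAlgebra k G) : Set (G → k) :=
  {φ | φ ≠ 0 ∧ (∀ a b, ∑ g, φ (a * g * b * g⁻¹) = φ a * φ b) ∧
    ∀ a, ∑ h, e.coeff h * φ (h * a) = φ a}

/-- relative trace -/
noncomputable def Tr (x : MonoidAlgebra k G) : MonoidAlgebra k G :=
  ∑ g : G, single g 1 * x * single g⁻¹ 1

theorem Tr_zero : Tr (0 : MonoidAlgebra k G) = 0 := by simp [Tr]

theorem Tr_add (x y : MonoidAlgebra k G) : Tr (x + y) = Tr x + Tr y := by
  simp [Tr, mul_add, add_mul, Finset.sum_add_distrib]

theorem Tr_smul (c : k) (x : MonoidAlgebra k G) : Tr (c • x) = c • Tr x := by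
  simp [Tr, Finset.smul_sum]

theorem single_eq (g : G) (r : k) : (single g r : MonoidAlgebra k G) = r • single g 1 := by
  rw [MonoidAlgebra.smul_single, smul_eq_mul, mul_one]

theorem Tr_central (x y : MonoidAlgebra k G) : Tr x * y = y * Tr x := by
  induction y using MonoidAlgebra.induction_linear with
  | zero => simp
  | add a b ha hb => rw [mul_add, add_mul, ha, hb]
  | single h r =>
    rw [Tr, Finset.sum_mul, Finset.mul_sum]
    refine Fintype.sum_equiv (Equiv.mulLeft h⁻¹) _ _ fun g => ?_
    rw [single_eq h r, mul_smul_comm, smul_mul_assoc]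
    congr 1
    simp only [Equiv.coe_mulLeft, mul_inv_rev, inv_inv]
    rw [mul_assoc, single_mul_single, mul_one, ← mul_assoc, ← mul_assoc, single_mul_single, mul_one,
      mul_inv_cancel_left]

theorem Tr_mul_central {z : MonoidAlgebra k G} (hz : ∀ x, z * x = x * z) (x : MonoidAlgebra k G) :
    Tr (z * x) = z * Tr x := by
  rw [Tr, Tr, Finset.mul_sum]
  refine Finset.sum_congr rfl fun g _ => ?_
  rw [← mul_assoc, ← hz, mul_assoc z, mul_assoc z]

/-- linear extension of a function on `G` -/
noncomputable def ext (φ : G → k) : MonoidAlgebra k G →ₗ[k] k where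
  toFun x := ∑ g, x.coeff g * φ g
  map_add' x y := by simp [add_mul, Finset.sum_add_distrib]
  map_smul' c x := by simp [Finset.mul_sum, mul_assoc]

theorem ext_apply (φ : G → k) (x : MonoidAlgebra k G) : ext φ x = ∑ g, x.coeff g * φ g := rfl

theorem ext_single (φ : G → k) (g : G) (r : k) : ext φ (single g r) = r * φ g := by
  classical
  rw [ext_apply, Finset.sum_eq_single g]
  · simp
  · intro b _ hb
    rw [MonoidAlgebra.coeff_single, Finsupp.single_apply, if_neg (Ne.symm hb), zero_mul]
  · intro h; exact absurd (Finset.mem_univ g) h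

theorem ext_mul_single (φ : G → k) (x : MonoidAlgebra k G) (a : G) :
    ext φ (x * single a 1) = ∑ h, x.coeff h * φ (h * a) := by
  rw [ext_apply]
  refine Fintype.sum_equiv (Equiv.mulRight a⁻¹) _ _ fun g => ?_
  rw [MonoidAlgebra.coeff_mul_single_apply]
  simp

theorem ext_mul_Tr {φ : G → k} (h : ∀ a b, ∑ g, φ (a * g * b * g⁻¹) = φ a * φ b)
    (x y : MonoidAlgebra k G) : ext φ (x * Tr y) = ext φ x * ext φ y := by
  induction x using MonoidAlgebra.induction_linear with
  | zero => simp
  | add a b ha hb => rw [add_mul, map_add, ha, hb, map_add, add_mul]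
  | single a r =>
    induction y using MonoidAlgebra.induction_linear with
    | zero => simp [Tr]
    | add c d hc hd => rw [Tr_add, mul_add, map_add, hc, hd, map_add, mul_add]
    | single b s =>
      rw [Tr, Finset.mul_sum, map_sum, ext_single, ext_single]
      have : r * φ a * (s * φ b) = ∑ g, r * s * φ (a * g * b * g⁻¹) := by
        rw [← Finset.mul_sum, h]; ring
      rw [this]
      refine Finset.sum_congr rfl fun g _ => ?_
      rw [single_mul_single, single_mul_single, single_mul_single, ext_single]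
      simp [mul_assoc]

end basic

section split
variable {k G : Type} [Field k] [Group G] [Fintype G] (D : SplitData k (MonoidAlgebra k G))

theorem central_scalar {z : MonoidAlgebra k G} (hz : ∀ x, z * x = x * z) (i : Fin D.n) :
    D.π z i = (D.π z i 0 0) • (1 : Matrix (Fin (D.d i)) (Fin (D.d i)) k) := by
  have h : ∀ r s : Fin (D.d i), Commute (Matrix.single r s (1 : k)) (D.π z i) := by
    intro r s
    obtain ⟨x, hx⟩ := D.surj (Pi.single i (Matrix.single r s 1))
    have h1 := congrArg (fun y => D.π y i) (hz x)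
    simp only [map_mul, Pi.mul_apply, hx, Pi.single_eq_same] at h1
    exact h1.symm
  obtain ⟨c, hc⟩ := Matrix.mem_range_scalar_iff_commute_single'.2 h
  have : D.π z i = c • (1 : Matrix (Fin (D.d i)) (Fin (D.d i)) k) := by
    rw [← hc]
    ext a b
    simp [Matrix.scalar_apply, Matrix.diagonal_apply, Matrix.one_apply]
  rw [this]
  simp

/-- the functions attached to the simple modules -/
noncomputable def Phi (i : Fin D.n) (g : G) : k := D.π (Tr (single g 1)) i 0 0

theorem ext_Phi (i : Fin D.n) (x : MonoidAlgebra k G) : ext (Phi D i) x = D.π (Tr x) i 0 0 := by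
  induction x using MonoidAlgebra.induction_linear with
  | zero => simp [Tr_zero]
  | add a b ha hb => rw [map_add, ha, hb, Tr_add, map_add]; rfl
  | single a r =>
    rw [ext_single, single_eq a r, Tr_smul, map_smul]; rfl

theorem ext_Phi_central_mul (i : Fin D.n) {z : MonoidAlgebra k G} (hz : ∀ x, z * x = x * z)
    (x : MonoidAlgebra k G) : ext (Phi D i) (z * x) = D.π z i 0 0 * ext (Phi D i) x := by
  rw [ext_Phi, ext_Phi, Tr_mul_central hz, map_mul, Pi.mul_apply, central_scalar D hz i]
  simp

theorem Phi_FE (i : Fin D.n) (a b : G) :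
    ∑ g, Phi D i (a * g * b * g⁻¹) = Phi D i a * Phi D i b := by
  have h1 : ∑ g, Phi D i (a * g * b * g⁻¹) = ext (Phi D i) (single a 1 * Tr (single b 1)) := by
    rw [Tr, Finset.mul_sum, map_sum]
    refine Finset.sum_congr rfl fun g _ => ?_
    rw [single_mul_single, single_mul_single, single_mul_single, ext_single]
    simp [mul_assoc]
  rw [h1, ← Tr_central, ext_Phi_central_mul D i (Tr_central _), ext_single, one_mul, mul_comm]
  rfl

theorem π_Tr (i : Fin D.n) (x : MonoidAlgebra k G) :
    D.π (Tr x) i = ∑ g : G, D.π (single g 1) i * D.π x i * D.π (single g⁻¹ 1) i := by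
  rw [Tr, map_sum, Finset.sum_apply]
  refine Finset.sum_congr rfl fun g _ => ?_
  rw [map_mul, map_mul]; rfl

/-- lifts of the matrix units of column `0` -/
theorem exists_b (i : Fin D.n) : ∃ b : Fin (D.d i) → MonoidAlgebra k G,
    ∀ r, D.π (b r) = Pi.single i (Matrix.single r 0 1) := by
  choose b hb using fun r : Fin (D.d i) => D.surj (Pi.single i (Matrix.single r 0 (1 : k)))
  exact ⟨b, hb⟩

theorem sub_B_mem (i : Fin D.n) {b : Fin (D.d i) → MonoidAlgebra k G}
    (hb : ∀ r, D.π (b r) = Pi.single i (Matrix.single r 0 1)) (y : MonoidAlgebra k G) :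
    y - ∑ r, D.π y i r 0 • b r ∈ D.L i := by
  intro r
  rw [map_sub, map_sum, Pi.sub_apply, Finset.sum_apply, Matrix.sub_apply, Matrix.sum_apply,
    sub_eq_zero, Finset.sum_eq_single r]
  · rw [map_smul, hb]; simp
  · intro s _ hs
    rw [map_smul, hb, Pi.smul_apply, Pi.single_eq_same, Matrix.smul_apply,
      Matrix.single_apply_of_row_ne hs, smul_zero]
  · intro h; exact absurd (Finset.mem_univ r) h


theorem Tr_mul_sub_mem (i : Fin D.n) {x : MonoidAlgebra k G} (hx : D.π (Tr x) i 0 0 = 1)
    (y : MonoidAlgebra k G) : Tr x * y - y ∈ D.L i := by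
  intro r
  rw [map_sub, map_mul, Pi.sub_apply, Pi.mul_apply, central_scalar D (Tr_central x) i, hx]
  simp

theorem projective_of_one (i : Fin D.n) (x : MonoidAlgebra k G) (hx : D.π (Tr x) i 0 0 = 1) :
    Module.Projective (MonoidAlgebra k G) (MonoidAlgebra k G ⧸ D.L i) := by
  obtain ⟨b, hb⟩ := exists_b D i
  let B : MonoidAlgebra k G →ₗ[k] MonoidAlgebra k G :=
    { toFun := fun y => ∑ r, D.π y i r 0 • b r
      map_add' := by
        intro y z
        simp only [map_add, Pi.add_apply, Matrix.add_apply, add_smul, Finset.sum_add_distrib]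
      map_smul' := by
        intro c y
        simp only [map_smul, Pi.smul_apply, Matrix.smul_apply, smul_eq_mul, mul_smul,
          Finset.smul_sum, RingHom.id_apply] }
  have hB : ∀ y, y - B y ∈ D.L i := fun y => sub_B_mem D i hb y
  have hB0 : ∀ y ∈ D.L i, B y = 0 := by
    intro y hy
    change ∑ r, D.π y i r 0 • b r = 0
    exact Finset.sum_eq_zero fun r _ => by rw [hy r, zero_smul]
  let f : MonoidAlgebra k G →ₗ[k] MonoidAlgebra k G :=
    { toFun := fun y => ∑ g : G, single g 1 * B (x * single g⁻¹ 1 * y)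
      map_add' := by
        intro y z
        simp only [mul_add, map_add, Finset.sum_add_distrib]
      map_smul' := by
        intro c y
        simp only [mul_smul_comm, map_smul, Finset.smul_sum, RingHom.id_apply] }
  have hf : ∀ y z, f (y * z) = y * f z := by
    intro y z
    induction y using MonoidAlgebra.induction_linear with
    | zero => simp
    | add a c ha hc => rw [add_mul, map_add, ha, hc, add_mul]
    | single h r =>
      rw [single_eq h r, smul_mul_assoc, smul_mul_assoc, map_smul]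
      congr 1
      change ∑ g : G, single g 1 * B (x * single g⁻¹ 1 * (single h 1 * z)) =
        single h 1 * ∑ g : G, single g 1 * B (x * single g⁻¹ 1 * z)
      rw [Finset.mul_sum]
      refine Fintype.sum_equiv (Equiv.mulLeft h⁻¹) _ _ fun g => ?_
      simp only [Equiv.coe_mulLeft, mul_inv_rev, inv_inv]
      rw [← mul_assoc (single h 1), single_mul_single, mul_one, mul_inv_cancel_left,
        ← mul_assoc (x * single g⁻¹ 1), mul_assoc x (single g⁻¹ 1), single_mul_single, mul_one]
  let F : MonoidAlgebra k G →ₗ[MonoidAlgebra k G] MonoidAlgebra k G :=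
    { toFun := fun y => f y
      map_add' := fun y z => map_add f y z
      map_smul' := fun c y => hf c y }
  have hF0 : D.L i ≤ LinearMap.ker F := by
    intro y hy
    rw [LinearMap.mem_ker]
    change ∑ g : G, single g 1 * B (x * single g⁻¹ 1 * y) = 0
    refine Finset.sum_eq_zero fun g _ => ?_
    have h1 := (D.L i).smul_mem (x * single g⁻¹ 1) hy
    rw [smul_eq_mul] at h1
    rw [hB0 _ h1, mul_zero]
  refine Module.Projective.of_split ((D.L i).liftQ F hF0) (D.L i).mkQ ?_
  apply Submodule.linearMap_qext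
  ext
  change (Submodule.Quotient.mk (((D.L i).liftQ F hF0) (Submodule.Quotient.mk 1)) :
    MonoidAlgebra k G ⧸ D.L i) = Submodule.Quotient.mk 1
  rw [Submodule.liftQ_apply, Submodule.Quotient.eq]
  have h1 : F 1 - Tr x * 1 ∈ D.L i := by
    have h2 : F 1 - Tr x * 1 = -∑ g : G, (single g (1 : k) : MonoidAlgebra k G) • (x * single g⁻¹ 1 * 1 -
        B (x * single g⁻¹ 1 * 1)) := by
      change ∑ g : G, single g 1 * B (x * single g⁻¹ 1 * 1) - _ = _
      rw [Tr]
      simp only [smul_eq_mul, mul_sub, Finset.sum_sub_distrib, neg_sub, mul_one, mul_assoc]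
    rw [h2]
    exact (D.L i).neg_mem ((D.L i).sum_mem fun g _ => (D.L i).smul_mem _ (hB _))
  have h3 := (D.L i).add_mem h1 (Tr_mul_sub_mem D i hx 1)
  simpa using h3

theorem projective_of (i : Fin D.n) (x : MonoidAlgebra k G) (hx : D.π (Tr x) i 0 0 ≠ 0) :
    Module.Projective (MonoidAlgebra k G) (MonoidAlgebra k G ⧸ D.L i) := by
  refine projective_of_one D i ((D.π (Tr x) i 0 0)⁻¹ • x) ?_
  rw [Tr_smul, map_smul, Pi.smul_apply, Matrix.smul_apply, smul_eq_mul, inv_mul_cancel₀ hx]

theorem exists_of_projective (i : Fin D.n)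
    (hP : Module.Projective (MonoidAlgebra k G) (MonoidAlgebra k G ⧸ D.L i)) :
    ∃ a, D.π (Tr a) i 0 0 = 1 := by
  obtain ⟨s, hs⟩ := Module.projective_lifting_property (D.L i).mkQ LinearMap.id
    (Submodule.mkQ_surjective _)
  obtain ⟨ε, hε⟩ : ∃ ε, ε = s (Submodule.Quotient.mk 1) := ⟨_, rfl⟩
  have h1 : ∀ x, x * ε = s (Submodule.Quotient.mk x) := by
    intro x
    rw [hε, ← smul_eq_mul, ← map_smul, ← Submodule.Quotient.mk_smul, smul_eq_mul, mul_one]
  have h2 : ε - 1 ∈ D.L i := by
    rw [← Submodule.Quotient.eq]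
    have := LinearMap.congr_fun hs (Submodule.Quotient.mk 1)
    rw [hε]
    exact this
  obtain ⟨b, hb⟩ := exists_b D i
  obtain ⟨a, ha⟩ := D.surj
    (Pi.single i (Matrix.of fun r' r => if r' = 0 then (b r * ε).coeff 1 else 0))
  refine ⟨a, ?_⟩
  have h3 : ∀ y, ∑ r, D.π y i r 0 * (b r * ε).coeff 1 = (y * ε).coeff 1 := by
    intro y
    have h4 : (y - ∑ r, D.π y i r 0 • b r) * ε = 0 := by
      rw [h1, (Submodule.Quotient.mk_eq_zero _).2 (sub_B_mem D i hb y), map_zero]
    rw [sub_mul, sub_eq_zero] at h4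
    rw [h4, Finset.sum_mul]
    simp [Finset.sum_apply']
  have h5 : ∀ g : G, (D.π (single g 1) i * D.π a i * D.π (single g⁻¹ 1) i) 0 0 =
      ε.coeff g * D.π (single g 1) i 0 0 := by
    intro g
    have h6 : (single g⁻¹ (1 : k) * ε).coeff 1 = ε.coeff g := by
      rw [MonoidAlgebra.coeff_single_mul_apply]; simp
    rw [← h6, ← h3, Matrix.mul_apply, Finset.sum_mul]
    refine Finset.sum_congr rfl fun r _ => ?_
    rw [ha, Pi.single_eq_same, Matrix.mul_apply, Finset.sum_eq_single 0]
    · simp only [Matrix.of_apply, if_true]; ring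
    · intro c _ hc
      rw [Matrix.of_apply, if_neg hc, mul_zero]
    · intro h; exact absurd (Finset.mem_univ _) h
  rw [π_Tr, Matrix.sum_apply, Finset.sum_congr rfl fun g _ => h5 g]
  have h7 : D.π ε i 0 0 = 1 := by
    have := h2 0
    rw [map_sub, map_one, Pi.sub_apply, Matrix.sub_apply, sub_eq_zero] at this
    rw [this]; simp
  have h8 : D.π ε i 0 0 = ∑ g : G, ε.coeff g * D.π (single g 1) i 0 0 := by
    conv_lhs => rw [← MonoidAlgebra.sum_coeff_single ε]
    rw [Finsupp.sum_fintype _ _ (by intro i; simp), map_sum, Finset.sum_apply, Matrix.sum_apply]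
    refine Finset.sum_congr rfl fun g _ => ?_
    rw [single_eq g (ε.coeff g), map_smul]
    rfl
  rw [← h8, h7]

theorem Phi_ne_zero_iff (i : Fin D.n) : Phi D i ≠ 0 ↔
    Module.Projective (MonoidAlgebra k G) (MonoidAlgebra k G ⧸ D.L i) := by
  constructor
  · intro h
    obtain ⟨g, hg⟩ := Function.ne_iff.1 h
    exact projective_of D i _ hg
  · intro h h0
    obtain ⟨a, ha⟩ := exists_of_projective D i h
    rw [← ext_Phi, h0, ext_apply] at ha
    simp at ha

theorem Phi_injective {i j : Fin D.n} (hi : Phi D i ≠ 0) (h : Phi D i = Phi D j) : i = j := by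
  by_contra hij
  obtain ⟨a, ha⟩ := exists_of_projective D i ((Phi_ne_zero_iff D i).1 hi)
  obtain ⟨a', ha'⟩ := D.surj (Pi.single i (D.π a i))
  have h1 : D.π (Tr a') i = D.π (Tr a) i := by
    rw [π_Tr, π_Tr, ha', Pi.single_eq_same]
  have h2 : D.π (Tr a') j = 0 := by
    rw [π_Tr, ha', Pi.single_eq_of_ne (Ne.symm hij)]
    simp
  have h3 := ext_Phi D i a'
  rw [h1, ha, h, ext_Phi, h2] at h3
  simp at h3


theorem π_eq_zero_iff_central {z : MonoidAlgebra k G} (hz : ∀ x, z * x = x * z)
    (h : ∀ i, D.π z i 0 0 = 0) : D.π z = 0 := by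
  funext i
  rw [central_scalar D hz i, h i, zero_smul]; rfl

theorem isNilpotent_of_π {z : MonoidAlgebra k G} (h : D.π z = 0) : IsNilpotent z := by
  have : IsArtinianRing (MonoidAlgebra k G) := IsArtinianRing.of_finite k _
  obtain ⟨n, hn⟩ := IsSemiprimaryRing.isNilpotent (R := MonoidAlgebra k G)
  refine ⟨n, ?_⟩
  have h1 := Ideal.pow_mem_pow ((D.ker_rad z).1 h) n
  rw [hn] at h1
  exact h1

/-- the central characters of the simple modules -/
noncomputable def chi (i : Fin D.n) : Subalgebra.center k (MonoidAlgebra k G) →ₐ[k] k :=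
  AlgHom.ofLinearMap
    { toFun := fun z => D.π (z : MonoidAlgebra k G) i 0 0
      map_add' := fun a b => by
        rw [Subalgebra.coe_add, map_add]; rfl
      map_smul' := fun c a => by
        rw [Subalgebra.coe_smul, map_smul]; rfl }
    (by simp)
    (by
      intro a b
      change D.π ((a * b : Subalgebra.center k (MonoidAlgebra k G)) : MonoidAlgebra k G) i 0 0 =
        D.π (a : MonoidAlgebra k G) i 0 0 * D.π (b : MonoidAlgebra k G) i 0 0
      rw [Subalgebra.coe_mul, map_mul, Pi.mul_apply,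
        central_scalar D (z := (a : MonoidAlgebra k G))
          (fun x => (Subalgebra.mem_center_iff.1 a.2 x).symm) i]
      simp)

theorem chi_apply (i : Fin D.n) (z : Subalgebra.center k (MonoidAlgebra k G)) :
    chi D i z = D.π (z : MonoidAlgebra k G) i 0 0 := rfl

theorem exists_chi (χ : Subalgebra.center k (MonoidAlgebra k G) →ₐ[k] k) :
    ∃ i, χ = chi D i := by
  by_contra hcon
  push Not at hcon
  have h1 : ∀ i, ∃ z, χ z ≠ chi D i z := by
    intro i
    by_contra h
    push Not at h
    exact hcon i (AlgHom.ext h)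
  choose z hz using h1
  let u : Fin D.n → Subalgebra.center k (MonoidAlgebra k G) := fun i =>
    1 - (chi D i (z i) - χ (z i))⁻¹ • (z i - algebraMap k _ (χ (z i)))
  have hu1 : ∀ i, chi D i (u i) = 0 := by
    intro i
    simp only [u, map_sub, map_one, map_smul, AlgHom.commutes, smul_eq_mul]
    rw [Algebra.algebraMap_self_apply, inv_mul_cancel₀ (sub_ne_zero.2 (hz i).symm), sub_self]
  have hu2 : ∀ i, χ (u i) = 1 := by
    intro i
    simp only [u, map_sub, map_one, map_smul, AlgHom.commutes, smul_eq_mul]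
    rw [Algebra.algebraMap_self_apply, sub_self, mul_zero, sub_zero]
  have hU1 : ∀ j, chi D j (∏ i, u i) = 0 := by
    intro j
    rw [map_prod]
    exact Finset.prod_eq_zero (Finset.mem_univ j) (hu1 j)
  have hU2 : χ (∏ i, u i) = 1 := by
    rw [map_prod]
    exact Finset.prod_eq_one fun i _ => hu2 i
  obtain ⟨n, hn⟩ := isNilpotent_of_π D (π_eq_zero_iff_central D
    (z := ((∏ i, u i : Subalgebra.center k (MonoidAlgebra k G)) : MonoidAlgebra k G))
    (fun x => (Subalgebra.mem_center_iff.1 (∏ i, u i).2 x).symm) hU1)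
  have h3 : (∏ i, u i) ^ n = 0 := by
    apply Subtype.ext
    rw [Subalgebra.coe_pow, hn]; rfl
  have h4 := congrArg χ h3
  rw [map_pow, hU2, one_pow, map_zero] at h4
  exact one_ne_zero h4

/-- every solution of the functional equation comes from a simple module -/
theorem exists_Phi {φ : G → k} (h0 : φ ≠ 0)
    (h : ∀ a b, ∑ g, φ (a * g * b * g⁻¹) = φ a * φ b) : ∃ i, φ = Phi D i := by
  obtain ⟨a0, ha0⟩ := Function.ne_iff.1 h0
  set x0 : MonoidAlgebra k G := single a0 1 with hx0
  have hne : ext φ x0 ≠ 0 := by rw [hx0, ext_single, one_mul]; exact ha0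
  have hmul : ∀ z : MonoidAlgebra k G, (∀ x, z * x = x * z) → ∀ x,
      ext φ (z * x) = ext φ (z * x0) / ext φ x0 * ext φ x := by
    intro z hz x
    have h1 : ext φ (z * x) * ext φ x0 = ext φ x * ext φ (z * x0) := by
      rw [← ext_mul_Tr h, ← ext_mul_Tr h, Tr_mul_central hz, hz x, mul_assoc]
    field_simp
    rw [h1]; ring
  let χ : Subalgebra.center k (MonoidAlgebra k G) →ₐ[k] k :=
    AlgHom.ofLinearMap
      { toFun := fun z => ext φ ((z : MonoidAlgebra k G) * x0) / ext φ x0
        map_add' := fun a b => by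
          rw [Subalgebra.coe_add, add_mul, map_add, add_div]
        map_smul' := fun c a => by
          rw [Subalgebra.coe_smul, smul_mul_assoc, map_smul, smul_eq_mul, mul_div_assoc]; rfl }
      (by
        change ext φ (((1 : Subalgebra.center k (MonoidAlgebra k G)) : MonoidAlgebra k G) * x0) /
          ext φ x0 = 1
        rw [Subalgebra.coe_one, one_mul, div_self hne])
      (by
        intro a b
        change ext φ (((a * b : Subalgebra.center k (MonoidAlgebra k G)) : MonoidAlgebra k G) * x0) /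
          ext φ x0 = ext φ ((a : MonoidAlgebra k G) * x0) / ext φ x0 *
            (ext φ ((b : MonoidAlgebra k G) * x0) / ext φ x0)
        rw [Subalgebra.coe_mul, mul_assoc, hmul (a : MonoidAlgebra k G)
          (fun x => (Subalgebra.mem_center_iff.1 a.2 x).symm), mul_div_assoc])
  obtain ⟨i, hi⟩ := exists_chi D χ
  refine ⟨i, ?_⟩
  funext g
  let t : Subalgebra.center k (MonoidAlgebra k G) :=
    ⟨Tr (single g 1), Subalgebra.mem_center_iff.2 fun x => (Tr_central _ x).symm⟩
  have h1 : χ t = chi D i t := by rw [hi]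
  rw [chi_apply] at h1
  change ext φ (Tr (single g 1) * x0) / ext φ x0 = Phi D i g at h1
  rw [← h1, Tr_central, ext_mul_Tr h, mul_div_cancel_left₀ _ hne, ext_single, one_mul]

theorem one_sub_mem_iff {e : MonoidAlgebra k G} (he : ∀ x, e * x = x * e) (i : Fin D.n) :
    1 - e ∈ D.L i ↔ D.π e i 0 0 = 1 := by
  rw [SplitData.mem_L]
  constructor
  · intro h
    have := h 0
    rw [map_sub, map_one, Pi.sub_apply, Matrix.sub_apply, sub_eq_zero] at this
    rw [← this]; simp
  · intro h r
    rw [map_sub, map_one, Pi.sub_apply, central_scalar D he i, h, one_smul]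
    simp

theorem Phi_mem_Y_iff {e : MonoidAlgebra k G} (he : ∀ x, e * x = x * e) (i : Fin D.n) :
    Phi D i ∈ Y e ↔
      Module.Projective (MonoidAlgebra k G) (MonoidAlgebra k G ⧸ D.L i) ∧ 1 - e ∈ D.L i := by
  rw [one_sub_mem_iff D he, ← Phi_ne_zero_iff]
  constructor
  · rintro ⟨h1, _, h3⟩
    refine ⟨h1, ?_⟩
    obtain ⟨a, ha⟩ := Function.ne_iff.1 h1
    have h4 := h3 a
    rw [← ext_mul_single, ext_Phi_central_mul D i he, ext_single, one_mul] at h4
    exact mul_right_cancel₀ ha (h4.trans (one_mul _).symm)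
  · rintro ⟨h1, h2⟩
    refine ⟨h1, Phi_FE D i, fun a => ?_⟩
    rw [← ext_mul_single, ext_Phi_central_mul D i he, ext_single, h2, one_mul, one_mul]

end split

section final
variable {k G : Type} [Field k] [IsAlgClosed k] [Group G] [Fintype G]

/-- **leaf FE** -/
theorem f0_eq_card_Y {e : MonoidAlgebra k G} (he : CI e) : f0 e = Nat.card (Y e) := by
  obtain ⟨D⟩ := exists_splitData k (MonoidAlgebra k G)
  have hinv : ∀ m m' : Submodule (MonoidAlgebra k G) (MonoidAlgebra k G),
      Nonempty ((MonoidAlgebra k G ⧸ m) ≃ₗ[MonoidAlgebra k G] (MonoidAlgebra k G ⧸ m')) →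
      (Module.Projective (MonoidAlgebra k G) (MonoidAlgebra k G ⧸ m) ∧ 1 - e ∈ m) →
      (Module.Projective (MonoidAlgebra k G) (MonoidAlgebra k G ⧸ m') ∧ 1 - e ∈ m') := by
    rintro m m' ⟨f⟩ ⟨h1, h2⟩
    refine ⟨Module.Projective.of_equiv f, ?_⟩
    have h3 : ∀ s : MonoidAlgebra k G ⧸ m, (1 - e) • s = 0 := by
      intro s
      obtain ⟨a, rfl⟩ := Submodule.Quotient.mk_surjective _ s
      rw [← Submodule.Quotient.mk_smul, Submodule.Quotient.mk_eq_zero, smul_eq_mul]
      have h4 : (1 - e) * a = a * (1 - e) := by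
        rw [sub_mul, mul_sub, one_mul, mul_one, he.1]
      rw [h4]
      exact m.smul_mem a h2
    have h5 : (1 - e) • (Submodule.Quotient.mk 1 : MonoidAlgebra k G ⧸ m') = 0 := by
      apply f.symm.injective
      rw [map_smul, h3, map_zero]
    rw [← Submodule.Quotient.mk_smul, Submodule.Quotient.mk_eq_zero, smul_eq_mul, mul_one] at h5
    exact h5
  unfold f0
  rw [D.simpleClassCount_eq _ hinv]
  refine Nat.card_congr (Equiv.ofBijective
    (fun i => (⟨Phi D i.1, (Phi_mem_Y_iff D he.1 i.1).2 i.2⟩ : Y e)) ⟨?_, ?_⟩)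
  · intro i j h
    have h1 : Phi D i.1 = Phi D j.1 := congrArg Subtype.val h
    exact Subtype.ext (Phi_injective D ((Phi_ne_zero_iff D i.1).2 i.2.1) h1)
  · rintro ⟨φ, hφ⟩
    obtain ⟨i, rfl⟩ := exists_Phi D hφ.1 hφ.2.1
    exact ⟨⟨i, (Phi_mem_Y_iff D he.1 i).1 hφ⟩, rfl⟩

end final

end Crest.Agent.R170.FE
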