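import Crest.Agent.R170.DefW_995

/-!
Leaf LIT of chain A (row 170): the literal weight count of the frozen statement in terms of
simple projective modules on which the local image of the block idempotent acts as the identity.
-/

set_option autoImplicit false

namespace Crest.Agent.R170.LIT290

open Crest.AlgebraR.Weights Crest.AlgebraR.Blocks MonoidAlgebra

/-! ### Fitting idempotents in a commutative artinian ring -/

section Fitting

variable {Z : Type*} [CommRing Z]

theorem pow_add_mul_pow {x y : Z} {N : ℕ} (h : x ^ (N + 1) * y = x ^ N) (j : ℕ) :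
    x ^ (N + j) * y ^ j = x ^ N := by
  induction j with
  | zero => simp
  | succ j ih =>
    calc x ^ (N + (j + 1)) * y ^ (j + 1) = (x ^ (N + 1) * y) * (x ^ j * y ^ j) := by ring
      _ = x ^ (N + j) * y ^ j := by rw [h]; ring
      _ = x ^ N := ih

theorem exists_fitting [IsArtinianRing Z] (x : Z) :
    ∃ (N : ℕ) (y : Z), 0 < N ∧ (x ^ N * y ^ N) * (x ^ N * y ^ N) = x ^ N * y ^ N ∧
      (x ^ N * y ^ N) * x ^ N = x ^ N := by
  obtain ⟨n, y, hy⟩ := IsArtinian.exists_pow_succ_smul_dvd x (1 : Z)
  simp only [smul_eq_mul, mul_one] at hy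
  have h1 : x ^ (n + 1 + 1) * y = x ^ (n + 1) := by
    calc x ^ (n + 1 + 1) * y = x * (x ^ n.succ * y) := by
          rw [Nat.succ_eq_add_one]; ring
      _ = x * x ^ n := by rw [hy]
      _ = x ^ (n + 1) := by ring
  have h2 := pow_add_mul_pow h1 (n + 1)
  refine ⟨n + 1, y, Nat.succ_pos n, ?_, ?_⟩
  · calc x ^ (n + 1) * y ^ (n + 1) * (x ^ (n + 1) * y ^ (n + 1))
        = (x ^ (n + 1 + (n + 1)) * y ^ (n + 1)) * y ^ (n + 1) := by ring
      _ = x ^ (n + 1) * y ^ (n + 1) := by rw [h2]
  · calc x ^ (n + 1) * y ^ (n + 1) * x ^ (n + 1) = x ^ (n + 1 + (n + 1)) * y ^ (n + 1) := by ring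
      _ = x ^ (n + 1) := h2

/-- If `e` is a primitive idempotent of an artinian commutative ring and `chi e = 1`, then for any
`w` with `chi w ≠ 0` the idempotent `e` is a multiple of `w`. -/
theorem dvd_of_char_ne_zero [IsArtinianRing Z] {K : Type*} [Field K] (chi : Z →+* K) {e : Z}
    (hprim : ∀ f : Z, f * f = f → f * e = f → f = 0 ∨ f = e) (he : e * e = e)
    (hchi : chi e = 1) {w : Z} (hw : chi w ≠ 0) : ∃ v : Z, w * v = e := by
  obtain ⟨N, y, hN, hid, hx⟩ := exists_fitting w
  have hf : chi (w ^ N * y ^ N) = 1 := by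
    have h := congrArg chi hx
    rw [map_mul, map_pow] at h
    have hne : chi w ^ N ≠ 0 := pow_ne_zero _ hw
    exact mul_right_cancel₀ hne (by rw [h, one_mul])
  have h1 : (w ^ N * y ^ N) * e * ((w ^ N * y ^ N) * e) = (w ^ N * y ^ N) * e := by
    calc (w ^ N * y ^ N) * e * ((w ^ N * y ^ N) * e)
        = ((w ^ N * y ^ N) * (w ^ N * y ^ N)) * (e * e) := by ring
      _ = (w ^ N * y ^ N) * e := by rw [hid, he]
  have h2 : (w ^ N * y ^ N) * e * e = (w ^ N * y ^ N) * e := by rw [mul_assoc, he]
  rcases hprim _ h1 h2 with h | h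
  · exfalso
    have := congrArg chi h
    rw [map_mul, hf, hchi, map_zero] at this
    simp at this
  · obtain ⟨M, rfl⟩ : ∃ M, N = M + 1 := ⟨N - 1, by omega⟩
    refine ⟨w ^ M * y ^ (M + 1) * e, ?_⟩
    calc w * (w ^ M * y ^ (M + 1) * e) = w ^ (M + 1) * y ^ (M + 1) * e := by ring
      _ = e := h

/-- Existence of a character not killing a nonzero idempotent. -/
theorem exists_char {k : Type*} [Field k] [IsAlgClosed k] [Algebra k Z] [Module.Finite k Z]
    {e : Z} (he : e * e = e) (hne : e ≠ 0) : ∃ chi : Z →ₐ[k] k, chi e = 1 := by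
  have hnn : ¬ IsNilpotent e := by
    rintro ⟨n, hn⟩
    apply hne
    have : ∀ m : ℕ, e ^ (m + 1) = e := by
      intro m
      induction m with
      | zero => simp
      | succ m ih => rw [pow_succ, ih, he]
    have h2 := this n
    rw [pow_succ, hn, zero_mul] at h2
    exact h2.symm
  have h1 : e ∉ nilradical Z := by rwa [mem_nilradical]
  rw [nilradical_eq_sInf, Submodule.mem_sInf] at h1
  push Not at h1
  obtain ⟨P, hP, heP⟩ := h1
  have hP' : Ideal.IsPrime P := hP
  have _i1 := hP'
  have _i2 : IsDomain (Z ⧸ P) := Ideal.Quotient.isDomain P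
  have _i3 : Module.Finite k (Z ⧸ P) :=
    Module.Finite.of_surjective (Ideal.Quotient.mkₐ k P).toLinearMap
      (Ideal.Quotient.mkₐ_surjective k P)
  have hb : Function.Bijective (algebraMap k (Z ⧸ P)) :=
    IsAlgClosed.algebraMap_bijective_of_isIntegral
  let eqv : k ≃ₐ[k] (Z ⧸ P) := AlgEquiv.ofBijective (Algebra.ofId k (Z ⧸ P)) hb
  refine ⟨(eqv.symm : (Z ⧸ P) →ₐ[k] k).comp (Ideal.Quotient.mkₐ k P), ?_⟩
  have h3 : Ideal.Quotient.mk P e ≠ 0 := by
    rwa [Ne, Ideal.Quotient.eq_zero_iff_mem]
  have h4 : eqv.symm (Ideal.Quotient.mk P e) ≠ 0 := by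
    rwa [Ne, EmbeddingLike.map_eq_zero_iff]
  have h5 : eqv.symm (Ideal.Quotient.mk P e) * eqv.symm (Ideal.Quotient.mk P e) =
      eqv.symm (Ideal.Quotient.mk P e) := by
    rw [← map_mul, ← map_mul, he]
  have h6 : eqv.symm (Ideal.Quotient.mk P e) = 1 :=
    mul_left_cancel₀ h4 (by rw [h5, mul_one])
  exact h6

end Fitting

/-! ### Sums invariant under a `p`-group without fixed points -/

section FixedPoints

theorem sum_eq_zero_of_no_fixed {p : ℕ} {Q α M : Type*} [Group Q] [MulAction Q α]
    [Fintype α] [AddCommGroup M] [Fact p.Prime] (hQ : IsPGroup p Q) (hM : ∀ m : M, p • m = 0) (F : α → M)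
    (hF : ∀ (q : Q) (a : α), F (q • a) = F a) (hfix : ∀ a : α, ∃ q : Q, q • a ≠ a) :
    ∑ a, F a = 0 := by
  classical
  have _i : Fintype (Quotient (MulAction.orbitRel Q α)) := Quotient.fintype _
  rw [← Finset.sum_fiberwise (s := Finset.univ)
    (g := fun a : α => (Quotient.mk (MulAction.orbitRel Q α) a)) (f := F)]
  refine Finset.sum_eq_zero fun w _ => ?_
  induction w using Quotient.inductionOn with
  | _ b =>
    have h1 : ∀ a ∈ Finset.univ.filter
        (fun a : α => Quotient.mk (MulAction.orbitRel Q α) a =
          Quotient.mk (MulAction.orbitRel Q α) b), F a = F b := by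
      intro a ha
      rw [Finset.mem_filter] at ha
      have h2 := Quotient.exact ha.2
      obtain ⟨q, hq⟩ := (MulAction.orbitRel_apply.1 h2 : a ∈ MulAction.orbit Q b)
      have hq' : q • b = a := hq
      rw [← hq', hF]
    rw [Finset.sum_congr rfl h1, Finset.sum_const]
    have hcard : (Finset.univ.filter
        (fun a : α => Quotient.mk (MulAction.orbitRel Q α) a =
          Quotient.mk (MulAction.orbitRel Q α) b)).card = Nat.card (MulAction.orbit Q b) := by
      rw [Nat.card_eq_fintype_card, Fintype.card_subtype]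
      congr 1
      ext a
      simp only [Finset.mem_filter, Finset.mem_univ, true_and]
      rw [← MulAction.orbitRel_apply]
      exact ⟨fun h => Quotient.exact h, fun h => Quotient.sound h⟩
    obtain ⟨n, hn⟩ := hQ.card_orbit b
    have hn0 : n ≠ 0 := by
      rintro rfl
      rw [pow_zero, Nat.card_eq_fintype_card] at hn
      have h3 : b ∈ MulAction.fixedPoints Q α :=
        MulAction.mem_fixedPoints_iff_card_orbit_eq_one.2 hn
      obtain ⟨q, hq⟩ := hfix b
      exact hq (h3 q)
    rw [hcard, hn]
    obtain ⟨m, rfl⟩ := Nat.exists_eq_succ_of_ne_zero hn0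
    rw [pow_succ, mul_smul, hM, smul_zero]

end FixedPoints

/-! ### The local image map -/

section LocalImage

variable {k G : Type*} [Field k] [Group G] [Finite G]

theorem restrictCoeff_add (H : Subgroup G) (z w : MonoidAlgebra k G) :
    restrictCoeff H (z + w) = restrictCoeff H z + restrictCoeff H w := by
  ext h
  simp [restrictCoeff]

theorem localImage_add (Q : Subgroup G) (z w : MonoidAlgebra k G) :
    localImage Q (z + w) = localImage Q z + localImage Q w := by
  rw [localImage, localImage, localImage, restrictCoeff_add, MonoidAlgebra.mapDomain_add]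

theorem restrictCoeff_single (H : Subgroup G) (g : G) (hg : g ∈ H) (r : k) :
    restrictCoeff H (single g r) = single (⟨g, hg⟩ : H) r := by
  classical
  ext h
  simp only [restrictCoeff, coeff_ofCoeff, Finsupp.equivFunOnFinite_symm_apply_apply, coeff_single,
    Finsupp.single_apply]
  by_cases h1 : g = h
  · rw [if_pos h1, if_pos (Subtype.ext h1)]
  · rw [if_neg h1, if_neg (fun h2 => h1 (congrArg Subtype.val h2))]

theorem restrictCoeff_single_of_notMem (H : Subgroup G) (g : G) (hg : g ∉ H) (r : k) :
    restrictCoeff H (single g r) = 0 := by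
  classical
  ext h
  simp only [restrictCoeff, coeff_ofCoeff, Finsupp.equivFunOnFinite_symm_apply_apply, coeff_single,
    Finsupp.single_apply, coeff_zero, Finsupp.coe_zero, Pi.zero_apply]
  rw [if_neg]
  rintro rfl
  exact hg h.2

theorem localImage_single (Q : Subgroup G) (g : G)
    (hg : g ∈ Subgroup.normalizer (Q : Set G)) (r : k) :
    localImage Q (single g r) =
      single (QuotientGroup.mk (⟨g, hg⟩ : Subgroup.normalizer (Q : Set G)) : NormQuot Q) r := by
  rw [localImage, restrictCoeff_single _ g hg, MonoidAlgebra.mapDomain_single]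

theorem localImage_single_of_notMem (Q : Subgroup G) (g : G)
    (hg : g ∉ Subgroup.normalizer (Q : Set G)) (r : k) :
    localImage Q (single g r) = 0 := by
  rw [localImage, restrictCoeff_single_of_notMem _ g hg, MonoidAlgebra.mapDomain_zero]

theorem localImage_zero (Q : Subgroup G) : localImage Q (0 : MonoidAlgebra k G) = 0 := by
  have h := localImage_add Q (0 : MonoidAlgebra k G) 0
  rw [add_zero] at h
  exact left_eq_add.1 h

/-- `localImage` as an additive map. -/
noncomputable def liHom (Q : Subgroup G) : MonoidAlgebra k G →+ WeightAlgebra k Q where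
  toFun := localImage Q
  map_zero' := localImage_zero Q
  map_add' := localImage_add Q

theorem localImage_one (Q : Subgroup G) : localImage Q (1 : MonoidAlgebra k G) = 1 := by
  rw [MonoidAlgebra.one_def, localImage_single Q 1 (Subgroup.one_mem _)]
  rfl

theorem localImage_smul (Q : Subgroup G) (c : k) (z : MonoidAlgebra k G) :
    localImage Q (c • z) = c • localImage Q z := by
  induction z using MonoidAlgebra.induction_linear with
  | zero => rw [smul_zero, localImage_zero, smul_zero]
  | add x y hx hy => rw [smul_add, localImage_add, localImage_add, smul_add, hx, hy]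
  | single g r =>
    rw [MonoidAlgebra.smul_single]
    by_cases hg : g ∈ Subgroup.normalizer (Q : Set G)
    · rw [localImage_single Q g hg, localImage_single Q g hg, MonoidAlgebra.smul_single]
    · rw [localImage_single_of_notMem Q g hg, localImage_single_of_notMem Q g hg, smul_zero]

omit [Finite G] in
/-- class function property of the coefficients of a central element -/
theorem coeff_conj {z : MonoidAlgebra k G} (hz : ∀ x : MonoidAlgebra k G, z * x = x * z)
    (q g : G) : z.coeff (q * g * q⁻¹) = z.coeff g := by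
  have h := hz (single q 1)
  have h1 : (z * single q (1 : k)).coeff (q * g) = z.coeff (q * g * q⁻¹) * 1 :=
    MonoidAlgebra.coeff_mul_single_eq_coeff_mul _ (fun m' _ => by
      constructor
      · intro h2; rw [← h2]; group
      · intro h2; rw [h2]; group)
  have h2 : (single q (1 : k) * z).coeff (q * g) = 1 * z.coeff g :=
    MonoidAlgebra.coeff_single_mul_eq_mul_coeff _ (fun m' _ => by
      constructor
      · intro h2; exact mul_left_cancel h2
      · intro h2; rw [h2])
  rw [h, h2, one_mul, mul_one] at h1
  exact h1.symm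

/-- the conjugation action of `Q` on the pairs whose first entry is outside `N_G(Q)` -/
@[reducible] def conjAct (Q : Subgroup G) :
    MulAction Q {x : G × G // x.1 ∉ Subgroup.normalizer (Q : Set G)} where
  smul q x := ⟨((q : G) * x.1.1 * (q : G)⁻¹, (q : G) * x.1.2 * (q : G)⁻¹), fun h => x.2 (by
    have hq : (q : G) ∈ Subgroup.normalizer (Q : Set G) := Subgroup.le_normalizer q.2
    have h1 := Subgroup.mul_mem _ (Subgroup.mul_mem _ (Subgroup.inv_mem _ hq) h) hq
    have h2 : (q : G)⁻¹ * ((q : G) * x.1.1 * (q : G)⁻¹) * (q : G) = x.1.1 := by group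
    rwa [h2] at h1)⟩
  one_smul x := by
    apply Subtype.ext
    change ((1 : G) * x.1.1 * (1 : G)⁻¹, (1 : G) * x.1.2 * (1 : G)⁻¹) = x.1
    simp
  mul_smul q r x := by
    apply Subtype.ext
    change (((q : G) * (r : G)) * x.1.1 * ((q : G) * (r : G))⁻¹,
        ((q : G) * (r : G)) * x.1.2 * ((q : G) * (r : G))⁻¹) =
      ((q : G) * ((r : G) * x.1.1 * (r : G)⁻¹) * (q : G)⁻¹,
        (q : G) * ((r : G) * x.1.2 * (r : G)⁻¹) * (q : G)⁻¹)
    refine Prod.ext ?_ ?_
    · simp only; group
    · simp only; group

theorem localImage_single_conj (Q : Subgroup G) (q : Q) (g : G) (r : k) :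
    localImage Q (single ((q : G) * g * (q : G)⁻¹) r) = localImage Q (single g r) := by
  have hq : (q : G) ∈ Subgroup.normalizer (Q : Set G) := Subgroup.le_normalizer q.2
  by_cases hg : g ∈ Subgroup.normalizer (Q : Set G)
  · have h1 : (q : G) * g * (q : G)⁻¹ ∈ Subgroup.normalizer (Q : Set G) :=
      Subgroup.mul_mem _ (Subgroup.mul_mem _ hq hg) (Subgroup.inv_mem _ hq)
    rw [localImage_single Q _ h1, localImage_single Q g hg]
    congr 1
    have h2 : (QuotientGroup.mk (⟨(q : G), hq⟩ : Subgroup.normalizer (Q : Set G)) : NormQuot Q)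
        = 1 := by
      rw [QuotientGroup.eq_one_iff, Subgroup.mem_subgroupOf]
      exact q.2
    have h3 : (⟨(q : G) * g * (q : G)⁻¹, h1⟩ : Subgroup.normalizer (Q : Set G)) =
        ⟨(q : G), hq⟩ * ⟨g, hg⟩ * ⟨(q : G), hq⟩⁻¹ := rfl
    rw [h3, QuotientGroup.mk_mul, QuotientGroup.mk_mul, QuotientGroup.mk_inv, h2, one_mul,
      inv_one, mul_one]
  · have h1 : (q : G) * g * (q : G)⁻¹ ∉ Subgroup.normalizer (Q : Set G) := fun h => hg (by
      have h1 := Subgroup.mul_mem _ (Subgroup.mul_mem _ (Subgroup.inv_mem _ hq) h) hq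
      have h2 : (q : G)⁻¹ * ((q : G) * g * (q : G)⁻¹) * (q : G) = g := by group
      rwa [h2] at h1)
    rw [localImage_single_of_notMem Q _ h1, localImage_single_of_notMem Q g hg]

omit [Group G] [Finite G] in
theorem eq_sum_single [Fintype G] (z : MonoidAlgebra k G) : z = ∑ g : G, single g (z.coeff g) := by
  classical
  ext h
  simp

/-- **`localImage` is multiplicative on central elements.** -/
theorem localImage_mul {p : ℕ} [Fact p.Prime] [CharP k p] (Q : Subgroup G) (hQ : IsPGroup p Q)
    {z w : MonoidAlgebra k G} (hz : ∀ x : MonoidAlgebra k G, z * x = x * z)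
    (hw : ∀ x : MonoidAlgebra k G, w * x = x * w) :
    localImage Q (z * w) = localImage Q z * localImage Q w := by
  classical
  have _iF : Fintype G := Fintype.ofFinite G
  set N := Subgroup.normalizer (Q : Set G) with hN
  have e1 : localImage Q (z * w) =
      ∑ x : G × G, localImage Q (single (x.1 * x.2) (z.coeff x.1 * w.coeff x.2)) := by
    conv_lhs => rw [eq_sum_single z, eq_sum_single w, Finset.sum_mul_sum]
    rw [← Finset.sum_product', Finset.univ_product_univ]
    change liHom Q _ = _
    rw [map_sum]
    refine Finset.sum_congr rfl fun x _ => ?_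
    rw [MonoidAlgebra.single_mul_single]
    rfl
  have e2 : localImage Q z * localImage Q w =
      ∑ x : G × G, localImage Q (single x.1 (z.coeff x.1)) *
        localImage Q (single x.2 (w.coeff x.2)) := by
    have hz' : localImage Q z = ∑ g : G, localImage Q (single g (z.coeff g)) := by
      conv_lhs => rw [eq_sum_single z]
      exact map_sum (liHom Q) _ _
    have hw' : localImage Q w = ∑ g : G, localImage Q (single g (w.coeff g)) := by
      conv_lhs => rw [eq_sum_single w]
      exact map_sum (liHom Q) _ _
    rw [hz', hw', Finset.sum_mul_sum, ← Finset.sum_product', Finset.univ_product_univ]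
  have e3 : ∀ x : G × G, x.1 ∈ N →
      localImage Q (single (x.1 * x.2) (z.coeff x.1 * w.coeff x.2)) =
      localImage Q (single x.1 (z.coeff x.1)) * localImage Q (single x.2 (w.coeff x.2)) := by
    intro x hx
    by_cases hy : x.2 ∈ N
    · rw [localImage_single Q _ (Subgroup.mul_mem _ hx hy), localImage_single Q _ hx,
        localImage_single Q _ hy, MonoidAlgebra.single_mul_single]
      rfl
    · rw [localImage_single_of_notMem Q x.2 hy, mul_zero]
      exact localImage_single_of_notMem Q _ (fun h => hy ((Subgroup.mul_mem_cancel_left _ hx).1 h)) _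
  have e4 : ∀ x : G × G, x.1 ∉ N →
      localImage Q (single x.1 (z.coeff x.1)) * localImage Q (single x.2 (w.coeff x.2)) = 0 := by
    intro x hx
    rw [localImage_single_of_notMem Q x.1 hx, zero_mul]
  have e5 : ∑ x : {x : G × G // x.1 ∉ N},
      localImage Q (single (x.1.1 * x.1.2) (z.coeff x.1.1 * w.coeff x.1.2)) = 0 := by
    let _inst := conjAct Q
    refine sum_eq_zero_of_no_fixed hQ ?_ _ ?_ ?_
    · intro m
      have hp0 : ((p : ℕ) : k) = 0 := CharP.cast_eq_zero k p
      rw [← Nat.cast_smul_eq_nsmul k, hp0, zero_smul]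
    · intro q x
      change localImage Q (single (((q : G) * x.1.1 * (q : G)⁻¹) * ((q : G) * x.1.2 * (q : G)⁻¹))
        (z.coeff ((q : G) * x.1.1 * (q : G)⁻¹) * w.coeff ((q : G) * x.1.2 * (q : G)⁻¹))) = _
      rw [coeff_conj hz, coeff_conj hw]
      have h1 : ((q : G) * x.1.1 * (q : G)⁻¹) * ((q : G) * x.1.2 * (q : G)⁻¹) =
        (q : G) * (x.1.1 * x.1.2) * (q : G)⁻¹ := by group
      rw [h1, localImage_single_conj]
    · intro x
      by_contra hcon
      push Not at hcon
      apply x.2
      rw [Subgroup.mem_normalizer_iff]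
      have hc : ∀ q ∈ Q, q * x.1.1 * q⁻¹ = x.1.1 := by
        intro q hq
        exact congrArg (fun y : {x : G × G // x.1 ∉ N} => y.1.1) (hcon ⟨q, hq⟩)
      have hc2 : ∀ q ∈ Q, x.1.1 * q * x.1.1⁻¹ = q := by
        intro q hq
        have h1 := hc q hq
        have h2 : x.1.1 * q = q * x.1.1 := by
          conv_lhs => rw [← h1]
          group
        rw [h2]; group
      intro h
      constructor
      · intro hh
        have := hc2 h hh
        change x.1.1 * h * x.1.1⁻¹ ∈ Q
        rw [this]; exact hh
      · intro hh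
        have hh' : x.1.1 * h * x.1.1⁻¹ ∈ Q := hh
        have h1 := hc _ hh'
        have h2 : x.1.1 * h * x.1.1⁻¹ = h := by
          have h3 := hc2 _ hh'
          have h4 : x.1.1 * (x.1.1 * h * x.1.1⁻¹) * x.1.1⁻¹ = x.1.1 * h * x.1.1⁻¹ := h3
          have h5 : x.1.1 * h * x.1.1⁻¹ = h := by
            have h6 := mul_right_cancel h4
            exact mul_left_cancel h6
          exact h5
        rwa [h2] at hh'
  rw [e1, e2, ← Finset.sum_filter_add_sum_filter_not Finset.univ (fun x : G × G => x.1 ∈ N),
    ← Finset.sum_filter_add_sum_filter_not Finset.univ (fun x : G × G => x.1 ∈ N)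
      (f := fun x => localImage Q (single x.1 (z.coeff x.1)) *
        localImage Q (single x.2 (w.coeff x.2)))]
  congr 1
  · exact Finset.sum_congr rfl fun x hx => e3 x (Finset.mem_filter.1 hx).2
  · rw [Finset.sum_eq_zero (fun x hx => e4 x (Finset.mem_filter.1 hx).2)]
    rw [← e5]
    exact (Finset.sum_subtype _ (by simp) _)

end LocalImage

/-! ### Assignment of weight modules to a block -/

section Assigned

/-- `localImage` of a central element is central. -/
theorem localImage_central {k G : Type*} [Field k] [Group G] [Finite G] (Q : Subgroup G)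
    {z : MonoidAlgebra k G} (hz : ∀ x : MonoidAlgebra k G, z * x = x * z) (y : WeightAlgebra k Q) :
    localImage Q z * y = y * localImage Q z := by
  classical
  have _iF : Fintype G := Fintype.ofFinite G
  induction y using MonoidAlgebra.induction_linear with
  | zero => rw [mul_zero, zero_mul]
  | add a b ha hb => rw [mul_add, add_mul, ha, hb]
  | single nb r =>
    induction nb using QuotientGroup.induction_on with
    | _ n =>
    have hsum : localImage Q z = ∑ g : G, localImage Q (single g (z.coeff g)) := by
      conv_lhs => rw [eq_sum_single z]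
      exact map_sum (liHom Q) _ _
    rw [hsum, Finset.sum_mul, Finset.mul_sum]
    refine (Equiv.sum_comp (MulAut.conj (n : G)).toEquiv _).symm.trans ?_
    refine Finset.sum_congr rfl fun g _ => ?_
    change localImage Q (single ((n : G) * g * (n : G)⁻¹) (z.coeff ((n : G) * g * (n : G)⁻¹))) *
      single (QuotientGroup.mk n : NormQuot Q) r = _
    rw [coeff_conj hz]
    by_cases hg : g ∈ Subgroup.normalizer (Q : Set G)
    · have h1 : (n : G) * g * (n : G)⁻¹ ∈ Subgroup.normalizer (Q : Set G) :=
        Subgroup.mul_mem _ (Subgroup.mul_mem _ n.2 hg) (Subgroup.inv_mem _ n.2)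
      rw [localImage_single Q _ h1, localImage_single Q g hg, MonoidAlgebra.single_mul_single,
        MonoidAlgebra.single_mul_single, mul_comm r]
      congr 1
      rw [← QuotientGroup.mk_mul, ← QuotientGroup.mk_mul]
      congr 1
      apply Subtype.ext
      change (n : G) * g * (n : G)⁻¹ * (n : G) = (n : G) * g
      group
    · have h1 : (n : G) * g * (n : G)⁻¹ ∉ Subgroup.normalizer (Q : Set G) := fun h => hg (by
        have h1 := Subgroup.mul_mem _ (Subgroup.mul_mem _ (Subgroup.inv_mem _ n.2) h) n.2
        have h2 : (n : G)⁻¹ * ((n : G) * g * (n : G)⁻¹) * (n : G) = g := by group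
        rwa [h2] at h1)
      rw [localImage_single_of_notMem Q _ h1, localImage_single_of_notMem Q g hg, zero_mul,
        mul_zero]

variable {k G : Type} [Field k] [IsAlgClosed k] [Group G] [Finite G]

/-- the algebra map `Z(k[G]) → k[N_G(Q)/Q]` -/
noncomputable def liZ {p : ℕ} [Fact p.Prime] [CharP k p] (Q : Subgroup G) (hQ : IsPGroup p Q) :
    Subalgebra.center k (MonoidAlgebra k G) →+* WeightAlgebra k Q where
  toFun z := localImage Q (z : MonoidAlgebra k G)
  map_zero' := localImage_zero Q
  map_one' := localImage_one Q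
  map_add' _ _ := localImage_add Q _ _
  map_mul' z w := localImage_mul Q hQ
    (fun x => ((Subalgebra.mem_center_iff.1 z.2) x).symm)
    (fun x => ((Subalgebra.mem_center_iff.1 w.2) x).symm)

theorem assignedTo_iff {p : ℕ} [Fact p.Prime] [CharP k p] {e : MonoidAlgebra k G}
    (he : IsBlockIdempotent e) (Q : Subgroup G) (hQ : IsPGroup p Q)
    (m : Submodule (WeightAlgebra k Q) (WeightAlgebra k Q)) (hm : IsCoatom m) :
    AssignedTo e Q m ↔ 1 - localImage Q e ∈ m := by
  classical
  obtain ⟨hcen, hidem, hne, hprim⟩ := he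
  set Z := Subalgebra.center k (MonoidAlgebra k G) with hZ
  have _iF : Fintype G := Fintype.ofFinite G
  have _i0 : Module.Finite k (MonoidAlgebra k G) := inferInstance
  have _i1 : Module.Finite k Z := inferInstance
  have _i2 : IsArtinianRing Z := IsArtinianRing.of_finite k Z
  let eZ : Z := ⟨e, Subalgebra.mem_center_iff.2 fun x => (hcen x).symm⟩
  have heZ : eZ * eZ = eZ := Subtype.ext hidem
  have hne' : eZ ≠ 0 := fun h => hne (congrArg Subtype.val h)
  have hprim' : ∀ f : Z, f * f = f → f * eZ = f → f = 0 ∨ f = eZ := by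
    intro f h1 h2
    rcases hprim f.1 (fun x => ((Subalgebra.mem_center_iff.1 f.2) x).symm)
      (congrArg Subtype.val h1) (congrArg Subtype.val h2) with h | h
    · exact Or.inl (Subtype.ext h)
    · exact Or.inr (Subtype.ext h)
  constructor
  · intro h
    obtain ⟨chi, hchi⟩ := exists_char (k := k) heZ hne'
    have h1 := h chi (fun z hz => by
      have : z = eZ := Subtype.ext hz
      rw [this, hchi]) eZ (Submodule.Quotient.mk 1)
    rw [hchi, map_one, one_smul, ← Submodule.Quotient.mk_smul, Submodule.Quotient.eq] at h1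
    have h2 : localImage Q e • (1 : WeightAlgebra k Q) - 1 ∈ m := h1
    rw [smul_eq_mul, mul_one] at h2
    have h3 := m.neg_mem h2
    rwa [neg_sub] at h3
  · intro h chi hchi z s
    have hchi' : chi eZ = 1 := hchi eZ rfl
    -- the module is simple
    have hsimple : IsSimpleModule (WeightAlgebra k Q) (WeightAlgebra k Q ⧸ m) :=
      isSimpleModule_iff_isCoatom.2 hm
    have _i3 : Module.Finite k (WeightAlgebra k Q ⧸ m) :=
      Module.Finite.of_surjective ((m.mkQ).restrictScalars k) (Submodule.mkQ_surjective m)
    have hcz : ∀ y : WeightAlgebra k Q, localImage Q (z : MonoidAlgebra k G) * y =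
        y * localImage Q (z : MonoidAlgebra k G) :=
      localImage_central Q (fun x => ((Subalgebra.mem_center_iff.1 z.2) x).symm)
    let f : Module.End (WeightAlgebra k Q) (WeightAlgebra k Q ⧸ m) :=
      { toFun := fun t => localImage Q (z : MonoidAlgebra k G) • t
        map_add' := fun a b => smul_add _ _ _
        map_smul' := fun y t => by
          simp only [RingHom.id_apply]
          rw [← mul_smul, ← mul_smul, hcz] }
    obtain ⟨c, hc⟩ :=
      (IsSimpleModule.algebraMap_end_bijective_of_isAlgClosed (A := WeightAlgebra k Q)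
        (V := WeightAlgebra k Q ⧸ m) k).2 f
    have hc' : ∀ t : WeightAlgebra k Q ⧸ m,
        localImage Q (z : MonoidAlgebra k G) • t = algebraMap k (WeightAlgebra k Q) c • t := by
      intro t
      have h1 : f t = (algebraMap k (Module.End (WeightAlgebra k Q) (WeightAlgebra k Q ⧸ m)) c) t :=
        by rw [hc]
      have h2 : f t = localImage Q (z : MonoidAlgebra k G) • t := rfl
      rw [← h2, h1, Module.algebraMap_end_apply, algebraMap_smul]
    rw [hc' s]
    suffices hcc : chi z = c by rw [hcc]
    by_contra hcon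
    have hw : chi (z - algebraMap k Z c) ≠ 0 := by
      rw [map_sub, AlgHom.commutes]
      exact sub_ne_zero.2 hcon
    obtain ⟨v, hv⟩ := dvd_of_char_ne_zero (K := k) (chi : Z →+* k) hprim' heZ hchi' hw
    -- `e` acts both as `1` and as `0`
    have hact0 : ∀ t : WeightAlgebra k Q ⧸ m, localImage Q e • t = 0 := by
      intro t
      have h1 : localImage Q e = liZ Q hQ v * liZ Q hQ (z - algebraMap k Z c) := by
        rw [← map_mul, mul_comm v, hv]
        rfl
      have h2 : liZ Q hQ (z - algebraMap k Z c) =
          localImage Q (z : MonoidAlgebra k G) - algebraMap k (WeightAlgebra k Q) c := by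
        rw [map_sub]
        congr 1
        change localImage Q (algebraMap k (MonoidAlgebra k G) c) = _
        rw [Algebra.algebraMap_eq_smul_one, Algebra.algebraMap_eq_smul_one, localImage_smul,
          localImage_one]
      rw [h1, mul_smul, h2, sub_smul, hc' t, sub_self, smul_zero]
    have h1 : localImage Q e • (Submodule.Quotient.mk 1 : WeightAlgebra k Q ⧸ m) =
        Submodule.Quotient.mk 1 := by
      rw [← Submodule.Quotient.mk_smul, smul_eq_mul, mul_one, Submodule.Quotient.eq]
      have h3 := m.neg_mem h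
      rwa [neg_sub] at h3
    rw [hact0] at h1
    have h2 : (1 : WeightAlgebra k Q) ∈ m := (Submodule.Quotient.mk_eq_zero m).1 h1.symm
    apply hm.1
    rw [Submodule.eq_top_iff']
    intro y
    have := m.smul_mem y h2
    rwa [smul_eq_mul, mul_one] at this

end Assigned

/-! ### The counts -/

section Count

theorem simpleClassCount_congr {A : Type*} [Ring A] {P P' : Submodule A A → Prop}
    (h : ∀ m : Submodule A A, IsCoatom m → (P m ↔ P' m)) :
    simpleClassCount A P = simpleClassCount A P' := by
  unfold simpleClassCount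
  have h1 : ∀ m : Submodule A A, (IsCoatom m ∧ P m) ↔ (IsCoatom m ∧ P' m) := fun m =>
    ⟨fun ⟨a, b⟩ => ⟨a, (h m a).1 b⟩, fun ⟨a, b⟩ => ⟨a, (h m a).2 b⟩⟩
  refine Nat.card_congr (Quotient.congr (Equiv.subtypeEquivRight h1) ?_)
  intro a b
  exact Iff.rfl

variable {k G : Type} [Field k] [IsAlgClosed k] [Group G] [Finite G]

/-- **LIT (1)**: the number of weight modules at `Q` assigned to the block of `e`. -/
theorem weightCountAt_eq {p : ℕ} [Fact p.Prime] [CharP k p] {e : MonoidAlgebra k G}
    (he : IsBlockIdempotent e) (Q : Subgroup G) (hQ : IsPGroup p Q) :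
    weightCountAt e Q = f0 (localImage Q e) := by
  unfold weightCountAt f0
  exact simpleClassCount_congr fun m hm => by rw [assignedTo_iff he Q hQ m hm]

/-- **LIT (2)**: the literal weighted count is `Wt`. -/
theorem weightedWeightCount_eq {p : ℕ} (hp : p.Prime) [CharP k p] {e : MonoidAlgebra k G}
    (he : IsBlockIdempotent e) : weightedWeightCount p e = Wt p e := by
  have _i : Fact p.Prime := ⟨hp⟩
  have _iF : Fintype {Q : Subgroup G // IsPGroup p Q} := Fintype.ofFinite _
  unfold weightedWeightCount Wt
  rw [Nat.card_sigma, finsum_eq_sum_of_fintype]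
  refine Finset.sum_congr rfl fun Q _ => ?_
  rw [Nat.card_prod, Nat.card_fin, weightCountAt_eq he Q.1 Q.2]

/-- The frozen statement from `|G| lc = Wt`. -/
theorem result_of {p : ℕ} (hp : p.Prime) [CharP k p] {e : MonoidAlgebra k G}
    (he : IsBlockIdempotent e) (h : Nat.card G * lc e = Wt p e) :
    Nat.card G * blockSimpleCount e = weightedWeightCount p e := by
  rw [weightedWeightCount_eq hp he, ← h]
  rfl

omit [IsAlgClosed k] [Finite G] in
theorem CI_of_block {e : MonoidAlgebra k G} (he : IsBlockIdempotent e) : CI e := ⟨he.1, he.2.1⟩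

end Count

end Crest.Agent.R170.LIT290
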