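import Crest.Agent.R170.HD_534
import Crest.Agent.R170.LIT_290
import Crest.Agent.R170.Stm_995

/-!
# Row 170, FIN part 3 (helper534): S0258 from `SP` and `SWR` of `Stm_995`

`HLit` is LIT_290, `HDvd` is HD_534. What is left: `SP p k` together with `WCc p`, and `SWR p k`.
-/

set_option autoImplicit false

namespace Crest.Agent.R170

open MonoidAlgebra Crest.AlgebraR.Weights Crest.AlgebraR.Blocks

namespace FIN534

/-- (LIT) -/
theorem hLit {p : ℕ} (hp : p.Prime) (k : Type) [Field k] [IsAlgClosed k] [CharP k p] :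
    HLit p k := by
  intro G _ _ e he
  exact LIT290.weightedWeightCount_eq hp he

/-- (P) in the form of `Stm_995` gives the form used in FIN -/
theorem hP_of_SP {p : ℕ} [Fact p.Prime] {k : Type} [Field k] [IsAlgClosed k] [CharP k p]
    (h : SP p k) (hW : WCc p) : HP p k := by
  refine HP_of_HP' (HD534.hDvd p k) ?_
  intro G _ _ e he
  obtain ⟨m, hm⟩ := h hW G e he
  exact ⟨m, by rw [hm]; ring⟩

/-- (WL) + (WW) in ℕ, with `W` as a witness -/
def HAmpW (p : ℕ) (k : Type) [Field k] : Prop :=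
  ∀ (G : Type) [Group G] [Finite G] (e : MonoidAlgebra k G) (W : ℕ), CI e →
    Wt p e = Nat.card G * W →
    ∃ (Γ : Type) (_ : Group Γ) (_ : Finite Γ) (E : MonoidAlgebra k Γ), CI E ∧
      lc E = (lc e ^ p - lc e) / p + lc e ∧ Wt p E = Nat.card Γ * ((W ^ p - W) / p + W)

theorem hAmp_of_W {p : ℕ} {k : Type} [Field k] (h : HAmpW p k) : HAmp p k := by
  intro G _ _ e he
  obtain ⟨Γ, gΓ, fΓ, E, hE, h1, h2⟩ := h G e (Wn p e) he
    (card_mul_Wn (HD534.hDvd p k) he).symm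
  refine ⟨Γ, gΓ, fΓ, E, hE, h1, ?_⟩
  unfold Wn at h2 ⊢
  rw [h2, Nat.mul_div_cancel_left _ Nat.card_pos]

theorem sWR_of_W {p : ℕ} [Fact p.Prime] {k : Type} [Field k] [IsAlgClosed k] [CharP k p]
    (h : HAmpW p k) : SWR p k := by
  intro G _ _ e W he hW
  obtain ⟨Γ, gΓ, fΓ, E, hE, h1, h2⟩ := h G e W he hW
  exact ⟨Γ, gΓ, fΓ, E, amp p W, hE, h2, by
    have := amp_mul (p := p) Fact.out (lc e)
    rw [h1]
    exact this, amp_mul (p := p) Fact.out W⟩

theorem hAmp_of_SWR {p : ℕ} [Fact p.Prime] {k : Type} [Field k] [IsAlgClosed k] [CharP k p]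
    (h : SWR p k) : HAmp p k := by
  intro G _ _ e he
  obtain ⟨Γ, gΓ, fΓ, E, W', hE, h0, h1, h2⟩ := h G e (Wn p e) he
    (card_mul_Wn (HD534.hDvd p k) he).symm
  have hp : (p : ℤ) ≠ 0 := by exact_mod_cast (Fact.out : p.Prime).ne_zero
  refine ⟨Γ, gΓ, fΓ, E, hE, ?_, ?_⟩
  · have h3 := amp_mul (p := p) Fact.out (lc e)
    have h4 : (p : ℤ) * (lc E : ℤ) = p * (amp p (lc e) : ℤ) := by rw [h1, h3]
    exact_mod_cast mul_left_cancel₀ hp h4
  · have h3 := amp_mul (p := p) Fact.out (Wn p e)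
    have h4 : (p : ℤ) * (W' : ℤ) = p * (amp p (Wn p e) : ℤ) := by rw [h2, h3]
    have h5 : W' = amp p (Wn p e) := by exact_mod_cast mul_left_cancel₀ hp h4
    have h6 : Wn p E = W' := by
      unfold Wn
      rw [h0, Nat.mul_div_cancel_left _ Nat.card_pos]
    rw [h6, h5]
    rfl

/-- **S0258 from `SP`, `SWR` and `WCc`** -/
theorem s0258 {p : ℕ} (hp : p.Prime) {k : Type} [Field k] [IsAlgClosed k] [CharP k p]
    (hSP : haveI : Fact p.Prime := ⟨hp⟩; SP p k) (hSWR : haveI : Fact p.Prime := ⟨hp⟩; SWR p k)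
    (hW : WCc p) (G : Type) [Group G] [Finite G] (e : MonoidAlgebra k G)
    (he : IsBlockIdempotent e) : Nat.card G * blockSimpleCount e = weightedWeightCount p e := by
  haveI : Fact p.Prime := ⟨hp⟩
  exact s0258_of hp (hP_of_SP hSP hW) (HD534.hDvd p k) (hAmp_of_SWR hSWR) (hLit hp k) G e he

end FIN534

end Crest.Agent.R170
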