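import Crest.Agent.R170.DefW_995
import Crest.Agent.R170.FIN0_534

/-!
# Row 170, leaf FIN: assembly (helper534)

`Wn p e = Wt p e / |G|` : the number of classes of weights of `e`.
`lc_eq_Wn` : `lc e = Wn p e` for all central idempotents, from (P) `p ∣ lc e - Wn p e` and the
amplification (WL) + (WW).
`s0258_of` : the statement S0258 from (P), (WL) + (WW), (LIT) and `|G| ∣ Wt p e`.
-/

set_option autoImplicit false

namespace Crest.Agent.R170

open MonoidAlgebra Crest.AlgebraR.Weights Crest.AlgebraR.Blocks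

/-- number of conjugacy classes of weights of `e` -/
noncomputable def Wn {k G : Type} [Field k] [Group G] [Finite G] (p : ℕ) (e : MonoidAlgebra k G) :
    ℕ := Wt p e / Nat.card G

namespace FIN534

/-- (P): `d(G, e) = 0` mod `p` for all `(G, e)` -/
def HP (p : ℕ) (k : Type) [Field k] : Prop :=
  ∀ (G : Type) [Group G] [Finite G] (e : MonoidAlgebra k G), CI e →
    (p : ℤ) ∣ (lc e : ℤ) - (Wn p e : ℤ)

/-- (P) in the form without quotients -/
def HP' (p : ℕ) (k : Type) [Field k] : Prop :=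
  ∀ (G : Type) [Group G] [Finite G] (e : MonoidAlgebra k G), CI e →
    (p : ℤ) * (Nat.card G : ℤ) ∣ dG p e

/-- the order of `G` divides the weighted count -/
def HDvd (p : ℕ) (k : Type) [Field k] : Prop :=
  ∀ (G : Type) [Group G] [Finite G] (e : MonoidAlgebra k G), CI e → Nat.card G ∣ Wt p e

/-- (WL) + (WW): amplification -/
def HAmp (p : ℕ) (k : Type) [Field k] : Prop :=
  ∀ (G : Type) [Group G] [Finite G] (e : MonoidAlgebra k G), CI e →
    ∃ (Γ : Type) (_ : Group Γ) (_ : Finite Γ) (E : MonoidAlgebra k Γ), CI E ∧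
      lc E = (lc e ^ p - lc e) / p + lc e ∧ Wn p E = (Wn p e ^ p - Wn p e) / p + Wn p e

/-- (LIT): the literal weighted count of a block -/
def HLit (p : ℕ) (k : Type) [Field k] : Prop :=
  ∀ (G : Type) [Group G] [Finite G] (e : MonoidAlgebra k G), IsBlockIdempotent e →
    weightedWeightCount p e = Wt p e

theorem CI_of_block {k G : Type} [Field k] [Group G] {e : MonoidAlgebra k G}
    (h : IsBlockIdempotent e) : CI e := ⟨h.1, h.2.1⟩

theorem card_mul_Wn {p : ℕ} {k : Type} [Field k] (h : HDvd p k) {G : Type} [Group G] [Finite G]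
    {e : MonoidAlgebra k G} (he : CI e) : Nat.card G * Wn p e = Wt p e :=
  Nat.mul_div_cancel' (h G e he)

/-- the two forms of (P) -/
theorem HP_of_HP' {p : ℕ} {k : Type} [Field k] (hd : HDvd p k) (h : HP' p k) : HP p k := by
  intro G _ _ e he
  obtain ⟨c, hc⟩ := h G e he
  have h1 : (Nat.card G : ℤ) * (Wn p e : ℤ) = (Wt p e : ℤ) := by
    exact_mod_cast card_mul_Wn hd he
  have hG : (Nat.card G : ℤ) ≠ 0 := by
    exact_mod_cast (Nat.card_pos (α := G)).ne'
  refine ⟨c, ?_⟩
  apply mul_left_cancel₀ hG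
  unfold dG at hc
  rw [mul_sub, h1, hc]
  ring

/-- **all differences vanish** -/
theorem lc_eq_Wn {p : ℕ} (hp : p.Prime) {k : Type} [Field k] (hP : HP p k) (hA : HAmp p k)
    (G : Type) [Group G] [Finite G] (e : MonoidAlgebra k G) (he : CI e) : lc e = Wn p e := by
  let S : Type 1 := Σ' (G : Type) (_ : Group G) (_ : Finite G) (e : MonoidAlgebra k G), CI e
  let l : S → ℕ := fun s => letI := s.2.1; lc s.2.2.2.1
  let w : S → ℕ := fun s => letI := s.2.1; haveI := s.2.2.1; Wn p s.2.2.2.1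
  have h1 : ∀ s : S, ∃ s' : S, l s' = amp p (l s) ∧ w s' = amp p (w s) := by
    rintro ⟨G, gG, fG, e, he⟩
    obtain ⟨Γ, gΓ, fΓ, E, hE, h1, h2⟩ := hA G e he
    exact ⟨⟨Γ, gΓ, fΓ, E, hE⟩, h1, h2⟩
  have h2 : ∀ s : S, (p : ℤ) ∣ (l s : ℤ) - w s := by
    rintro ⟨G, gG, fG, e, he⟩
    exact hP G e he
  exact eq_of_amp p hp l w h1 h2 ⟨G, inferInstance, inferInstance, e, he⟩

/-- **S0258 from the leaves** -/
theorem s0258_of {p : ℕ} (hp : p.Prime) {k : Type} [Field k] (hP : HP p k) (hD : HDvd p k)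
    (hA : HAmp p k) (hL : HLit p k) (G : Type) [Group G] [Finite G] (e : MonoidAlgebra k G)
    (he : IsBlockIdempotent e) : Nat.card G * blockSimpleCount e = weightedWeightCount p e := by
  have h1 := lc_eq_Wn hp hP hA G e (CI_of_block he)
  rw [hL G e he, ← card_mul_Wn hD (CI_of_block he), ← h1]
  rfl

end FIN534

end Crest.Agent.R170
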