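import Crest.Agent.R170.DefW_995
import Crest.Agent.R170.SCC_538

/-!
# Row 170, leaf ISO (helper418): transport along group isomorphisms

`Tp f e e'` : the coefficients of `e'` are those of `e` moved by `f : G ≃* H`.
Then `lc`, `f0`, `kc`, `CI`, `Wt`, `dG` agree; `br`, `localImage`, `eC` are transported.
Conjugate chains have the same numbers (`*_eC_chRel`), conjugate subgroups too (`f0_localImage_conj`).
-/

set_option autoImplicit false
set_option linter.unusedSectionVars false

namespace Crest.Agent.R170.ISO418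

open MonoidAlgebra Crest.AlgebraR.Weights Crest.AlgebraR.Blocks Crest.Agent.R170

section basic
variable {k G H : Type} [Field k] [Group G] [Group H]

/-- `e'` is the transport of `e` along `f` -/
def Tp (f : G ≃* H) (e : MonoidAlgebra k G) (e' : MonoidAlgebra k H) : Prop :=
  ∀ g, e'.coeff (f g) = e.coeff g

variable {f : G ≃* H} {e : MonoidAlgebra k G} {e' : MonoidAlgebra k H}

theorem Tp.eq (h : Tp f e e') : mapDomainRingEquiv k f e = e' := by
  apply MonoidAlgebra.coeff_injective
  ext x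
  obtain ⟨g, rfl⟩ := f.surjective x
  rw [coeff_mapDomainRingEquiv, Finsupp.equivMapDomain_apply]
  simp [h g]

theorem Tp.of_eq (h : mapDomainRingEquiv k f e = e') : Tp f e e' := by
  intro g
  rw [← h, coeff_mapDomainRingEquiv, Finsupp.equivMapDomain_apply]
  simp

theorem Tp.mapDomain_eq (h : Tp f e e') : MonoidAlgebra.mapDomain f e = e' := h.eq

theorem tp_mapDomain (f : G ≃* H) (e : MonoidAlgebra k G) :
    Tp f e (MonoidAlgebra.mapDomain f e) := Tp.of_eq rfl

theorem tp_mapDomainRingEquiv (f : G ≃* H) (e : MonoidAlgebra k G) :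
    Tp f e (mapDomainRingEquiv k f e) := Tp.of_eq rfl

theorem Tp.symm (h : Tp f e e') : Tp f.symm e' e := by
  intro x
  obtain ⟨g, rfl⟩ := f.surjective x
  rw [MulEquiv.symm_apply_apply, h g]

theorem Tp.lc_eq (h : Tp f e e') : lc e = lc e' := by
  unfold lc blockSimpleCount
  rw [SCC538.count_one_sub (mapDomainRingEquiv k f) e, h.eq]

theorem Tp.f0_eq (h : Tp f e e') : f0 e = f0 e' := by
  unfold f0
  rw [SCC538.count_proj_one_sub (mapDomainRingEquiv k f) e, h.eq]

theorem Tp.CI (h : Tp f e e') (he : CI e) : CI e' := by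
  obtain ⟨h1, h2⟩ := he
  rw [← h.eq]
  refine ⟨fun x => ?_, ?_⟩
  · obtain ⟨y, rfl⟩ := (mapDomainRingEquiv k f).surjective x
    rw [← map_mul, ← map_mul, h1]
  · rw [← map_mul, h2]

theorem Tp.CI_iff (h : Tp f e e') : R170.CI e ↔ R170.CI e' := ⟨h.CI, h.symm.CI⟩

theorem Tp.kc_eq (h : Tp f e e') : kc e = kc e' := by
  unfold kc
  let F : MonoidAlgebra k G ≃ₐ[k] MonoidAlgebra k H := MonoidAlgebra.domCongr k k f
  have hF : F e = e' := h.eq
  have h1 : (eZ e).map (F.toLinearEquiv : MonoidAlgebra k G →ₗ[k] MonoidAlgebra k H) = eZ e' := by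
    ext y
    obtain ⟨x, rfl⟩ := F.surjective y
    constructor
    · rintro ⟨z, hz, hzx⟩
      have hzx' : F z = F x := hzx
      obtain rfl := F.injective hzx'
      obtain ⟨ha, hb⟩ := hz
      refine ⟨fun w => ?_, ?_⟩
      · obtain ⟨w', rfl⟩ := F.surjective w
        rw [← map_mul, ← map_mul, ha]
      · rw [← hF, ← map_mul, hb]
    · rintro ⟨ha, hb⟩
      refine ⟨x, ⟨fun w => ?_, ?_⟩, rfl⟩
      · apply F.injective
        rw [map_mul, map_mul, ha]
      · apply F.injective
        rw [map_mul, hF, hb]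
  rw [← h1]
  exact (LinearEquiv.finrank_map_eq F.toLinearEquiv (eZ e)).symm

end basic

section sub
variable {G H : Type} [Group G] [Group H]

/-- `K'` is the image of `K` -/
def Sp (f : G ≃* H) (K : Subgroup G) (K' : Subgroup H) : Prop := ∀ g, f g ∈ K' ↔ g ∈ K

variable {f : G ≃* H} {K : Subgroup G} {K' : Subgroup H} {Q : Subgroup G} {Q' : Subgroup H}

theorem sp_map (f : G ≃* H) (K : Subgroup G) : Sp f K (K.map f.toMonoidHom) := by
  intro g
  constructor
  · rintro ⟨x, hx, hxg⟩
    have : f x = f g := hxg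
    rwa [← f.injective this]
  · intro h
    exact ⟨g, h, rfl⟩

theorem Sp.eq_map (h : Sp f K K') : K' = K.map f.toMonoidHom := by
  ext x
  obtain ⟨g, rfl⟩ := f.surjective x
  rw [h g, sp_map f K g]

/-- the isomorphism `K ≃* K'` -/
def Sp.iso (h : Sp f K K') : K ≃* K' where
  toFun x := ⟨f x.1, (h x.1).2 x.2⟩
  invFun y := ⟨f.symm y.1, (h _).1 (by rw [f.apply_symm_apply]; exact y.2)⟩
  left_inv x := Subtype.ext (f.symm_apply_apply x.1)
  right_inv y := Subtype.ext (f.apply_symm_apply y.1)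
  map_mul' x y := Subtype.ext (map_mul f x.1 y.1)

@[simp] theorem Sp.iso_coe (h : Sp f K K') (x : K) : ((h.iso x : K') : H) = f x := rfl

theorem Sp.card_eq (h : Sp f K K') : Nat.card K = Nat.card K' := Nat.card_congr h.iso.toEquiv

theorem Sp.normalizer (h : Sp f Q Q') :
    Sp f (Subgroup.normalizer (Q : Set G)) (Subgroup.normalizer (Q' : Set H)) := by
  intro g
  rw [Subgroup.mem_normalizer_iff, Subgroup.mem_normalizer_iff]
  constructor
  · intro h1 x
    have h2 := h1 (f x)
    rw [← map_mul, ← map_inv, ← map_mul] at h2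
    exact ((h x).symm.trans h2).trans (h _)
  · intro h1 y
    obtain ⟨x, rfl⟩ := f.surjective y
    rw [← map_mul, ← map_inv, ← map_mul]
    exact ((h x).trans (h1 x)).trans (h _).symm

theorem Sp.centralizer (h : Sp f Q Q') :
    Sp f (Subgroup.centralizer (Q : Set G)) (Subgroup.centralizer (Q' : Set H)) := by
  intro g
  rw [Subgroup.mem_centralizer_iff, Subgroup.mem_centralizer_iff]
  constructor
  · intro h1 x hx
    have := h1 (f x) ((h x).2 hx)
    rw [← map_mul, ← map_mul] at this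
    exact f.injective this
  · intro h1 y hy
    obtain ⟨x, rfl⟩ := f.surjective y
    rw [← map_mul, ← map_mul, h1 x ((h x).1 hy)]

theorem Sp.isPGroup {p : ℕ} (h : Sp f Q Q') (hQ : IsPGroup p Q) : IsPGroup p Q' :=
  hQ.of_equiv h.iso

end sub

section transport
variable {k G H : Type} [Field k] [Group G] [Group H] [Finite G] [Finite H]
variable {f : G ≃* H} {K : Subgroup G} {K' : Subgroup H} {Q : Subgroup G} {Q' : Subgroup H}
variable {e : MonoidAlgebra k G} {e' : MonoidAlgebra k H}

omit [Finite H] in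
theorem br_coeff_pos {x : K} (hx : (x : G) ∈ Subgroup.centralizer (Q : Set G)) :
    (br K Q e).coeff x = e.coeff (x : G) := if_pos hx

omit [Finite H] in
theorem br_coeff_neg {x : K} (hx : ¬ (x : G) ∈ Subgroup.centralizer (Q : Set G)) :
    (br K Q e).coeff x = 0 := if_neg hx

theorem tp_br (hK : Sp f K K') (hQ : Sp f Q Q') (h : Tp f e e') :
    Tp hK.iso (br K Q e) (br K' Q' e') := by
  intro x
  by_cases hx : x.1 ∈ Subgroup.centralizer (Q : Set G)
  · rw [br_coeff_pos hx, br_coeff_pos (x := hK.iso x) ((hQ.centralizer x.1).2 hx)]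
    exact h x.1
  · rw [br_coeff_neg hx, br_coeff_neg (x := hK.iso x) (fun h' => hx ((hQ.centralizer x.1).1 h'))]

theorem tp_restrictCoeff (hK : Sp f K K') (h : Tp f e e') :
    Tp hK.iso (restrictCoeff K e) (restrictCoeff K' e') := by
  intro x
  exact h x.1

/-- `N_G(Q)/Q ≃* N_H(Q')/Q'` -/
noncomputable def normQuotIso (hQ : Sp f Q Q') : NormQuot Q ≃* NormQuot Q' :=
  QuotientGroup.congr _ _ hQ.normalizer.iso (by
    ext y
    obtain ⟨x, rfl⟩ := hQ.normalizer.iso.surjective y
    constructor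
    · rintro ⟨z, hz, hzx⟩
      have hzx' : hQ.normalizer.iso z = hQ.normalizer.iso x := hzx
      obtain rfl := hQ.normalizer.iso.injective hzx'
      exact Subgroup.mem_subgroupOf.2 ((hQ z.1).2 (Subgroup.mem_subgroupOf.1 hz))
    · intro hx
      exact ⟨x, Subgroup.mem_subgroupOf.2 ((hQ x.1).1 (Subgroup.mem_subgroupOf.1 hx)), rfl⟩)

theorem normQuotIso_mk (hQ : Sp f Q Q') (x : Subgroup.normalizer (Q : Set G)) :
    normQuotIso hQ (QuotientGroup.mk x) = QuotientGroup.mk (hQ.normalizer.iso x) := rfl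

theorem tp_localImage (hQ : Sp f Q Q') (h : Tp f e e') :
    Tp (normQuotIso hQ) (localImage Q e) (localImage Q' e') := by
  apply Tp.of_eq
  have h1 := (tp_restrictCoeff hQ.normalizer h).mapDomain_eq
  change MonoidAlgebra.mapDomain (normQuotIso hQ) (localImage Q e) = _
  unfold localImage
  rw [← h1]
  apply MonoidAlgebra.coeff_injective
  simp only [MonoidAlgebra.coeff_mapDomain]
  rw [← Finsupp.mapDomain_comp, ← Finsupp.mapDomain_comp]
  rfl

theorem f0_localImage (hQ : Sp f Q Q') (h : Tp f e e') :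
    f0 (localImage Q e) = f0 (localImage Q' e') := (tp_localImage hQ h).f0_eq

theorem Tp.Wt_eq (p : ℕ) (h : Tp f e e') : Wt p e = Wt p e' := by
  unfold Wt
  let E : {Q : Subgroup G // IsPGroup p Q} ≃ {Q : Subgroup H // IsPGroup p Q} :=
    { toFun := fun Q => ⟨Q.1.map f.toMonoidHom, (sp_map f Q.1).isPGroup Q.2⟩
      invFun := fun Q => ⟨Q.1.map f.symm.toMonoidHom, (sp_map f.symm Q.1).isPGroup Q.2⟩
      left_inv := fun Q => by
        apply Subtype.ext
        ext x
        constructor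
        · rintro ⟨_, ⟨z, hz, rfl⟩, rfl⟩
          simpa using hz
        · intro hx
          exact ⟨f x, ⟨x, hx, rfl⟩, by simp⟩
      right_inv := fun Q => by
        apply Subtype.ext
        ext x
        constructor
        · rintro ⟨_, ⟨z, hz, rfl⟩, rfl⟩
          simpa using hz
        · intro hx
          exact ⟨f.symm x, ⟨x, hx, rfl⟩, by simp⟩ }
  refine finsum_eq_of_bijective E E.bijective ?_
  intro Q
  have hQ : Sp f Q.1 (E Q).1 := sp_map f Q.1
  rw [hQ.normalizer.card_eq, f0_localImage hQ h]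

theorem Tp.dG_eq (p : ℕ) (h : Tp f e e') : dG p e = dG p e' := by
  unfold dG
  rw [h.lc_eq, h.Wt_eq p, Nat.card_congr f.toEquiv]

end transport

section conj
variable {k G : Type} [Field k] [Group G]

theorem coeff_conj {e : MonoidAlgebra k G} (he : ∀ x : MonoidAlgebra k G, e * x = x * e) (g x : G) :
    e.coeff (g * x * g⁻¹) = e.coeff x := by
  have h := congrArg (fun y : MonoidAlgebra k G => y.coeff (g * x)) (he (MonoidAlgebra.single g 1))
  simp only [MonoidAlgebra.coeff_mul_single_apply, MonoidAlgebra.coeff_single_mul_apply, mul_one,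
    one_mul] at h
  rw [h]
  congr 1
  group

theorem tp_conj {e : MonoidAlgebra k G} (he : ∀ x : MonoidAlgebra k G, e * x = x * e) (g : G) :
    Tp (MulAut.conj g) e e := by
  intro x
  rw [MulAut.conj_apply]
  exact coeff_conj he g x

variable [Finite G]

/-- conjugate subgroups have the same number of weights -/
theorem f0_localImage_conj {e : MonoidAlgebra k G} (he : ∀ x : MonoidAlgebra k G, e * x = x * e)
    (g : G) (Q : Subgroup G) :
    f0 (localImage (Q.map (MulAut.conj g).toMonoidHom) e) = f0 (localImage Q e) :=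
  (f0_localImage (sp_map (MulAut.conj g) Q) (tp_conj he g)).symm

variable {p : ℕ}

theorem sp_st_chRel {σ τ : Ch p G} {g : G}
    (h : (fun Q : Subgroup G => Q.map (MulAut.conj g).toMonoidHom) '' (σ.1 : Set (Subgroup G)) =
      (τ.1 : Set (Subgroup G))) : Sp (MulAut.conj g) (st σ) (st τ) := by
  intro x
  unfold st
  simp only [Subgroup.mem_iInf]
  constructor
  · intro h1 Q hQ
    have h2 : Q.map (MulAut.conj g).toMonoidHom ∈ τ.1 := by
      rw [← Finset.mem_coe, ← h]
      exact ⟨Q, hQ, rfl⟩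
    exact ((sp_map (MulAut.conj g) Q).normalizer x).1 (h1 _ h2)
  · intro h1 Q' hQ'
    rw [← Finset.mem_coe, ← h] at hQ'
    obtain ⟨Q, hQ, rfl⟩ := hQ'
    exact ((sp_map (MulAut.conj g) Q).normalizer x).2 (h1 Q hQ)

theorem sp_top_chRel {σ τ : Ch p G} {g : G}
    (h : (fun Q : Subgroup G => Q.map (MulAut.conj g).toMonoidHom) '' (σ.1 : Set (Subgroup G)) =
      (τ.1 : Set (Subgroup G))) : Sp (MulAut.conj g) (top σ) (top τ) := by
  have h1 : top τ = (top σ).map (MulAut.conj g).toMonoidHom := by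
    unfold top
    rw [Subgroup.map_iSup]
    simp only [Subgroup.map_iSup]
    apply le_antisymm
    · refine iSup₂_le fun Q' hQ' => ?_
      rw [← Finset.mem_coe, ← h] at hQ'
      obtain ⟨Q, hQ, rfl⟩ := hQ'
      exact le_iSup₂_of_le Q hQ le_rfl
    · refine iSup₂_le fun Q hQ => ?_
      have h2 : Q.map (MulAut.conj g).toMonoidHom ∈ τ.1 := by
        rw [← Finset.mem_coe, ← h]
        exact ⟨Q, hQ, rfl⟩
      exact le_iSup₂_of_le _ h2 le_rfl
  rw [h1]
  exact sp_map _ _

/-- the idempotents of conjugate chains correspond -/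
theorem tp_eC_chRel {σ τ : Ch p G} {g : G}
    (h : (fun Q : Subgroup G => Q.map (MulAut.conj g).toMonoidHom) '' (σ.1 : Set (Subgroup G)) =
      (τ.1 : Set (Subgroup G))) {e : MonoidAlgebra k G}
    (he : ∀ x : MonoidAlgebra k G, e * x = x * e) :
    Tp (sp_st_chRel h).iso (eC σ e) (eC τ e) :=
  tp_br (sp_st_chRel h) (sp_top_chRel h) (tp_conj he g)

theorem lc_eC_chRel {σ τ : Ch p G} (h : chRel σ τ) {e : MonoidAlgebra k G} (he : CI e) :
    lc (eC σ e) = lc (eC τ e) := by
  obtain ⟨g, hg⟩ := h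
  exact (tp_eC_chRel hg he.1).lc_eq

theorem kc_eC_chRel {σ τ : Ch p G} (h : chRel σ τ) {e : MonoidAlgebra k G} (he : CI e) :
    kc (eC σ e) = kc (eC τ e) := by
  obtain ⟨g, hg⟩ := h
  exact (tp_eC_chRel hg he.1).kc_eq

theorem f0_eC_chRel {σ τ : Ch p G} (h : chRel σ τ) {e : MonoidAlgebra k G} (he : CI e) :
    f0 (eC σ e) = f0 (eC τ e) := by
  obtain ⟨g, hg⟩ := h
  exact (tp_eC_chRel hg he.1).f0_eq

theorem card_st_chRel {σ τ : Ch p G} (h : chRel σ τ) : Nat.card (st σ) = Nat.card (st τ) := by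
  obtain ⟨g, hg⟩ := h
  exact (sp_st_chRel hg).card_eq

theorem Wt_eC_chRel {σ τ : Ch p G} (h : chRel σ τ) {e : MonoidAlgebra k G} (he : CI e) :
    Wt p (eC σ e) = Wt p (eC τ e) := by
  obtain ⟨g, hg⟩ := h
  exact (tp_eC_chRel hg he.1).Wt_eq p

theorem dG_eC_chRel {σ τ : Ch p G} (h : chRel σ τ) {e : MonoidAlgebra k G} (he : CI e) :
    dG p (eC σ e) = dG p (eC τ e) := by
  obtain ⟨g, hg⟩ := h
  exact (tp_eC_chRel hg he.1).dG_eq p

end conj

end Crest.Agent.R170.ISO418
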