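import Mathlib

/-!
Row 170, leaf K (helper876), part 1: the toggle involution on chains of `p`-subgroups.

For a nontrivial `p`-subgroup `U` normalising every member of a chain `σ` of nontrivial
`p`-subgroups, put `base σ U = ⨆ {Q ∈ σ | ¬ U ≤ Q}` and `R = base σ U ⊔ U`, and toggle the
membership of `R` in `σ`.
-/

set_option autoImplicit false

namespace Crest.Agent.R170.K876

open scoped Classical

variable {G : Type*} [Group G]

/-- `σ` is a chain of nontrivial `p`-subgroups. -/
def IsPChain (p : ℕ) (σ : Finset (Subgroup G)) : Prop :=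
  (∀ Q ∈ σ, Q ≠ ⊥ ∧ IsPGroup p Q) ∧ IsChain (· ≤ ·) (σ : Set (Subgroup G))

/-- The stabiliser of a chain (as a set of subgroups each of which is normalised). -/
def stab (σ : Finset (Subgroup G)) : Subgroup G :=
  ⨅ Q ∈ σ, Subgroup.normalizer (Q : Set G)

/-- The top of a chain. -/
def top (σ : Finset (Subgroup G)) : Subgroup G := σ.sup id

noncomputable def base (σ : Finset (Subgroup G)) (U : Subgroup G) : Subgroup G :=
  (σ.filter fun Q => ¬ U ≤ Q).sup id

noncomputable def toggle (U : Subgroup G) (σ : Finset (Subgroup G)) : Finset (Subgroup G) :=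
  if base σ U ⊔ U ∈ σ then σ.erase (base σ U ⊔ U) else insert (base σ U ⊔ U) σ

theorem toggle_of_mem {U : Subgroup G} {σ : Finset (Subgroup G)} (h : base σ U ⊔ U ∈ σ) :
    toggle U σ = σ.erase (base σ U ⊔ U) := if_pos h

theorem toggle_of_not_mem {U : Subgroup G} {σ : Finset (Subgroup G)} (h : base σ U ⊔ U ∉ σ) :
    toggle U σ = insert (base σ U ⊔ U) σ := if_neg h

theorem mem_stab {σ : Finset (Subgroup G)} {g : G} :
    g ∈ stab σ ↔ ∀ Q ∈ σ, g ∈ Subgroup.normalizer (Q : Set G) := by
  simp [stab, Subgroup.mem_iInf]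

theorem le_stab {σ : Finset (Subgroup G)} {U : Subgroup G} :
    U ≤ stab σ ↔ ∀ Q ∈ σ, U ≤ Subgroup.normalizer (Q : Set G) := by
  simp [stab]

theorem filter_toggle (U : Subgroup G) (σ : Finset (Subgroup G)) :
    ((toggle U σ).filter fun Q => ¬ U ≤ Q) = σ.filter fun Q => ¬ U ≤ Q := by
  have hU : U ≤ base σ U ⊔ U := le_sup_right
  by_cases h : base σ U ⊔ U ∈ σ
  · rw [toggle_of_mem h]
    ext Q
    simp only [Finset.mem_filter, Finset.mem_erase]
    constructor
    · rintro ⟨⟨_, h1⟩, h2⟩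
      exact ⟨h1, h2⟩
    · rintro ⟨h1, h2⟩
      refine ⟨⟨?_, h1⟩, h2⟩
      rintro rfl
      exact h2 hU
  · rw [toggle_of_not_mem h]
    ext Q
    simp only [Finset.mem_filter, Finset.mem_insert]
    constructor
    · rintro ⟨h1 | h1, h2⟩
      · subst h1
        exact absurd hU h2
      · exact ⟨h1, h2⟩
    · rintro ⟨h1, h2⟩
      exact ⟨Or.inr h1, h2⟩

theorem base_toggle (U : Subgroup G) (σ : Finset (Subgroup G)) :
    base (toggle U σ) U = base σ U := by
  unfold base
  rw [filter_toggle]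

theorem toggle_toggle (U : Subgroup G) (σ : Finset (Subgroup G)) :
    toggle U (toggle U σ) = σ := by
  have hb := base_toggle U σ
  by_cases h : base σ U ⊔ U ∈ σ
  · have h1 := toggle_of_mem h
    have h2 : base (toggle U σ) U ⊔ U ∉ toggle U σ := by
      rw [hb, h1]; simp
    rw [toggle_of_not_mem h2, hb, h1, Finset.insert_erase h]
  · have h1 := toggle_of_not_mem h
    have h2 : base (toggle U σ) U ⊔ U ∈ toggle U σ := by
      rw [hb, h1]; simp
    rw [toggle_of_mem h2, hb, h1, Finset.erase_insert h]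

/-- the sign is flipped -/
theorem neg_one_pow_card_toggle (U : Subgroup G) (σ : Finset (Subgroup G)) :
    (-1 : ℤ) ^ (toggle U σ).card = - (-1 : ℤ) ^ σ.card := by
  by_cases h : base σ U ⊔ U ∈ σ
  · rw [toggle_of_mem h]
    have h1 : σ.card = (σ.erase (base σ U ⊔ U)).card + 1 := by
      rw [Finset.card_erase_of_mem h]
      have : 0 < σ.card := Finset.card_pos.2 ⟨_, h⟩
      omega
    rw [h1, pow_succ]; ring
  · rw [toggle_of_not_mem h, Finset.card_insert_of_notMem h, pow_succ]; ring

theorem toggle_ne (U : Subgroup G) (σ : Finset (Subgroup G)) : toggle U σ ≠ σ := by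
  intro h
  have h1 := neg_one_pow_card_toggle U σ
  rw [h] at h1
  have h2 : (-1 : ℤ) ^ σ.card ≠ 0 := pow_ne_zero _ (by norm_num)
  omega

theorem base_le_top (σ : Finset (Subgroup G)) (U : Subgroup G) : base σ U ≤ top σ :=
  Finset.sup_mono (Finset.filter_subset _ _)

theorem le_base {σ : Finset (Subgroup G)} {U Q : Subgroup G} (hQ : Q ∈ σ) (h : ¬ U ≤ Q) :
    Q ≤ base σ U :=
  Finset.le_sup (f := id) (Finset.mem_filter.2 ⟨hQ, h⟩)

/-- `sup σ ⊔ U` is unchanged -/
theorem top_toggle_sup (U : Subgroup G) (σ : Finset (Subgroup G)) :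
    top (toggle U σ) ⊔ U = top σ ⊔ U := by
  have key : ∀ τ : Finset (Subgroup G), base τ U ⊔ U ∉ τ →
      top (insert (base τ U ⊔ U) τ) ⊔ U = top τ ⊔ U := by
    intro τ _
    have h1 : top (insert (base τ U ⊔ U) τ) = (base τ U ⊔ U) ⊔ top τ := by
      unfold top
      rw [Finset.sup_insert]; rfl
    rw [h1]
    have h2 := base_le_top τ U
    apply le_antisymm
    · exact sup_le (sup_le (sup_le (h2.trans le_sup_left) le_sup_right) le_sup_left) le_sup_right
    · exact sup_le (le_sup_right.trans le_sup_left) le_sup_right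
  by_cases h : base σ U ⊔ U ∈ σ
  · have h2 : base (toggle U σ) U ⊔ U ∉ toggle U σ := by
      rw [base_toggle, toggle_of_mem h]; simp
    have h3 := key _ h2
    rw [← toggle_of_not_mem h2, toggle_toggle] at h3
    exact h3.symm
  · rw [toggle_of_not_mem h]
    exact key σ h

/-- in a chain, `base` is `⊥` or a member not containing `U` -/
theorem base_eq_bot_or_mem {σ : Finset (Subgroup G)} {U : Subgroup G}
    (hσ : IsChain (· ≤ ·) (σ : Set (Subgroup G))) :
    base σ U = ⊥ ∨ (base σ U ∈ σ ∧ ¬ U ≤ base σ U) := by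
  unfold base
  set τ := σ.filter fun Q => ¬ U ≤ Q with hτ
  rcases τ.eq_empty_or_nonempty with h | h
  · left; rw [h]; rfl
  · right
    have hd : DirectedOn (· ≤ ·) (τ : Set (Subgroup G)) := by
      apply IsChain.directedOn
      exact hσ.mono (by rw [hτ]; intro x hx; exact (Finset.mem_filter.1 hx).1)
    have h1 : τ.sup id ∈ τ := by
      obtain ⟨M, hM, hmax⟩ := τ.exists_maximal h
      have : τ.sup id = M := by
        apply le_antisymm
        · apply Finset.sup_le
          intro Q hQ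
          rcases eq_or_ne Q M with rfl | hne
          · exact le_rfl
          · have hQ' : Q ∈ (σ : Set (Subgroup G)) := (Finset.mem_filter.1 hQ).1
            have hM' : M ∈ (σ : Set (Subgroup G)) := (Finset.mem_filter.1 hM).1
            rcases hσ hQ' hM' hne with h2 | h2
            · exact h2
            · exact hmax hQ h2
        · exact Finset.le_sup (f := id) hM
      rw [this]; exact hM
    exact Finset.mem_filter.1 (by rw [← hτ]; exact h1)

theorem isPGroup_sup {p : ℕ} {B U : Subgroup G} (hB : IsPGroup p B) (hU : IsPGroup p U)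
    (hn : U ≤ Subgroup.normalizer (B : Set G)) : IsPGroup p (B ⊔ U : Subgroup G) := by
  rw [sup_comm]
  exact IsPGroup.to_sup_of_normal_right' hU hB hn

theorem mem_normalizer_sup {B U : Subgroup G} {g : G}
    (hB : g ∈ Subgroup.normalizer (B : Set G)) (hU : g ∈ Subgroup.normalizer (U : Set G)) :
    g ∈ Subgroup.normalizer ((B ⊔ U : Subgroup G) : Set G) := by
  rw [Subgroup.mem_normalizer_iff_map_conj_eq] at hB hU ⊢
  rw [Subgroup.map_sup, hB, hU]

theorem mem_normalizer_bot (g : G) : g ∈ Subgroup.normalizer ((⊥ : Subgroup G) : Set G) := by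
  rw [Subgroup.mem_normalizer_iff_map_conj_eq, Subgroup.map_bot]

theorem le_normalizer_base {σ : Finset (Subgroup G)} {U V : Subgroup G}
    (hσ : IsChain (· ≤ ·) (σ : Set (Subgroup G))) (hV : V ≤ stab σ) :
    V ≤ Subgroup.normalizer (base σ U : Set G) := by
  rcases base_eq_bot_or_mem (U := U) hσ with h | ⟨h, _⟩
  · rw [h]
    intro v _
    exact mem_normalizer_bot v
  · exact le_stab.1 hV _ h

/-- `R = base σ U ⊔ U` is a nontrivial `p`-group -/
theorem isPGroup_R {p : ℕ} {σ : Finset (Subgroup G)} {U : Subgroup G} (hσ : IsPChain p σ)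
    (hU : IsPGroup p U) (hn : U ≤ stab σ) : IsPGroup p (base σ U ⊔ U : Subgroup G) := by
  refine isPGroup_sup ?_ hU (le_normalizer_base hσ.2 hn)
  rcases base_eq_bot_or_mem (U := U) hσ.2 with h | ⟨h, _⟩
  · rw [h]; exact IsPGroup.of_bot
  · exact (hσ.1 _ h).2

theorem isPChain_toggle {p : ℕ} {σ : Finset (Subgroup G)} {U : Subgroup G} (hσ : IsPChain p σ)
    (hU : IsPGroup p U) (hU1 : U ≠ ⊥) (hn : U ≤ stab σ) : IsPChain p (toggle U σ) := by
  by_cases h : base σ U ⊔ U ∈ σ
  · rw [toggle_of_mem h]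
    refine ⟨fun Q hQ => hσ.1 Q (Finset.mem_of_mem_erase hQ), hσ.2.mono ?_⟩
    intro x hx
    exact Finset.mem_of_mem_erase hx
  · rw [toggle_of_not_mem h]
    refine ⟨?_, ?_⟩
    · intro Q hQ
      rcases Finset.mem_insert.1 hQ with rfl | hQ
      · refine ⟨?_, isPGroup_R hσ hU hn⟩
        intro h1
        exact hU1 (le_bot_iff.1 (h1 ▸ le_sup_right))
      · exact hσ.1 Q hQ
    · rw [Finset.coe_insert]
      refine hσ.2.insert ?_
      intro Q hQ _
      by_cases hUQ : U ≤ Q
      · left
        refine sup_le ?_ hUQ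
        rcases base_eq_bot_or_mem (U := U) hσ.2 with h1 | ⟨h1, h2⟩
        · rw [h1]; exact bot_le
        · rcases hσ.2.total h1 hQ with h3 | h3
          · exact h3
          · exact absurd (hUQ.trans h3) h2
      · right
        exact (le_base hQ hUQ).trans le_sup_left

theorem le_stab_toggle_of_le {σ : Finset (Subgroup G)} {U V : Subgroup G}
    (hσ : IsChain (· ≤ ·) (σ : Set (Subgroup G)))
    (hVU : V ≤ Subgroup.normalizer (U : Set G)) (hV : V ≤ stab σ) : V ≤ stab (toggle U σ) := by
  rw [le_stab]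
  intro Q hQ
  by_cases h : base σ U ⊔ U ∈ σ
  · rw [toggle_of_mem h] at hQ
    exact le_stab.1 hV Q (Finset.mem_of_mem_erase hQ)
  · rw [toggle_of_not_mem h] at hQ
    rcases Finset.mem_insert.1 hQ with rfl | hQ
    · intro v hv
      exact mem_normalizer_sup (le_normalizer_base hσ hV hv) (hVU hv)
    · exact le_stab.1 hV Q hQ

theorem isChain_toggle {p : ℕ} {σ : Finset (Subgroup G)} {U : Subgroup G} (hσ : IsPChain p σ)
    (hU : IsPGroup p U) (hU1 : U ≠ ⊥) (hn : U ≤ stab σ) :
    IsChain (· ≤ ·) ((toggle U σ : Finset (Subgroup G)) : Set (Subgroup G)) :=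
  (isPChain_toggle hσ hU hU1 hn).2

theorem le_stab_toggle {p : ℕ} {σ : Finset (Subgroup G)} {U : Subgroup G} (hσ : IsPChain p σ)
    (hn : U ≤ stab σ) : U ≤ stab (toggle U σ) :=
  le_stab_toggle_of_le hσ.2 Subgroup.le_normalizer hn

/-- the intersection of the stabiliser with any `C ≤ N_G(U)` is unchanged -/
theorem inf_stab_toggle {p : ℕ} {σ : Finset (Subgroup G)} {U C : Subgroup G} (hσ : IsPChain p σ)
    (hU : IsPGroup p U) (hU1 : U ≠ ⊥) (hn : U ≤ stab σ)
    (hC : C ≤ Subgroup.normalizer (U : Set G)) : C ⊓ stab (toggle U σ) = C ⊓ stab σ := by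
  apply le_antisymm
  · refine le_inf inf_le_left ?_
    have h1 : C ⊓ stab (toggle U σ) ≤ stab (toggle U (toggle U σ)) :=
      le_stab_toggle_of_le (isChain_toggle hσ hU hU1 hn) (inf_le_left.trans hC) inf_le_right
    rwa [toggle_toggle] at h1
  · exact le_inf inf_le_left
      (le_stab_toggle_of_le hσ.2 (inf_le_left.trans hC) inf_le_right)

/-- alternating sums of toggle-invariant functions over `p`-chains normalised by `U` vanish -/
theorem sum_toggle_eq_zero [Finite G] [Fintype (Subgroup G)] {p : ℕ} {U : Subgroup G}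
    (hU : IsPGroup p U) (hU1 : U ≠ ⊥) (F : Finset (Subgroup G) → ℤ)
    (hF : ∀ σ, IsPChain p σ → U ≤ stab σ → F (toggle U σ) = F σ) :
    ∑ σ ∈ (Finset.univ : Finset (Finset (Subgroup G))).filter
      (fun σ => IsPChain p σ ∧ U ≤ stab σ), (-1 : ℤ) ^ σ.card * F σ = 0 := by
  refine Finset.sum_involution (fun σ _ => toggle U σ) ?_ ?_ ?_ ?_
  · intro σ hσ
    obtain ⟨_, h1, h2⟩ := Finset.mem_filter.1 hσ
    rw [neg_one_pow_card_toggle, hF σ h1 h2]; ring
  · intro σ _ _
    exact toggle_ne U σ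
  · intro σ hσ
    obtain ⟨_, h1, h2⟩ := Finset.mem_filter.1 hσ
    exact Finset.mem_filter.2 ⟨Finset.mem_univ _, isPChain_toggle h1 hU hU1 h2,
      le_stab_toggle h1 h2⟩
  · intro σ _
    exact toggle_toggle U σ

end Crest.Agent.R170.K876
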