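import Crest.Agent.R170.DefW_995

/-!
Row 170, leaf K (helper876): transport of `simpleClassCount` and `lc` along isomorphisms.
-/

set_option autoImplicit false

namespace Crest.Agent.R170.K876

open MonoidAlgebra Crest.AlgebraR.Weights

attribute [local instance] RingHomInvPair.of_ringEquiv

section
variable {A B : Type*} [Ring A] [Ring B] (f : A ≃+* B)

/-- the order isomorphism of the lattices of left ideals -/
def oI : Submodule A A ≃o Submodule B B :=
  Submodule.orderIsoMapComap (f.toSemilinearEquiv)

theorem mem_oI (m : Submodule A A) (x : A) : f x ∈ oI f m ↔ x ∈ m := by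
  unfold oI
  constructor
  · intro h
    obtain ⟨y, hy, hxy⟩ := h
    have : y = x := f.injective hxy
    rwa [← this]
  · intro h
    exact ⟨x, h, rfl⟩

theorem quot_congr_of {m m' : Submodule A A} (h : Nonempty ((A ⧸ m) ≃ₗ[A] (A ⧸ m'))) :
    Nonempty ((B ⧸ oI f m) ≃ₗ[B] (B ⧸ oI f m')) := by
  obtain ⟨g⟩ := h
  have e1 : (A ⧸ m) ≃ₛₗ[(f : A →+* B)] (B ⧸ oI f m) :=
    Submodule.Quotient.equiv m (oI f m) f.toSemilinearEquiv rfl
  have e2 : (A ⧸ m') ≃ₛₗ[(f : A →+* B)] (B ⧸ oI f m') :=
    Submodule.Quotient.equiv m' (oI f m') f.toSemilinearEquiv rfl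
  exact ⟨(e1.symm.trans g).trans e2⟩

theorem projective_oI (m : Submodule A A) :
    Module.Projective A (A ⧸ m) ↔ Module.Projective B (B ⧸ oI f m) := by
  have e1 : (A ⧸ m) ≃ₛₗ[(f : A →+* B)] (B ⧸ oI f m) :=
    Submodule.Quotient.equiv m (oI f m) f.toSemilinearEquiv rfl
  constructor
  · intro hp
    exact Module.Projective.of_equiv e1
  · intro hp
    exact Module.Projective.of_equiv e1.symm

theorem simpleClassCount_congr (P : Submodule A A → Prop) (P' : Submodule B B → Prop)
    (h : ∀ m, P m ↔ P' (oI f m)) : simpleClassCount A P = simpleClassCount B P' := by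
  unfold simpleClassCount
  refine Nat.card_congr (Quotient.congr ?_ ?_)
  · exact (oI f).toEquiv.subtypeEquiv fun m => by
      rw [h m]
      simp [(oI f).isCoatom_iff]
  · intro m m'
    constructor
    · intro hm
      exact quot_congr_of f hm
    · intro hm
      have h1 : ∀ m : Submodule A A, oI f.symm (oI f m) = m := by
        intro m
        ext x
        have := mem_oI f.symm (oI f m) (f x)
        rw [RingEquiv.symm_apply_apply] at this
        rw [this, mem_oI]
      have h2 := quot_congr_of f.symm hm
      have h3 : Nonempty ((A ⧸ oI f.symm (oI f m.1)) ≃ₗ[A] (A ⧸ oI f.symm (oI f m'.1))) := h2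
      rw [h1, h1] at h3
      exact h3
end

section
variable {k : Type} [Field k] {G H : Type} [Group G] [Group H]

/-- transport of `lc` along a group isomorphism, in coefficients -/
theorem lc_congr (φ : G ≃* H) (e : MonoidAlgebra k G) (e' : MonoidAlgebra k H)
    (h : ∀ g, e'.coeff (φ g) = e.coeff g) : lc e' = lc e := by
  have he : MonoidAlgebra.domCongr k k φ e = e' := by
    ext n
    rw [MonoidAlgebra.coeff_domCongr, ← h, MulEquiv.apply_symm_apply]
  unfold lc blockSimpleCount
  symm
  apply simpleClassCount_congr (MonoidAlgebra.domCongr k k φ).toRingEquiv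
  intro m
  rw [← mem_oI (MonoidAlgebra.domCongr k k φ).toRingEquiv m (1 - e)]
  rw [map_sub, map_one]
  rw [← he]
  rfl
/-- transport of `f0` along a group isomorphism, in coefficients -/
theorem f0_congr (φ : G ≃* H) (e : MonoidAlgebra k G) (e' : MonoidAlgebra k H)
    (h : ∀ g, e'.coeff (φ g) = e.coeff g) : f0 e' = f0 e := by
  have he : MonoidAlgebra.domCongr k k φ e = e' := by
    ext n
    rw [MonoidAlgebra.coeff_domCongr, ← h, MulEquiv.apply_symm_apply]
  unfold f0
  symm
  apply simpleClassCount_congr (MonoidAlgebra.domCongr k k φ).toRingEquiv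
  intro m
  refine and_congr (projective_oI _ m) ?_
  · rw [← mem_oI (MonoidAlgebra.domCongr k k φ).toRingEquiv m (1 - e)]
    rw [map_sub, map_one]
    rw [← he]
    rfl
end

end Crest.Agent.R170.K876
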