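import Crest.Agent.R170.Stm_995
import Crest.Agent.R170.TransK_876
import Crest.Agent.R170.TogK_876

/-!
Row 170, leaf K (helper876), part 2: `SB2` and `SBrCI` imply `SK`.
-/

set_option autoImplicit false

namespace Crest.Agent.R170.K876

open MonoidAlgebra Crest.AlgebraR.Weights Crest.AlgebraR.Blocks Finset

open scoped Classical

theorem finite_ch (p : ℕ) (G : Type) [Group G] [Finite G] : Finite (Ch p G) := by
  unfold Ch
  infer_instance

/-! ### sums over conjugacy classes -/

section cls
variable {H : Type} [Group H] [Finite H]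

theorem card_centralizer_eq (g u : H) (h : IsConj g u) :
    Nat.card (Subgroup.centralizer ({u} : Set H)) = Nat.card {x : H // x * g * x⁻¹ = u} := by
  obtain ⟨x0, hx0⟩ := isConj_iff.1 h
  refine Nat.card_congr ⟨fun y => ⟨y.1 * x0, ?_⟩, fun x => ⟨x.1 * x0⁻¹, ?_⟩, ?_, ?_⟩
  · have hy := Subgroup.mem_centralizer_singleton_iff.1 y.2
    calc y.1 * x0 * g * (y.1 * x0)⁻¹ = y.1 * (x0 * g * x0⁻¹) * y.1⁻¹ := by group
      _ = y.1 * u * y.1⁻¹ := by rw [hx0]
      _ = u := by rw [hy]; group
  · rw [Subgroup.mem_centralizer_singleton_iff]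
    have hx := x.2
    have h2 : x0⁻¹ * u = g * x0⁻¹ := by rw [← hx0]; group
    calc x.1 * x0⁻¹ * u = x.1 * (x0⁻¹ * u) := by group
      _ = x.1 * (g * x0⁻¹) := by rw [h2]
      _ = (x.1 * g * x.1⁻¹) * (x.1 * x0⁻¹) := by group
      _ = u * (x.1 * x0⁻¹) := by rw [hx]
  · intro y; ext; simp
  · intro x; ext; simp

theorem sum_class [Fintype H] (g : H) :
    ∑ u ∈ (univ : Finset H).filter (fun u => ConjClasses.mk u = ConjClasses.mk g),
      Nat.card (Subgroup.centralizer ({u} : Set H)) = Nat.card H := by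
  have h1 := Finset.card_eq_sum_card_fiberwise (s := (univ : Finset H))
    (t := (univ : Finset H).filter (fun u => ConjClasses.mk u = ConjClasses.mk g))
    (f := fun x => x * g * x⁻¹) (by
      intro x _
      simp only [coe_filter, mem_univ, true_and, Set.mem_ofPred_eq]
      rw [ConjClasses.mk_eq_mk_iff_isConj]
      exact (isConj_iff.2 ⟨x, rfl⟩).symm)
  rw [Nat.card_eq_fintype_card, ← Finset.card_univ, h1]
  refine Finset.sum_congr rfl fun u hu => ?_
  have hu' : IsConj g u := by
    have := (mem_filter.1 hu).2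
    exact (ConjClasses.mk_eq_mk_iff_isConj.1 this).symm
  rw [card_centralizer_eq g u hu', Nat.card_eq_fintype_card, Fintype.card_subtype]

theorem cls_sum [Fintype H] [Fintype (ConjClasses H)] (f : H → ℤ)
    (hf : ∀ g u, f (g * u * g⁻¹) = f u) :
    ∑ c : ConjClasses H, (Nat.card H : ℤ) * f c.out =
      ∑ u : H, (Nat.card (Subgroup.centralizer ({u} : Set H)) : ℤ) * f u := by
  rw [← Finset.sum_fiberwise (s := (univ : Finset H)) (g := fun u : H => ConjClasses.mk u)]
  refine Finset.sum_congr rfl fun c _ => ?_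
  have hc : ConjClasses.mk c.out = c := Quotient.out_eq c
  have h1 := sum_class (H := H) c.out
  rw [hc] at h1
  rw [← h1]
  push_cast
  rw [Finset.sum_mul]
  refine Finset.sum_congr rfl fun u hu => ?_
  have hu' : IsConj c.out u := by
    have := (mem_filter.1 hu).2
    rw [← hc] at this
    exact (ConjClasses.mk_eq_mk_iff_isConj.1 this).symm
  obtain ⟨x, hx⟩ := isConj_iff.1 hu'
  rw [← hx, hf]
end cls

/-! ### Brauer maps in coefficients -/

section brr
variable {k G : Type} [Field k] [Group G] [Finite G]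

theorem coeff_br (H Q : Subgroup G) (e : MonoidAlgebra k G) (h : H) :
    (br H Q e).coeff h =
      if (h : G) ∈ Subgroup.centralizer (Q : Set G) then e.coeff (h : G) else 0 := rfl

theorem lc_br_congr {H H' Q Q' : Subgroup G} (h : H = H') (e : MonoidAlgebra k G)
    (hc : ∀ x ∈ H, x ∈ Subgroup.centralizer (Q : Set G) ↔ x ∈ Subgroup.centralizer (Q' : Set G)) :
    lc (br H Q e) = lc (br H' Q' e) := by
  subst h
  congr 1
  ext x
  rw [coeff_br, coeff_br]
  simp only [hc x.1 x.2]

theorem mem_centralizer_comm {x : G} {K : Subgroup G} :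
    x ∈ Subgroup.centralizer (K : Set G) ↔ K ≤ Subgroup.centralizer ({x} : Set G) := by
  constructor
  · intro h y hy
    rw [Subgroup.mem_centralizer_singleton_iff]
    exact Subgroup.mem_centralizer_iff.1 h y hy
  · intro h
    rw [Subgroup.mem_centralizer_iff]
    intro y hy
    exact Subgroup.mem_centralizer_singleton_iff.1 (h hy)

/-- the iso `C_H(u) ≃ H ⊓ C_G(u)` -/
noncomputable def isoC (H : Subgroup G) (u : H) :
    (Subgroup.centralizer ({u} : Set H)) ≃* (H ⊓ Subgroup.centralizer ({(u : G)} : Set G) :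
      Subgroup G) where
  toFun x := ⟨x.1.1, Subgroup.mem_inf.2 ⟨x.1.2, Subgroup.mem_centralizer_singleton_iff.2
    (congrArg Subtype.val (Subgroup.mem_centralizer_singleton_iff.1 x.2))⟩⟩
  invFun x := ⟨⟨x.1, x.2.1⟩, by
    have := Subgroup.mem_centralizer_singleton_iff.1 x.2.2
    rw [Subgroup.mem_centralizer_singleton_iff]
    exact Subtype.ext this⟩
  left_inv x := rfl
  right_inv x := rfl
  map_mul' x y := rfl

theorem lc_br_br (H Q : Subgroup G) (u : H) (e : MonoidAlgebra k G) :
    lc (br (Subgroup.centralizer ({u} : Set H)) (Subgroup.zpowers u) (br H Q e)) =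
      lc (br (H ⊓ Subgroup.centralizer ({(u : G)} : Set G)) Q e) := by
  symm
  refine lc_congr (isoC H u) _ _ ?_
  intro x
  rw [coeff_br, coeff_br, coeff_br]
  have h1 : (x : H) ∈ Subgroup.centralizer ((Subgroup.zpowers u : Subgroup H) : Set H) := by
    rw [mem_centralizer_comm, Subgroup.zpowers_le, Subgroup.mem_centralizer_singleton_iff]
    exact (Subgroup.mem_centralizer_singleton_iff.1 x.2).symm
  rw [if_pos h1]
  rfl

theorem card_br_br (H : Subgroup G) (u : H) :
    Nat.card (Subgroup.centralizer ({u} : Set H)) =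
      Nat.card (H ⊓ Subgroup.centralizer ({(u : G)} : Set G) : Subgroup G) :=
  Nat.card_congr (isoC H u).toEquiv

theorem isPElt_coe {p : ℕ} {H : Subgroup G} (u : H) : IsPElt p u ↔ IsPElt p (u : G) := by
  unfold IsPElt
  refine exists_congr fun n => ?_
  rw [← Subgroup.coe_pow, ← Subgroup.coe_one H, Subtype.coe_inj]

theorem isPElt_conj {p : ℕ} (g u : G) : IsPElt p (g * u * g⁻¹) ↔ IsPElt p u := by
  unfold IsPElt
  refine exists_congr fun n => ?_
  rw [conj_pow, conj_eq_one_iff]

/-- conjugation iso `C_H(u) ≃ C_H(g u g⁻¹)` -/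
noncomputable def isoConj (g u : G) : (Subgroup.centralizer ({u} : Set G)) ≃*
    (Subgroup.centralizer ({g * u * g⁻¹} : Set G)) where
  toFun x := ⟨g * x.1 * g⁻¹, by
    have := Subgroup.mem_centralizer_singleton_iff.1 x.2
    rw [Subgroup.mem_centralizer_singleton_iff]
    calc g * x.1 * g⁻¹ * (g * u * g⁻¹) = g * (x.1 * u) * g⁻¹ := by group
      _ = g * (u * x.1) * g⁻¹ := by rw [this]
      _ = g * u * g⁻¹ * (g * x.1 * g⁻¹) := by group⟩
  invFun x := ⟨g⁻¹ * x.1 * g, by
    have := Subgroup.mem_centralizer_singleton_iff.1 x.2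
    rw [Subgroup.mem_centralizer_singleton_iff]
    calc g⁻¹ * x.1 * g * u = g⁻¹ * (x.1 * (g * u * g⁻¹)) * g := by group
      _ = g⁻¹ * ((g * u * g⁻¹) * x.1) * g := by rw [this]
      _ = u * (g⁻¹ * x.1 * g) := by group⟩
  left_inv x := by ext; simp only; group
  right_inv x := by ext; simp only; group
  map_mul' x y := by ext; simp only [Subgroup.coe_mul]; group

theorem central_coeff_conj {e : MonoidAlgebra k G} (he : ∀ x : MonoidAlgebra k G, e * x = x * e)
    (g x : G) : e.coeff (g * x * g⁻¹) = e.coeff x := by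
  have h := he (MonoidAlgebra.of k G g)
  have h2 := congrArg (fun z : MonoidAlgebra k G => z.coeff (g * x)) h
  simp only [MonoidAlgebra.of_apply, MonoidAlgebra.coeff_mul_single_apply, MonoidAlgebra.coeff_single_mul_apply,
    mul_one, one_mul, inv_mul_cancel_left] at h2
  exact h2

theorem lc_conj {e : MonoidAlgebra k G} (he : ∀ x : MonoidAlgebra k G, e * x = x * e) (g u : G) :
    lc (br (Subgroup.centralizer ({g * u * g⁻¹} : Set G)) (Subgroup.zpowers (g * u * g⁻¹)) e) =
      lc (br (Subgroup.centralizer ({u} : Set G)) (Subgroup.zpowers u) e) := by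
  refine lc_congr (isoConj g u) _ _ ?_
  intro x
  rw [coeff_br, coeff_br]
  have h1 : (x : G) ∈ Subgroup.centralizer ((Subgroup.zpowers u : Subgroup G) : Set G) := by
    rw [mem_centralizer_comm, Subgroup.zpowers_le, Subgroup.mem_centralizer_singleton_iff]
    exact (Subgroup.mem_centralizer_singleton_iff.1 x.2).symm
  have h2 : ((isoConj g u x : Subgroup.centralizer ({g * u * g⁻¹} : Set G)) : G) ∈
      Subgroup.centralizer ((Subgroup.zpowers (g * u * g⁻¹) : Subgroup G) : Set G) := by
    rw [mem_centralizer_comm, Subgroup.zpowers_le, Subgroup.mem_centralizer_singleton_iff]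
    exact (Subgroup.mem_centralizer_singleton_iff.1 (isoConj g u x).2).symm
  rw [if_pos h1, if_pos h2]
  exact central_coeff_conj he g x
end brr

/-! ### the toggle on `Ch p G` -/

section togg
variable {p : ℕ} {G : Type} [Group G]

theorem isPChain_ch (σ : Ch p G) : IsPChain p σ.1 :=
  ⟨fun Q hQ => ⟨(σ.2.1 Q hQ).2, (σ.2.1 Q hQ).1⟩, σ.2.2⟩

theorem st_eq (σ : Ch p G) : st σ = stab σ.1 := rfl

theorem top_eq (σ : Ch p G) : Crest.Agent.R170.top σ = top σ.1 := by
  unfold Crest.Agent.R170.top top
  rw [Finset.sup_eq_iSup]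
  rfl

noncomputable def tog (U : Subgroup G) (hU : IsPGroup p U) (hU1 : U ≠ ⊥) (σ : Ch p G)
    (h : U ≤ st σ) : Ch p G :=
  ⟨toggle U σ.1, fun Q hQ => ⟨((isPChain_toggle (isPChain_ch σ) hU hU1 h).1 Q hQ).2,
    ((isPChain_toggle (isPChain_ch σ) hU hU1 h).1 Q hQ).1⟩,
    (isPChain_toggle (isPChain_ch σ) hU hU1 h).2⟩

theorem sum_tog_eq_zero [Fintype (Ch p G)] (U : Subgroup G) (hU : IsPGroup p U) (hU1 : U ≠ ⊥)
    (F : Ch p G → ℤ) (hF : ∀ σ (h : U ≤ st σ), F (tog U hU hU1 σ h) = F σ) :
    ∑ σ ∈ (univ : Finset (Ch p G)).filter (fun σ => U ≤ st σ), sgn σ * F σ = 0 := by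
  refine Finset.sum_involution (fun σ hσ => tog U hU hU1 σ (mem_filter.1 hσ).2) ?_ ?_ ?_ ?_
  · intro σ hσ
    rw [hF]
    have h1 : sgn (tog U hU hU1 σ (mem_filter.1 hσ).2) = - sgn σ :=
      neg_one_pow_card_toggle U σ.1
    rw [h1]; ring
  · intro σ hσ _ h
    exact toggle_ne U σ.1 (congrArg Subtype.val h)
  · intro σ hσ
    exact mem_filter.2 ⟨mem_univ _, le_stab_toggle (isPChain_ch σ) (mem_filter.1 hσ).2⟩
  · intro σ hσ
    exact Subtype.ext (toggle_toggle U σ.1)
end togg

section stt
variable {p : ℕ} {G : Type} [Group G]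

theorem top_eq_bot_or_mem (σ : Ch p G) : top σ.1 = ⊥ ∨ top σ.1 ∈ σ.1 := by
  by_cases h0 : ∃ Q ∈ σ.1, True
  · right
    obtain ⟨Q0, hQ0, _⟩ := h0
    obtain ⟨M, hM, hmax⟩ := σ.1.exists_maximal ⟨Q0, hQ0⟩
    have : top σ.1 = M := by
      apply le_antisymm
      · apply Finset.sup_le
        intro Q hQ
        rcases σ.2.2.total hQ hM with h2 | h2
        · exact h2
        · exact hmax hQ h2
      · exact Finset.le_sup (f := id) hM
    rw [this]; exact hM
  · left
    have : σ.1 = ∅ := by
      ext Q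
      constructor
      · intro h; exact absurd ⟨Q, h, trivial⟩ h0
      · intro h; simp at h
    unfold top
    rw [this]; rfl

theorem isPGroup_top (σ : Ch p G) : IsPGroup p (Crest.Agent.R170.top σ) := by
  rw [top_eq]
  rcases top_eq_bot_or_mem σ with h | h
  · rw [h]; exact IsPGroup.of_bot
  · exact (σ.2.1 _ h).1

theorem st_le_normalizer_top (σ : Ch p G) :
    st σ ≤ Subgroup.normalizer ((Crest.Agent.R170.top σ : Subgroup G) : Set G) := by
  rw [top_eq]
  rcases top_eq_bot_or_mem σ with h | h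
  · rw [h]
    intro x _
    exact mem_normalizer_bot x
  · rw [st_eq]
    exact le_stab.1 le_rfl _ h

theorem centralizer_le_normalizer (Q : Subgroup G) :
    Subgroup.centralizer (Q : Set G) ≤ Subgroup.normalizer (Q : Set G) := by
  intro x hx
  rw [Subgroup.mem_normalizer_iff_map_conj_eq]
  ext y
  constructor
  · rintro ⟨z, hz, rfl⟩
    have h1 := Subgroup.mem_centralizer_iff.1 hx z hz
    have h2 : (MulAut.conj x).toMonoidHom z = z := by
      change x * z * x⁻¹ = z
      rw [← h1]; group
    have h3 : ((MulAut.conj x : MulAut G) : G →* G) z = z := h2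
    rw [h3]; exact hz
  · intro hy
    refine ⟨y, hy, ?_⟩
    have h1 := Subgroup.mem_centralizer_iff.1 hx y hy
    change x * y * x⁻¹ = y
    rw [← h1]; group

theorem centralizer_top_le_st (σ : Ch p G) :
    Subgroup.centralizer ((Crest.Agent.R170.top σ : Subgroup G) : Set G) ≤ st σ := by
  rw [top_eq, st_eq, le_stab]
  intro Q hQ
  have h1 : Q ≤ top σ.1 := Finset.le_sup (f := id) hQ
  exact (Subgroup.centralizer_le (by exact_mod_cast h1)).trans (centralizer_le_normalizer Q)
end stt

/-! ### the main theorem -/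

section main
variable {p : ℕ} [Fact p.Prime] {k : Type} [Field k] [IsAlgClosed k] [CharP k p]

theorem kc_eq (hB2 : SB2 p k) {H : Type} [Group H] [Finite H] [Fintype H] (ε : MonoidAlgebra k H)
    (hε : CI ε) :
    (Nat.card H : ℤ) * kc ε = ∑ u : H, (Nat.card (Subgroup.centralizer ({u} : Set H)) : ℤ) *
      (if IsPElt p u then
        (lc (br (Subgroup.centralizer ({u} : Set H)) (Subgroup.zpowers u) ε) : ℤ) else 0) := by
  have : Fintype (ConjClasses H) := Fintype.ofFinite _
  rw [← cls_sum (fun u : H => (if IsPElt p u then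
        (lc (br (Subgroup.centralizer ({u} : Set H)) (Subgroup.zpowers u) ε) : ℤ) else 0))]
  · rw [hB2 H ε hε, ← Finset.mul_sum]
    congr 1
    have : Fintype {c : ConjClasses H // IsPElt p c.out} := Fintype.ofFinite _
    rw [finsum_eq_sum_of_fintype]
    push_cast
    rw [← Finset.sum_filter]
    symm
    apply Finset.sum_subtype
    intro c
    simp
  · intro g u
    simp only [isPElt_conj, lc_conj hε.1]

theorem isPGroup_zpowers {G : Type} [Group G] {u : G} (hu : IsPElt p u) :
    IsPGroup p (Subgroup.zpowers u) := by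
  obtain ⟨n, hn⟩ := hu
  rintro ⟨x, hx⟩
  refine ⟨n, ?_⟩
  obtain ⟨m, rfl⟩ := Subgroup.mem_zpowers_iff.1 hx
  ext
  simp only [Subgroup.coe_pow, Subgroup.coe_one]
  rw [← zpow_natCast, ← zpow_mul, mul_comm, zpow_mul, zpow_natCast, hn, one_zpow]

theorem SK_of (hB2 : SB2 p k) (hBr : SBrCI p k) : SK p k := by
  intro G _ _ e he
  have := finite_ch p G
  have : Fintype (Ch p G) := Fintype.ofFinite _
  have : Fintype G := Fintype.ofFinite _
  rw [finsum_eq_sum_of_fintype, finsum_eq_sum_of_fintype]
  set F : Ch p G → G → ℤ := fun σ u =>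
    (Nat.card (st σ ⊓ Subgroup.centralizer ({u} : Set G) : Subgroup G) : ℤ) *
      lc (br (st σ ⊓ Subgroup.centralizer ({u} : Set G)) (Crest.Agent.R170.top σ) e) with hF
  have hCI : ∀ σ : Ch p G, CI (eC σ e) := by
    intro σ
    exact hBr G e (st σ) (Crest.Agent.R170.top σ) (isPGroup_top σ) (centralizer_top_le_st σ)
      (st_le_normalizer_top σ) he
  have h1 : ∀ σ : Ch p G, (Nat.card (st σ) : ℤ) * kc (eC σ e) =
      ∑ u ∈ (univ : Finset G).filter (fun u => IsPElt p u ∧ u ∈ st σ), F σ u := by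
    intro σ
    rw [kc_eq hB2 (eC σ e) (hCI σ)]
    have h2 : ∑ u ∈ (univ : Finset G).filter (fun u => IsPElt p u ∧ u ∈ st σ), F σ u =
        ∑ u ∈ (univ : Finset G).filter (fun u => u ∈ st σ),
          if IsPElt p u then F σ u else 0 := by
      rw [← Finset.sum_filter, Finset.filter_filter]
      refine Finset.sum_congr ?_ fun _ _ => rfl
      ext u
      simp [and_comm]
    rw [h2, Finset.sum_subtype ((univ : Finset G).filter (fun u => u ∈ st σ))
      (p := fun u => u ∈ st σ) (by simp)]
    refine Finset.sum_congr rfl fun u _ => ?_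
    by_cases hu : IsPElt p u
    · rw [if_pos hu, if_pos ((isPElt_coe u).1 hu)]
      simp only [hF]
      rw [card_br_br, eC, lc_br_br]
    · rw [if_neg hu, if_neg (fun h => hu ((isPElt_coe u).2 h)), mul_zero]
  have h3 : ∑ σ : Ch p G, sgn σ * ((Nat.card (st σ) : ℤ) * kc (eC σ e)) =
      ∑ u ∈ (univ : Finset G).filter (fun u => IsPElt p u),
        ∑ σ ∈ (univ : Finset (Ch p G)).filter (fun σ => Subgroup.zpowers u ≤ st σ),
          sgn σ * F σ u := by
    simp only [h1, Finset.mul_sum]
    apply Finset.sum_comm'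
    intro σ u
    simp [and_comm]
  rw [h3, Finset.sum_eq_single 1]
  · have h4 : ((univ : Finset (Ch p G)).filter (fun σ => Subgroup.zpowers (1 : G) ≤ st σ)) =
        univ := by
      ext σ; simp
    rw [h4]
    refine Finset.sum_congr rfl fun σ _ => ?_
    congr 1
    simp only [hF]
    have h5 : st σ ⊓ Subgroup.centralizer ({(1 : G)} : Set G) = st σ := by
      apply inf_eq_left.2
      intro x _
      rw [Subgroup.mem_centralizer_singleton_iff]; simp
    rw [lc_br_congr h5 e (fun x _ => Iff.rfl), h5]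
    rfl
  · intro u hu hu1
    have hu' := (mem_filter.1 hu).2
    have hU1 : Subgroup.zpowers u ≠ ⊥ := by
      rw [Ne, Subgroup.zpowers_eq_bot]; exact hu1
    have hU := isPGroup_zpowers (p := p) hu'
    refine sum_tog_eq_zero (Subgroup.zpowers u) hU hU1 (fun σ => F σ u) ?_
    intro σ hσ
    have hC : Subgroup.centralizer ({u} : Set G) ≤
        Subgroup.normalizer ((Subgroup.zpowers u : Subgroup G) : Set G) := by
      refine le_trans ?_ (centralizer_le_normalizer (Subgroup.zpowers u))
      intro x hx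
      rw [mem_centralizer_comm, Subgroup.zpowers_le, Subgroup.mem_centralizer_singleton_iff]
      exact (Subgroup.mem_centralizer_singleton_iff.1 hx).symm
    have h6 : st (tog (Subgroup.zpowers u) hU hU1 σ hσ) ⊓ Subgroup.centralizer ({u} : Set G) =
        st σ ⊓ Subgroup.centralizer ({u} : Set G) := by
      rw [inf_comm, inf_comm (st σ)]
      exact inf_stab_toggle (isPChain_ch σ) hU hU1 hσ hC
    simp only [hF]
    have h7 : ∀ x ∈ st (tog (Subgroup.zpowers u) hU hU1 σ hσ) ⊓
        Subgroup.centralizer ({u} : Set G),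
        x ∈ Subgroup.centralizer ((Crest.Agent.R170.top (tog (Subgroup.zpowers u) hU hU1 σ hσ) :
          Subgroup G) : Set G) ↔
        x ∈ Subgroup.centralizer ((Crest.Agent.R170.top σ : Subgroup G) : Set G) := by
      intro x hx
      have hxu : Subgroup.zpowers u ≤ Subgroup.centralizer ({x} : Set G) := by
        rw [Subgroup.zpowers_le, Subgroup.mem_centralizer_singleton_iff]
        exact (Subgroup.mem_centralizer_singleton_iff.1 hx.2).symm
      have h8 := top_toggle_sup (Subgroup.zpowers u) σ.1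
      rw [mem_centralizer_comm, mem_centralizer_comm, top_eq, top_eq]
      have h9 : ∀ K : Subgroup G, K ≤ Subgroup.centralizer ({x} : Set G) ↔
          K ⊔ Subgroup.zpowers u ≤ Subgroup.centralizer ({x} : Set G) := by
        intro K
        constructor
        · intro h; exact sup_le h hxu
        · intro h; exact le_sup_left.trans h
      rw [h9, h9 (top σ.1)]
      change top (toggle (Subgroup.zpowers u) σ.1) ⊔ _ ≤ _ ↔ _
      rw [h8]
    rw [lc_br_congr h6 e h7, h6]
  · intro h
    exact absurd (mem_filter.2 ⟨mem_univ _, ⟨0, by simp⟩⟩) h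
end main

end Crest.Agent.R170.K876
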