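import Crest.Agent.R170.LC_806

/-!
Row 170 (swarm A), leaf LC / LD2, part 2 (helper806): `T(kG)` for a finite group `G`.

`Good p n G` : `1 ≤ n` and `(g^(p^n))^(p^n) = g^(p^n)` for all `g`; then `g ↦ g^(p^n)` is the
`p`-regular part.
-/

set_option autoImplicit false
open scoped BigOperators

namespace Crest.Agent.R170.LC806

open Crest.Agent.R170.J482

section Grp
variable {G : Type*} [Group G] [Finite G]

/-- `g ↦ g ^ p ^ n` is the `p`-regular part -/
def Good (p n : ℕ) (G : Type*) [Group G] : Prop :=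
  1 ≤ n ∧ ∀ g : G, (g ^ p ^ n) ^ p ^ n = g ^ p ^ n

theorem exists_good (p : ℕ) [hp : Fact p.Prime] (G : Type*) [Group G] [Finite G] :
    ∃ n, Good p n G := by
  obtain ⟨a, m, hm, hG⟩ := Nat.exists_eq_pow_mul_and_not_dvd (n := Nat.card G) Nat.card_pos.ne' p
    hp.out.ne_one
  have hcop : Nat.Coprime p m := (Nat.Prime.coprime_iff_not_dvd hp.out).2 hm
  have hmpos : 0 < m := by
    rcases Nat.eq_zero_or_pos m with h | h
    · subst h; exact absurd (dvd_zero p) hm
    · exact h
  refine ⟨(a + 1) * m.totient, ?_, fun g => ?_⟩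
  · have : 0 < m.totient := Nat.totient_pos.2 hmpos
    nlinarith
  · have h1 : p ^ ((a + 1) * m.totient) ≡ 1 [MOD m] := by
      rw [mul_comm, pow_mul]
      have := (Nat.ModEq.pow_totient hcop).pow (a + 1)
      simpa using this
    have h2 : p ^ a ∣ p ^ ((a + 1) * m.totient) := by
      apply pow_dvd_pow
      have : 0 < m.totient := Nat.totient_pos.2 hmpos
      nlinarith
    have h3 : 1 ≤ p ^ ((a + 1) * m.totient) := pow_pos hp.out.pos _
    have h4 : Nat.card G ∣ p ^ ((a + 1) * m.totient) * (p ^ ((a + 1) * m.totient) - 1) := by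
      rw [hG]
      exact mul_dvd_mul h2 ((Nat.modEq_iff_dvd' h3).1 h1.symm)
    rw [← pow_mul]
    have h5 : p ^ ((a + 1) * m.totient) * p ^ ((a + 1) * m.totient)
        = p ^ ((a + 1) * m.totient) * (p ^ ((a + 1) * m.totient) - 1)
          + p ^ ((a + 1) * m.totient) := by
      rw [Nat.mul_sub, mul_one]
      rw [Nat.sub_add_cancel]
      nlinarith
    rw [h5, pow_add]
    obtain ⟨c, hc⟩ := h4
    rw [hc, pow_mul, pow_card_eq_one', one_pow, one_mul]

variable {p : ℕ} [hp : Fact p.Prime] {n : ℕ}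

omit [Finite G] hp in
theorem Good.pow_mul (h : Good p n G) (g : G) (j : ℕ) : g ^ p ^ (n * (j + 1)) = g ^ p ^ n := by
  induction j with
  | zero => simp
  | succ j ih =>
    rw [mul_add n (j + 1) 1, mul_one, pow_add, _root_.pow_mul, ih, h.2]

omit [Finite G] in
theorem Good.coprime (h : Good p n G) (g : G) : (orderOf (g ^ p ^ n)).Coprime p := by
  have h1 : orderOf (g ^ p ^ n) ∣ p ^ n - 1 := by
    apply orderOf_dvd_of_pow_eq_one
    have h2 := h.2 g
    have h3 : 1 ≤ p ^ n := pow_pos hp.out.pos _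
    have h4 : (g ^ p ^ n) ^ (p ^ n - 1) * (g ^ p ^ n) = 1 * (g ^ p ^ n) := by
      rw [← pow_succ, Nat.sub_add_cancel h3, one_mul]
      exact h2
    exact mul_right_cancel h4
  refine Nat.Coprime.coprime_dvd_left h1 ?_
  have h3 : 1 ≤ p ^ n := pow_pos hp.out.pos _
  have h5 : Nat.Coprime (p ^ n - 1) (p ^ n) := by
    have := Nat.coprime_self_add_right (m := p ^ n - 1) (n := 1)
    have h6 : p ^ n - 1 + 1 = p ^ n := Nat.sub_add_cancel h3
    rw [h6] at this
    exact this.2 (Nat.coprime_one_right _)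
  exact Nat.Coprime.coprime_dvd_right (dvd_pow_self p (by have := h.1; omega)) h5

theorem Good.eq_of_coprime (h : Good p n G) {g : G} (hg : (orderOf g).Coprime p) :
    g ^ p ^ n = g := by
  have h1 : (g ^ (p ^ n - 1)) ^ p ^ n = 1 := by
    have h3 : 1 ≤ p ^ n := pow_pos hp.out.pos _
    have h2 := h.2 g
    rw [← _root_.pow_mul] at h2 ⊢
    have h4 : g ^ ((p ^ n - 1) * p ^ n) * g ^ p ^ n = 1 * g ^ p ^ n := by
      rw [← pow_add, one_mul, ← h2]
      congr 1
      rw [Nat.sub_mul, one_mul, Nat.sub_add_cancel]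
      nlinarith
    exact mul_right_cancel h4
  have h5 : orderOf g ∣ (p ^ n - 1) * p ^ n := by
    apply orderOf_dvd_of_pow_eq_one
    rw [_root_.pow_mul]; exact h1
  have h6 : orderOf g ∣ p ^ n - 1 := Nat.Coprime.dvd_of_dvd_mul_right (hg.pow_right n) h5
  have h7 : g ^ (p ^ n - 1) = 1 := orderOf_dvd_iff_pow_eq_one.1 h6
  have h3 : 1 ≤ p ^ n := pow_pos hp.out.pos _
  conv_lhs => rw [← Nat.sub_add_cancel h3, pow_succ, h7, one_mul]

omit [Finite G] hp in
theorem Good.pElt (h : Good p n G) (g : G) : (g * (g ^ p ^ n)⁻¹) ^ p ^ n = 1 := by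
  have hc : Commute g (g ^ p ^ n)⁻¹ := ((Commute.refl g).pow_right _).inv_right
  rw [hc.mul_pow, inv_pow, h.2, mul_inv_cancel]

end Grp

section GA
variable {k G : Type*} [Field k] [Group G] [Finite G]
variable (p : ℕ) [hp : Fact p.Prime] [CharP k p] {n : ℕ}

omit [Finite G] hp [CharP k p] in
theorem conj_sub_mem_CA (g h : G) (c : k) :
    MonoidAlgebra.single (g * h * g⁻¹) c - MonoidAlgebra.single h c ∈ CA k (MonoidAlgebra k G) := by
  have := comm_mem (k := k) (MonoidAlgebra.single g (1 : k)) (MonoidAlgebra.single (h * g⁻¹) c)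
  rw [MonoidAlgebra.single_mul_single, MonoidAlgebra.single_mul_single] at this
  simpa [mul_assoc] using this

omit [Finite G] in
theorem single_sub_mem_TA (hn : Good p n G) (g : G) (c : k) :
    MonoidAlgebra.single g c - MonoidAlgebra.single (g ^ p ^ n) c ∈ TA k (MonoidAlgebra k G) p := by
  have h1 : MonoidAlgebra.single g c - MonoidAlgebra.single (g ^ p ^ n) c
      = c • (MonoidAlgebra.single g (1 : k) - MonoidAlgebra.single (g ^ p ^ n) 1) := by
    rw [smul_sub, MonoidAlgebra.smul_single', MonoidAlgebra.smul_single', mul_one]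
  rw [h1]
  apply Submodule.smul_mem
  apply nilpotent_mem_TA
  refine ⟨p ^ n, ?_⟩
  have hc : Commute (MonoidAlgebra.single g (1 : k)) (MonoidAlgebra.single (g ^ p ^ n) (1 : k)) := by
    unfold Commute SemiconjBy
    rw [MonoidAlgebra.single_mul_single, MonoidAlgebra.single_mul_single, ← pow_succ, ← pow_succ']
  haveI : CharP (MonoidAlgebra k G) p := by
    haveI : Nontrivial (MonoidAlgebra k G) := inferInstance
    exact charP_of_injective_algebraMap (algebraMap k (MonoidAlgebra k G)).injective p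
  rw [sub_pow_char_pow_of_commute _ _ hc, MonoidAlgebra.single_pow, MonoidAlgebra.single_pow,
    hn.2, sub_self]

/-- the linear functional on `k[G]` with values `φ g` -/
noncomputable def lin (φ : G → k) : MonoidAlgebra k G →ₗ[k] k where
  toFun a := a.coeff.sum fun g c => c * φ g
  map_add' a b := by
    rw [MonoidAlgebra.coeff_add]
    exact Finsupp.sum_add_index' (by simp) (by intros; rw [add_mul])
  map_smul' c a := by
    rw [MonoidAlgebra.coeff_smul, Finsupp.sum_smul_index' (by simp), RingHom.id_apply, smul_eq_mul,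
      Finsupp.mul_sum]
    simp only [smul_eq_mul, mul_assoc]

omit [Finite G] hp [CharP k p] [Group G] in
theorem lin_single (φ : G → k) (g : G) (c : k) : lin φ (MonoidAlgebra.single g c) = c * φ g := by
  change (Finsupp.single g c).sum (fun g c => c * φ g) = _
  rw [Finsupp.sum_single_index (by simp)]

omit [Finite G] hp [CharP k p] [Group G] in
theorem lin_eq_sum [Fintype G] (φ : G → k) (a : MonoidAlgebra k G) :
    lin φ a = ∑ g, a.coeff g * φ g := by
  change a.coeff.sum (fun g c => c * φ g) = _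
  exact Finsupp.sum_fintype _ _ (by simp)

omit [Finite G] hp [CharP k p] in
theorem ext_single {f f' : MonoidAlgebra k G →ₗ[k] k}
    (h : ∀ g, f (MonoidAlgebra.single g 1) = f' (MonoidAlgebra.single g 1)) : f = f' := by
  apply LinearMap.ext
  intro x
  induction x using MonoidAlgebra.induction_linear with
  | zero => simp
  | add a b ha hb => rw [map_add, map_add, ha, hb]
  | single g c =>
    have : MonoidAlgebra.single g c = c • MonoidAlgebra.single g (1 : k) := by
      rw [MonoidAlgebra.smul_single', mul_one]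
    rw [this, map_smul, map_smul, h]

omit [Finite G] hp [CharP k p] in
theorem eq_lin (f : MonoidAlgebra k G →ₗ[k] k) :
    f = lin fun g => f (MonoidAlgebra.single g 1) :=
  ext_single fun g => by rw [lin_single, one_mul]

omit [Finite G] hp [CharP k p] in
theorem lin_comm (φ : G → k) (hφ : ∀ g h, φ (g * h) = φ (h * g)) (a b : MonoidAlgebra k G) :
    lin φ (a * b) = lin φ (b * a) := by
  induction a using MonoidAlgebra.induction_linear with
  | zero => simp
  | add a a' ha ha' => rw [add_mul, mul_add, map_add, map_add, ha, ha']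
  | single g c =>
    induction b using MonoidAlgebra.induction_linear with
    | zero => simp
    | add b b' hb hb' => rw [add_mul, mul_add, map_add, map_add, hb, hb']
    | single h d =>
      rw [MonoidAlgebra.single_mul_single, MonoidAlgebra.single_mul_single, lin_single, lin_single,
        hφ g h, mul_comm c d]

/-- (P3) for a class function with values `0, 1` (or in the prime field), constant on sections -/
theorem lin_pow (hn : Good p n G) (φ : G → k) (hφ : ∀ g h, φ (g * h) = φ (h * g))
    (hs : ∀ g, φ (g ^ p ^ n) = φ g) (h01 : ∀ g, φ g ^ p = φ g) (a : MonoidAlgebra k G) (j : ℕ) :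
    lin φ (a ^ p ^ (n * (j + 1))) = lin φ a ^ p ^ (n * (j + 1)) := by
  classical
  letI := Fintype.ofFinite G
  have h := trace_pow (A := MonoidAlgebra k G) (R := k) p (n * (j + 1)) (lin φ).toAddMonoidHom
    (fun a b => lin_comm φ hφ a b) (fun g : G => MonoidAlgebra.single g (a.coeff g))
  rw [← eq_sum_single] at h
  change lin φ (a ^ p ^ (n * (j + 1)))
    = ∑ g, lin φ (MonoidAlgebra.single g (a.coeff g) ^ p ^ (n * (j + 1))) at h
  rw [h, lin_eq_sum, sum_pow_char_pow]
  refine Finset.sum_congr rfl fun g _ => ?_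
  have hpow : ∀ m, φ g ^ p ^ m = φ g := by
    intro m
    induction m with
    | zero => simp
    | succ m ih => rw [pow_succ, pow_mul, ih, h01]
  rw [MonoidAlgebra.single_pow, lin_single, hn.pow_mul, hs, mul_pow, hpow]

open Classical in
/-- section indicator -/
noncomputable def ind (k : Type*) [Field k] (p n : ℕ) (c : G) : G → k := fun g =>
  if IsConj (g ^ p ^ n) (c ^ p ^ n) then 1 else 0

omit [Finite G] hp in
theorem isConj_mul_comm (g h : G) (m : ℕ) : IsConj ((g * h) ^ m) ((h * g) ^ m) := by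
  rw [isConj_iff]
  refine ⟨g⁻¹, ?_⟩
  rw [← conj_pow]
  congr 1
  group

omit [Finite G] hp [CharP k p] in
theorem ind_comm (c g h : G) : ind k p n c (g * h) = ind k p n c (h * g) := by
  unfold ind
  have : IsConj ((g * h) ^ p ^ n) (c ^ p ^ n) ↔ IsConj ((h * g) ^ p ^ n) (c ^ p ^ n) :=
    ⟨fun H => (isConj_mul_comm h g _).trans H, fun H => (isConj_mul_comm g h _).trans H⟩
  by_cases h1 : IsConj ((g * h) ^ p ^ n) (c ^ p ^ n)
  · rw [if_pos h1, if_pos (this.1 h1)]
  · rw [if_neg h1, if_neg (fun h2 => h1 (this.2 h2))]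

omit [Finite G] hp [CharP k p] in
theorem ind_pow (hn : Good p n G) (c g : G) : ind k p n c (g ^ p ^ n) = ind k p n c g := by
  unfold ind
  rw [hn.2]

omit [Finite G] [CharP k p] in
theorem ind_01 (c g : G) : ind k p n c g ^ p = ind k p n c g := by
  unfold ind
  split_ifs
  · rw [one_pow]
  · rw [zero_pow hp.out.ne_zero]

/-- section sums vanish on `T` -/
theorem sec_TA (hn : Good p n G) (c : G) {a : MonoidAlgebra k G}
    (ha : a ∈ TA k (MonoidAlgebra k G) p) : lin (ind k p n c) a = 0 := by
  obtain ⟨m, hm⟩ := TA_pow_mem p ha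
  have h1 := hm (n * (m + 1)) (by have := hn.1; nlinarith)
  have h2 := vanish_CA (lin (ind k p n c)) (fun a b => lin_comm _ (ind_comm p c) a b) h1
  rw [lin_pow p hn _ (ind_comm p c) (ind_pow p hn c) (ind_01 p c)] at h2
  exact pow_eq_zero_iff (pow_pos hp.out.pos _).ne' |>.1 h2

/-- the equivalence relation: conjugate `p`-regular parts -/
def rsetoid (p n : ℕ) (G : Type*) [Group G] : Setoid G where
  r g h := IsConj (g ^ p ^ n) (h ^ p ^ n)
  iseqv := ⟨fun _ => IsConj.refl _, fun h => h.symm, fun h h' => h.trans h'⟩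

omit [Finite G] hp [CharP k p] in
theorem const_of (φ : G → k) (hφ : ∀ g h, φ (g * h) = φ (h * g))
    (hs : ∀ g, φ g = φ (g ^ p ^ n)) {g h : G} (hr : IsConj (g ^ p ^ n) (h ^ p ^ n)) :
    φ g = φ h := by
  obtain ⟨x, hx⟩ := isConj_iff.1 hr
  rw [hs g, hs h, ← hx, hφ (x * g ^ p ^ n) x⁻¹, inv_mul_cancel_left]

omit hp [CharP k p] in
/-- if all section sums of `a` vanish, every section class function vanishes at `a` -/
theorem lin_eq_zero (φ : G → k) (hφ : ∀ g h, φ (g * h) = φ (h * g))
    (hs : ∀ g, φ g = φ (g ^ p ^ n)) {a : MonoidAlgebra k G}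
    (ha : ∀ c, lin (ind k p n c) a = 0) : lin φ a = 0 := by
  classical
  letI := Fintype.ofFinite G
  letI := rsetoid p n G
  rw [lin_eq_sum]
  rw [← Finset.sum_fiberwise_of_maps_to (g := fun g : G => (Quotient.mk (rsetoid p n G) g))
    (t := Finset.univ.image (fun g : G => (Quotient.mk (rsetoid p n G) g)))
    (fun g _ => Finset.mem_image_of_mem _ (Finset.mem_univ g))]
  refine Finset.sum_eq_zero fun q _ => ?_
  have h1 := ha q.out
  rw [lin_eq_sum] at h1
  have h2 : ∑ g with Quotient.mk (rsetoid p n G) g = q, a.coeff g * φ g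
      = (∑ g, a.coeff g * ind k p n q.out g) * φ q.out := by
    rw [Finset.sum_filter, Finset.sum_mul]
    refine Finset.sum_congr rfl fun g _ => ?_
    have h3 : Quotient.mk (rsetoid p n G) g = q ↔ IsConj (g ^ p ^ n) (q.out ^ p ^ n) := by
      constructor
      · intro h
        have : Quotient.mk (rsetoid p n G) g = Quotient.mk (rsetoid p n G) q.out := by
          rw [h]; exact q.out_eq.symm
        exact Quotient.exact this
      · intro h
        have : Quotient.mk (rsetoid p n G) g = Quotient.mk (rsetoid p n G) q.out :=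
          Quotient.sound h
        rw [this]; exact q.out_eq
    unfold ind
    by_cases h4 : IsConj (g ^ p ^ n) (q.out ^ p ^ n)
    · rw [if_pos (h3.2 h4), if_pos h4, mul_one, const_of p φ hφ hs h4]
    · rw [if_neg (fun h => h4 (h3.1 h)), if_neg h4, mul_zero, zero_mul]
  rw [h2, h1, zero_mul]

/-- a functional kills `T(kG)` iff it is a class function constant on `p`-sections -/
theorem kills_TA_iff (hn : Good p n G) (f : MonoidAlgebra k G →ₗ[k] k) :
    (∀ a ∈ TA k (MonoidAlgebra k G) p, f a = 0) ↔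
      (∀ g h : G, f (MonoidAlgebra.single (g * h) 1) = f (MonoidAlgebra.single (h * g) 1)) ∧
        ∀ g : G, f (MonoidAlgebra.single g 1) = f (MonoidAlgebra.single (g ^ p ^ n) 1) := by
  constructor
  · intro h
    refine ⟨fun g h' => ?_, fun g => ?_⟩
    · have := h _ (CA_le_TA p (comm_mem (k := k) (MonoidAlgebra.single g (1 : k))
        (MonoidAlgebra.single h' 1)))
      rw [MonoidAlgebra.single_mul_single, MonoidAlgebra.single_mul_single, map_sub, sub_eq_zero,
        mul_one] at this
      exact this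
    · have := h _ (single_sub_mem_TA p hn g (1 : k))
      rwa [map_sub, sub_eq_zero] at this
  · rintro ⟨h1, h2⟩ a ha
    rw [eq_lin f]
    exact lin_eq_zero p _ h1 h2 (fun c => sec_TA p hn c ha)

/-- `T(kG)` by section sums -/
theorem mem_TA_iff (hn : Good p n G) (a : MonoidAlgebra k G) :
    a ∈ TA k (MonoidAlgebra k G) p ↔ ∀ c, lin (ind k p n c) a = 0 := by
  refine ⟨fun ha c => sec_TA p hn c ha, fun h => ?_⟩
  by_contra hcon
  obtain ⟨f, hfa, hf⟩ := Submodule.exists_le_ker_of_notMem hcon
  apply hfa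
  have h1 := (kills_TA_iff p hn f).1 (fun x hx => hf hx)
  rw [eq_lin f]
  exact lin_eq_zero p _ h1.1 h1.2 h

/-- **LD2, dual form** (512) -/
theorem tf_iff [IsAlgClosed k] (hn : Good p n G) (f : MonoidAlgebra k G →ₗ[k] k) :
    ((∀ x y, f (x * y) = f (y * x)) ∧
      ∀ x ∈ Ring.jacobson (MonoidAlgebra k G), f x = 0) ↔
      (∀ g h : G, f (MonoidAlgebra.of k G (g * h)) = f (MonoidAlgebra.of k G (h * g))) ∧
        ∀ g : G, f (MonoidAlgebra.of k G g) = f (MonoidAlgebra.of k G (g ^ p ^ n)) := by
  haveI : FiniteDimensional k (MonoidAlgebra k G) :=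
    Module.Finite.equiv (MonoidAlgebra.coeffLinearEquiv (S := k) (M := G) k).symm
  obtain ⟨D⟩ := exists_splitData k (MonoidAlgebra k G)
  rw [trace_form_iff p D f, kills_TA_iff p hn f]
  simp only [MonoidAlgebra.of_apply]

end GA

end Crest.Agent.R170.LC806
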