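import Crest.Agent.R170.P2_482
import Crest.Agent.R170.Split_482

/-!
Row 170 (swarm A), leaf LC / LD2 (helper806).

`CA k A` = the span of the commutators of a `k`-algebra `A`; for `k` of characteristic `p`,
`TA k A p` = `{a | ∃ n, a ^ p ^ n ∈ CA k A}`, a submodule.

* `pow_sum_sub_mem`, `pow_add_sub_mem`: `p^n`-th powers are additive modulo `CA`.
* `TA_eq_sup_jacobson`: `A` finite-dimensional over `k` algebraically closed: `TA = CA ⊔ rad A`.
* for `A = k[G]`: `mem_TA_iff` via the section sums, `finrank_quot_TA`.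
-/

set_option autoImplicit false
open scoped BigOperators

namespace Crest.Agent.R170.LC806

open Crest.Agent.R170.J482

section Gen
variable (k A : Type*) [Field k] [Ring A] [Algebra k A]

/-- the span of commutators -/
def CA : Submodule k A := Submodule.span k {x | ∃ a b : A, x = a * b - b * a}

variable {k A}

theorem comm_mem (a b : A) : a * b - b * a ∈ CA k A := Submodule.subset_span ⟨a, b, rfl⟩

theorem vanish_CA (f : A →ₗ[k] k) (hf : ∀ a b, f (a * b) = f (b * a)) {x : A} (hx : x ∈ CA k A) :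
    f x = 0 := by
  have h : CA k A ≤ LinearMap.ker f := by
    rw [CA, Submodule.span_le]
    rintro y ⟨a, b, rfl⟩
    simp [hf a b]
  exact h hx

theorem mem_CA_iff (x : A) :
    x ∈ CA k A ↔ ∀ f : A →ₗ[k] k, (∀ a b, f (a * b) = f (b * a)) → f x = 0 := by
  refine ⟨fun hx f hf => vanish_CA f hf hx, fun h => ?_⟩
  by_contra hx
  obtain ⟨f, hfx, hf⟩ := Submodule.exists_le_ker_of_notMem hx
  refine hfx (h f fun a b => ?_)
  have := hf (comm_mem (k := k) a b)
  rw [LinearMap.mem_ker, map_sub, sub_eq_zero] at this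
  exact this

variable (p : ℕ) [hp : Fact p.Prime] [CharP k p]

theorem pow_sum_sub_mem {ι : Type*} [Fintype ι] (x : ι → A) (n : ℕ) :
    (∑ i, x i) ^ p ^ n - ∑ i, x i ^ p ^ n ∈ CA k A := by
  rw [mem_CA_iff]
  intro f hf
  have h := trace_pow (A := A) (R := k) p n f.toAddMonoidHom (fun a b => hf a b) x
  change f _ = ∑ i, f _ at h
  rw [map_sub, h, map_sum, sub_self]

theorem pow_add_sub_mem (a b : A) (n : ℕ) :
    (a + b) ^ p ^ n - (a ^ p ^ n + b ^ p ^ n) ∈ CA k A := by
  have h := pow_sum_sub_mem (k := k) p (fun i : Bool => if i then a else b) n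
  simpa using h

/-- a sum over a finset -/
theorem pow_finsum_sub_mem {ι : Type*} (s : Finset ι) (x : ι → A) (n : ℕ) :
    (∑ i ∈ s, x i) ^ p ^ n - ∑ i ∈ s, x i ^ p ^ n ∈ CA k A := by
  have h := pow_sum_sub_mem (k := k) p (fun i : s => x i) n
  rw [Finset.sum_coe_sort s (fun i => x i), Finset.sum_coe_sort s (fun i => x i ^ p ^ n)] at h
  exact h

theorem mul_pow_swap (a b : A) (n : ℕ) : (a * b) ^ (n + 1) = a * ((b * a) ^ n * b) := by
  induction n with
  | zero => simp
  | succ n ih =>
    rw [pow_succ', ih, pow_succ' (b * a) n]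
    simp only [mul_assoc]

theorem comm_pow_mem (a b : A) (n : ℕ) : (a * b - b * a) ^ p ^ n ∈ CA k A := by
  obtain ⟨m, hm⟩ : ∃ m, p ^ n = m + 1 := ⟨p ^ n - 1, by
    have := pow_pos hp.out.pos n; omega⟩
  have h := pow_add_sub_mem (k := k) p (a * b) (-(b * a)) n
  have e : (-(b * a)) ^ p ^ n = - (b * a) ^ p ^ n := by
    rcases hp.out.eq_two_or_odd' with h2 | hodd
    · subst h2
      have h2' : (2 : A) = 0 := by
        have : ((2 : ℕ) : k) = 0 := CharP.cast_eq_zero k 2
        have h3 := congrArg (algebraMap k A) this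
        rw [map_natCast, map_zero] at h3
        exact_mod_cast h3
      have hneg : ∀ y : A, -y = y := by
        intro y
        have : y + y = 0 := by rw [← two_mul, h2', zero_mul]
        exact neg_eq_of_add_eq_zero_left this
      rw [hneg, hneg]
    · exact (Odd.pow hodd).neg_pow _
  rw [e] at h
  have h1 : (a * b) ^ p ^ n - (b * a) ^ p ^ n ∈ CA k A := by
    rw [hm, mul_pow_swap, pow_succ]
    have := comm_mem (k := k) a ((b * a) ^ m * b)
    simpa [mul_assoc] using this
  rw [sub_eq_add_neg (a * b) (b * a)]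
  have := (CA k A).add_mem h h1
  convert this using 1
  abel

theorem CA_pow_mem {c : A} (hc : c ∈ CA k A) (n : ℕ) : c ^ p ^ n ∈ CA k A := by
  induction hc using Submodule.span_induction with
  | mem x hx => obtain ⟨a, b, rfl⟩ := hx; exact comm_pow_mem p a b n
  | zero => rw [zero_pow (pow_pos hp.out.pos n).ne']; exact (CA k A).zero_mem
  | add x y _ _ hx hy =>
    have h := pow_add_sub_mem (k := k) p x y n
    have := (CA k A).add_mem h ((CA k A).add_mem hx hy)
    simpa using this
  | smul r x _ hx =>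
    rw [smul_pow]
    exact (CA k A).smul_mem _ hx

/-- congruent elements have congruent `p^n`-th powers -/
theorem pow_congr {a b : A} (h : a - b ∈ CA k A) (n : ℕ) : a ^ p ^ n - b ^ p ^ n ∈ CA k A := by
  have h1 := pow_add_sub_mem (k := k) p (a - b) b n
  have h2 := (CA k A).add_mem h1 (CA_pow_mem p h n)
  rw [sub_add_cancel] at h2
  convert h2 using 1
  abel

variable (k A)
/-- `T(A)` -/
def TA : Submodule k A where
  carrier := {a | ∃ n, a ^ p ^ n ∈ CA k A}
  add_mem' := by
    rintro a b ⟨n, hn⟩ ⟨m, hm⟩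
    refine ⟨n + m, ?_⟩
    have h1 : a ^ p ^ (n + m) ∈ CA k A := by
      rw [pow_add, pow_mul]; exact CA_pow_mem p hn m
    have h2 : b ^ p ^ (n + m) ∈ CA k A := by
      rw [add_comm n m, pow_add, pow_mul]; exact CA_pow_mem p hm n
    have h := pow_add_sub_mem (k := k) p a b (n + m)
    have := (CA k A).add_mem h ((CA k A).add_mem h1 h2)
    simpa using this
  zero_mem' := ⟨0, by simp⟩
  smul_mem' := by
    rintro r a ⟨n, hn⟩
    exact ⟨n, by rw [smul_pow]; exact (CA k A).smul_mem _ hn⟩

variable {k A}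

theorem mem_TA {a : A} : a ∈ TA k A p ↔ ∃ n, a ^ p ^ n ∈ CA k A := Iff.rfl

theorem CA_le_TA : CA k A ≤ TA k A p := fun a ha => ⟨0, by simpa using ha⟩

theorem nilpotent_mem_TA {a : A} (ha : IsNilpotent a) : a ∈ TA k A p := by
  obtain ⟨m, hm⟩ := ha
  refine ⟨m, ?_⟩
  have : a ^ p ^ m = 0 := pow_eq_zero_of_le (Nat.lt_pow_self hp.out.one_lt).le hm
  rw [this]
  exact (CA k A).zero_mem

theorem TA_pow_mem {a : A} (ha : a ∈ TA k A p) : ∃ n₀, ∀ n, n₀ ≤ n → a ^ p ^ n ∈ CA k A := by
  obtain ⟨m, hm⟩ := ha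
  refine ⟨m, fun n hn => ?_⟩
  obtain ⟨j, rfl⟩ := Nat.exists_eq_add_of_le hn
  rw [pow_add, pow_mul]
  exact CA_pow_mem p hm j

omit hp [CharP k p] in
theorem central_mul_CA {z : A} (hz : ∀ x, z * x = x * z) {a : A} (ha : a ∈ CA k A) :
    z * a ∈ CA k A := by
  induction ha using Submodule.span_induction with
  | mem x hx =>
    obtain ⟨a, b, rfl⟩ := hx
    have := comm_mem (k := k) (z * a) b
    rw [mul_sub, ← mul_assoc, ← mul_assoc z b a, hz b, mul_assoc b z a]
    rw [← mul_assoc b z a, ← hz b, mul_assoc] at *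
    simpa [mul_assoc] using this
  | zero => rw [mul_zero]; exact (CA k A).zero_mem
  | add x y _ _ hx hy => rw [mul_add]; exact (CA k A).add_mem hx hy
  | smul r x _ hx => rw [mul_smul_comm]; exact (CA k A).smul_mem _ hx

theorem central_mul_TA {z : A} (hz : ∀ x, z * x = x * z) {a : A} (ha : a ∈ TA k A p) :
    z * a ∈ TA k A p := by
  obtain ⟨n, hn⟩ := ha
  refine ⟨n, ?_⟩
  have hc : Commute z a := hz a
  rw [hc.mul_pow]
  refine central_mul_CA ?_ hn
  intro x
  have : ∀ m, z ^ m * x = x * z ^ m := by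
    intro m
    exact (Commute.pow_left (hz x : Commute z x) m).eq
  exact this _

omit hp [CharP k p] in
/-- a trace form on `∏ M_{d i}(k)` is a combination of the traces -/
theorem trace_form_pi {n : ℕ} (d : Fin n → ℕ) [∀ i, NeZero (d i)]
    (g : (Π i, Matrix (Fin (d i)) (Fin (d i)) k) →ₗ[k] k) (hg : ∀ x y, g (x * y) = g (y * x))
    (M : Π i, Matrix (Fin (d i)) (Fin (d i)) k) :
    g M = ∑ i, g (Pi.single i (Matrix.single 0 0 1)) * (M i).trace := by
  classical
  have h1 : M = ∑ i, Pi.single i (M i) := by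
    rw [Finset.univ_sum_single]
  conv_lhs => rw [h1]
  rw [map_sum]
  refine Finset.sum_congr rfl fun i _ => ?_
  have h2 : Pi.single i (M i) = ∑ r, ∑ s, (M i r s) • Pi.single (M := fun i => Matrix (Fin (d i)) (Fin (d i)) k) i (Matrix.single r s (1 : k)) := by
    conv_lhs => rw [Matrix.matrix_eq_sum_single (M i)]
    have hadd : ∀ {ι : Type} (t : Finset ι) (F : ι → Matrix (Fin (d i)) (Fin (d i)) k),
        Pi.single (M := fun i => Matrix (Fin (d i)) (Fin (d i)) k) i (∑ j ∈ t, F j)
          = ∑ j ∈ t, Pi.single i (F j) := by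
      intro ι t F
      exact map_sum (AddMonoidHom.single (fun i => Matrix (Fin (d i)) (Fin (d i)) k) i) F t
    rw [hadd]
    refine Finset.sum_congr rfl fun r _ => ?_
    rw [hadd]
    refine Finset.sum_congr rfl fun s _ => ?_
    rw [← Pi.single_smul, Matrix.smul_single, smul_eq_mul, mul_one]
  rw [h2, map_sum, Matrix.trace, Finset.mul_sum]
  refine Finset.sum_congr rfl fun r _ => ?_
  rw [map_sum, Finset.sum_eq_single r]
  · rw [map_smul, smul_eq_mul, mul_comm, Matrix.diag_apply]
    congr 1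
    have e1 : Pi.single (M := fun i => Matrix (Fin (d i)) (Fin (d i)) k) i (Matrix.single r r (1 : k))
        = Pi.single i (Matrix.single r 0 1) * Pi.single i (Matrix.single 0 r 1) := by
      rw [← Pi.single_mul, Matrix.single_mul_single_same, mul_one]
    have e2 : Pi.single (M := fun i => Matrix (Fin (d i)) (Fin (d i)) k) i (Matrix.single 0 0 (1 : k))
        = Pi.single i (Matrix.single 0 r 1) * Pi.single i (Matrix.single r 0 1) := by
      rw [← Pi.single_mul, Matrix.single_mul_single_same, mul_one]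
    rw [e1, hg, ← e2]
  · intro s _ hs
    rw [map_smul]
    have e1 : Pi.single (M := fun i => Matrix (Fin (d i)) (Fin (d i)) k) i (Matrix.single r s (1 : k))
        = Pi.single i (Matrix.single r s 1) * Pi.single i (Matrix.single s s 1) := by
      rw [← Pi.single_mul, Matrix.single_mul_single_same, mul_one]
    rw [e1, hg, ← Pi.single_mul, Matrix.single_mul_single_of_ne _ _ _ _ hs, Pi.single_zero,
      map_zero, smul_zero]
  · intro h; exact absurd (Finset.mem_univ r) h

/-- trace of a `p^n`-th power -/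
theorem trace_pow_char {m : Type*} [Fintype m] [DecidableEq m] (M : Matrix m m k) (n : ℕ) :
    (M ^ p ^ n).trace = M.trace ^ p ^ n := by
  classical
  have h := trace_pow (A := Matrix m m k) (R := k) p n (Matrix.traceLinearMap m k k).toAddMonoidHom
    (fun a b => Matrix.trace_mul_comm a b) (fun x : m × m => Matrix.single x.1 x.2 (M x.1 x.2))
  have e : ∑ x : m × m, Matrix.single x.1 x.2 (M x.1 x.2) = M := by
    rw [Fintype.sum_prod_type]
    exact (Matrix.matrix_eq_sum_single M).symm
  rw [e] at h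
  change (M ^ p ^ n).trace = ∑ x : m × m, (Matrix.single x.1 x.2 (M x.1 x.2) ^ p ^ n).trace at h
  rw [h, Fintype.sum_prod_type, Matrix.trace, sum_pow_char_pow]
  refine Finset.sum_congr rfl fun r _ => ?_
  rw [Finset.sum_eq_single r]
  · have hpow : ∀ (c : k) (j : ℕ), 1 ≤ j → Matrix.single r r c ^ j = Matrix.single r r (c ^ j) := by
      intro c j hj
      induction j, hj using Nat.le_induction with
      | base => simp
      | succ j _ ih => rw [pow_succ, ih, Matrix.single_mul_single_same, pow_succ]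
    change (Matrix.single r r (M r r) ^ p ^ n).trace = _
    rw [hpow _ _ (pow_pos hp.out.pos n), Matrix.trace_single_eq_same, Matrix.diag_apply]
  · intro s _ hs
    have h2 : 2 ≤ p ^ n ∨ n = 0 := by
      rcases Nat.eq_zero_or_pos n with h0 | h0
      · exact Or.inr h0
      · exact Or.inl (le_trans hp.out.two_le (Nat.le_self_pow h0.ne' p))
    change (Matrix.single r s (M r s) ^ p ^ n).trace = 0
    rcases h2 with h2 | rfl
    · have : Matrix.single r s (M r s) ^ p ^ n = 0 := by
        refine pow_eq_zero_of_le h2 ?_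
        rw [pow_two, Matrix.single_mul_single_of_ne _ _ _ _ hs]
      rw [this, Matrix.trace_zero]
    · rw [pow_zero, pow_one, Matrix.trace_single_eq_of_ne _ _ _ hs.symm]
  · intro h; exact absurd (Finset.mem_univ r) h

/-- the `i`-th irreducible trace -/
noncomputable def τ (D : SplitData k A) (i : Fin D.n) : A →ₗ[k] k where
  toFun a := (D.π a i).trace
  map_add' a b := by simp
  map_smul' c a := by simp

omit hp [CharP k p] in
theorem τ_apply (D : SplitData k A) (i : Fin D.n) (a : A) : τ D i a = (D.π a i).trace := rfl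

omit hp [CharP k p] in
theorem τ_comm (D : SplitData k A) (i : Fin D.n) (a b : A) : τ D i (a * b) = τ D i (b * a) := by
  rw [τ_apply, τ_apply, map_mul, map_mul, Pi.mul_apply, Pi.mul_apply, Matrix.trace_mul_comm]

omit hp [CharP k p] in
theorem τ_rad (D : SplitData k A) (i : Fin D.n) {a : A} (ha : a ∈ Ring.jacobson A) :
    τ D i a = 0 := by
  rw [τ_apply, (D.ker_rad a).2 ha]
  simp

theorem τ_pow (D : SplitData k A) (i : Fin D.n) (a : A) (n : ℕ) :
    τ D i (a ^ p ^ n) = τ D i a ^ p ^ n := by
  rw [τ_apply, τ_apply, map_pow, Pi.pow_apply, trace_pow_char]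

theorem τ_TA (D : SplitData k A) (i : Fin D.n) {a : A} (ha : a ∈ TA k A p) : τ D i a = 0 := by
  obtain ⟨n, hn⟩ := ha
  have h := vanish_CA (τ D i) (τ_comm D i) hn
  rw [τ_pow] at h
  exact pow_eq_zero_iff (pow_pos hp.out.pos n).ne' |>.1 h

omit hp [CharP k p] in
/-- a trace form killing the radical is a combination of the irreducible traces -/
theorem trace_form (D : SplitData k A) (f : A →ₗ[k] k) (hf : ∀ a b, f (a * b) = f (b * a))
    (hr : ∀ a ∈ Ring.jacobson A, f a = 0) (a : A) :
    f a = ∑ i, f (D.ε i) * τ D i a := by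
  have hker : LinearMap.ker D.π.toLinearMap ≤ LinearMap.ker f := by
    intro x hx
    exact hr x ((D.ker_rad x).1 hx)
  obtain ⟨g, hg⟩ : ∃ g : (Π i, Matrix (Fin (D.d i)) (Fin (D.d i)) k) →ₗ[k] k,
      ∀ x, g (D.π x) = f x := by
    let e := D.π.toLinearMap.quotKerEquivOfSurjective D.surj
    refine ⟨((LinearMap.ker D.π.toLinearMap).liftQ f hker).comp e.symm.toLinearMap, fun x => ?_⟩
    have : e (Submodule.Quotient.mk x) = D.π x := rfl
    rw [LinearMap.comp_apply, ← this]
    simp
  have hgc : ∀ x y, g (x * y) = g (y * x) := by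
    intro x y
    obtain ⟨x, rfl⟩ := D.surj x
    obtain ⟨y, rfl⟩ := D.surj y
    rw [← map_mul, ← map_mul, hg, hg, hf]
  rw [← hg, trace_form_pi D.d g hgc]
  refine Finset.sum_congr rfl fun i _ => ?_
  rw [← D.π_ε i, hg, τ_apply]

theorem trace_form_iff (D : SplitData k A) [FiniteDimensional k A] (f : A →ₗ[k] k) :
    ((∀ a b, f (a * b) = f (b * a)) ∧ ∀ a ∈ Ring.jacobson A, f a = 0) ↔
      ∀ a ∈ TA k A p, f a = 0 := by
  constructor
  · rintro ⟨h1, h2⟩ a ha
    rw [trace_form D f h1 h2]
    exact Finset.sum_eq_zero fun i _ => by rw [τ_TA p D i ha, mul_zero]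
  · intro h
    refine ⟨fun a b => ?_, fun a ha => ?_⟩
    · have := h _ (CA_le_TA p (comm_mem (k := k) a b))
      rwa [map_sub, sub_eq_zero] at this
    · haveI : IsArtinianRing A := IsArtinianRing.of_finite k A
      refine h a (nilpotent_mem_TA p ?_)
      obtain ⟨m, hm⟩ := IsSemiprimaryRing.isNilpotent (R := A)
      refine ⟨m, ?_⟩
      have : a ^ m ∈ Ring.jacobson A ^ m := Ideal.pow_mem_pow ha m
      rw [hm] at this
      simpa using this

/-- `T(A) = [A,A] + rad A` -/
theorem TA_eq_sup_jacobson [IsAlgClosed k] [FiniteDimensional k A] :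
    TA k A p = CA k A ⊔ (Ring.jacobson A).restrictScalars k := by
  obtain ⟨D⟩ := exists_splitData k A
  apply le_antisymm
  · intro a ha
    by_contra hcon
    obtain ⟨f, hfa, hf⟩ := Submodule.exists_le_ker_of_notMem hcon
    refine hfa (((trace_form_iff p D f).1 ⟨fun x y => ?_, fun x hx => ?_⟩) a ha)
    · have := hf (Submodule.mem_sup_left (comm_mem (k := k) x y))
      rwa [LinearMap.mem_ker, map_sub, sub_eq_zero] at this
    · exact hf (Submodule.mem_sup_right (show x ∈ (Ring.jacobson A).restrictScalars k from hx))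
  · refine sup_le (CA_le_TA p) ?_
    intro a ha
    have ha' : a ∈ Ring.jacobson A := ha
    haveI : IsArtinianRing A := IsArtinianRing.of_finite k A
    refine nilpotent_mem_TA p ?_
    obtain ⟨m, hm⟩ := IsSemiprimaryRing.isNilpotent (R := A)
    refine ⟨m, ?_⟩
    have : a ^ m ∈ Ring.jacobson A ^ m := Ideal.pow_mem_pow ha' m
    rw [hm] at this
    simpa using this

end Gen

end Crest.Agent.R170.LC806
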