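import Crest.Agent.R170.LIT_290
import Crest.Agent.R170.Stm_995
import Crest.Agent.R170.FIN_534

/-!
Row 170, leaf LIT in the literal forms of `Stm_995` and `FIN_534`.
-/

set_option autoImplicit false

namespace Crest.Agent.R170.LIT290

open MonoidAlgebra Crest.AlgebraR.Weights Crest.AlgebraR.Blocks

variable (p : ℕ) [Fact p.Prime] (k : Type) [Field k] [IsAlgClosed k] [CharP k p]

/-- the joint `SLit` -/
theorem sLit : SLit p k := fun _ _ _ _ he => weightedWeightCount_eq Fact.out he

/-- the joint `HLit` -/
theorem hLit : FIN534.HLit p k := fun _ _ _ _ he => weightedWeightCount_eq Fact.out he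

end Crest.Agent.R170.LIT290
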