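import Mathlib
import Crest.Prelude.Def_Blocks
import Crest.Prelude.Def_Weights

/-!
Row 170 (swarm A), leaf LIT, first half.

* `exists_char`: a nonzero central idempotent `e` of a finite-dimensional algebra over an
  algebraically closed field has a central character with `χ e = 1`.
* `char_unique`: for a primitive central idempotent it is unique.
* `assigned_iff`: `AssignedTo e Q m ↔ 1 - localImage Q e ∈ m`.
-/

set_option autoImplicit false
open scoped BigOperators

namespace Crest.Agent.R170.LITA970

/-! ### Central characters -/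

section CommAlg
variable {k Z : Type*} [Field k] [IsAlgClosed k] [CommRing Z] [Algebra k Z]
  [FiniteDimensional k Z]

/-- a maximal ideal gives a `k`-algebra map to `k` with that kernel -/
theorem exists_algHom_of_maximal (M : Ideal Z) [hM : M.IsMaximal] :
    ∃ χ : Z →ₐ[k] k, ∀ z, χ z = 0 ↔ z ∈ M := by
  letI : Field (Z ⧸ M) := Ideal.Quotient.field M
  haveI : FiniteDimensional k (Z ⧸ M) := inferInstance
  haveI : Algebra.IsIntegral k (Z ⧸ M) := inferInstance
  have hb : Function.Bijective (algebraMap k (Z ⧸ M)) :=
    IsAlgClosed.algebraMap_bijective_of_isIntegral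
  let E : k ≃ₐ[k] (Z ⧸ M) := AlgEquiv.ofBijective (Algebra.ofId k (Z ⧸ M)) hb
  refine ⟨E.symm.toAlgHom.comp (Ideal.Quotient.mkₐ k M), fun z => ?_⟩
  have : (E.symm.toAlgHom.comp (Ideal.Quotient.mkₐ k M)) z = E.symm (Ideal.Quotient.mk M z) := rfl
  rw [this, EmbeddingLike.map_eq_zero_iff, Ideal.Quotient.eq_zero_iff_mem]

theorem exists_char' (e : Z) (he : e * e = e) (h0 : e ≠ 0) : ∃ χ : Z →ₐ[k] k, χ e = 1 := by
  -- `1 - e` is not a unit
  have hu : ¬ IsUnit (1 - e) := by
    intro hu
    apply h0
    have h1 : (1 - e) * e = 0 := by rw [sub_mul, one_mul, he, sub_self]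
    exact (hu.mul_right_eq_zero).1 h1
  obtain ⟨M, hM, hMe⟩ := exists_max_ideal_of_mem_nonunits (a := 1 - e) hu
  obtain ⟨χ, hχ⟩ := exists_algHom_of_maximal (k := k) M
  refine ⟨χ, ?_⟩
  have := (hχ (1 - e)).2 hMe
  rw [map_sub, map_one] at this
  exact (sub_eq_zero.1 this).symm

/-- two different characters are separated by an idempotent -/
theorem exists_idem (χ₁ χ₂ : Z →ₐ[k] k) (h : χ₁ ≠ χ₂) :
    ∃ f : Z, f * f = f ∧ χ₁ f = 1 ∧ χ₂ f = 0 := by
  obtain ⟨z0, hz0⟩ : ∃ z, χ₁ z ≠ χ₂ z := by
    by_contra hcon
    push Not at hcon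
    exact h (AlgHom.ext hcon)
  -- `z` with `χ₂ z = 0`, `χ₁ z ≠ 0`
  obtain ⟨z, hz1, hz2⟩ : ∃ z : Z, χ₁ z ≠ 0 ∧ χ₂ z = 0 := by
    refine ⟨z0 - algebraMap k Z (χ₂ z0), ?_, ?_⟩
    · rw [map_sub, AlgHom.commutes]
      exact sub_ne_zero.2 hz0
    · rw [map_sub, AlgHom.commutes]
      exact sub_self _
  haveI : IsArtinian Z Z := by
    haveI : IsArtinian k Z := inferInstance
    exact isArtinian_of_tower k inferInstance
  obtain ⟨n, y, hy⟩ := IsArtinian.exists_pow_succ_smul_dvd (R := Z) (M := Z) z 1
  simp only [smul_eq_mul, mul_one] at hy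
  -- hy : z ^ (n+1) * y = z ^ n
  set N := n + 1 with hN
  have h1 : z ^ N * (z * y) = z ^ N := by
    calc z ^ N * (z * y) = z * (z ^ (n + 1) * y) := by rw [hN]; ring
      _ = z * z ^ n := by rw [hy]
      _ = z ^ N := by rw [hN]; ring
  have h2 : ∀ j : ℕ, z ^ N * (z * y) ^ j = z ^ N := by
    intro j
    induction j with
    | zero => simp
    | succ j ih => rw [pow_succ (z * y) j, ← mul_assoc, ih, h1]
  have h3 : z ^ N * (z ^ N * y ^ N) = z ^ N := by
    rw [← mul_pow]; exact h2 N
  refine ⟨z ^ N * y ^ N, ?_, ?_, ?_⟩
  · calc z ^ N * y ^ N * (z ^ N * y ^ N) = (z ^ N * (z ^ N * y ^ N)) * y ^ N := by ring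
      _ = z ^ N * y ^ N := by rw [h3]
  · have h4 := congrArg χ₁ h3
    rw [map_mul] at h4
    have h5 : χ₁ (z ^ N) ≠ 0 := by
      rw [map_pow]; exact pow_ne_zero _ hz1
    exact mul_left_cancel₀ h5 (h4.trans (mul_one _).symm)
  · rw [map_mul, map_pow, hz2, hN, pow_succ, mul_zero, zero_mul]

end CommAlg

section Center
variable {k A : Type*} [Field k] [IsAlgClosed k] [Ring A] [Algebra k A] [FiniteDimensional k A]

/-- existence of the central character of a nonzero central idempotent -/
theorem exists_char (e : Subalgebra.center k A) (he : e * e = e) (h0 : e ≠ 0) :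
    ∃ χ : Subalgebra.center k A →ₐ[k] k, χ e = 1 := by
  haveI : FiniteDimensional k (Subalgebra.center k A) := inferInstance
  exact exists_char' e he h0

/-- uniqueness of the central character of a primitive central idempotent -/
theorem char_unique (e : Subalgebra.center k A) (he : e * e = e)
    (hprim : ∀ f : Subalgebra.center k A, f * f = f → f * e = f → f = 0 ∨ f = e)
    (χ₁ χ₂ : Subalgebra.center k A →ₐ[k] k) (h1 : χ₁ e = 1) (h2 : χ₂ e = 1) : χ₁ = χ₂ := by
  haveI : FiniteDimensional k (Subalgebra.center k A) := inferInstance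
  by_contra h
  obtain ⟨f, hf, hf1, hf2⟩ := exists_idem χ₁ χ₂ h
  rcases hprim (f * e) (by rw [mul_mul_mul_comm, hf, he]) (by rw [mul_assoc, he]) with h' | h'
  · have := congrArg χ₁ h'
    rw [map_mul, hf1, h1, map_zero, mul_one] at this
    exact one_ne_zero this
  · have := congrArg χ₂ h'
    rw [map_mul, hf2, h2, zero_mul] at this
    exact one_ne_zero this.symm

end Center

/-! ### The central character of a simple module -/

section Schur
variable {k B : Type*} [Field k] [IsAlgClosed k] [Ring B] [Algebra k B] [FiniteDimensional k B]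

/-- every central element acts by a scalar on a simple module; as an algebra map -/
theorem exists_omega (m : Submodule B B) (hm : IsCoatom m) :
    ∃ ω : Subalgebra.center k B →ₐ[k] k,
      ∀ (z : Subalgebra.center k B) (s : B ⧸ m), (z : B) • s = algebraMap k B (ω z) • s := by
  haveI hs : IsSimpleModule B (B ⧸ m) := isSimpleModule_iff_isCoatom.2 hm
  haveI : FiniteDimensional k (B ⧸ m) :=
    Module.Finite.of_surjective ((Submodule.mkQ m).restrictScalars k) (Submodule.mkQ_surjective m)
  have hb := IsSimpleModule.algebraMap_end_bijective_of_isAlgClosed (A := B) (V := B ⧸ m) k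
  -- the endomorphism given by a central element
  let act : Subalgebra.center k B →ₐ[k] Module.End B (B ⧸ m) :=
    { toFun := fun z =>
        { toFun := fun s => (z : B) • s
          map_add' := fun s t => smul_add _ _ _
          map_smul' := fun b s => by
            rw [RingHom.id_apply, smul_smul, smul_smul]
            congr 1
            exact ((Subalgebra.mem_center_iff.1 z.2) b).symm }
      map_one' := by ext s; simp
      map_mul' := fun x y => LinearMap.ext fun s => mul_smul (x : B) (y : B) s
      map_zero' := by ext s; simp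
      map_add' := fun x y => by
        ext s
        simp [add_smul]
      commutes' := fun c => by
        ext s
        simp }
  let E : k ≃ₐ[k] Module.End B (B ⧸ m) := AlgEquiv.ofBijective (Algebra.ofId k _) hb
  refine ⟨E.symm.toAlgHom.comp act, fun z s => ?_⟩
  have h1 : E ((E.symm.toAlgHom.comp act) z) = act z := E.apply_symm_apply (act z)
  have h2 := congrArg (fun F : Module.End B (B ⧸ m) => F s) h1
  have h3 : E ((E.symm.toAlgHom.comp act) z) s =
      ((E.symm.toAlgHom.comp act) z) • s := rfl
  rw [algebraMap_smul]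
  exact h2.symm.trans h3

end Schur

/-! ### `localImage` -/

section Local
open MonoidAlgebra Crest.AlgebraR.Weights Crest.AlgebraR.Blocks

variable {k G : Type*} [Field k] [Group G] [Finite G]

theorem restrictCoeff_add (H : Subgroup G) (z w : MonoidAlgebra k G) :
    restrictCoeff H (z + w) = restrictCoeff H z + restrictCoeff H w := by
  ext h; simp [restrictCoeff]

theorem restrictCoeff_smul (H : Subgroup G) (c : k) (z : MonoidAlgebra k G) :
    restrictCoeff H (c • z) = c • restrictCoeff H z := by
  ext h; simp [restrictCoeff]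

theorem restrictCoeff_one (H : Subgroup G) :
    restrictCoeff H (1 : MonoidAlgebra k G) = 1 := by
  classical
  ext h
  simp only [restrictCoeff, MonoidAlgebra.one_def, MonoidAlgebra.coeff_single,
    Finsupp.equivFunOnFinite_symm_apply_apply, Finsupp.single_apply]
  by_cases hh : h = 1
  · subst hh; simp
  · have : ¬ (1 : G) = (h : G) := fun h' => hh (Subtype.ext h'.symm)
    rw [if_neg this, if_neg (fun h' => hh h'.symm)]

theorem localImage_add (Q : Subgroup G) (z w : MonoidAlgebra k G) :
    localImage Q (z + w) = localImage Q z + localImage Q w := by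
  unfold localImage
  rw [restrictCoeff_add, MonoidAlgebra.mapDomain_add]

theorem localImage_smul (Q : Subgroup G) (c : k) (z : MonoidAlgebra k G) :
    localImage Q (c • z) = c • localImage Q z := by
  unfold localImage
  rw [restrictCoeff_smul, MonoidAlgebra.mapDomain_smul]

theorem localImage_one (Q : Subgroup G) :
    localImage Q (1 : MonoidAlgebra k G) = 1 := by
  unfold localImage
  rw [restrictCoeff_one]
  simp [MonoidAlgebra.one_def]

theorem localImage_algebraMap (Q : Subgroup G) (c : k) :
    localImage Q (algebraMap k (MonoidAlgebra k G) c) = algebraMap k (WeightAlgebra k Q) c := by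
  rw [Algebra.algebraMap_eq_smul_one, Algebra.algebraMap_eq_smul_one, localImage_smul,
    localImage_one]

theorem localImage_zero (Q : Subgroup G) : localImage Q (0 : MonoidAlgebra k G) = 0 := by
  have := localImage_smul Q (0 : k) (0 : MonoidAlgebra k G)
  rwa [zero_smul, zero_smul] at this

/-- `localImage` as a linear map between the centres -/
noncomputable def locLin (Q : Subgroup G)
    (hcen : ∀ z : MonoidAlgebra k G, (∀ x, z * x = x * z) →
      ∀ x, localImage Q z * x = x * localImage Q z) :
    Subalgebra.center k (MonoidAlgebra k G) →ₗ[k] Subalgebra.center k (WeightAlgebra k Q) where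
  toFun z := ⟨localImage Q (z : MonoidAlgebra k G), Subalgebra.mem_center_iff.2 fun x =>
    (hcen z (fun y => ((Subalgebra.mem_center_iff.1 z.2) y).symm) x).symm⟩
  map_add' z w := by
    apply Subtype.ext
    exact localImage_add Q (z : MonoidAlgebra k G) w
  map_smul' c z := by
    apply Subtype.ext
    exact localImage_smul Q c (z : MonoidAlgebra k G)

theorem locLin_coe (Q : Subgroup G)
    (hcen : ∀ z : MonoidAlgebra k G, (∀ x, z * x = x * z) →
      ∀ x, localImage Q z * x = x * localImage Q z)
    (z : Subalgebra.center k (MonoidAlgebra k G)) :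
    ((locLin Q hcen z : Subalgebra.center k (WeightAlgebra k Q)) : WeightAlgebra k Q) =
      localImage Q (z : MonoidAlgebra k G) := rfl

/-- `localImage` as an algebra map between the centres, given that it is multiplicative and central -/
noncomputable def locHom (Q : Subgroup G)
    (hmul : ∀ z w : MonoidAlgebra k G, (∀ x, z * x = x * z) → (∀ x, w * x = x * w) →
      localImage Q (z * w) = localImage Q z * localImage Q w)
    (hcen : ∀ z : MonoidAlgebra k G, (∀ x, z * x = x * z) →
      ∀ x, localImage Q z * x = x * localImage Q z) :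
    Subalgebra.center k (MonoidAlgebra k G) →ₐ[k] Subalgebra.center k (WeightAlgebra k Q) :=
  AlgHom.ofLinearMap (locLin Q hcen)
    (by
      apply Subtype.ext
      rw [locLin_coe]
      exact localImage_one Q)
    (by
      intro z w
      apply Subtype.ext
      rw [locLin_coe]
      exact hmul z w (fun y => ((Subalgebra.mem_center_iff.1 z.2) y).symm)
        (fun y => ((Subalgebra.mem_center_iff.1 w.2) y).symm))

theorem locHom_coe (Q : Subgroup G)
    (hmul : ∀ z w : MonoidAlgebra k G, (∀ x, z * x = x * z) → (∀ x, w * x = x * w) →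
      localImage Q (z * w) = localImage Q z * localImage Q w)
    (hcen : ∀ z : MonoidAlgebra k G, (∀ x, z * x = x * z) →
      ∀ x, localImage Q z * x = x * localImage Q z)
    (z : Subalgebra.center k (MonoidAlgebra k G)) :
    ((locHom Q hmul hcen z : Subalgebra.center k (WeightAlgebra k Q)) : WeightAlgebra k Q) =
      localImage Q (z : MonoidAlgebra k G) := rfl

variable [IsAlgClosed k]

theorem assigned_iff' (e : MonoidAlgebra k G) (he : IsBlockIdempotent e) (Q : Subgroup G)
    (hmul : ∀ z w : MonoidAlgebra k G, (∀ x, z * x = x * z) → (∀ x, w * x = x * w) →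
      localImage Q (z * w) = localImage Q z * localImage Q w)
    (hcen : ∀ z : MonoidAlgebra k G, (∀ x, z * x = x * z) →
      ∀ x, localImage Q z * x = x * localImage Q z)
    (m : Submodule (WeightAlgebra k Q) (WeightAlgebra k Q)) (hm : IsCoatom m) :
    AssignedTo e Q m ↔ 1 - localImage Q e ∈ m := by
  obtain ⟨hec, hee, he0, hprim⟩ := he
  haveI : FiniteDimensional k (MonoidAlgebra k G) :=
    Module.Finite.of_basis (MonoidAlgebra.basis G k)
  haveI : FiniteDimensional k (WeightAlgebra k Q) :=
    Module.Finite.of_basis (MonoidAlgebra.basis (NormQuot Q) k)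
  let E : Subalgebra.center k (MonoidAlgebra k G) :=
    ⟨e, Subalgebra.mem_center_iff.2 fun x => (hec x).symm⟩
  have hE : E * E = E := Subtype.ext hee
  have hE0 : E ≠ 0 := fun h => he0 (congrArg Subtype.val h)
  have hEprim : ∀ f : Subalgebra.center k (MonoidAlgebra k G), f * f = f → f * E = f →
      f = 0 ∨ f = E := by
    intro f hf hfE
    rcases hprim f (fun x => ((Subalgebra.mem_center_iff.1 f.2) x).symm)
      (congrArg Subtype.val hf) (congrArg Subtype.val hfE) with h | h
    · exact Or.inl (Subtype.ext h)
    · exact Or.inr (Subtype.ext h)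
  constructor
  · intro h
    obtain ⟨χ, hχ⟩ := exists_char E hE hE0
    have h1 := h χ (fun z hz => by
      have : z = E := Subtype.ext hz
      rw [this]; exact hχ) E (Submodule.Quotient.mk 1)
    rw [hχ, map_one, one_smul, ← Submodule.Quotient.mk_smul, Submodule.Quotient.eq,
      smul_eq_mul, mul_one] at h1
    have h2 := m.neg_mem h1
    rwa [neg_sub] at h2
  · intro h χ hχ z s
    obtain ⟨ω, hω⟩ := exists_omega (k := k) m hm
    have h1 : (ω.comp (locHom Q hmul hcen)) E = 1 := by
      have h2 := hω (locHom Q hmul hcen E) (Submodule.Quotient.mk 1)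
      have h3 : ((locHom Q hmul hcen E : Subalgebra.center k (WeightAlgebra k Q)) :
          WeightAlgebra k Q) = localImage Q e := locHom_coe Q hmul hcen E
      have h4 : (localImage Q e) • (Submodule.Quotient.mk 1 : WeightAlgebra k Q ⧸ m)
          = Submodule.Quotient.mk 1 := by
        rw [← Submodule.Quotient.mk_smul, Submodule.Quotient.eq, smul_eq_mul, mul_one]
        have := m.neg_mem h
        rwa [neg_sub] at this
      rw [h3, h4, algebraMap_smul] at h2
      -- `mk 1 ≠ 0`
      have h5 : (Submodule.Quotient.mk 1 : WeightAlgebra k Q ⧸ m) ≠ 0 := by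
        intro h6
        rw [Submodule.Quotient.mk_eq_zero] at h6
        exact hm.1 (eq_top_iff.2 fun x _ => by
          have := m.smul_mem x h6
          rwa [smul_eq_mul, mul_one] at this)
      have h7 : ((1 : k) - (ω (locHom Q hmul hcen E))) •
          (Submodule.Quotient.mk 1 : WeightAlgebra k Q ⧸ m) = 0 := by
        rw [sub_smul, one_smul, ← h2, sub_self]
      rcases smul_eq_zero.1 h7 with h8 | h8
      · exact (sub_eq_zero.1 h8).symm
      · exact absurd h8 h5
    have h2 : χ = ω.comp (locHom Q hmul hcen) :=
      char_unique E hE hEprim χ _ (hχ E rfl) h1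
    rw [h2]
    exact hω (locHom Q hmul hcen z) s

end Local

end Crest.Agent.R170.LITA970
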