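import Crest.Agent.R170.Stm_995
import Crest.Agent.R170.LITA_970

/-!
Row 170 (swarm A), leaf LIT, second half: `SLit` from the multiplicativity and centrality of
`localImage` (BR606).
-/

set_option autoImplicit false
open scoped BigOperators

namespace Crest.Agent.R170.LITB970

open MonoidAlgebra Crest.AlgebraR.Weights Crest.AlgebraR.Blocks

theorem simpleClassCount_congr {A : Type*} [Ring A] (P P' : Submodule A A → Prop)
    (h : ∀ m, IsCoatom m → (P m ↔ P' m)) : simpleClassCount A P = simpleClassCount A P' := by
  unfold simpleClassCount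
  apply Nat.card_congr
  refine Quotient.congr (Equiv.subtypeEquivRight fun m => ?_) ?_
  · exact and_congr_right fun hm => h m hm
  · intro a b
    exact Iff.rfl

/-- `LIT` for one group, given the two facts on `localImage` -/
theorem weightCountAt_eq {k G : Type} [Field k] [IsAlgClosed k] [Group G] [Finite G]
    (e : MonoidAlgebra k G) (he : IsBlockIdempotent e) (Q : Subgroup G)
    (hmul : ∀ z w : MonoidAlgebra k G, (∀ x, z * x = x * z) → (∀ x, w * x = x * w) →
      localImage Q (z * w) = localImage Q z * localImage Q w)
    (hcen : ∀ z : MonoidAlgebra k G, (∀ x, z * x = x * z) →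
      ∀ x, localImage Q z * x = x * localImage Q z) :
    weightCountAt e Q = f0 (localImage Q e) := by
  unfold weightCountAt f0
  apply simpleClassCount_congr
  intro m hm
  exact and_congr_right fun _ => LITA970.assigned_iff' e he Q hmul hcen m hm

theorem slit_of (p : ℕ) (k : Type) [Field k] [IsAlgClosed k]
    (hmul : ∀ (G : Type) [Group G] [Finite G] (Q : Subgroup G), IsPGroup p Q →
      ∀ z w : MonoidAlgebra k G, (∀ x, z * x = x * z) → (∀ x, w * x = x * w) →
      localImage Q (z * w) = localImage Q z * localImage Q w)
    (hcen : ∀ (G : Type) [Group G] [Finite G] (Q : Subgroup G), IsPGroup p Q →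
      ∀ z : MonoidAlgebra k G, (∀ x, z * x = x * z) →
      ∀ x, localImage Q z * x = x * localImage Q z)
    (G : Type) [Group G] [Finite G] (e : MonoidAlgebra k G) (he : IsBlockIdempotent e) :
    weightedWeightCount p e = Wt p e := by
  classical
  haveI : Fintype {Q : Subgroup G // IsPGroup p Q} := Fintype.ofFinite _
  unfold weightedWeightCount Wt
  rw [finsum_eq_sum_of_fintype]
  haveI : ∀ Q : {Q : Subgroup G // IsPGroup p Q},
      Finite (Subgroup.normalizer (Q.1 : Set G) × Fin (weightCountAt e Q.1)) := fun Q =>
    inferInstance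
  rw [Nat.card_sigma]
  refine Finset.sum_congr rfl fun Q _ => ?_
  rw [Nat.card_prod, Nat.card_eq_fintype_card (α := Fin _), Fintype.card_fin,
    weightCountAt_eq e he Q.1 (hmul G Q.1 Q.2) (hcen G Q.1 Q.2)]

end Crest.Agent.R170.LITB970
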