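import Mathlib
import Crest.Agent.R170.DefW_995
import Crest.Agent.R170.Stm_995
import Crest.Agent.R170.ORB_700
import Crest.Agent.R170.SCC_538
import Crest.Agent.R170.F0iso_538

/-!
# Row 170: `SOrb`, and conjugation invariance of `σ ↦ lc (eC σ e)`, ... (helper700)
-/

set_option autoImplicit false
set_option linter.unusedSectionVars false

namespace Crest.Agent.R170.ORB700

open MonoidAlgebra Crest.AlgebraR.Weights Crest.Agent.R170

/-- the joint ORB -/
theorem sorb (p : ℕ) : SOrb p := by
  intro G _ _ f hf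
  exact (card_mul_altSum f hf).symm

section conj
variable {p : ℕ} {k G : Type} [Field k] [Group G] [Finite G]

theorem coeff_conj {e : MonoidAlgebra k G} (he : ∀ x : MonoidAlgebra k G, e * x = x * e)
    (g x : G) : e.coeff (g * x * g⁻¹) = e.coeff x := by
  have h := congrArg (fun y : MonoidAlgebra k G => y.coeff (g * x)) (he (single g 1))
  simpa [coeff_mul_single_apply, coeff_single_mul_apply, mul_assoc] using h

/-- conjugation by `g`, as an isomorphism of stabilisers -/
noncomputable def stIso (g : G) (σ : Ch p G) : st σ ≃* st (g • σ) :=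
  ((st σ).equivMapOfInjective (MulAut.conj g).toMonoidHom (MulAut.conj g).injective).trans
    (MulEquiv.subgroupCongr (st_smul g σ).symm)

theorem stIso_coe (g : G) (σ : Ch p G) (x : st σ) :
    ((stIso g σ x : st (g • σ)) : G) = g * (x : G) * g⁻¹ := by
  rfl

theorem mem_centralizer_cj {g x : G} {Q : Subgroup G} :
    g * x * g⁻¹ ∈ Subgroup.centralizer ((cj g Q : Subgroup G) : Set G) ↔
      x ∈ Subgroup.centralizer (Q : Set G) := by
  rw [Subgroup.mem_centralizer_iff, Subgroup.mem_centralizer_iff]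
  constructor
  · intro h y hy
    have h1 := h (g * y * g⁻¹) (by
      show g * y * g⁻¹ ∈ cj g Q
      rw [mem_cj]
      have : g⁻¹ * (g * y * g⁻¹) * g = y := by group
      rw [this]; exact hy)
    have h2 : g * (y * x) * g⁻¹ = g * (x * y) * g⁻¹ := by
      calc g * (y * x) * g⁻¹ = g * y * g⁻¹ * (g * x * g⁻¹) := by group
        _ = g * x * g⁻¹ * (g * y * g⁻¹) := h1
        _ = g * (x * y) * g⁻¹ := by group
    exact mul_left_cancel (mul_right_cancel h2)
  · intro h y hy
    have hy' : g⁻¹ * y * g ∈ Q := mem_cj.1 hy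
    have h1 := h _ hy'
    calc y * (g * x * g⁻¹) = g * (g⁻¹ * y * g * x) * g⁻¹ := by group
      _ = g * (x * (g⁻¹ * y * g)) * g⁻¹ := by rw [h1]
      _ = g * x * g⁻¹ * y := by group

open Classical in
theorem eC_coeff (σ : Ch p G) (e : MonoidAlgebra k G) (x : st σ) :
    (eC σ e).coeff x =
      if (x : G) ∈ Subgroup.centralizer (top σ : Set G) then e.coeff (x : G) else 0 := rfl

/-- **the idempotent of a conjugate chain is the transported idempotent** -/
theorem eC_smul {e : MonoidAlgebra k G} (he : ∀ x : MonoidAlgebra k G, e * x = x * e)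
    (g : G) (σ : Ch p G) (x : st σ) :
    (eC (g • σ) e).coeff (stIso g σ x) = (eC σ e).coeff x := by
  classical
  rw [eC_coeff, eC_coeff, stIso_coe, top_smul, coeff_conj he]
  exact if_congr mem_centralizer_cj rfl rfl

theorem eC_conj {e : MonoidAlgebra k G} (he : ∀ x : MonoidAlgebra k G, e * x = x * e)
    {σ τ : Ch p G} (h : chRel σ τ) :
    ∃ φ : st σ ≃* st τ, ∀ x, (eC τ e).coeff (φ x) = (eC σ e).coeff x := by
  obtain ⟨g, rfl⟩ := chRel_iff.1 h
  exact ⟨stIso g σ, eC_smul he g σ⟩

/-- invariance of any isomorphism-invariant number -/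
theorem inv_eC {M : Type*} (F : ∀ (H : Type) [Group H], MonoidAlgebra k H → M)
    (hF : ∀ (H H' : Type) [Group H] [Group H'] (a : MonoidAlgebra k H) (b : MonoidAlgebra k H')
      (φ : H ≃* H'), (∀ x, b.coeff (φ x) = a.coeff x) → F H' b = F H a)
    {e : MonoidAlgebra k G} (he : ∀ x : MonoidAlgebra k G, e * x = x * e)
    {σ τ : Ch p G} (h : chRel σ τ) : F (st σ) (eC σ e) = F (st τ) (eC τ e) := by
  obtain ⟨φ, hφ⟩ := eC_conj he h
  exact (hF _ _ _ _ φ hφ).symm

theorem lc_eC {e : MonoidAlgebra k G} (he : ∀ x : MonoidAlgebra k G, e * x = x * e)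
    {σ τ : Ch p G} (h : chRel σ τ) : lc (eC σ e) = lc (eC τ e) := by
  obtain ⟨φ, hφ⟩ := eC_conj he h
  exact (SCC538.lc_congr φ _ _ hφ).symm

theorem f0_eC {e : MonoidAlgebra k G} (he : ∀ x : MonoidAlgebra k G, e * x = x * e)
    {σ τ : Ch p G} (h : chRel σ τ) : f0 (eC σ e) = f0 (eC τ e) := by
  obtain ⟨φ, hφ⟩ := eC_conj he h
  exact (SCC538.f0_congr φ _ _ hφ).symm

end conj

section kc
variable {k G H : Type} [Field k] [Group G] [Group H]

/-- transport of the centre part along a group isomorphism -/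
theorem kc_congr (f : G ≃* H) (e : MonoidAlgebra k G) (e' : MonoidAlgebra k H)
    (h : ∀ g, e'.coeff (f g) = e.coeff g) : kc e' = kc e := by
  have h1 : e' = mapDomainRingEquiv k f e := by
    apply MonoidAlgebra.coeff_injective
    ext x
    rw [coeff_mapDomainRingEquiv]
    obtain ⟨g, rfl⟩ := f.surjective x
    rw [h]
    simp [Finsupp.equivMapDomain]
  subst h1
  unfold kc
  symm
  refine LinearEquiv.finrank_eq ?_
  refine
    { toFun := fun z => ⟨mapDomainRingEquiv k f z.1, ?_, ?_⟩
      invFun := fun z => ⟨(mapDomainRingEquiv k f).symm z.1, ?_, ?_⟩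
      map_add' := ?_
      map_smul' := ?_
      left_inv := ?_
      right_inv := ?_ }
  · intro x
    obtain ⟨y, rfl⟩ := (mapDomainRingEquiv k f).surjective x
    rw [← map_mul, ← map_mul, z.2.1]
  · rw [← map_mul, z.2.2]
  · intro a b
    exact Subtype.ext (map_add _ _ _)
  · intro c a
    apply Subtype.ext
    apply MonoidAlgebra.coeff_injective
    ext x
    simp only [RingHom.id_apply]
    show (mapDomainRingEquiv k f (c • a.1)).coeff x = (c • mapDomainRingEquiv k f a.1).coeff x
    rw [coeff_mapDomainRingEquiv]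
    show _ = c • (mapDomainRingEquiv k f a.1).coeff x
    rw [coeff_mapDomainRingEquiv]
    rfl
  · intro x
    apply (mapDomainRingEquiv k f).injective
    rw [map_mul, map_mul, RingEquiv.apply_symm_apply, z.2.1]
  · apply (mapDomainRingEquiv k f).injective
    rw [map_mul, RingEquiv.apply_symm_apply, z.2.2]
  · intro a
    exact Subtype.ext (RingEquiv.symm_apply_apply _ _)
  · intro a
    exact Subtype.ext (RingEquiv.apply_symm_apply _ _)

variable {p : ℕ} [Finite G]

theorem kc_eC {e : MonoidAlgebra k G} (he : ∀ x : MonoidAlgebra k G, e * x = x * e)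
    {σ τ : Ch p G} (h : chRel σ τ) : kc (eC σ e) = kc (eC τ e) := by
  obtain ⟨φ, hφ⟩ := eC_conj he h
  exact (kc_congr φ _ _ hφ).symm

end kc

end Crest.Agent.R170.ORB700
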