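import Crest.Agent.R170.Stm_995
import Crest.Agent.R170.P2_482

set_option autoImplicit false

/-!
Row 170, leaf OS (Osima's theorem, purely modular proof): the coefficients of a central idempotent
of `k[G]`, `char k = p`, vanish on the `p`-singular elements.

* `restrict_mul` : restriction of coefficients to the centraliser of a `p`-element `u` is
  multiplicative on the elements commuting with `u` (Brauer homomorphism).
* `coeff_central_pow` : `u` central, `u ≠ 1` a `p`-element: the coefficient of `x ^ (p ^ n)` at `u` is `0`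
  for `|G| ∣ p ^ n * r`, `p ∤ r`.
* `osima`, `os : SOs p k`.
-/

namespace Crest.Agent.R170.OS182

open Crest.AlgebraR.Weights Crest.Agent.R170.J482

section restrict
variable {k G : Type*} [Field k] [Group G] [Finite G]

theorem restrictCoeff_coeff (H : Subgroup G) (z : MonoidAlgebra k G) (h : H) :
    (restrictCoeff H z).coeff h = z.coeff (h : G) := rfl

/-- conjugation by `u` -/
def cj {G : Type*} [Group G] (u : G) : Function.End G := fun g => u * g * u⁻¹

theorem cj_apply {G : Type*} [Group G] (u g : G) : cj u g = u * g * u⁻¹ := rfl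

theorem cj_pow {G : Type*} [Group G] (u : G) (m : ℕ) (g : G) :
    (cj u ^ m) g = u ^ m * g * (u ^ m)⁻¹ := by
  induction m generalizing g with
  | zero => rw [pow_zero, pow_zero]; change g = _; simp
  | succ m ih =>
    rw [pow_succ]
    change (cj u ^ m) (cj u g) = _
    rw [ih, pow_succ, cj_apply]
    simp only [mul_assoc, mul_inv_rev]

/-- Brauer homomorphism at a `p`-element. -/
theorem restrict_mul (p : ℕ) [Fact p.Prime] [CharP k p] (u : G) (n : ℕ) (hu : u ^ p ^ n = 1)
    (x y : MonoidAlgebra k G) (hx : ∀ g, x.coeff (u * g * u⁻¹) = x.coeff g)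
    (hy : ∀ g, y.coeff (u * g * u⁻¹) = y.coeff g) :
    restrictCoeff (Subgroup.centralizer ({u} : Set G)) (x * y) =
      restrictCoeff (Subgroup.centralizer ({u} : Set G)) x *
        restrictCoeff (Subgroup.centralizer ({u} : Set G)) y := by
  classical
  have := Fintype.ofFinite G
  have := Fintype.ofFinite (Subgroup.centralizer ({u} : Set G))
  apply MonoidAlgebra.coeff_injective
  ext c
  have hc : u * (c : G) = c * u := (Subgroup.mem_centralizer_singleton_iff.1 c.2).symm
  rw [restrictCoeff_coeff, coeff_mul_fin, coeff_mul_fin]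
  have hcj : (cj u) ^ p ^ n = 1 := by
    funext g
    rw [cj_pow, hu]
    change _ = g
    simp
  rw [sum_fixed p n (cj u) hcj (fun h : G => x.coeff h * y.coeff (h⁻¹ * c))
    (by
      intro g
      change x.coeff (u * g * u⁻¹) * y.coeff ((u * g * u⁻¹)⁻¹ * c) = _
      rw [hx]
      congr 1
      rw [← hy (g⁻¹ * c)]
      congr 1
      rw [mul_assoc (u) (g⁻¹ * (c : G)) u⁻¹, mul_assoc g⁻¹ (c : G) u⁻¹]
      have h3 : (c : G) * u⁻¹ = u⁻¹ * c := by
        rw [mul_inv_eq_iff_eq_mul, mul_assoc, ← hc, inv_mul_cancel_left]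
      rw [h3]
      simp only [mul_inv_rev, inv_inv, mul_assoc])]
  refine Finset.sum_subtype _ ?_ (fun h : G => x.coeff h * y.coeff (h⁻¹ * c))
  intro g
  simp only [Finset.mem_filter, Finset.mem_univ, true_and]
  rw [Subgroup.mem_centralizer_singleton_iff, cj_apply, mul_inv_eq_iff_eq_mul]
  exact eq_comm

theorem restrict_pow (p : ℕ) [Fact p.Prime] [CharP k p] (u : G) (n : ℕ) (hu : u ^ p ^ n = 1)
    (x : MonoidAlgebra k G) (hx : Commute (MonoidAlgebra.single u (1 : k)) x) (m : ℕ) :
    restrictCoeff (Subgroup.centralizer ({u} : Set G)) (x ^ (m + 1)) =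
      restrictCoeff (Subgroup.centralizer ({u} : Set G)) x ^ (m + 1) := by
  have hc : ∀ y : MonoidAlgebra k G, Commute (MonoidAlgebra.single u (1 : k)) y →
      ∀ g, y.coeff (u * g * u⁻¹) = y.coeff g := by
    intro y hy g
    have := congrArg (fun z => z.coeff (u * g)) hy.eq
    simp only [MonoidAlgebra.coeff_single_mul_apply, MonoidAlgebra.coeff_mul_single_apply] at this
    simpa using this.symm
  induction m with
  | zero => simp
  | succ m ih =>
    rw [pow_succ, restrict_mul p u n hu _ _ (hc _ (hx.pow_right _)) (hc _ hx), ih, pow_succ _ (m + 1)]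

end restrict

section central
variable {k G : Type*} [Field k] [Group G] [Finite G]

/-- coefficient at a central `p`-element `u ≠ 1` of a `p ^ n`-th power -/
theorem coeff_central_pow (p : ℕ) [hp : Fact p.Prime] [CharP k p] (u : G) (hu : ∀ g, u * g = g * u)
    (n r : ℕ) (hG : ∀ g : G, g ^ (p ^ n * r) = 1) (hur : u ^ r ≠ 1)
    (x : MonoidAlgebra k G) : (x ^ p ^ n).coeff u = 0 := by
  classical
  have := Fintype.ofFinite G
  let lam : MonoidAlgebra k G →+ k :=
    { toFun := fun z => z.coeff u
      map_zero' := rfl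
      map_add' := fun _ _ => rfl }
  have hlam : ∀ a b, lam (a * b) = lam (b * a) := by
    intro a b
    change (a * b).coeff u = (b * a).coeff u
    rw [coeff_mul_fin, coeff_mul_fin]
    refine Fintype.sum_bijective (fun h => h⁻¹ * u)
      ⟨fun a b hab => by simpa using hab, fun g => ⟨u * g⁻¹, by
        simp only [mul_inv_rev, inv_inv]
        rw [mul_assoc, inv_mul_cancel, mul_one]⟩⟩ _ _ ?_
    intro h
    rw [mul_comm]
    congr 2
    rw [mul_inv_rev, inv_inv, mul_assoc, ← hu h]
    simp
  have h := trace_pow (A := MonoidAlgebra k G) (R := k) p n lam hlam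
    (fun g : G => MonoidAlgebra.single g (x.coeff g))
  rw [← eq_sum_single] at h
  change (x ^ p ^ n).coeff u = _ at h
  rw [h]
  refine Finset.sum_eq_zero fun g _ => ?_
  change (MonoidAlgebra.single g (x.coeff g) ^ p ^ n).coeff u = 0
  rw [MonoidAlgebra.single_pow, MonoidAlgebra.coeff_single, Finsupp.single_apply, if_neg]
  intro hgu
  have h1 : u ^ r = 1 := by rw [← hgu, ← pow_mul, hG]
  exact hur h1

end central

section osima
variable {k G : Type*} [Field k] [Group G] [Finite G]

/-- **Osima**: the coefficients of a central idempotent vanish on the `p`-singular elements. -/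
theorem osima (p : ℕ) [hp : Fact p.Prime] [CharP k p] (e : MonoidAlgebra k G)
    (hc : ∀ x, e * x = x * e) (hi : e * e = e) (g : G) (hg : p ∣ orderOf g) : e.coeff g = 0 := by
  classical
  have := Fintype.ofFinite G
  obtain ⟨n, r, hr, hcard⟩ := Nat.exists_eq_pow_mul_and_not_dvd
    (Nat.card_pos (α := G)).ne' p hp.out.ne_one
  have hcop : Nat.Coprime (p ^ n) r := Nat.Coprime.pow_left n ((Nat.Prime.coprime_iff_not_dvd hp.out).2 hr)
  have hn : n ≠ 0 := by
    rintro rfl
    rw [pow_zero, one_mul] at hcard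
    exact hr (hcard ▸ hg.trans (orderOf_dvd_natCard g))
  have hpn : p ∣ p ^ n := dvd_pow_self p hn
  obtain ⟨K, hK1, hK2⟩ := Nat.chineseRemainder hcop 1 0
  have hK : 1 ≤ K := by
    rcases Nat.eq_zero_or_pos K with h | h
    · subst h
      have := (Nat.modEq_iff_dvd' (Nat.zero_le 1)).1 hK1
      simp only [Nat.sub_zero, Nat.dvd_one] at this
      rw [this] at hpn
      exact absurd (Nat.dvd_one.1 hpn) hp.out.ne_one
    · exact h
  obtain ⟨t, ht⟩ := (Nat.modEq_iff_dvd' hK).1 hK1.symm
  have hKr : r ∣ K := (Nat.modEq_zero_iff_dvd).1 hK2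
  have hKt : K = 1 + t * p ^ n := by rw [mul_comm t, ← ht]; omega
  have hpow : ∀ h : G, h ^ (p ^ n * r) = 1 := fun h => by rw [← hcard]; exact pow_card_eq_one'
  set u := g ^ K with hu
  have hup : u ^ p ^ n = 1 := by
    obtain ⟨s, rfl⟩ := hKr
    rw [hu, ← pow_mul, show r * s * p ^ n = p ^ n * r * s by ring, pow_mul, hpow, one_pow]
  have hu1 : u ≠ 1 := by
    intro h
    have h1 : p ∣ 1 + t * p ^ n := hKt ▸ hg.trans (orderOf_dvd_of_pow_eq_one h)
    have h2 : p ∣ 1 := (Nat.dvd_add_left (hpn.mul_left t)).1 h1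
    exact hp.out.ne_one (Nat.dvd_one.1 h2)
  have hur : u ^ r ≠ 1 := by
    intro h
    apply hu1
    have h1 := orderOf_dvd_of_pow_eq_one h
    have h2 := orderOf_dvd_of_pow_eq_one hup
    have h3 := Nat.dvd_gcd h2 h1
    rw [Nat.Coprime] at hcop
    rw [hcop] at h3
    exact orderOf_eq_one_iff.1 (Nat.dvd_one.1 h3)
  -- the element `x = e * g ^ t`
  set x : MonoidAlgebra k G := e * MonoidAlgebra.single (g ^ t) 1 with hx
  have hcomm : Commute (MonoidAlgebra.single u (1 : k)) x := by
    refine Commute.mul_right (hc _).symm ?_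
    refine MonoidAlgebra.single_commute_single ?_ (Commute.one_left _)
    exact (Commute.refl g).pow_pow _ _
  have hxpow : x ^ p ^ n = e * MonoidAlgebra.single (g ^ (t * p ^ n)) 1 := by
    rw [hx, Commute.mul_pow (hc _), MonoidAlgebra.single_pow, one_pow, ← pow_mul,
      IsIdempotentElem.pow_eq hi (pow_pos hp.out.pos n).ne']
  have hval : (x ^ p ^ n).coeff u = e.coeff g := by
    rw [hxpow, MonoidAlgebra.coeff_mul_single_apply, mul_one, hu, hKt, pow_add, pow_one,
      mul_inv_cancel_right]
  rw [← hval]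
  set H := Subgroup.centralizer ({u} : Set G) with hH
  have huH : u ∈ H := Subgroup.mem_centralizer_singleton_iff.2 rfl
  obtain ⟨m, hm⟩ : ∃ m, p ^ n = m + 1 := ⟨p ^ n - 1, by have := pow_pos hp.out.pos n; omega⟩
  have h1 := restrict_pow p u n hup x hcomm m
  rw [← hm] at h1
  have h2 : (restrictCoeff H (x ^ p ^ n)).coeff ⟨u, huH⟩ =
      (restrictCoeff H x ^ p ^ n).coeff ⟨u, huH⟩ := by rw [h1]
  rw [restrictCoeff_coeff] at h2
  change (x ^ p ^ n).coeff u = _ at h2
  rw [h2]
  refine coeff_central_pow p (⟨u, huH⟩ : H) ?_ n r ?_ ?_ _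
  · rintro ⟨h, hh⟩
    apply Subtype.ext
    exact (Subgroup.mem_centralizer_singleton_iff.1 hh).symm
  · rintro ⟨h, hh⟩
    apply Subtype.ext
    exact hpow h
  · intro h
    exact hur (congrArg Subtype.val h)

/-- leaf OS, literal form -/
theorem os (p : ℕ) [Fact p.Prime] (k : Type) [Field k] [IsAlgClosed k] [CharP k p] : SOs p k := by
  intro G _ _ e he g hg
  refine osima p e he.1 he.2 g ?_
  by_contra h
  exact hg ((Nat.Prime.coprime_iff_not_dvd (Fact.out : p.Prime)).2 h).symm

end osima

end Crest.Agent.R170.OS182
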