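import Crest.Agent.R170.P_714
import Crest.Agent.R170.ORB_700
import Crest.Agent.R170.F0iso_538

/-!
# Row 170, leaf P (helper714), part 2: transport of `Wt` and the joint `SP`
-/

set_option autoImplicit false

namespace Crest.Agent.R170

open MonoidAlgebra Crest.AlgebraR.Weights Crest.AlgebraR.Blocks

namespace P714

section iso
variable {k G H : Type} [Field k] [Group G] [Group H]

theorem mapDomain_comp' {M N O : Type} (f : M → N) (g : N → O) (x : MonoidAlgebra k M) :
    MonoidAlgebra.mapDomain g (MonoidAlgebra.mapDomain f x) = MonoidAlgebra.mapDomain (g ∘ f) x := by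
  apply MonoidAlgebra.coeff_injective
  rw [MonoidAlgebra.coeff_mapDomain, MonoidAlgebra.coeff_mapDomain, MonoidAlgebra.coeff_mapDomain,
    Finsupp.mapDomain_comp]

theorem coeff_mapDomain_inj {M N : Type} {f : M → N} (hf : Function.Injective f)
    (x : MonoidAlgebra k M) (m : M) : (MonoidAlgebra.mapDomain f x).coeff (f m) = x.coeff m := by
  rw [MonoidAlgebra.coeff_mapDomain, Finsupp.mapDomain_apply hf]

variable [Finite G] [Finite H]

theorem localImage_iso (f : G ≃* H) (e : MonoidAlgebra k G) (e' : MonoidAlgebra k H)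
    (h : ∀ g, e'.coeff (f g) = e.coeff g) (Q : Subgroup G) :
    f0 (localImage (Q.map f.toMonoidHom) e') = f0 (localImage Q e) ∧
      Nat.card (Subgroup.normalizer ((Q.map f.toMonoidHom : Subgroup H) : Set H)) =
        Nat.card (Subgroup.normalizer (Q : Set G)) := by
  have hN : (Subgroup.normalizer (Q : Set G)).map f.toMonoidHom =
      Subgroup.normalizer ((Q.map f.toMonoidHom : Subgroup H) : Set H) :=
    Subgroup.map_equiv_normalizer_eq Q f
  let φ : Subgroup.normalizer (Q : Set G) ≃*
      Subgroup.normalizer ((Q.map f.toMonoidHom : Subgroup H) : Set H) :=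
    (f.subgroupMap _).trans (MulEquiv.subgroupCongr hN)
  have hφ : ∀ n, ((φ n : Subgroup.normalizer ((Q.map f.toMonoidHom : Subgroup H) : Set H)) : H) =
      f n := fun n => rfl
  have hsub : (Q.subgroupOf (Subgroup.normalizer (Q : Set G))).map φ.toMonoidHom =
      (Q.map f.toMonoidHom).subgroupOf
        (Subgroup.normalizer ((Q.map f.toMonoidHom : Subgroup H) : Set H)) := by
    ext x
    obtain ⟨n, rfl⟩ := φ.surjective x
    rw [Subgroup.mem_subgroupOf, hφ]
    constructor
    · rintro ⟨m, hm, hmn⟩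
      have : m = n := φ.injective hmn
      subst this
      exact ⟨_, hm, rfl⟩
    · rintro ⟨m, hm, hmn⟩
      have : m = (n : G) := f.injective hmn
      subst this
      exact ⟨n, hm, rfl⟩
  let ψ : NormQuot Q ≃* NormQuot (Q.map f.toMonoidHom) := QuotientGroup.congr _ _ φ hsub
  have h1 : restrictCoeff (Subgroup.normalizer ((Q.map f.toMonoidHom : Subgroup H) : Set H)) e' =
      MonoidAlgebra.mapDomain φ (restrictCoeff (Subgroup.normalizer (Q : Set G)) e) := by
    apply MonoidAlgebra.coeff_injective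
    ext x
    obtain ⟨n, rfl⟩ := φ.surjective x
    rw [coeff_mapDomain_inj φ.injective]
    exact h _
  have h2 : localImage (Q.map f.toMonoidHom) e' = MonoidAlgebra.mapDomain ψ (localImage Q e) := by
    unfold localImage
    rw [h1, mapDomain_comp', mapDomain_comp']
    rfl
  refine ⟨SCC538.f0_congr ψ _ _ fun g => ?_, (Nat.card_congr φ.toEquiv).symm⟩
  rw [h2, coeff_mapDomain_inj ψ.injective]

/-- **`Wt` is transported along a group isomorphism** -/
theorem Wt_congr (p : ℕ) (f : G ≃* H) (e : MonoidAlgebra k G) (e' : MonoidAlgebra k H)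
    (h : ∀ g, e'.coeff (f g) = e.coeff g) : Wt p e' = Wt p e := by
  unfold Wt
  symm
  have hbij : Function.Bijective (fun Q : {Q : Subgroup G // IsPGroup p Q} =>
      (⟨Q.1.map f.toMonoidHom, Q.2.map _⟩ : {Q : Subgroup H // IsPGroup p Q})) := by
    constructor
    · intro Q R hQR
      apply Subtype.ext
      exact Subgroup.map_injective f.injective (congrArg Subtype.val hQR)
    · rintro ⟨R, hR⟩
      refine ⟨⟨R.map f.symm.toMonoidHom, hR.map _⟩, Subtype.ext ?_⟩
      ext x
      simp only [Subgroup.mem_map]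
      constructor
      · rintro ⟨y, ⟨z, hz, rfl⟩, rfl⟩
        simpa using hz
      · intro hx
        exact ⟨f.symm x, ⟨x, hx, rfl⟩, by simp⟩
  refine finsum_eq_of_bijective _ hbij fun Q => ?_
  obtain ⟨h1, h2⟩ := localImage_iso f e e' h Q.1
  rw [h1, h2]

end iso

section chain
variable {p : ℕ} {k G : Type} [Field k] [Group G]

/-- the coefficients of a central element are a class function -/
theorem coeff_conj {z : MonoidAlgebra k G} (hz : ∀ x : MonoidAlgebra k G, z * x = x * z)
    (q g : G) : z.coeff (q * g * q⁻¹) = z.coeff g := by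
  have h := hz (single q 1)
  have h1 : (z * single q (1 : k)).coeff (q * g) = z.coeff (q * g * q⁻¹) * 1 :=
    MonoidAlgebra.coeff_mul_single_eq_coeff_mul _ (fun m' _ => by
      constructor
      · intro h2; rw [← h2]; group
      · intro h2; rw [h2]; group)
  have h2 : (single q (1 : k) * z).coeff (q * g) = 1 * z.coeff g :=
    MonoidAlgebra.coeff_single_mul_eq_mul_coeff _ (fun m' _ => by
      constructor
      · intro h2; exact mul_left_cancel h2
      · intro h2; rw [h2])
  rw [h, h2, one_mul, mul_one] at h1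
  exact h1.symm

theorem mem_centralizer_cj {g x : G} {T : Subgroup G} :
    g * x * g⁻¹ ∈ Subgroup.centralizer (ORB700.cj g T : Set G) ↔
      x ∈ Subgroup.centralizer (T : Set G) := by
  rw [Subgroup.mem_centralizer_iff, Subgroup.mem_centralizer_iff]
  constructor
  · intro h t ht
    have h1 := h (g * t * g⁻¹) (ORB700.mem_cj.2 (by
      have : g⁻¹ * (g * t * g⁻¹) * g = t := by group
      rw [this]; exact ht))
    have h2 : g * (t * x) * g⁻¹ = g * (x * t) * g⁻¹ := by
      calc g * (t * x) * g⁻¹ = g * t * g⁻¹ * (g * x * g⁻¹) := by group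
        _ = g * x * g⁻¹ * (g * t * g⁻¹) := h1
        _ = g * (x * t) * g⁻¹ := by group
    exact mul_left_cancel (mul_right_cancel h2)
  · intro h t ht
    have h1 := h _ (ORB700.mem_cj.1 ht)
    calc t * (g * x * g⁻¹) = g * (g⁻¹ * t * g * x) * g⁻¹ := by group
      _ = g * (x * (g⁻¹ * t * g)) * g⁻¹ := by rw [h1]
      _ = g * x * g⁻¹ * t := by group

variable [Finite G]

/-- conjugate chains: `eC` is transported by an isomorphism of the stabilisers -/
theorem eC_smul (g : G) (σ : Ch p G) (e : MonoidAlgebra k G)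
    (he : ∀ x : MonoidAlgebra k G, e * x = x * e) :
    ∃ φ : st σ ≃* st (g • σ), ∀ x, (eC (g • σ) e).coeff (φ x) = (eC σ e).coeff x := by
  classical
  let φ : st σ ≃* st (g • σ) :=
    ((MulAut.conj g).subgroupMap (st σ)).trans (MulEquiv.subgroupCongr (ORB700.st_smul g σ).symm)
  have hφ : ∀ x, ((φ x : st (g • σ)) : G) = g * x * g⁻¹ := fun x => rfl
  refine ⟨φ, fun x => ?_⟩
  change (if ((φ x : st (g • σ)) : G) ∈ Subgroup.centralizer (top (g • σ) : Set G) then
      e.coeff ((φ x : st (g • σ)) : G) else 0) =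
    if (x : G) ∈ Subgroup.centralizer (top σ : Set G) then e.coeff (x : G) else 0
  rw [hφ, coeff_conj he, ORB700.top_smul]
  simp only [mem_centralizer_cj]

/-- the empty chain: `eC` is transported by `⊤ ≃* G` -/
theorem eC_emp (e : MonoidAlgebra k G) :
    ∃ φ : G ≃* st (emp p G), ∀ x, (eC (emp p G) e).coeff (φ x) = e.coeff x := by
  classical
  let φ : G ≃* st (emp p G) :=
    Subgroup.topEquiv.symm.trans (MulEquiv.subgroupCongr (st_emp (p := p) (G := G)).symm)
  have hφ : ∀ x, ((φ x : st (emp p G)) : G) = x := fun x => rfl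
  refine ⟨φ, fun x => ?_⟩
  change (if ((φ x : st (emp p G)) : G) ∈ Subgroup.centralizer (top (emp p G) : Set G) then
      e.coeff ((φ x : st (emp p G)) : G) else 0) = e.coeff x
  rw [hφ, top_emp, if_pos]
  rw [Subgroup.mem_centralizer_iff]
  intro t ht
  rw [Subgroup.coe_bot, Set.mem_singleton_iff] at ht
  rw [ht, one_mul, mul_one]

end chain

theorem sEqv (p : ℕ) (k : Type) [Field k] : SEqv p k := by
  intro G _ _ e he σ τ h
  refine ⟨ORB700.card_st_congr h, ORB700.sgn_congr h, ?_⟩
  obtain ⟨g, rfl⟩ := ORB700.chRel_iff.1 h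
  obtain ⟨φ, hφ⟩ := eC_smul g σ e he.1
  exact ⟨(SCC538.lc_congr φ _ _ hφ).symm, (Wt_congr p φ _ _ hφ).symm⟩

theorem sEmp (p : ℕ) (k : Type) [Field k] : SEmp p k := by
  intro G _ _ e _
  obtain ⟨φ, hφ⟩ := eC_emp (p := p) e
  exact ⟨SCC538.lc_congr φ _ _ hφ, Wt_congr p φ _ _ hφ⟩

theorem sOrb (p : ℕ) : SOrb p := fun _ _ _ f hf => (ORB700.card_mul_altSum f hf).symm

/-- **LEAF P** from the joints -/
theorem sp (p : ℕ) [Fact p.Prime] (k : Type) [Field k] [IsAlgClosed k] [CharP k p]
    (hTP : STP p k) (hM : SM p k) (hQ : SQd p k) (hB : SBrCI p k) : SP p k :=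
  SP_of p k hTP hM hQ (sOrb p) hB (sEqv p k) (sEmp p k)

end P714

end Crest.Agent.R170
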