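import Mathlib

/-!
Row 170 (swarm A): chains of nontrivial `p`-subgroups, the toggle involution.

* `PChain p C`: `C : Finset (Subgroup G)` is a chain of nontrivial `p`-subgroups.
* `st C`: the common normaliser of the members of `C`.
* `chains p`: the finset of all `p`-chains of `G`.
* `toggle U C`: `M` = largest member of `C` not containing `U` (or `⊥`), toggle `M ⊔ U`.
* `sum_toggle`: `∑_{C ∈ chains, U ≤ st C} (-1)^|C| f C = 0` for `f` invariant under `toggle U`.
* `s_eq_zero`: `∑_{C ∈ chains, A ≤ st C} (-1)^|C| = 0` if `A` has a nontrivial normal `p`-subgroup.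
-/

set_option autoImplicit false
open scoped BigOperators Classical

namespace Crest.Agent.R170.Toggle262

section Defs
variable {G : Type*} [Group G]

/-- chain of nontrivial `p`-subgroups (the empty chain is allowed) -/
def PChain (p : ℕ) (C : Finset (Subgroup G)) : Prop :=
  (∀ P ∈ C, P ≠ ⊥ ∧ IsPGroup p P) ∧ IsChain (· ≤ ·) (C : Set (Subgroup G))

/-- stabiliser of the chain: the common normaliser of its members -/
def st (C : Finset (Subgroup G)) : Subgroup G := ⨅ P ∈ C, Subgroup.normalizer (P : Set G)

theorem le_st {C : Finset (Subgroup G)} {A : Subgroup G} :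
    A ≤ st C ↔ ∀ P ∈ C, A ≤ Subgroup.normalizer (P : Set G) := by
  unfold st
  exact le_iInf₂_iff

theorem mem_st {C : Finset (Subgroup G)} {g : G} :
    g ∈ st C ↔ ∀ P ∈ C, g ∈ Subgroup.normalizer (P : Set G) := by
  unfold st
  simp only [Subgroup.mem_iInf]

theorem st_empty : st (∅ : Finset (Subgroup G)) = ⊤ := by
  unfold st; simp

/-- largest member of `C` not containing `U`, or `⊥` -/
noncomputable def low (U : Subgroup G) (C : Finset (Subgroup G)) : Subgroup G :=
  (C.filter (fun P => ¬ U ≤ P)).sup id

/-- toggle `low U C ⊔ U` in `C` -/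
noncomputable def toggle (U : Subgroup G) (C : Finset (Subgroup G)) : Finset (Subgroup G) :=
  if low U C ⊔ U ∈ C then C.erase (low U C ⊔ U) else insert (low U C ⊔ U) C

theorem low_mem {U : Subgroup G} {C : Finset (Subgroup G)}
    (hC : IsChain (· ≤ ·) (C : Set (Subgroup G))) :
    low U C = ⊥ ∨ (low U C ∈ C ∧ ¬ U ≤ low U C) := by
  unfold low
  rcases (C.filter (fun P => ¬ U ≤ P)).eq_empty_or_nonempty with h | h
  · left; rw [h]; simp
  · right
    have hdir : ∀ s : Finset (Subgroup G), s.Nonempty → IsChain (· ≤ ·) (s : Set (Subgroup G)) →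
        s.sup id ∈ s := by
      intro s hs
      induction hs using Finset.Nonempty.cons_induction with
      | singleton a => intro _; simp
      | cons a s ha hs ih =>
        intro hch
        rw [Finset.sup_cons]
        have h1 := ih (hch.mono (by intro x hx; simp at hx ⊢; exact Or.inr hx))
        have h2 : a ≤ s.sup id ∨ s.sup id ≤ a := by
          by_cases hh : a = s.sup id
          · left; exact hh.le
          · exact hch (by simp) (by simp; right; exact h1) hh
        rcases h2 with h2 | h2
        · rw [id, sup_eq_right.2 h2]; exact Finset.mem_cons_of_mem h1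
        · rw [id, sup_eq_left.2 h2]; exact Finset.mem_cons_self a s
    have h3 := hdir _ h (hC.mono (by intro x hx; simp at hx ⊢; exact hx.1))
    rw [Finset.mem_filter] at h3
    exact h3

theorem le_low {U : Subgroup G} {C : Finset (Subgroup G)} {P : Subgroup G} (hP : P ∈ C)
    (h : ¬ U ≤ P) : P ≤ low U C := by
  unfold low
  exact Finset.le_sup (f := id) (Finset.mem_filter.2 ⟨hP, h⟩)

theorem filter_toggle (U : Subgroup G) (C : Finset (Subgroup G)) :
    (toggle U C).filter (fun P => ¬ U ≤ P) = C.filter (fun P => ¬ U ≤ P) := by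
  unfold toggle
  have hU : U ≤ low U C ⊔ U := le_sup_right
  split_ifs with h
  · ext P
    simp only [Finset.mem_filter, Finset.mem_erase]
    constructor
    · rintro ⟨⟨_, h1⟩, h2⟩; exact ⟨h1, h2⟩
    · rintro ⟨h1, h2⟩; exact ⟨⟨fun h3 => h2 (h3 ▸ hU), h1⟩, h2⟩
  · ext P
    simp only [Finset.mem_filter, Finset.mem_insert]
    constructor
    · rintro ⟨h1 | h1, h2⟩
      · exact absurd (h1 ▸ hU) h2
      · exact ⟨h1, h2⟩
    · rintro ⟨h1, h2⟩; exact ⟨Or.inr h1, h2⟩

theorem low_toggle (U : Subgroup G) (C : Finset (Subgroup G)) : low U (toggle U C) = low U C := by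
  unfold low
  rw [filter_toggle]

theorem toggle_toggle (U : Subgroup G) (C : Finset (Subgroup G)) :
    toggle U (toggle U C) = C := by
  have e : toggle U (toggle U C) = if low U (toggle U C) ⊔ U ∈ toggle U C then
      (toggle U C).erase (low U (toggle U C) ⊔ U)
      else insert (low U (toggle U C) ⊔ U) (toggle U C) := rfl
  rw [e, low_toggle]
  by_cases h : low U C ⊔ U ∈ C
  · have h1 : toggle U C = C.erase (low U C ⊔ U) := by unfold toggle; rw [if_pos h]
    rw [h1, if_neg (by simp)]
    exact Finset.insert_erase h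
  · have h1 : toggle U C = insert (low U C ⊔ U) C := by unfold toggle; rw [if_neg h]
    rw [h1, if_pos (by simp)]
    exact Finset.erase_insert h

theorem toggle_ne (U : Subgroup G) (C : Finset (Subgroup G)) : toggle U C ≠ C := by
  intro h
  unfold toggle at h
  split_ifs at h with h1
  · have : low U C ⊔ U ∈ C.erase (low U C ⊔ U) := by rw [h]; exact h1
    simp at this
  · apply h1
    rw [← h]
    conv_rhs => rw [h]
    rw [← h]; simp

theorem neg_one_pow_toggle {R : Type*} [Ring R] (U : Subgroup G) (C : Finset (Subgroup G)) :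
    (-1 : R) ^ (toggle U C).card = - (-1 : R) ^ C.card := by
  by_cases h : low U C ⊔ U ∈ C
  · have h1 : toggle U C = C.erase (low U C ⊔ U) := by unfold toggle; rw [if_pos h]
    have h2 : C.card = (toggle U C).card + 1 := by
      rw [h1, Finset.card_erase_add_one h]
    rw [h2, pow_succ]; simp
  · have h1 : toggle U C = insert (low U C ⊔ U) C := by unfold toggle; rw [if_neg h]
    rw [h1, Finset.card_insert_of_notMem h, pow_succ]; simp

theorem mem_toggle {U : Subgroup G} {C : Finset (Subgroup G)} {P : Subgroup G}
    (h : P ∈ toggle U C) : P = low U C ⊔ U ∨ P ∈ C := by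
  unfold toggle at h
  split_ifs at h with h1
  · right; exact Finset.mem_of_mem_erase h
  · exact Finset.mem_insert.1 h

/-- `A` normalises `low U C` if it normalises the chain -/
theorem le_normalizer_low {U A : Subgroup G} {C : Finset (Subgroup G)}
    (hC : IsChain (· ≤ ·) (C : Set (Subgroup G))) (hA : A ≤ st C) :
    A ≤ Subgroup.normalizer (low U C : Set G) := by
  rcases low_mem (U := U) hC with h | h
  · rw [h, Subgroup.normalizer_eq_top]; exact le_top
  · exact le_st.1 hA _ h.1

theorem le_st_toggle {U A : Subgroup G} {C : Finset (Subgroup G)}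
    (hC : IsChain (· ≤ ·) (C : Set (Subgroup G))) (hAU : A ≤ Subgroup.normalizer (U : Set G))
    (hA : A ≤ st C) : A ≤ st (toggle U C) := by
  rw [le_st]
  intro P hP
  rcases mem_toggle hP with rfl | h
  · exact (le_inf (le_normalizer_low hC hA) hAU).trans
      (Subgroup.normalizer_inf_normalizer_le_normalizer_sup _ _)
  · exact le_st.1 hA _ h

theorem pchain_toggle {p : ℕ} {U : Subgroup G} {C : Finset (Subgroup G)} (hU : U ≠ ⊥)
    (hUp : IsPGroup p U) (hC : PChain p C) (hUC : U ≤ st C) : PChain p (toggle U C) := by
  have hR : low U C ⊔ U ≠ ⊥ ∧ IsPGroup p (low U C ⊔ U : Subgroup G) := by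
    constructor
    · intro h
      apply hU
      rw [eq_bot_iff, ← h]; exact le_sup_right
    · have h1 : IsPGroup p (low U C) := by
        rcases low_mem (U := U) hC.2 with h | h
        · rw [h]; exact IsPGroup.of_bot
        · exact (hC.1 _ h.1).2
      exact h1.to_sup_of_normal_left' hUp (le_normalizer_low hC.2 hUC)
  constructor
  · intro P hP
    rcases mem_toggle hP with rfl | h
    · exact hR
    · exact hC.1 _ h
  · have key : ∀ P ∈ C, P ≤ low U C ⊔ U ∨ low U C ⊔ U ≤ P := by
      intro P hP
      by_cases h : U ≤ P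
      · right
        refine sup_le ?_ h
        rcases low_mem (U := U) hC.2 with h1 | h1
        · rw [h1]; exact bot_le
        · by_cases h2 : low U C = P
          · exact h2.le
          · rcases hC.2 h1.1 hP h2 with h3 | h3
            · exact h3
            · exact absurd (h.trans h3) h1.2
      · left
        exact (le_low hP h).trans le_sup_left
    intro P hP Q hQ hPQ
    have hP' := mem_toggle (Finset.mem_coe.1 hP)
    have hQ' := mem_toggle (Finset.mem_coe.1 hQ)
    rcases hP' with rfl | hP'
    · rcases hQ' with rfl | hQ'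
      · exact absurd rfl hPQ
      · exact (key Q hQ').symm
    · rcases hQ' with rfl | hQ'
      · exact key P hP'
      · exact hC.2 hP' hQ' hPQ

end Defs

section Sums
variable {G : Type*} [Group G] [Finite G]

variable (G) in
/-- the finset of `p`-chains -/
noncomputable def chains (p : ℕ) : Finset (Finset (Subgroup G)) :=
  (Set.toFinite {C : Finset (Subgroup G) | PChain p C}).toFinset

theorem mem_chains {p : ℕ} {C : Finset (Subgroup G)} : C ∈ chains G p ↔ PChain p C := by
  unfold chains; simp

/-- **The toggle lemma.** -/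
theorem sum_toggle {R : Type*} [Ring R] {p : ℕ} {U : Subgroup G} (hU : U ≠ ⊥)
    (hUp : IsPGroup p U) (f : Finset (Subgroup G) → R)
    (hf : ∀ C, PChain p C → U ≤ st C → f (toggle U C) = f C) :
    ∑ C ∈ (chains G p).filter (fun C => U ≤ st C), (-1 : R) ^ C.card * f C = 0 := by
  refine Finset.sum_involution (fun C _ => toggle U C) ?_ ?_ ?_ ?_
  · intro C hC
    rw [Finset.mem_filter, mem_chains] at hC
    rw [neg_one_pow_toggle, hf C hC.1 hC.2]; simp
  · intro C _ _
    exact toggle_ne U C
  · intro C hC
    rw [Finset.mem_filter, mem_chains] at hC ⊢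
    exact ⟨pchain_toggle hU hUp hC.1 hC.2, le_st_toggle hC.1.2 Subgroup.le_normalizer hC.2⟩
  · intro C _
    exact toggle_toggle U C

/-- alternating number of chains normalised by `A` -/
noncomputable def s (p : ℕ) (A : Subgroup G) : ℤ :=
  ∑ C ∈ (chains G p).filter (fun C => A ≤ st C), (-1 : ℤ) ^ C.card

theorem s_eq_zero {p : ℕ} {A U : Subgroup G} (hU : U ≠ ⊥) (hUp : IsPGroup p U) (hUA : U ≤ A)
    (hAU : A ≤ Subgroup.normalizer (U : Set G)) : s p A = 0 := by
  have h := sum_toggle (R := ℤ) (p := p) hU hUp (fun C => if A ≤ st C then 1 else 0) (by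
    intro C hC hUC
    have h1 : A ≤ st (toggle U C) ↔ A ≤ st C := by
      constructor
      · intro h
        have h2 := pchain_toggle hU hUp hC hUC
        have h3 := le_st_toggle (U := U) h2.2 hAU h
        rwa [toggle_toggle] at h3
      · exact le_st_toggle hC.2 hAU
    simp only [h1])
  unfold s
  rw [← h]
  rw [Finset.sum_filter, Finset.sum_filter]
  refine Finset.sum_congr rfl ?_
  intro C _
  by_cases h1 : A ≤ st C
  · rw [if_pos h1, if_pos (hUA.trans h1), if_pos h1]; simp
  · rw [if_neg h1]; simp [h1]

end Sums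

end Crest.Agent.R170.Toggle262
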