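import Crest.Agent.R170.Stm_995
import Crest.Agent.R170.S4_262

/-!
Row 170 (swarm A), leaf S4, part 2: orbits of chains, `SS4`.
-/

set_option autoImplicit false
open scoped BigOperators Classical Pointwise

namespace Crest.Agent.R170.S4262

open Crest.Agent.R170

section Orb
variable {G : Type} [Group G]

theorem mem_normalizer_smul (g : ConjAct G) (P : Subgroup G) (x : G) :
    ConjAct.ofConjAct g * x * (ConjAct.ofConjAct g)⁻¹ ∈
      Subgroup.normalizer ((g • P : Subgroup G) : Set G) ↔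
      x ∈ Subgroup.normalizer (P : Set G) := by
  have hmem : ∀ y : G, y ∈ (g • P : Subgroup G) ↔
      (ConjAct.ofConjAct g)⁻¹ * y * ConjAct.ofConjAct g ∈ P := by
    intro y
    rw [Subgroup.mem_pointwise_smul_iff_inv_smul_mem, ConjAct.smul_def]
    simp
  rw [Subgroup.mem_normalizer_iff, Subgroup.mem_normalizer_iff]
  constructor
  · intro h y
    have h1 := h (ConjAct.ofConjAct g * y * (ConjAct.ofConjAct g)⁻¹)
    rw [hmem, hmem] at h1
    have e1 : (ConjAct.ofConjAct g)⁻¹ * (ConjAct.ofConjAct g * y * (ConjAct.ofConjAct g)⁻¹) *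
      ConjAct.ofConjAct g = y := by group
    have e2 : (ConjAct.ofConjAct g)⁻¹ * (ConjAct.ofConjAct g * x * (ConjAct.ofConjAct g)⁻¹ *
      (ConjAct.ofConjAct g * y * (ConjAct.ofConjAct g)⁻¹) *
      (ConjAct.ofConjAct g * x * (ConjAct.ofConjAct g)⁻¹)⁻¹) *
      ConjAct.ofConjAct g = x * y * x⁻¹ := by group
    rw [e1, e2] at h1
    exact h1
  · intro h y
    have h1 := h ((ConjAct.ofConjAct g)⁻¹ * y * ConjAct.ofConjAct g)
    rw [hmem, hmem]
    have e2 : (ConjAct.ofConjAct g)⁻¹ * (ConjAct.ofConjAct g * x * (ConjAct.ofConjAct g)⁻¹ *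
      y * (ConjAct.ofConjAct g * x * (ConjAct.ofConjAct g)⁻¹)⁻¹) *
      ConjAct.ofConjAct g = x * ((ConjAct.ofConjAct g)⁻¹ * y * ConjAct.ofConjAct g) * x⁻¹ := by
      group
    rw [e2]
    exact h1

theorem mem_smul_chain (g : ConjAct G) (C : Finset (Subgroup G)) (P : Subgroup G) :
    P ∈ g • C ↔ ∃ Q ∈ C, g • Q = P := by
  rw [Finset.mem_smul_finset]

theorem st_smul (g : ConjAct G) (C : Finset (Subgroup G)) (x : G) :
    ConjAct.ofConjAct g * x * (ConjAct.ofConjAct g)⁻¹ ∈ Toggle262.st (g • C) ↔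
      x ∈ Toggle262.st C := by
  rw [Toggle262.mem_st, Toggle262.mem_st]
  constructor
  · intro h P hP
    exact (mem_normalizer_smul g P x).1 (h _ ((mem_smul_chain g C _).2 ⟨P, hP, rfl⟩))
  · intro h P hP
    obtain ⟨Q, hQ, rfl⟩ := (mem_smul_chain g C _).1 hP
    exact (mem_normalizer_smul g Q x).2 (h Q hQ)

variable [Finite G]

theorem pchain_smul {p : ℕ} (g : ConjAct G) (C : Finset (Subgroup G))
    (hC : Toggle262.PChain p C) : Toggle262.PChain p (g • C) := by
  constructor
  · intro P hP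
    obtain ⟨Q, hQ, rfl⟩ := (mem_smul_chain g C _).1 hP
    refine ⟨?_, ?_⟩
    · intro h
      apply (hC.1 Q hQ).1
      have h2 : Nat.card (g • Q : Subgroup G) = Nat.card Q :=
        Nat.card_congr (Subgroup.equivSMul g Q).toEquiv.symm
      rw [h] at h2
      apply Subgroup.card_eq_one.1
      rw [← h2]; simp
    · exact (hC.1 Q hQ).2.of_equiv (Subgroup.equivSMul g Q)
  · intro P hP Q hQ hPQ
    obtain ⟨P', hP', rfl⟩ := (mem_smul_chain g C _).1 (Finset.mem_coe.1 hP)
    obtain ⟨Q', hQ', rfl⟩ := (mem_smul_chain g C _).1 (Finset.mem_coe.1 hQ)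
    have h : P' ≠ Q' := by rintro rfl; exact hPQ rfl
    rcases hC.2 hP' hQ' h with h1 | h1
    · left; exact Subgroup.pointwise_smul_le_pointwise_smul_iff.2 h1
    · right; exact Subgroup.pointwise_smul_le_pointwise_smul_iff.2 h1

theorem pchain_smul_iff {p : ℕ} (g : ConjAct G) (C : Finset (Subgroup G)) :
    Toggle262.PChain p (g • C) ↔ Toggle262.PChain p C := by
  constructor
  · intro h
    have := pchain_smul g⁻¹ _ h
    rwa [inv_smul_smul] at this
  · exact pchain_smul g C

theorem smul_mem_of_chain {p : ℕ} (g : ConjAct G) (C : Finset (Subgroup G))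
    (hC : Toggle262.PChain p C) (h : g • C = C) (P : Subgroup G) (hP : P ∈ C) : g • P = P := by
  have h1 : g • P ∈ C := by
    rw [← h]; exact (mem_smul_chain g C _).2 ⟨P, hP, rfl⟩
  have h2 : Nat.card (g • P : Subgroup G) = Nat.card P :=
    Nat.card_congr (Subgroup.equivSMul g P).toEquiv.symm
  by_contra hne
  rcases hC.2 h1 hP hne with h3 | h3
  · exact hne (Subgroup.eq_of_le_of_card_ge h3 h2.ge)
  · exact hne (Subgroup.eq_of_le_of_card_ge h3 h2.le).symm

theorem card_stab_chain {p : ℕ} (C : Finset (Subgroup G)) (hC : Toggle262.PChain p C) :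
    Nat.card (MulAction.stabilizer (ConjAct G) C) = Nat.card (Toggle262.st C) := by
  refine Nat.card_congr ⟨fun g => ⟨ConjAct.ofConjAct g.1, ?_⟩,
    fun g => ⟨ConjAct.toConjAct g.1, ?_⟩, fun _ => rfl, fun _ => rfl⟩
  · have h := MulAction.mem_stabilizer_iff.1 g.2
    rw [Toggle262.mem_st]
    intro P hP
    have h2 := smul_mem_of_chain g.1 C hC h P hP
    rw [Subgroup.mem_normalizer_iff]
    intro y
    have h3 : g.1 • y ∈ g.1 • P ↔ y ∈ P := Subgroup.smul_mem_pointwise_smul_iff
    rw [h2, ConjAct.smul_def] at h3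
    exact h3.symm
  · rw [MulAction.mem_stabilizer_iff]
    have h := Toggle262.mem_st.1 g.2
    have h2 : ∀ P ∈ C, ConjAct.toConjAct (g : G) • P = P := by
      intro P hP
      ext y
      rw [Subgroup.mem_pointwise_smul_iff_inv_smul_mem, ConjAct.smul_def]
      have h3 := Subgroup.mem_normalizer_iff.1 (Subgroup.inv_mem _ (h P hP)) y
      simpa using h3.symm
    ext P
    rw [mem_smul_chain]
    constructor
    · rintro ⟨Q, hQ, rfl⟩
      rw [h2 Q hQ]; exact hQ
    · intro hP
      exact ⟨P, hP, h2 P hP⟩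

/-- orbit lemma for chains -/
theorem chain_dvd {p : ℕ} [Fact p.Prime] (m : ℕ) (F : Finset (Subgroup G) → ℤ)
    (hF : ∀ (g : ConjAct G) C, Toggle262.PChain p C → F (g • C) = F C)
    (hd : ∀ C, Toggle262.PChain p C → ((m * pPart p (Nat.card (Toggle262.st C)) : ℕ) : ℤ) ∣ F C) :
    ((m * pPart p (Nat.card G) : ℕ) : ℤ) ∣
      ∑ C ∈ Toggle262.chains G p, (-1 : ℤ) ^ C.card * F C := by
  have := Fintype.ofFinite G
  have := Fintype.ofFinite (Subgroup G)
  have h := orbit_dvd (Γ := ConjAct G) (X := Finset (Subgroup G)) (pPart p) (pPart_mul_dvd p) m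
    (fun C => ind (Toggle262.PChain p C) * ((-1 : ℤ) ^ C.card * F C)) (by
      intro g C
      rw [ind_congr (pchain_smul_iff g C), Finset.card_smul_finset]
      by_cases hC : Toggle262.PChain p C
      · rw [hF g C hC]
      · rw [ind_false hC]; simp) (by
      intro C
      by_cases hC : Toggle262.PChain p C
      · rw [card_stab_chain C hC, ind_true hC, one_mul]
        exact (hd C hC).mul_left _
      · rw [ind_false hC, zero_mul]; exact dvd_zero _)
  have h2 : Nat.card (ConjAct G) = Nat.card G := Nat.card_congr ConjAct.ofConjAct.toEquiv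
  rw [h2] at h
  have h3 : ∑ C : Finset (Subgroup G), ind (Toggle262.PChain p C) * ((-1 : ℤ) ^ C.card * F C) =
      ∑ C ∈ Toggle262.chains G p, (-1 : ℤ) ^ C.card * F C := by
    have e : Toggle262.chains G p = Finset.univ.filter (fun C => Toggle262.PChain p C) := by
      ext C; rw [Toggle262.mem_chains]; simp
    rw [e, Finset.sum_filter]
    refine Finset.sum_congr rfl ?_
    intro C _
    by_cases hC : Toggle262.PChain p C
    · rw [ind_true hC, one_mul, if_pos hC]
    · rw [ind_false hC, zero_mul, if_neg hC]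
  rwa [h3] at h

/-- conversion between `Ch p G` and `Toggle262.chains` -/
theorem finsum_ch {p : ℕ} (F : Finset (Subgroup G) → ℤ) :
    ∑ᶠ σ : Ch p G, F σ.1 = ∑ C ∈ Toggle262.chains G p, F C := by
  have : Finite (Ch p G) := by unfold Ch; infer_instance
  have := Fintype.ofFinite (Ch p G)
  rw [finsum_eq_sum_of_fintype]
  refine (Finset.sum_subtype (p := fun σ : Finset (Subgroup G) =>
    (∀ Q ∈ σ, IsPGroup p Q ∧ Q ≠ ⊥) ∧ IsChain (· ≤ ·) (σ : Set (Subgroup G)))
    (Toggle262.chains G p) ?_ F).symm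
  intro C
  rw [Toggle262.mem_chains]
  unfold Toggle262.PChain
  refine and_congr ?_ Iff.rfl
  exact forall₂_congr (fun _ _ => and_comm)

end Orb

/-- **leaf S4** -/
theorem ss4 (p : ℕ) [Fact p.Prime] : SS4 p := by
  intro hW G _ _ c hc
  have e1 : ∑ᶠ σ : Ch p G, sgn σ * (Nat.card {w : st σ × st σ //
        IsConj ((w.1 * w.2 * w.1⁻¹ * w.2⁻¹ : st σ) : G) c} : ℤ) =
      ∑ C ∈ Toggle262.chains G p, (-1 : ℤ) ^ C.card * NK (T1 c) (Toggle262.st C) := by
    rw [← finsum_ch (fun C => (-1 : ℤ) ^ C.card * NK (T1 c) (Toggle262.st C))]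
    refine finsum_congr ?_
    intro σ
    rw [NK_T1]
    rfl
  have e2 : (Nat.card {w : G × G × G // IsConj w.2.2 c ∧
        IsPElt p (w.2.2⁻¹ * (w.1 * w.2.1 * w.1⁻¹ * w.2.1⁻¹))} : ℤ) =
      NK (T2 p c) (Toggle262.st (∅ : Finset (Subgroup G))) := by
    unfold NK cnt
    congr 1
    refine Nat.card_congr (Equiv.subtypeEquivRight ?_)
    intro t
    rw [Toggle262.st_empty]
    simp only [le_top, and_true]
    rfl
  rw [e1, e2]
  have hempty : (∅ : Finset (Subgroup G)) ∈ Toggle262.chains G p := by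
    rw [Toggle262.mem_chains]
    exact ⟨by simp, by simp⟩
  have e3 : ∑ C ∈ Toggle262.chains G p, (-1 : ℤ) ^ C.card * NK (T2 p c) (Toggle262.st C) =
      NK (T2 p c) (Toggle262.st (∅ : Finset (Subgroup G))) +
      ∑ C ∈ Toggle262.chains G p, (-1 : ℤ) ^ C.card *
        (if C = ∅ then 0 else NK (T2 p c) (Toggle262.st C)) := by
    rw [← Finset.add_sum_erase _ _ hempty, ← Finset.add_sum_erase (Toggle262.chains G p)
      (fun C => (-1 : ℤ) ^ C.card * (if C = ∅ then 0 else NK (T2 p c) (Toggle262.st C))) hempty]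
    simp only [Finset.card_empty, pow_zero, one_mul, if_true, zero_add]
    congr 1
    refine Finset.sum_congr rfl ?_
    intro C hC
    rw [if_neg (Finset.ne_of_mem_erase hC)]
  have e4 := sum_T2 (p := p) c
  have h1 := chain_dvd (G := G) (p := p) p
    (fun C => if C = ∅ then 0 else NK (T2 p c) (Toggle262.st C)) (by
      intro g C hC
      have : g • C = ∅ ↔ C = ∅ := Finset.smul_finset_eq_empty
      simp only [this]
      split_ifs
      · rfl
      · exact NK_conj _ (T2_conj p c) _ _ (ConjAct.ofConjAct g) (st_smul g C)) (by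
      intro C hC
      split_ifs with h
      · exact dvd_zero _
      · obtain ⟨P, hP, hPs⟩ := exists_min hC (Finset.nonempty_iff_ne_empty.2 h)
        exact NK_T2_dvd c _ P (hC.1 P hP).2 (hC.1 P hP).1 hPs
          (Toggle262.le_st.1 le_rfl P hP))
  have h2 := chain_dvd (G := G) (p := p) p
    (fun C => NK (T3 p c) (Toggle262.st C)) (by
      intro g C hC
      exact NK_conj _ (T3_conj p c) _ _ (ConjAct.ofConjAct g) (st_smul g C)) (by
      intro C hC
      exact NK_T3_dvd hW c hc _)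
  have e5 : ∑ C ∈ Toggle262.chains G p, (-1 : ℤ) ^ C.card * NK (T1 c) (Toggle262.st C) -
      NK (T2 p c) (Toggle262.st (∅ : Finset (Subgroup G))) =
      ∑ C ∈ Toggle262.chains G p, (-1 : ℤ) ^ C.card *
        (if C = ∅ then 0 else NK (T2 p c) (Toggle262.st C)) -
      ∑ C ∈ Toggle262.chains G p, (-1 : ℤ) ^ C.card * NK (T3 p c) (Toggle262.st C) := by
    linarith
  rw [e5]
  exact dvd_sub h1 h2

end Crest.Agent.R170.S4262
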