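import Mathlib

/-!
# Row 170, leaf T (ring theory part): traces of a commutative algebra over an algebraically closed field

`Z` a finite dimensional commutative algebra over an algebraically closed field `k`;
characters `χ : Z →ₐ[k] k` correspond to the primitive idempotents `idem χ`;
`trace_eq` : for every algebra map `ρ : Z → End_k M`,
`Tr (ρ z) = ∑ χ, χ z * dim (ρ (idem χ) M)`;
`trace_mul_of_idem` : `Tr (ρ (z * J)) = ∑ χ, χ z * Tr (ρ (idem χ * J))`.
-/

set_option autoImplicit false
set_option linter.unusedSectionVars false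
set_option linter.style.haveILetI false

namespace Crest.Agent.R170.T312

open Module

section gen

variable {k Z : Type*} [Field k] [CommRing Z] [Algebra k Z]

theorem ker_eq {χ ψ : Z →ₐ[k] k} (h : RingHom.ker (χ : Z →+* k) = RingHom.ker (ψ : Z →+* k)) :
    χ = ψ := by
  ext z
  have h1 : z - algebraMap k Z (χ z) ∈ RingHom.ker (χ : Z →+* k) := by
    rw [RingHom.mem_ker]
    show χ (z - algebraMap k Z (χ z)) = 0
    rw [map_sub, AlgHom.commutes]
    simp
  rw [h, RingHom.mem_ker] at h1
  have h2 : ψ (z - algebraMap k Z (χ z)) = 0 := h1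
  rw [map_sub, AlgHom.commutes] at h2
  have h3 : ψ z = χ z := by simpa [sub_eq_zero] using h2
  exact h3.symm

instance ker_max (χ : Z →ₐ[k] k) : (RingHom.ker (χ : Z →+* k)).IsMaximal :=
  RingHom.ker_isMaximal_of_surjective _ fun a => ⟨algebraMap k Z a, by
    show χ (algebraMap k Z a) = a
    rw [AlgHom.commutes]
    rfl⟩

variable [IsAlgClosed k] [Module.Finite k Z]

/-- every maximal ideal is the kernel of a character -/
theorem exists_char (m : Ideal Z) [hm : m.IsMaximal] :
    ∃ χ : Z →ₐ[k] k, RingHom.ker (χ : Z →+* k) = m := by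
  letI := Ideal.Quotient.field m
  haveI : Module.Finite k (Z ⧸ m) :=
    Module.Finite.of_surjective (Ideal.Quotient.mkₐ k m).toLinearMap
      Ideal.Quotient.mk_surjective
  have hb : Function.Bijective (algebraMap k (Z ⧸ m)) :=
    IsAlgClosed.algebraMap_bijective_of_isIntegral
  let e : k ≃ₐ[k] (Z ⧸ m) := AlgEquiv.ofBijective (Algebra.ofId k _) hb
  refine ⟨(e.symm : (Z ⧸ m) →ₐ[k] k).comp (Ideal.Quotient.mkₐ k m), ?_⟩
  ext z
  rw [RingHom.mem_ker]
  show e.symm (Ideal.Quotient.mk m z) = 0 ↔ z ∈ m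
  rw [map_eq_zero_iff _ e.symm.injective, Ideal.Quotient.eq_zero_iff_mem]

/-- an element killed by all characters is nilpotent -/
theorem nilp_of_char (z : Z) (h : ∀ χ : Z →ₐ[k] k, χ z = 0) : IsNilpotent z := by
  haveI : IsArtinianRing Z := IsArtinianRing.of_finite k Z
  rw [← mem_nilradical, nilradical_eq_sInf, Ideal.mem_sInf]
  intro P hP
  have h1 : Ideal.IsPrime P := hP
  have h2 : Ideal.IsMaximal P := IsArtinianRing.isMaximal_of_isPrime P
  obtain ⟨χ, hχ⟩ := exists_char (k := k) P
  rw [← hχ, RingHom.mem_ker]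
  exact h χ

noncomputable instance : Fintype (Z →ₐ[k] k) := Fintype.ofFinite _

/-- the evaluation map at all characters -/
noncomputable def ev (k Z : Type*) [Field k] [CommRing Z] [Algebra k Z] :
    Z →+* ((Z →ₐ[k] k) → k) := RingHom.pi fun χ => (χ : Z →+* k)

theorem ev_apply (z : Z) (χ : Z →ₐ[k] k) : ev k Z z χ = χ z := rfl

theorem ev_surj : Function.Surjective (ev k Z) := by
  classical
  intro a
  have hc : Pairwise fun χ ψ : Z →ₐ[k] k =>
      IsCoprime (RingHom.ker (χ : Z →+* k)) (RingHom.ker (ψ : Z →+* k)) := by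
    intro χ ψ hne
    exact Ideal.isCoprime_of_isMaximal fun h => hne (ker_eq h)
  obtain ⟨x, hx⟩ := Ideal.quotientInfToPiQuotient_surj hc
    fun χ => Ideal.Quotient.mk _ (algebraMap k Z (a χ))
  obtain ⟨z, rfl⟩ := Ideal.Quotient.mk_surjective x
  refine ⟨z, funext fun χ => ?_⟩
  have h1 := congrFun hx χ
  rw [Ideal.quotientInfToPiQuotient_mk'] at h1
  rw [Ideal.Quotient.eq, RingHom.mem_ker] at h1
  have h2 : χ (z - algebraMap k Z (a χ)) = 0 := h1
  rw [map_sub, AlgHom.commutes, sub_eq_zero] at h2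
  exact h2

open Classical in
/-- the system of primitive idempotents -/
theorem exists_idem : ∃ e : (Z →ₐ[k] k) → Z, CompleteOrthogonalIdempotents e ∧
    ∀ χ ψ : Z →ₐ[k] k, ψ (e χ) = if ψ = χ then 1 else 0 := by
  obtain ⟨e, h1, h2⟩ := CompleteOrthogonalIdempotents.lift_of_isNilpotent_ker (ev k Z)
    (fun x hx => nilp_of_char (k := k) x fun χ => congrFun (RingHom.mem_ker.1 hx) χ)
    (CompleteOrthogonalIdempotents.single fun _ : Z →ₐ[k] k => k)
    (fun χ => ev_surj _)
  refine ⟨e, h1, fun χ ψ => ?_⟩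
  have h3 := congrFun (congrFun h2 χ) ψ
  rw [Function.comp_apply, ev_apply] at h3
  rw [h3, Pi.single_apply]

/-- the primitive idempotent of a character -/
noncomputable def idem (χ : Z →ₐ[k] k) : Z := (exists_idem (k := k) (Z := Z)).choose χ

theorem idem_coi : CompleteOrthogonalIdempotents (idem : (Z →ₐ[k] k) → Z) :=
  (exists_idem (k := k) (Z := Z)).choose_spec.1

open Classical in
theorem char_idem (χ ψ : Z →ₐ[k] k) : ψ (idem χ) = if ψ = χ then 1 else 0 :=
  (exists_idem (k := k) (Z := Z)).choose_spec.2 χ ψ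

theorem char_idem_self (χ : Z →ₐ[k] k) : χ (idem χ) = 1 := by
  classical
  rw [char_idem, if_pos rfl]

theorem char_idem_ne {χ ψ : Z →ₐ[k] k} (h : ψ ≠ χ) : ψ (idem χ) = 0 := by
  classical
  rw [char_idem, if_neg h]

theorem idem_sum : ∑ χ : Z →ₐ[k] k, idem χ = (1 : Z) := idem_coi.complete

theorem idem_sq (χ : Z →ₐ[k] k) : idem χ * idem χ = idem χ := idem_coi.idem χ

theorem idem_ortho {χ ψ : Z →ₐ[k] k} (h : χ ≠ ψ) : idem χ * idem ψ = 0 := idem_coi.ortho h

theorem idem_ne (χ : Z →ₐ[k] k) : idem χ ≠ 0 := by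
  intro h
  have := char_idem_self χ
  rw [h, map_zero] at this
  exact one_ne_zero this.symm

/-- values of a character on an idempotent -/
theorem char_of_idem {f : Z} (hf : f * f = f) (χ : Z →ₐ[k] k) : χ f = 0 ∨ χ f = 1 := by
  have h : χ f * χ f = χ f := by rw [← map_mul, hf]
  by_cases h0 : χ f = 0
  · exact Or.inl h0
  · exact Or.inr (mul_left_cancel₀ h0 (by rw [h, mul_one]))

/-- an idempotent killed by all characters is zero -/
theorem idem_zero {f : Z} (hf : f * f = f) (h : ∀ χ : Z →ₐ[k] k, χ f = 0) : f = 0 := by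
  obtain ⟨n, hn⟩ := nilp_of_char (k := k) f h
  have : ∀ m : ℕ, f ^ (m + 1) = f := by
    intro m
    induction m with
    | zero => simp
    | succ m ih => rw [pow_succ, ih, hf]
  rw [← this n, pow_succ, hn, zero_mul]

/-- `idem χ` is primitive -/
theorem idem_prim (χ : Z →ₐ[k] k) {f : Z} (hf : f * f = f) (hfe : f * idem χ = f) :
    f = 0 ∨ f = idem χ := by
  have hψ : ∀ ψ : Z →ₐ[k] k, ψ ≠ χ → ψ f = 0 := fun ψ hne => by
    rw [← hfe, map_mul, char_idem_ne hne, mul_zero]
  rcases char_of_idem hf χ with h | h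
  · left
    refine idem_zero (k := k) hf fun ψ => ?_
    by_cases hne : ψ = χ
    · rw [hne, h]
    · exact hψ ψ hne
  · right
    have h2 : (idem χ - f) * (idem χ - f) = idem χ - f := by
      have h3 : idem χ * f = f := by rw [mul_comm, hfe]
      rw [sub_mul, mul_sub, mul_sub, idem_sq, h3, hfe, hf]
      ring
    have h4 : idem χ - f = 0 := by
      refine idem_zero (k := k) h2 fun ψ => ?_
      by_cases hne : ψ = χ
      · rw [hne, map_sub, char_idem_self, h, sub_self]
      · rw [map_sub, char_idem_ne hne, hψ ψ hne, sub_zero]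
    exact (sub_eq_zero.1 h4).symm

/-- every primitive idempotent is `idem χ` for exactly one character, the one with `χ e = 1` -/
theorem prim_eq {e : Z} (he : e * e = e) (h0 : e ≠ 0)
    (hp : ∀ f : Z, f * f = f → f * e = f → f = 0 ∨ f = e) :
    ∃ χ : Z →ₐ[k] k, idem χ = e ∧ ∀ ψ : Z →ₐ[k] k, ψ e = 1 → ψ = χ := by
  obtain ⟨χ, hχ⟩ : ∃ χ : Z →ₐ[k] k, χ e ≠ 0 := by
    by_contra hcon
    push Not at hcon
    exact h0 (idem_zero (k := k) he hcon)
  have hχ1 : χ e = 1 := (char_of_idem he χ).resolve_left hχ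
  have h1 : (e * idem χ) * (e * idem χ) = e * idem χ := by
    rw [mul_mul_mul_comm, he, idem_sq]
  have h2 : (e * idem χ) * e = e * idem χ := by
    rw [mul_right_comm, he]
  have h3 : e * idem χ ≠ 0 := by
    intro h
    have h5 : χ (e * idem χ) = 0 := by rw [h, map_zero]
    rw [map_mul, hχ1, char_idem_self, one_mul] at h5
    exact one_ne_zero h5
  have h4 : e * idem χ = e := (hp _ h1 h2).resolve_left h3
  have h5 : e = idem χ := (idem_prim χ he h4).resolve_left h0
  refine ⟨χ, h5.symm, fun ψ hψ => ?_⟩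
  by_contra hne
  rw [h5, char_idem_ne hne] at hψ
  exact zero_ne_one hψ

/-! ### traces -/

variable {M : Type*} [AddCommGroup M] [Module k M] [Module.Finite k M]

theorem trace_nilp (f : Module.End k M) (h : IsNilpotent f) : LinearMap.trace k M f = 0 :=
  (LinearMap.isNilpotent_trace_of_isNilpotent h).eq_zero

theorem trace_idem (f : Module.End k M) (h : f * f = f) :
    LinearMap.trace k M f = (finrank k (LinearMap.range f) : k) :=
  (LinearMap.IsIdempotentElem.isProj_range f h).trace

/-- on the component of `χ` an element acts as `χ z` up to nilpotents -/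
theorem nilp_comp (z : Z) (χ : Z →ₐ[k] k) :
    IsNilpotent ((z - algebraMap k Z (χ z)) * idem χ) := by
  refine nilp_of_char (k := k) _ fun ψ => ?_
  by_cases hne : ψ = χ
  · subst hne
    rw [map_mul, map_sub, AlgHom.commutes]
    simp
  · rw [map_mul, char_idem_ne hne, mul_zero]

theorem trace_comp (ρ : Z →ₐ[k] Module.End k M) (z : Z) (χ : Z →ₐ[k] k) :
    LinearMap.trace k M (ρ (z * idem χ)) = χ z * LinearMap.trace k M (ρ (idem χ)) := by
  have h1 : z * idem χ = algebraMap k Z (χ z) * idem χ +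
      (z - algebraMap k Z (χ z)) * idem χ := by ring
  have h2 : ρ (algebraMap k Z (χ z) * idem χ) = χ z • ρ (idem χ) := by
    rw [← Algebra.smul_def, map_smul]
  rw [h1, map_add, map_add, h2, map_smul, smul_eq_mul,
    trace_nilp _ ((nilp_comp z χ).map ρ), add_zero]

/-- **trace of an element = sum over the characters** -/
theorem trace_eq_tr (ρ : Z →ₐ[k] Module.End k M) (z : Z) :
    LinearMap.trace k M (ρ z) =
      ∑ χ : Z →ₐ[k] k, χ z * LinearMap.trace k M (ρ (idem χ)) := by
  have h : z = ∑ χ : Z →ₐ[k] k, z * idem χ := by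
    rw [← Finset.mul_sum, idem_sum, mul_one]
  conv_lhs => rw [h]
  rw [map_sum, map_sum]
  exact Finset.sum_congr rfl fun χ _ => trace_comp ρ z χ

/-- **trace of an element = sum over the characters of `χ z * dim (e_χ M)`** -/
theorem trace_eq (ρ : Z →ₐ[k] Module.End k M) (z : Z) :
    LinearMap.trace k M (ρ z) =
      ∑ χ : Z →ₐ[k] k, χ z * (finrank k (LinearMap.range (ρ (idem χ))) : k) := by
  rw [trace_eq_tr]
  refine Finset.sum_congr rfl fun χ _ => ?_
  rw [trace_idem _ (by rw [← map_mul, idem_sq])]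

/-- **with a fixed factor `J`** -/
theorem trace_mul_eq (ρ : Z →ₐ[k] Module.End k M) (z J : Z) :
    LinearMap.trace k M (ρ (z * J)) =
      ∑ χ : Z →ₐ[k] k, χ z * LinearMap.trace k M (ρ (idem χ * J)) := by
  rw [trace_eq_tr]
  refine Finset.sum_congr rfl fun χ _ => ?_
  rw [map_mul, mul_comm (idem χ) J, trace_comp, mul_assoc]

end gen

end Crest.Agent.R170.T312
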