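import Mathlib
import Crest.Agent.R170.DefW_995
import Crest.Agent.R170.Stm_995
import Crest.Agent.R170.C_176
import Crest.Agent.R170.AB2_983
import Crest.Agent.R170.ORB2_700
import Crest.Agent.R170.OS_182
import Crest.Agent.R170.J1_482
import Crest.Agent.R170.S4b_262
import Crest.Agent.R170.BR_606
import Crest.Agent.R170.K_876
import Crest.Agent.R170.B2c_334
import Crest.Agent.R170.T_312

/-!
# Row 170: the joint STP

`STP312.stp : STP p k` (literal), from C (176), AB (983), ORB (700), OS (182), J (482), S4 (262),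
BR (606), K (876), B2 (334).
-/

set_option autoImplicit false

namespace Crest.Agent.R170.STP312

open MonoidAlgebra Crest.AlgebraR.Weights Crest.AlgebraR.Blocks

theorem tr_idem {k M : Type} [Field k] [AddCommGroup M] [Module k M] [FiniteDimensional k M]
    (f : Module.End k M) (h : f * f = f) :
    LinearMap.trace k M f = (Module.finrank k (LinearMap.range f) : k) :=
  (LinearMap.IsIdempotentElem.isProj_range f h).trace

section tr1
variable {k G : Type} [Field k] [Group G] [Finite G]

/-- the trace of a central idempotent on the centre -/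
theorem trZ_idem {e : MonoidAlgebra k G} (he : CI e)
    (z : Subalgebra.center k (MonoidAlgebra k G)) (hz : (z : MonoidAlgebra k G) = e) :
    trZ z = (kc e : k) := by
  have hzz : z * z = z := by
    apply Subtype.ext
    show (z : MonoidAlgebra k G) * z = z
    rw [hz, he.2]
  have h1 : LinearMap.mulLeft k z * LinearMap.mulLeft k z = LinearMap.mulLeft k z := by
    refine LinearMap.ext fun x => ?_
    show z * (z * x) = z * x
    rw [← mul_assoc, hzz]
  rw [trZ, tr_idem _ h1]
  congr 1
  have hinj : Function.Injective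
      (Subalgebra.center k (MonoidAlgebra k G)).val.toLinearMap := Subtype.val_injective
  rw [(Submodule.equivMapOfInjective _ hinj (LinearMap.range (LinearMap.mulLeft k z))).finrank_eq,
    kc]
  have hs : (LinearMap.range (LinearMap.mulLeft k z)).map
      (Subalgebra.center k (MonoidAlgebra k G)).val.toLinearMap = eZ e := by
    ext x
    rw [Submodule.mem_map]
    constructor
    · rintro ⟨y, ⟨w, rfl⟩, rfl⟩
      refine ⟨fun x => ?_, ?_⟩
      · exact ((Subalgebra.mem_center_iff.1 (z * w).2) x).symm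
      · show e * ((z : MonoidAlgebra k G) * w) = (z : MonoidAlgebra k G) * w
        rw [hz, ← mul_assoc, he.2]
    · rintro ⟨h2, h3⟩
      refine ⟨z * ⟨x, Subalgebra.mem_center_iff.2 fun y => (h2 y).symm⟩, ⟨_, rfl⟩, ?_⟩
      show (z : MonoidAlgebra k G) * x = x
      rw [hz, h3]
  rw [hs]

end tr1

section L
variable {k H ι : Type} [Field k] [Group H] [Finite H]

/-- `#{(x, y) : π [x, y] = i}` -/
noncomputable def cnt (π : H → ι) (i : ι) : ℕ :=
  Nat.card {q : H × H // π (q.1 * q.2 * q.1⁻¹ * q.2⁻¹) = i}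

/-- the same divided by `|H|` -/
noncomputable def R (π : H → ι) (i : ι) : ℕ := cnt π i / Nat.card H

omit [Finite H] in
theorem cls_conj {π : H → ι} (hπ : ∀ g h, π (h * g * h⁻¹) = π g) (i : ι) (g h : H)
    (hg : g ∈ {x | π x = i}) : h * g * h⁻¹ ∈ {x | π x = i} := by
  show π (h * g * h⁻¹) = i
  rw [hπ]
  exact hg

theorem cnt_eq {π : H → ι} (hπ : ∀ g h, π (h * g * h⁻¹) = π g) (i : ι) :
    cnt π i = Nat.card H * R π i := by
  obtain ⟨r, h1, -⟩ := C176.trZ_setSum (k := ℚ) {x | π x = i} (cls_conj hπ i)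
  have h2 : cnt π i = Nat.card H * r := h1
  rw [R, h2, Nat.mul_div_cancel_left _ Nat.card_pos]

/-- trace on the centre as a combination of commutator counts -/
theorem trZ_eq [Fintype ι] {π : H → ι} (hπ : ∀ g h, π (h * g * h⁻¹) = π g) (f : ι → k)
    (z : Subalgebra.center k (MonoidAlgebra k H))
    (hz : ∀ g, (z : MonoidAlgebra k H).coeff g = f (π g)) :
    trZ z = ∑ i, f i * (R π i : k) := by
  classical
  have h1 : z = ∑ i, f i • C176.setSum (k := k) {x | π x = i} (cls_conj hπ i) := by
    apply Subtype.ext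
    rw [AddSubmonoidClass.coe_finsetSum]
    ext g
    rw [hz, MonoidAlgebra.coeff_sum, Finset.sum_apply']
    have hc : ∀ i, ((f i • C176.setSum (k := k) {x | π x = i} (cls_conj hπ i) :
        Subalgebra.center k (MonoidAlgebra k H)) : MonoidAlgebra k H).coeff g =
        f i * ({x | π x = i} : Set H).indicator (fun _ => (1 : k)) g := fun i => rfl
    rw [Finset.sum_eq_single (π g)]
    · rw [hc, Set.indicator_of_mem (by rfl), mul_one]
    · intro i _ hne
      rw [hc, Set.indicator_of_notMem
        (show g ∉ ({x | π x = i} : Set H) from fun h => hne (Eq.symm h)), mul_zero]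
    · intro h
      exact absurd (Finset.mem_univ _) h
  have h2 : ∀ i, trZ (C176.setSum (k := k) {x | π x = i} (cls_conj hπ i)) = (R π i : k) := by
    intro i
    exact C176.trZ_setSum_eq (k := k) {x | π x = i} (cls_conj hπ i) _ (cnt_eq hπ i)
  have h3 : trZ z = Algebra.trace k (Subalgebra.center k (MonoidAlgebra k H)) z := rfl
  rw [h3, h1, map_sum]
  refine Finset.sum_congr rfl fun i _ => ?_
  rw [map_smul, smul_eq_mul, ← h2 i]
  rfl

end L

section main
variable {p : ℕ} [Fact p.Prime] {G : Type} [Group G] [Finite G]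

/-- the class in `G` -/
def cl (S : Subgroup G) (x : S) : ConjClasses G := ConjClasses.mk (x : G)

omit [Finite G] in
theorem cl_conj (S : Subgroup G) (g h : S) : cl S (h * g * h⁻¹) = cl S g := by
  rw [cl, cl, ConjClasses.mk_eq_mk_iff_isConj]
  exact (isConj_iff.2 ⟨(h : G), by push_cast; rfl⟩ : IsConj (g : G) ((h * g * h⁻¹ : S) : G)).symm

/-- transport of the counts -/
theorem cnt_congr {A B ι : Type} [Group A] [Group B] (φ : A ≃* B) (π : A → ι) (ρ : B → ι)
    (h : ∀ a, ρ (φ a) = π a) (i : ι) : cnt π i = cnt ρ i := by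
  refine Nat.card_congr ((φ.toEquiv.prodCongr φ.toEquiv).subtypeEquiv ?_)
  rintro ⟨x, y⟩
  show π _ = i ↔ ρ (φ x * φ y * (φ x)⁻¹ * (φ y)⁻¹) = i
  rw [← map_inv, ← map_inv, ← map_mul, ← map_mul, ← map_mul, h]

theorem R_congr {A B ι : Type} [Group A] [Group B] (φ : A ≃* B) (π : A → ι) (ρ : B → ι)
    (h : ∀ a, ρ (φ a) = π a) (i : ι) : R π i = R ρ i := by
  rw [R, R, cnt_congr φ π ρ h, Nat.card_congr φ.toEquiv]

theorem R_chRel (C : ConjClasses G) (σ τ : Ch p G) (h : chRel σ τ) :
    R (cl (st σ)) C = R (cl (st τ)) C := by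
  obtain ⟨g, rfl⟩ := ORB700.chRel_iff.1 h
  refine R_congr (ORB700.stIso g σ) _ _ (fun a => ?_) C
  rw [cl, cl, ConjClasses.mk_eq_mk_iff_isConj, ORB700.stIso_coe]
  exact (isConj_iff.2 ⟨g, rfl⟩ : IsConj (a : G) _).symm

open Classical in
/-- `#{h ∈ C : h⁻¹ g is a p-element}` -/
noncomputable def N [Fintype G] (p : ℕ) (C : ConjClasses G) (g : G) : ℕ :=
  (Finset.univ.filter fun h : G => ConjClasses.mk h = C ∧ IsPElt p (h⁻¹ * g)).card

omit [Fact p.Prime] [Finite G] in
theorem N_conj [Fintype G] (C : ConjClasses G) (g x : G) : N p C (x * g * x⁻¹) = N p C g := by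
  classical
  symm
  refine Finset.card_bij (fun h _ => x * h * x⁻¹) ?_ ?_ ?_
  · intro h hh
    simp only [Finset.mem_filter, Finset.mem_univ, true_and] at hh ⊢
    refine ⟨?_, ?_⟩
    · rw [← hh.1, ConjClasses.mk_eq_mk_iff_isConj]
      exact (isConj_iff.2 ⟨x, rfl⟩ : IsConj h (x * h * x⁻¹)).symm
    · have e : (x * h * x⁻¹)⁻¹ * (x * g * x⁻¹) = x * (h⁻¹ * g) * x⁻¹ := by group
      rw [e, K876.isPElt_conj]
      exact hh.2
  · intro a _ b _ hab
    simpa using hab
  · intro h hh
    simp only [Finset.mem_filter, Finset.mem_univ, true_and] at hh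
    refine ⟨x⁻¹ * h * x, ?_, by group⟩
    simp only [Finset.mem_filter, Finset.mem_univ, true_and]
    refine ⟨?_, ?_⟩
    · rw [← hh.1, ConjClasses.mk_eq_mk_iff_isConj]
      exact (isConj_iff.2 ⟨x, by group⟩ : IsConj (x⁻¹ * h * x) h)
    · rw [← K876.isPElt_conj x]
      have e : x * ((x⁻¹ * h * x)⁻¹ * g) * x⁻¹ = h⁻¹ * (x * g * x⁻¹) := by group
      rw [e]
      exact hh.2

omit [Fact p.Prime] [Finite G] in
theorem mk_conj (g h : G) : ConjClasses.mk (h * g * h⁻¹) = ConjClasses.mk g := by
  rw [ConjClasses.mk_eq_mk_iff_isConj]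
  exact (isConj_iff.2 ⟨h, rfl⟩ : IsConj g (h * g * h⁻¹)).symm

/-- the number `n C` -/
noncomputable def nC [Fintype G] [Fintype (ConjClasses G)] (p : ℕ) (C : ConjClasses G) : ℕ :=
  ∑ D : ConjClasses G, N p C D.out * R (ConjClasses.mk : G → ConjClasses G) D

omit [Fact p.Prime] in
theorem card_nC [Fintype G] [Fintype (ConjClasses G)] (C : ConjClasses G) :
    Nat.card {w : G × G × G // IsConj w.2.2 C.out ∧
        IsPElt p (w.2.2⁻¹ * (w.1 * w.2.1 * w.1⁻¹ * w.2.1⁻¹))} = Nat.card G * nC p C := by
  classical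
  have h1 : ∀ D : ConjClasses G, cnt (ConjClasses.mk : G → ConjClasses G) D =
      ∑ q : G × G, if ConjClasses.mk (q.1 * q.2 * q.1⁻¹ * q.2⁻¹) = D then 1 else 0 := by
    intro D
    rw [cnt, Nat.card_eq_fintype_card, Fintype.card_subtype, Finset.card_filter]
  have hout : ∀ g : G, N p C (ConjClasses.mk g).out = N p C g := by
    intro g
    have : IsConj g (ConjClasses.mk g).out := by
      rw [← ConjClasses.mk_eq_mk_iff_isConj]
      exact (Quotient.out_eq _).symm
    obtain ⟨c, hc⟩ := isConj_iff.1 this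
    rw [← hc, N_conj]
  calc Nat.card {w : G × G × G // IsConj w.2.2 C.out ∧
        IsPElt p (w.2.2⁻¹ * (w.1 * w.2.1 * w.1⁻¹ * w.2.1⁻¹))}
      = ∑ q : G × G, N p C (q.1 * q.2 * q.1⁻¹ * q.2⁻¹) := by
        rw [Nat.card_eq_fintype_card, Fintype.card_subtype, Finset.card_filter,
          Fintype.sum_prod_type, Fintype.sum_prod_type]
        refine Finset.sum_congr rfl fun x _ => ?_
        rw [Fintype.sum_prod_type]
        refine Finset.sum_congr rfl fun y _ => ?_
        rw [N, Finset.card_filter]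
        refine Finset.sum_congr rfl fun h _ => ?_
        refine if_congr (and_congr_left fun _ => ?_) rfl rfl
        rw [← ConjClasses.mk_eq_mk_iff_isConj]
        have : ConjClasses.mk C.out = C := Quotient.out_eq C
        rw [this]
    _ = ∑ D : ConjClasses G, N p C D.out * cnt (ConjClasses.mk : G → ConjClasses G) D := by
        simp_rw [h1, Finset.mul_sum]
        rw [Finset.sum_comm]
        refine Finset.sum_congr rfl fun q _ => ?_
        rw [Finset.sum_eq_single (ConjClasses.mk (q.1 * q.2 * q.1⁻¹ * q.2⁻¹)), if_pos rfl, mul_one,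
          hout]
        · intro D _ hne
          rw [if_neg (Ne.symm hne), mul_zero]
        · intro h
          exact absurd (Finset.mem_univ _) h
    _ = Nat.card G * nC p C := by
        rw [nC, Finset.mul_sum]
        refine Finset.sum_congr rfl fun D _ => ?_
        rw [cnt_eq (fun g h => mk_conj g h) D]
        ring

theorem dvd_cancel {n : ℕ} (hn : n ≠ 0) {X : ℤ}
    (h : ((p * pPart p n : ℕ) : ℤ) ∣ (n : ℤ) * X) : (p : ℤ) ∣ X := by
  have hp : p.Prime := Fact.out
  obtain ⟨m, hm⟩ : p ^ padicValNat p n ∣ n := pow_padicValNat_dvd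
  have hpm : ¬ p ∣ m := by
    intro h1
    apply pow_succ_padicValNat_not_dvd (p := p) hn
    obtain ⟨c, hc⟩ := h1
    refine ⟨c, ?_⟩
    rw [pow_succ, mul_assoc, ← hc]
    exact hm
  have h2 : ((p : ℤ) * (p : ℤ) ^ padicValNat p n) ∣ (p : ℤ) ^ padicValNat p n * ((m : ℤ) * X) := by
    have e : (n : ℤ) = (p : ℤ) ^ padicValNat p n * m := by exact_mod_cast hm
    have e2 : ((p * pPart p n : ℕ) : ℤ) = (p : ℤ) * (p : ℤ) ^ padicValNat p n := by
      rw [pPart]
      push_cast
      rfl
    rw [← e2, ← mul_assoc, ← e]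
    exact h
  have h3 : (p : ℤ) ∣ (m : ℤ) * X := by
    rw [mul_comm (p : ℤ)] at h2
    exact (mul_dvd_mul_iff_left (pow_ne_zero _ (by exact_mod_cast hp.ne_zero))).1 h2
  have hp' : Prime (p : ℤ) := Nat.prime_iff_prime_int.1 hp
  rcases hp'.dvd_or_dvd h3 with h4 | h4
  · exact absurd (by exact_mod_cast h4) hpm
  · exact h4

variable (p) in
/-- **The joint STP** (literal) -/
theorem stp (k : Type) [Field k] [IsAlgClosed k] [CharP k p] : STP p k := by
  intro hW G _ _ e he
  classical
  haveI : Fintype G := Fintype.ofFinite G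
  haveI : Fintype (ConjClasses G) := Fintype.ofFinite _
  set f : ConjClasses G → k := fun C => e.coeff C.out with hf
  have hout : ∀ (z : MonoidAlgebra k G), (∀ x, z * x = x * z) → ∀ g : G,
      z.coeff g = z.coeff (ConjClasses.mk g).out := by
    intro z hz g
    have : IsConj g (ConjClasses.mk g).out := by
      rw [← ConjClasses.mk_eq_mk_iff_isConj]
      exact (Quotient.out_eq _).symm
    obtain ⟨c, hc⟩ := isConj_iff.1 this
    rw [← hc, AB983.coeff_conj hz]
  have hcl : ∀ g : G, e.coeff g = f (ConjClasses.mk g) := hout e he.1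
  have hos := OS182.os p k G e he
  -- the side of `kc`
  have hkc : ∀ σ : Ch p G, (kc (eC σ e) : k) = ∑ C, f C * (R (cl (st σ)) C : k) := by
    intro σ
    have hCI : CI (eC σ e) := BR606.sBrCI p k G e (st σ) (top σ) (K876.isPGroup_top σ)
      (K876.centralizer_top_le_st σ) (K876.st_le_normalizer_top σ) he
    have hCI' : CI (br (st σ) (top σ) e) := hCI
    let y2 : Subalgebra.center k (MonoidAlgebra k (st σ)) :=
      ⟨br (st σ) (top σ) e, Subalgebra.mem_center_iff.2 fun y => (hCI'.1 y).symm⟩
    let y1 : Subalgebra.center k (MonoidAlgebra k (st σ)) :=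
      ⟨restrictCoeff (st σ) e,
        Subalgebra.mem_center_iff.2 fun y => (AB983.restrict_central he.1 (st σ) y).symm⟩
    rw [← trZ_idem hCI y2 rfl, ← AB983.AB3_trZ σ e he.1 (fun g hg => by
      by_contra hcon
      exact hg (hos g hcon)) y1 y2 rfl rfl]
    exact trZ_eq (cl_conj (st σ)) f y1 fun g => hcl g
  -- the side of `f0`
  have hf0 : (f0 e : k) = ∑ C, f C * (nC p C : k) := by
    let eZ' : Subalgebra.center k (MonoidAlgebra k G) :=
      ⟨e, Subalgebra.mem_center_iff.2 fun y => (he.1 y).symm⟩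
    let J : Subalgebra.center k (MonoidAlgebra k G) :=
      C176.setSum (k := k) {g | IsPElt p g} fun g h hg => (K876.isPElt_conj h g).2 hg
    have hJ : (J : MonoidAlgebra k G) = .ofCoeff (Finsupp.equivFunOnFinite.symm fun g : G =>
        (open Classical in if IsPElt p g then (1 : k) else 0)) := by
      ext g
      show ({g | IsPElt p g} : Set G).indicator (fun _ => (1 : k)) g = if IsPElt p g then 1 else 0
      rw [Set.indicator_apply]
      rfl
    have h1 := (J482.sJ1 p k G e (eZ' * J) he (by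
      show e * (J : MonoidAlgebra k G) = _
      rw [hJ])).symm
    rw [h1]
    have hz : ∀ g, ((eZ' * J : Subalgebra.center k (MonoidAlgebra k G)) :
        MonoidAlgebra k G).coeff g =
        (fun D : ConjClasses G => ∑ C, f C * (N p C D.out : k)) (ConjClasses.mk g) := by
      intro g
      rw [hout _ (fun x => (Subalgebra.mem_center_iff.1 (eZ' * J).2 x).symm) g]
      show (e * (J : MonoidAlgebra k G)).coeff _ = ∑ C, f C * (N p C (ConjClasses.mk g).out : k)
      generalize (ConjClasses.mk g).out = x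
      rw [J482.coeff_mul_fin]
      have h2 : ∀ C : ConjClasses G, f C * (N p C x : k) =
          ∑ h : G, if ConjClasses.mk h = C then
            (if IsPElt p (h⁻¹ * x) then f (ConjClasses.mk h) else 0) else 0 := by
        intro C
        rw [N, Finset.card_filter, Nat.cast_sum, Finset.mul_sum]
        refine Finset.sum_congr rfl fun h _ => ?_
        by_cases a : ConjClasses.mk h = C
        · by_cases b : IsPElt p (h⁻¹ * x)
          · rw [if_pos ⟨a, b⟩, if_pos a, if_pos b, a]
            simp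
          · rw [if_neg (fun h => b h.2), if_pos a, if_neg b]
            simp
        · rw [if_neg (fun h => a h.1), if_neg a]
          simp
      rw [Finset.sum_congr rfl fun C _ => h2 C, Finset.sum_comm]
      refine Finset.sum_congr rfl fun h _ => ?_
      rw [Finset.sum_ite_eq, if_pos (Finset.mem_univ _), hcl h]
      have h3 : (J : MonoidAlgebra k G).coeff (h⁻¹ * x) = if IsPElt p (h⁻¹ * x) then 1 else 0 := by
        rw [hJ]
        rfl
      rw [h3]
      split_ifs <;> simp
    rw [trZ_eq (π := (ConjClasses.mk : G → ConjClasses G)) (fun g h => mk_conj g h)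
      (fun D : ConjClasses G => ∑ C, f C * (N p C D.out : k)) (eZ' * J) hz]
    simp_rw [Finset.sum_mul]
    rw [Finset.sum_comm]
    refine Finset.sum_congr rfl fun C _ => ?_
    rw [nC, Nat.cast_sum, Finset.mul_sum]
    refine Finset.sum_congr rfl fun D _ => ?_
    push_cast
    ring
  -- the counting input
  have hS4 : ∀ C : ConjClasses G, (orderOf C.out).Coprime p →
      (p : ℤ) ∣ altSum (fun σ : Ch p G => (R (cl (st σ)) C : ℤ)) - nC p C := by
    intro C hC
    have h := S4262.ss4 p hW G C.out hC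
    have e1 : ∀ σ : Ch p G, (Nat.card {w : st σ × st σ //
        IsConj ((w.1 * w.2 * w.1⁻¹ * w.2⁻¹ : st σ) : G) C.out} : ℤ) =
        (Nat.card (st σ) : ℤ) * (R (cl (st σ)) C : ℤ) := by
      intro σ
      have e2 := cnt_eq (cl_conj (st σ)) C
      have e3 : Nat.card {w : st σ × st σ //
          IsConj ((w.1 * w.2 * w.1⁻¹ * w.2⁻¹ : st σ) : G) C.out} = cnt (cl (st σ)) C := by
        rw [cnt]
        refine Nat.card_congr (Equiv.subtypeEquivRight fun w => ?_)
        rw [cl, ← ConjClasses.mk_eq_mk_iff_isConj]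
        have : ConjClasses.mk C.out = C := Quotient.out_eq C
        rw [this]
      rw [e3, e2]
      push_cast
      rfl
    rw [finsum_congr fun σ => by rw [e1 σ], card_nC] at h
    have h5 := ORB700.card_mul_altSum (fun σ : Ch p G => (R (cl (st σ)) C : ℤ))
      (fun σ τ hst => by
        show (R (cl (st σ)) C : ℤ) = (R (cl (st τ)) C : ℤ)
        rw [R_chRel C σ τ hst])
    rw [← h5] at h
    refine dvd_cancel (p := p) (n := Nat.card G) (Nat.card_pos).ne' ?_
    rw [mul_sub]
    push_cast at h ⊢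
    exact h
  -- combination
  have hk : ((altSum (fun σ : Ch p G => (kc (eC σ e) : ℤ)) : ℤ) : k) = ((f0 e : ℤ) : k) := by
    rw [← ORB700.altSumK_cast, ORB700.altSumK_congr (g := fun σ : Ch p G =>
      ∑ C, f C * (R (cl (st σ)) C : k)) (fun σ => by
        rw [← hkc σ]
        push_cast
        rfl), ORB700.altSumK_sum]
    rw [Int.cast_natCast, hf0]
    refine Finset.sum_congr rfl fun C _ => ?_
    by_cases hC : (orderOf C.out).Coprime p
    · rw [ORB700.altSumK_mul_left]
      congr 1
      have h6 := (CharP.intCast_eq_zero_iff k p _).2 (hS4 C hC)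
      rw [Int.cast_sub, sub_eq_zero, Int.cast_natCast, ← ORB700.altSumK_cast] at h6
      rw [← h6]
      refine ORB700.altSumK_congr fun σ => ?_
      push_cast
      rfl
    · have h7 : f C = 0 := hos _ hC
      rw [ORB700.altSumK_mul_left, h7, zero_mul, zero_mul]
  have hlk : altSum (fun σ : Ch p G => (lc (eC σ e) : ℤ)) =
      altSum (fun σ : Ch p G => (kc (eC σ e) : ℤ)) := by
    have h := K876.SK_of (B2334.B2 p k) (BR606.sBrCI p k) G e he
    have h8 := ORB700.card_mul_altSum (fun σ : Ch p G => (lc (eC σ e) : ℤ))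
      (fun σ τ hst => by
        show (lc (eC σ e) : ℤ) = (lc (eC τ e) : ℤ)
        rw [ORB700.lc_eC he.1 hst])
    have h9 := ORB700.card_mul_altSum (fun σ : Ch p G => (kc (eC σ e) : ℤ))
      (fun σ τ hst => by
        show (kc (eC σ e) : ℤ) = (kc (eC τ e) : ℤ)
        rw [ORB700.kc_eC he.1 hst])
    have hG : (Nat.card G : ℤ) ≠ 0 := by exact_mod_cast (Nat.card_pos (α := G)).ne'
    exact mul_left_cancel₀ hG (by rw [h8, h9, h])
  rw [hlk]
  rw [← sub_eq_zero, ← Int.cast_sub] at hk
  exact (CharP.intCast_eq_zero_iff k p _).1 hk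

end main

end Crest.Agent.R170.STP312
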