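import Crest.Agent.R170.FE_234

/-!
# Row 170, leaf WW2 (helper752): the set `Y e` is the one of FE_234
-/
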