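import Mathlib
import Crest.Agent.R170.Y_752
import Crest.Agent.R170.Wr_350

/-!
# Row 170, leaf WW2 (helper752), part a: the functional equation, linear independence, tuples
-/

set_option autoImplicit false
set_option linter.unusedSectionVars false
open scoped BigOperators

namespace Crest.Agent.R170.WW2752

section basic
variable {k H : Type} [Field k] [Group H] [Fintype H]

/-- the functional equation -/
def FEq (φ : H → k) : Prop := ∀ a b, ∑ g, φ (a * g * b * g⁻¹) = φ a * φ b

/-- nonzero solutions -/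
def Y0 (k H : Type) [Field k] [Group H] [Fintype H] : Set (H → k) := {φ | φ ≠ 0 ∧ FEq φ}

omit [Group H] [Fintype H] in
theorem exists_ne {φ : H → k} (h0 : φ ≠ 0) : ∃ a, φ a ≠ 0 := by
  by_contra h
  push Not at h
  exact h0 (funext h)

theorem FEq.conj {φ : H → k} (hφ : FEq φ) (h0 : φ ≠ 0) (b h : H) : φ (h * b * h⁻¹) = φ b := by
  obtain ⟨a, ha⟩ := exists_ne h0
  have h1 := hφ a (h * b * h⁻¹)
  have h2 := hφ a b
  have h3 : ∑ g, φ (a * g * (h * b * h⁻¹) * g⁻¹) = ∑ g, φ (a * g * b * g⁻¹) := by
    refine Fintype.sum_equiv (Equiv.mulRight h) _ _ (fun g => ?_)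
    congr 1
    simp only [Equiv.coe_mulRight]
    group
  rw [h3, h2] at h1
  exact (mul_left_cancel₀ ha h1).symm

theorem FEq.comm {φ : H → k} (hφ : FEq φ) (h0 : φ ≠ 0) (a b : H) : φ (a * b) = φ (b * a) := by
  have h := hφ.conj h0 (a * b) b
  rw [← h]
  congr 1
  group

/-- distinct solutions are linearly independent -/
theorem linInd : LinearIndependent k (fun φ : Y0 k H => (φ : H → k)) := by
  classical
  let F : Y0 k H → (FreeMonoid H →* k) := fun φ => FreeMonoid.lift (φ : H → k)
  have hF : Function.Injective F := by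
    intro φ ψ h
    apply Subtype.ext
    funext a
    have h1 := DFunLike.congr_fun h (FreeMonoid.of a)
    simpa [F] using h1
  have hLI : LinearIndependent k (fun φ : Y0 k H => (F φ : FreeMonoid H → k)) :=
    (linearIndependent_monoidHom (FreeMonoid H) k).comp F hF
  rw [linearIndependent_iff'] at hLI ⊢
  intro s g hg i hi
  have key : ∀ (w : FreeMonoid H) (b : H), ∑ φ ∈ s, (g φ * (φ : H → k) b) * F φ w = 0 := by
    intro w
    induction w using FreeMonoid.inductionOn' with
    | one =>
      intro b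
      have h1 := congrFun hg b
      simpa using h1
    | of_mul a w ih =>
      intro b
      have h1 : ∀ φ : Y0 k H, (g φ * (φ : H → k) b) * F φ (FreeMonoid.of a * w) =
          ∑ x, (g φ * (φ : H → k) (b * x * a * x⁻¹)) * F φ w := by
        intro φ
        rw [map_mul, ← Finset.sum_mul, ← Finset.mul_sum, φ.2.2 b a]
        simp only [F, FreeMonoid.lift_eval_of]
        ring
      rw [Finset.sum_congr rfl (fun φ _ => h1 φ), Finset.sum_comm]
      exact Finset.sum_eq_zero (fun x _ => ih _)
  obtain ⟨b, hb⟩ := exists_ne i.2.1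
  have h2 := hLI s (fun φ => g φ * (φ : H → k) b) (by
    funext w
    simpa using key w b) i hi
  exact (mul_eq_zero.1 h2).resolve_right hb

/-- a function invariant under left translation by a subgroup of order `0` in `k` has sum `0` -/
theorem sum_eq_zero (K : Subgroup H) (hK : (Nat.card K : k) = 0) (f : H → k)
    (hf : ∀ h ∈ K, ∀ g, f (h * g) = f g) : ∑ g, f g = 0 := by
  classical
  -- use right cosets through inversion
  have h1 : ∑ g, f g = ∑ g, f g⁻¹ := by
    refine Fintype.sum_equiv (Equiv.inv H) _ _ (fun g => ?_)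
    simp
  have h2 : ∀ g : H, ∀ h ∈ K, f (g * h)⁻¹ = f g⁻¹ := by
    intro g h hh
    rw [mul_inv_rev]
    exact hf _ (K.inv_mem hh) _
  rw [h1]
  have : Fintype (H ⧸ K) := Fintype.ofFinite _
  have : Fintype K := Fintype.ofFinite _
  have h3 : ∑ g, f g⁻¹ = ∑ q : H ⧸ K, ∑ g with (QuotientGroup.mk g : H ⧸ K) = q, f g⁻¹ := by
    rw [Finset.sum_fiberwise]
  rw [h3]
  apply Finset.sum_eq_zero
  intro q _
  obtain ⟨x, rfl⟩ := QuotientGroup.mk_surjective q
  have h4 : ∑ g with (QuotientGroup.mk g : H ⧸ K) = QuotientGroup.mk x, f g⁻¹ =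
      ∑ h : K, f (x * h)⁻¹ := by
    symm
    refine Finset.sum_bij (fun h _ => x * (h : H)) ?_ ?_ ?_ ?_
    · intro h _
      simp
    · intro h _ h' _ hh
      exact Subtype.ext (mul_left_cancel hh)
    · intro g hg
      rw [Finset.mem_filter] at hg
      have h5 := QuotientGroup.eq.1 hg.2.symm
      exact ⟨⟨x⁻¹ * g, h5⟩, Finset.mem_univ _, by simp⟩
    · intro h _
      rfl
  rw [h4, Finset.sum_congr rfl (fun (h : K) _ => h2 x (h : H) h.2), Finset.sum_const, Finset.card_univ,
    ← Nat.card_eq_fintype_card, nsmul_eq_mul, hK, zero_mul]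

end basic

section tuples
variable {k M ι : Type} [Field k] [Group M] [Fintype M] [Fintype ι] [DecidableEq ι]

/-- tensor product of functions -/
def Ten (t : ι → M → k) : (ι → M) → k := fun b => ∏ i, t i (b i)

theorem Ten_FEq (t : ι → M → k) (ht : ∀ i, FEq (t i)) : FEq (Ten t) := by
  intro a b
  simp only [Ten, Pi.mul_apply, Pi.inv_apply]
  rw [← Finset.prod_mul_distrib, ← Finset.prod_congr rfl (fun i _ => ht i (a i) (b i))]
  rw [Finset.prod_univ_sum, Fintype.piFinset_univ]

theorem Ten_ne (t : ι → M → k) (ht : ∀ i, t i ≠ 0) : Ten t ≠ 0 := by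
  choose b hb using fun i => exists_ne (ht i)
  intro h
  have h1 := congrFun h b
  simp only [Ten, Pi.zero_apply] at h1
  exact (Finset.prod_ne_zero_iff.2 (fun i _ => hb i)) h1

theorem Ten_inj (t t' : ι → M → k) (ht : ∀ i, t i ≠ 0 ∧ FEq (t i)) (ht' : ∀ i, t' i ≠ 0 ∧ FEq (t' i))
    (h : Ten t = Ten t') : t = t' := by
  classical
  choose b hb using fun i => exists_ne (ht i).1
  have hP : ∏ i, t i (b i) ≠ 0 := Finset.prod_ne_zero_iff.2 (fun i _ => hb i)
  have hb' : ∀ i, t' i (b i) ≠ 0 := by
    have h1 := congrFun h b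
    simp only [Ten] at h1
    rw [h1] at hP
    exact fun i => Finset.prod_ne_zero_iff.1 hP i (Finset.mem_univ i)
  funext i
  -- `t i = c • t' i`
  have hex : ∃ c : k, ∀ a, t i a = c * t' i a := by
    refine ⟨(∏ j ∈ Finset.univ.erase i, t' j (b j)) / ∏ j ∈ Finset.univ.erase i, t j (b j), ?_⟩
    intro a
    have h1 := congrFun h (Function.update b i a)
    simp only [Ten] at h1
    rw [← Finset.mul_prod_erase _ _ (Finset.mem_univ i),
      ← Finset.mul_prod_erase (s := Finset.univ) (f := fun j => t' j (Function.update b i a j))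
        (Finset.mem_univ i)] at h1
    simp only [Function.update_self] at h1
    have h2 : ∏ j ∈ Finset.univ.erase i, t j (Function.update b i a j) =
        ∏ j ∈ Finset.univ.erase i, t j (b j) := by
      refine Finset.prod_congr rfl (fun j hj => ?_)
      rw [Function.update_of_ne (Finset.ne_of_mem_erase hj)]
    have h3 : ∏ j ∈ Finset.univ.erase i, t' j (Function.update b i a j) =
        ∏ j ∈ Finset.univ.erase i, t' j (b j) := by
      refine Finset.prod_congr rfl (fun j hj => ?_)
      rw [Function.update_of_ne (Finset.ne_of_mem_erase hj)]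
    rw [h2, h3] at h1
    have h4 : ∏ j ∈ Finset.univ.erase i, t j (b j) ≠ 0 :=
      Finset.prod_ne_zero_iff.2 (fun j _ => hb j)
    field_simp
    rw [h1]
    ring
  obtain ⟨c, hc⟩ := hex
  have hc0 : c ≠ 0 := by
    rintro rfl
    exact hb i (by rw [hc, zero_mul])
  have h1 := (ht i).2 (b i) (b i)
  have h2 := (ht' i).2 (b i) (b i)
  simp only [hc, ← Finset.mul_sum] at h1
  rw [h2] at h1
  have h3 : c = 1 := by
    have h5 := hb' i
    have h6 : c * (t' i (b i) * t' i (b i)) = c * (c * (t' i (b i) * t' i (b i))) :=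
      h1.trans (by ring)
    have h7 := mul_left_cancel₀ hc0 h6
    have h8 : (1 : k) * (t' i (b i) * t' i (b i)) = c * (t' i (b i) * t' i (b i)) := by
      rw [one_mul]; exact h7
    exact (mul_right_cancel₀ (mul_ne_zero h5 h5) h8).symm
  funext a
  rw [hc a, h3, one_mul]

end tuples

end Crest.Agent.R170.WW2752
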