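import Mathlib
import Crest.Agent.R170.WW2a_752

/-!
# Row 170, leaf WW2 (helper752), part b: from tuples to the wreath product
-/

set_option autoImplicit false
set_option linter.unusedSectionVars false
open scoped BigOperators

namespace Crest.Agent.R170.WW2752

open FE (Y)

section wreath
variable {k M C : Type} [Field k] [Group M] [Fintype M] [CommGroup C] [Fintype C] [DecidableEq C]

noncomputable instance instFintypeWr : Fintype (M ≀ᵣ C) :=
  Fintype.ofEquiv _ (RegularWreathProduct.equivProd M C).symm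

omit [Field k] [Fintype M] [Group M] [Fintype C] [DecidableEq C] in
/-- rotation of a tuple -/
def rot (c : C) (t : C → M → k) : C → M → k := fun i => t (c * i)

theorem sum_wr (f : (M ≀ᵣ C) → k) : ∑ g, f g = ∑ c : C, ∑ m : C → M, f ⟨m, c⟩ := by
  rw [Fintype.sum_equiv (RegularWreathProduct.equivProd M C) f (fun x => f ⟨x.1, x.2⟩)
    (fun x => rfl), Fintype.sum_prod_type, Finset.sum_comm]

theorem Ten_shift (t : C → M → k) (c : C) (b : C → M) :
    Ten t (fun j => b (c⁻¹ * j)) = Ten (rot c t) b := by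
  simp only [Ten, rot]
  refine Fintype.prod_equiv (Equiv.mulLeft c⁻¹) _ _ (fun j => ?_)
  simp

theorem rot_rot (c d : C) (t : C → M → k) : rot d (rot c t) = rot (c * d) t := by
  funext i
  simp only [rot, mul_assoc]

/-- the candidate solutions on the wreath product -/
noncomputable def Psi (t : C → M → k) : (M ≀ᵣ C) → k :=
  fun x => if x.right = 1 then ∑ c, Ten (rot c t) x.left else 0

theorem Psi_base (t : C → M → k) (b : C → M) : Psi t ⟨b, 1⟩ = ∑ c, Ten (rot c t) b := by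
  simp [Psi]

theorem Psi_off (t : C → M → k) (x : M ≀ᵣ C) (hx : x.right ≠ 1) : Psi t x = 0 := by
  simp [Psi, hx]

theorem conj_base (m b : C → M) (c : C) :
    (⟨m, c⟩ : M ≀ᵣ C) * ⟨b, 1⟩ * (⟨m, c⟩ : M ≀ᵣ C)⁻¹ =
      ⟨m * (fun j => b (c⁻¹ * j)) * m⁻¹, 1⟩ := by
  ext
  · simp
  · simp

theorem comm_base (a m b : C → M) (c : C) :
    (⟨a, 1⟩ : M ≀ᵣ C) * (⟨m, c⟩ : M ≀ᵣ C) * ⟨b, 1⟩ * (⟨m, c⟩ : M ≀ᵣ C)⁻¹ =
      ⟨a * m * (fun j => b (c⁻¹ * j)) * m⁻¹, 1⟩ := by
  rw [mul_assoc, mul_assoc, ← mul_assoc (⟨m, c⟩ : M ≀ᵣ C), conj_base]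
  ext
  · simp [mul_assoc]
  · simp

theorem Psi_conj (t : C → M → k) (ht : ∀ i, t i ≠ 0 ∧ FEq (t i)) (g x : M ≀ᵣ C) :
    Psi t (g * x * g⁻¹) = Psi t x := by
  by_cases hx : x.right = 1
  · obtain ⟨b, r⟩ := x
    obtain ⟨m, c⟩ := g
    simp only at hx
    subst hx
    rw [conj_base, Psi_base, Psi_base]
    have h1 : ∀ d : C, Ten (rot d t) (m * (fun j => b (c⁻¹ * j)) * m⁻¹) = Ten (rot (d * c) t) b := by
      intro d
      have h2 : FEq (Ten (rot d t)) := Ten_FEq _ (fun i => (ht _).2)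
      have h3 : Ten (rot d t) ≠ 0 := Ten_ne _ (fun i => (ht _).1)
      rw [h2.conj h3, Ten_shift, rot_rot]
    rw [Finset.sum_congr rfl (fun d _ => h1 d)]
    exact Fintype.sum_equiv (Equiv.mulRight c) _ _ (fun d => rfl)
  · rw [Psi_off _ _ hx, Psi_off]
    simpa [mul_comm] using hx

theorem sum_off (p : ℕ) [hp : Fact p.Prime] [CharP k p] (hC : Nat.card C = p)
    (y : (M ≀ᵣ C) → k) (hy : ∀ g x, y (g * x * g⁻¹) = y x) (a b : M ≀ᵣ C) (ha : a.right ≠ 1) :
    ∑ g, y (a * g * b * g⁻¹) = 0 := by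
  apply sum_eq_zero (Subgroup.zpowers a)
  · rw [Nat.card_zpowers]
    have h1 : orderOf a.right ∣ orderOf a := orderOf_map_dvd RegularWreathProduct.rightHom a
    have h2 : orderOf a.right ∣ p := hC ▸ orderOf_dvd_natCard a.right
    have h3 : orderOf a.right = p := by
      rcases (Nat.dvd_prime hp.out).1 h2 with h | h
      · exact absurd (orderOf_eq_one_iff.1 h) ha
      · exact h
    rw [h3] at h1
    exact (CharP.cast_eq_zero_iff k p _).2 h1
  · intro h hh g
    have hcomm : h * a = a * h := by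
      obtain ⟨n, rfl⟩ := Subgroup.mem_zpowers_iff.1 hh
      exact ((Commute.refl a).zpow_left n).eq
    rw [← hy h (a * g * b * g⁻¹)]
    congr 1
    calc a * (h * g) * b * (h * g)⁻¹ = (a * h) * g * b * g⁻¹ * h⁻¹ := by group
      _ = (h * a) * g * b * g⁻¹ * h⁻¹ := by rw [hcomm]
      _ = _ := by group

theorem Psi_FEq (p : ℕ) [hp : Fact p.Prime] [CharP k p] (hC : Nat.card C = p)
    (t : C → M → k) (ht : ∀ i, t i ≠ 0 ∧ FEq (t i)) : FEq (Psi t) := by
  intro a b
  by_cases ha : a.right = 1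
  · by_cases hb : b.right = 1
    · obtain ⟨a, r⟩ := a
      obtain ⟨b, s⟩ := b
      simp only at ha hb
      subst ha hb
      rw [Psi_base, Psi_base, sum_wr]
      have h1 : ∀ (c : C) (m : C → M),
          Psi t ((⟨a, 1⟩ : M ≀ᵣ C) * (⟨m, c⟩ : M ≀ᵣ C) * ⟨b, 1⟩ * (⟨m, c⟩ : M ≀ᵣ C)⁻¹) =
            ∑ d, Ten (rot d t) (a * m * (fun j => b (c⁻¹ * j)) * m⁻¹) := by
        intro c m
        rw [comm_base, Psi_base]
      have h2 : ∀ c : C, ∑ m : C → M, Psi t ((⟨a, 1⟩ : M ≀ᵣ C) * (⟨m, c⟩ : M ≀ᵣ C) * ⟨b, 1⟩ *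
          (⟨m, c⟩ : M ≀ᵣ C)⁻¹) = ∑ d, Ten (rot d t) a * Ten (rot (d * c) t) b := by
        intro c
        rw [Finset.sum_congr rfl (fun m _ => h1 c m), Finset.sum_comm]
        refine Finset.sum_congr rfl (fun d _ => ?_)
        have h3 : FEq (Ten (rot d t)) := Ten_FEq _ (fun i => (ht _).2)
        rw [h3, Ten_shift, rot_rot]
      rw [Finset.sum_congr rfl (fun c _ => h2 c), Finset.sum_comm, Finset.sum_mul]
      refine Finset.sum_congr rfl (fun d _ => ?_)
      rw [← Finset.mul_sum]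
      congr 1
      exact Fintype.sum_equiv (Equiv.mulLeft d) _ _ (fun c => rfl)
    · rw [Psi_off t b hb, mul_zero]
      apply Finset.sum_eq_zero
      intro g _
      apply Psi_off
      simp only [RegularWreathProduct.mul_right, RegularWreathProduct.inv_right, ha, one_mul]
      rwa [mul_comm g.right, mul_assoc, mul_inv_cancel, mul_one]
  · rw [Psi_off t a ha, zero_mul]
    exact sum_off p hC _ (Psi_conj t ht) a b ha

theorem Psi_e (e : MonoidAlgebra k M) (t : C → M → k)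
    (ht : ∀ i a, ∑ h, e.coeff h * t i (h * a) = t i a) (a : M ≀ᵣ C) :
    ∑ h, (wE C e).coeff h * Psi t (h * a) = Psi t a := by
  classical
  rw [sum_wr]
  have h0 : ∀ c : C, c ≠ 1 → ∑ m : C → M, (wE C e).coeff ⟨m, c⟩ * Psi t (⟨m, c⟩ * a) = 0 := by
    intro c hc
    apply Finset.sum_eq_zero
    intro m _
    rw [wE_coeff, if_neg hc, zero_mul]
  rw [Finset.sum_eq_single (1 : C) (fun c _ hc => h0 c hc) (fun h => absurd (Finset.mem_univ _) h)]
  by_cases ha : a.right = 1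
  · obtain ⟨a, r⟩ := a
    simp only at ha
    subst ha
    rw [Psi_base]
    have h1 : ∀ m : C → M, (wE C e).coeff ⟨m, 1⟩ * Psi t (⟨m, 1⟩ * ⟨a, 1⟩) =
        ∑ d, ∏ i, e.coeff (m i) * rot d t i (m i * a i) := by
      intro m
      have h2 : (⟨m, 1⟩ * ⟨a, 1⟩ : M ≀ᵣ C) = ⟨m * a, 1⟩ := by
        ext <;> simp
      rw [wE_coeff, if_pos rfl, h2, Psi_base, Finset.mul_sum]
      refine Finset.sum_congr rfl (fun d _ => ?_)
      rw [Ten, ← Finset.prod_mul_distrib]
      rfl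
    rw [Finset.sum_congr rfl (fun m _ => h1 m), Finset.sum_comm]
    refine Finset.sum_congr rfl (fun d _ => ?_)
    have h3 : ∑ m : C → M, ∏ i, e.coeff (m i) * rot d t i (m i * a i) =
        ∏ i, ∑ h, e.coeff h * rot d t i (h * a i) := by
      rw [Finset.prod_univ_sum, Fintype.piFinset_univ]
    rw [h3, Ten]
    exact Finset.prod_congr rfl (fun i _ => ht _ _)
  · rw [Psi_off t a ha]
    apply Finset.sum_eq_zero
    intro m _
    rw [Psi_off, mul_zero]
    simpa using ha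

end wreath

end Crest.Agent.R170.WW2752
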