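import Mathlib
import Crest.Agent.R170.WW2b_752
import Crest.Agent.R170.P2_482

/-!
# Row 170, leaf WW2 (helper752), part c: traces, embeddings of the factors, tensor products
-/

set_option autoImplicit false
set_option linter.unusedSectionVars false
open scoped BigOperators

namespace Crest.Agent.R170.WW2752

open FE (Y)
open MonoidAlgebra

/-- characters of a commutative finite-dimensional algebra containing a proper ideal in the kernel -/
theorem exists_char' {k Z : Type} [Field k] [IsAlgClosed k] [CommRing Z] [Algebra k Z]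
    [Module.Finite k Z] (I : Ideal Z) (hI : (1 : Z) ∉ I) :
    ∃ χ : Z →ₐ[k] k, ∀ z ∈ I, χ z = 0 := by
  have hne : I ≠ ⊤ := fun h => hI (h ▸ Submodule.mem_top)
  obtain ⟨P, hP, hIP⟩ := Ideal.exists_le_maximal I hne
  have _i1 := hP
  have _i3 : Module.Finite k (Z ⧸ P) :=
    Module.Finite.of_surjective (Ideal.Quotient.mkₐ k P).toLinearMap
      (Ideal.Quotient.mkₐ_surjective k P)
  have _i2 : IsDomain (Z ⧸ P) := Ideal.Quotient.isDomain P
  have hb : Function.Bijective (algebraMap k (Z ⧸ P)) :=
    IsAlgClosed.algebraMap_bijective_of_isIntegral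
  let eqv : k ≃ₐ[k] (Z ⧸ P) := AlgEquiv.ofBijective (Algebra.ofId k (Z ⧸ P)) hb
  refine ⟨(eqv.symm : (Z ⧸ P) →ₐ[k] k).comp (Ideal.Quotient.mkₐ k P), fun z hz => ?_⟩
  have h1 : Ideal.Quotient.mkₐ k P z = 0 := by
    rw [Ideal.Quotient.mkₐ_eq_mk]
    exact Ideal.Quotient.eq_zero_iff_mem.2 (hIP hz)
  change eqv.symm (Ideal.Quotient.mkₐ k P z) = 0
  rw [h1, map_zero]

section trace
variable {k M : Type} [Field k] [Group M] [Fintype M]

/-- `∑ g, g x g⁻¹` -/
noncomputable def Tr (x : MonoidAlgebra k M) : MonoidAlgebra k M :=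
  ∑ g : M, single g 1 * x * single g⁻¹ 1

theorem sg_mul (g h : M) (a b : k) :
    (single g a : MonoidAlgebra k M) * single h b = single (g * h) (a * b) := by
  simp [MonoidAlgebra.single_mul_single]

theorem Tr_single (m : M) : Tr (single m (1 : k)) = ∑ g : M, single (g * m * g⁻¹) 1 := by
  simp only [Tr, sg_mul, mul_one]

theorem Tr_conj (x : MonoidAlgebra k M) (h : M) : single h 1 * Tr x * single h⁻¹ 1 = Tr x := by
  simp only [Tr, Finset.mul_sum, Finset.sum_mul]
  refine Fintype.sum_equiv (Equiv.mulLeft h) _ _ (fun g => ?_)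
  simp only [Equiv.coe_mulLeft, mul_inv_rev]
  have h1 : (single (h * g) (1 : k) : MonoidAlgebra k M) = single h 1 * single g 1 := by
    rw [sg_mul, one_mul]
  have h2 : (single (g⁻¹ * h⁻¹) (1 : k) : MonoidAlgebra k M) = single g⁻¹ 1 * single h⁻¹ 1 := by
    rw [sg_mul, one_mul]
  rw [h1, h2]
  simp only [mul_assoc]

theorem comm_of_conj (z : MonoidAlgebra k M) (hz : ∀ h : M, single h 1 * z * single h⁻¹ 1 = z)
    (x : MonoidAlgebra k M) : z * x = x * z := by
  have h1 : ∀ h : M, single h (1 : k) * z = z * single h 1 := by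
    intro h
    have h2 := hz h
    have h3 : (single h⁻¹ (1 : k) * single h 1 : MonoidAlgebra k M) = 1 := by
      rw [sg_mul, inv_mul_cancel, mul_one, ← MonoidAlgebra.one_def]
    calc single h (1 : k) * z = single h 1 * z * (single h⁻¹ 1 * single h 1) := by
          rw [h3, mul_one]
      _ = z * single h 1 := by rw [← mul_assoc, h2]
  induction x using MonoidAlgebra.induction_on with
  | of g => exact (h1 g).symm
  | add a b ha hb => rw [mul_add, add_mul, ha, hb]
  | smul r a ha => rw [mul_smul_comm, smul_mul_assoc, ha]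

theorem Tr_comm (x y : MonoidAlgebra k M) : Tr x * y = y * Tr x :=
  comm_of_conj _ (Tr_conj x) y

theorem conj_of_comm (z : MonoidAlgebra k M) (hz : ∀ y, z * y = y * z) (h : M) :
    single h 1 * z * single h⁻¹ 1 = z := by
  rw [← hz, mul_assoc, sg_mul, mul_inv_cancel, mul_one, ← MonoidAlgebra.one_def, mul_one]

theorem mul_Tr (z x : MonoidAlgebra k M) (hz : ∀ y, z * y = y * z) : z * Tr x = Tr (z * x) := by
  simp only [Tr, Finset.mul_sum]
  refine Finset.sum_congr rfl (fun g _ => ?_)
  rw [← mul_assoc, ← mul_assoc, hz (single g 1), mul_assoc (single g 1) z x]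

theorem Tr_mul (x z : MonoidAlgebra k M) (hz : ∀ y, z * y = y * z) : Tr x * z = Tr (x * z) := by
  simp only [Tr, Finset.sum_mul]
  refine Finset.sum_congr rfl (fun g _ => ?_)
  rw [mul_assoc, ← hz (single g⁻¹ 1)]
  simp only [mul_assoc]

theorem Tr_sum {ι : Type} (s : Finset ι) (f : ι → MonoidAlgebra k M) :
    Tr (∑ i ∈ s, f i) = ∑ i ∈ s, Tr (f i) := by
  simp only [Tr, Finset.mul_sum, Finset.sum_mul]
  rw [Finset.sum_comm]

theorem Tr_smul (c : k) (x : MonoidAlgebra k M) : Tr (c • x) = c • Tr x := by
  simp only [Tr, Finset.smul_sum, mul_smul_comm, smul_mul_assoc]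

theorem Tr_mul_Tr (a b : M) : Tr (single a (1 : k)) * Tr (single b 1) =
    ∑ g, Tr (single (a * g * b * g⁻¹) (1 : k)) := by
  rw [Tr_mul _ _ (Tr_comm _), Tr_single b, Finset.mul_sum, Tr_sum]
  refine Finset.sum_congr rfl (fun g _ => ?_)
  rw [sg_mul, one_mul]
  simp only [mul_assoc]

theorem eq_sum_smul (e : MonoidAlgebra k M) : e = ∑ h, e.coeff h • single h (1 : k) := by
  conv_lhs => rw [J482.eq_sum_single e]
  refine Finset.sum_congr rfl (fun h _ => ?_)
  simp

theorem mul_Tr_single (e : MonoidAlgebra k M) (he : ∀ y, e * y = y * e) (a : M) :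
    e * Tr (single a (1 : k)) = ∑ h, e.coeff h • Tr (single (h * a) (1 : k)) := by
  rw [mul_Tr _ _ he]
  conv_lhs => rw [eq_sum_smul e]
  rw [Finset.sum_mul, Tr_sum]
  refine Finset.sum_congr rfl (fun h _ => ?_)
  rw [smul_mul_assoc, Tr_smul, sg_mul, one_mul]

end trace

section tens
variable {k M ι : Type} [Field k] [Group M] [Fintype M] [Fintype ι] [DecidableEq ι]

theorem tens_mul' (x y : ι → MonoidAlgebra k M) :
    tens (fun i => x i * y i) = tens x * tens y := by
  apply MonoidAlgebra.coeff_injective
  ext g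
  rw [tens_coeff, J482.coeff_mul_fin]
  simp only [tens_coeff, J482.coeff_mul_fin, Pi.mul_apply, Pi.inv_apply]
  rw [Finset.prod_univ_sum, Fintype.piFinset_univ]
  refine Finset.sum_congr rfl (fun h _ => ?_)
  rw [Finset.prod_mul_distrib]

theorem tens_single (m : ι → M) (r : ι → k) :
    tens (fun i => (single (m i) (r i) : MonoidAlgebra k M)) = single m (∏ i, r i) := by
  classical
  apply MonoidAlgebra.coeff_injective
  ext g
  rw [tens_coeff]
  simp only [MonoidAlgebra.coeff_single, Finsupp.single_apply]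
  by_cases h : m = g
  · subst h
    simp
  · rw [if_neg h]
    obtain ⟨i, hi⟩ : ∃ i, m i ≠ g i := by
      by_contra hh
      push Not at hh
      exact h (funext hh)
    exact Finset.prod_eq_zero (Finset.mem_univ i) (if_neg hi)

/-- embedding of the `i`-th factor -/
noncomputable def inc (i : ι) : MonoidAlgebra k M →ₐ[k] MonoidAlgebra k (ι → M) :=
  MonoidAlgebra.mapDomainAlgHom k k (MonoidHom.mulSingle (fun _ => M) i)

theorem inc_single (i : ι) (m : M) (r : k) :
    inc i (single m r) = single (Pi.mulSingle i m) r := by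
  simp [inc]

theorem inc_eq_tens (i : ι) (x : MonoidAlgebra k M) :
    inc i x = tens (Pi.mulSingle i x : ι → MonoidAlgebra k M) := by
  classical
  have hco : ∀ (y : MonoidAlgebra k M) (g : ι → M),
      (tens (Pi.mulSingle i y : ι → MonoidAlgebra k M)).coeff g =
        y.coeff (g i) * ∏ j ∈ Finset.univ.erase i, (1 : MonoidAlgebra k M).coeff (g j) := by
    intro y g
    rw [tens_coeff, ← Finset.mul_prod_erase _ _ (Finset.mem_univ i), Pi.mulSingle_eq_same]
    congr 1
    refine Finset.prod_congr rfl (fun j hj => ?_)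
    rw [Pi.mulSingle_eq_of_ne (Finset.ne_of_mem_erase hj)]
  induction x using MonoidAlgebra.induction_linear with
  | zero =>
    apply MonoidAlgebra.coeff_injective
    ext g
    rw [hco, map_zero]
    simp
  | add x y hx hy =>
    apply MonoidAlgebra.coeff_injective
    ext g
    rw [hco, map_add, hx, hy, MonoidAlgebra.coeff_add, MonoidAlgebra.coeff_add, Finsupp.add_apply,
      Finsupp.add_apply, hco, hco, add_mul]
  | single m r =>
    rw [inc_single]
    have h1 : (Pi.mulSingle i (single m r) : ι → MonoidAlgebra k M) =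
        fun j => single ((Pi.mulSingle i m : ι → M) j) ((Pi.mulSingle i r : ι → k) j) := by
      funext j
      by_cases hj : j = i
      · subst hj
        simp
      · rw [Pi.mulSingle_eq_of_ne hj, Pi.mulSingle_eq_of_ne hj, Pi.mulSingle_eq_of_ne hj,
          MonoidAlgebra.one_def]
    rw [h1, tens_single]
    congr 1
    rw [← Finset.mul_prod_erase _ _ (Finset.mem_univ i), Pi.mulSingle_eq_same]
    rw [Finset.prod_eq_one, mul_one]
    intro j hj
    rw [Pi.mulSingle_eq_of_ne (Finset.ne_of_mem_erase hj)]

theorem inc_conj (i : ι) (x : MonoidAlgebra k M) (b : ι → M) :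
    single b 1 * inc i x * single b⁻¹ 1 = inc i (single (b i) 1 * x * single (b i)⁻¹ 1) := by
  induction x using MonoidAlgebra.induction_linear with
  | zero => simp
  | add x y hx hy =>
    rw [map_add, mul_add, add_mul, hx, hy, mul_add, add_mul, map_add]
  | single m r =>
    rw [inc_single, sg_mul, sg_mul, sg_mul, sg_mul, inc_single]
    congr 1
    funext j
    by_cases hj : j = i
    · subst hj
      simp
    · simp [Pi.mulSingle_eq_of_ne hj]

theorem inc_central (i : ι) (z : MonoidAlgebra k M) (hz : ∀ y, z * y = y * z)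
    (y : MonoidAlgebra k (ι → M)) : inc i z * y = y * inc i z :=
  comm_of_conj _ (fun b => by rw [inc_conj, conj_of_comm z hz]) y

/-- central elements of the factors -/
noncomputable def incZ (i : ι) (z : MonoidAlgebra k M) (hz : ∀ y, z * y = y * z) :
    Subalgebra.center k (MonoidAlgebra k (ι → M)) :=
  ⟨inc i z, Subalgebra.mem_center_iff.2 (fun y => (inc_central i z hz y).symm)⟩

theorem prod_incZ (z : ι → MonoidAlgebra k M) (hz : ∀ i y, z i * y = y * z i) (s : Finset ι) :
    ((∏ i ∈ s, incZ i (z i) (hz i) : Subalgebra.center k (MonoidAlgebra k (ι → M))) :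
      MonoidAlgebra k (ι → M)) = tens (fun i => if i ∈ s then z i else 1) := by
  classical
  induction s using Finset.induction_on with
  | empty =>
    have h1 : tens (fun i : ι => if i ∈ (∅ : Finset ι) then z i else 1) =
        tens (fun i : ι => (single ((1 : ι → M) i) ((1 : ι → k) i) : MonoidAlgebra k M)) := by
      congr 1
    rw [h1, tens_single, Finset.prod_empty]
    simp only [Pi.one_apply, Finset.prod_const_one]
    rfl
  | insert a s ha ih =>
    rw [Finset.prod_insert ha, Subalgebra.coe_mul, ih]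
    change inc a (z a) * tens (fun i => if i ∈ s then z i else 1) = _
    rw [inc_eq_tens, ← tens_mul']
    congr 1
    funext i
    by_cases hi : i = a
    · subst hi
      simp [ha]
    · simp [hi]

theorem tens_Tr (b : ι → M) :
    tens (fun i => Tr (single (b i) (1 : k))) = Tr (single b (1 : k)) := by
  classical
  apply MonoidAlgebra.coeff_injective
  ext g
  rw [tens_coeff]
  simp only [Tr_single, MonoidAlgebra.coeff_sum, Finsupp.coe_finsetSum, Finset.sum_apply,
    MonoidAlgebra.coeff_single]
  rw [Finset.prod_univ_sum, Fintype.piFinset_univ]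
  refine Finset.sum_congr rfl (fun m _ => ?_)
  have h1 := congrArg (fun x => x.coeff g) (tens_single (k := k) (fun i => m i * b i * (m i)⁻¹)
    (fun _ => 1))
  simp only [tens_coeff, MonoidAlgebra.coeff_single, Finset.prod_const_one] at h1
  exact h1

end tens

end Crest.Agent.R170.WW2752
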