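import Mathlib
import Crest.Agent.R170.WW2c_752

/-!
# Row 170, leaf WW2 (helper752), part d: every solution on the wreath product comes from a tuple
-/

set_option autoImplicit false
set_option linter.unusedSectionVars false
open scoped BigOperators

namespace Crest.Agent.R170.WW2752

open FE (Y)
open MonoidAlgebra

section char
variable {k M : Type} [Field k] [Group M] [Fintype M]

/-- `Tr (single m 1)` in the centre -/
noncomputable def TrZ (m : M) : Subalgebra.center k (MonoidAlgebra k M) :=
  ⟨Tr (single m 1), Subalgebra.mem_center_iff.2 (fun y => (Tr_comm _ y).symm)⟩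

theorem TrZ_mul (a b : M) :
    (TrZ a * TrZ b : Subalgebra.center k (MonoidAlgebra k M)) = ∑ g, TrZ (a * g * b * g⁻¹) := by
  apply Subtype.ext
  rw [Subalgebra.coe_mul, AddSubmonoidClass.coe_finsetSum]
  exact Tr_mul_Tr a b

theorem FEq_of_char (χ : Subalgebra.center k (MonoidAlgebra k M) →ₐ[k] k) :
    FEq (fun m => χ (TrZ m)) := by
  intro a b
  rw [← map_mul, TrZ_mul, map_sum]

/-- a central element of `kM` in the centre -/
def toZ (e : MonoidAlgebra k M) (he : ∀ y, e * y = y * e) :
    Subalgebra.center k (MonoidAlgebra k M) :=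
  ⟨e, Subalgebra.mem_center_iff.2 (fun y => (he y).symm)⟩

theorem toZ_mul_TrZ (e : MonoidAlgebra k M) (he : ∀ y, e * y = y * e) (a : M) :
    toZ e he * TrZ a = ∑ h, e.coeff h • TrZ (h * a) := by
  apply Subtype.ext
  rw [Subalgebra.coe_mul, AddSubmonoidClass.coe_finsetSum]
  exact mul_Tr_single e he a

theorem e_of_char (χ : Subalgebra.center k (MonoidAlgebra k M) →ₐ[k] k) (e : MonoidAlgebra k M)
    (he : ∀ y, e * y = y * e) (h1 : χ (toZ e he) = 1) (a : M) :
    ∑ h, e.coeff h * χ (TrZ (h * a)) = χ (TrZ a) := by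
  have h2 := congrArg χ (toZ_mul_TrZ e he a)
  rw [map_mul, h1, one_mul, map_sum] at h2
  rw [h2]
  refine Finset.sum_congr rfl (fun h _ => ?_)
  rw [map_smul, smul_eq_mul]

end char

section incC
variable {k M ι : Type} [Field k] [Group M] [Fintype M] [Fintype ι] [DecidableEq ι]

/-- embedding of the centres -/
noncomputable def incC (i : ι) : Subalgebra.center k (MonoidAlgebra k M) →ₐ[k]
    Subalgebra.center k (MonoidAlgebra k (ι → M)) :=
  ((inc i).comp (Subalgebra.val _)).codRestrict _ (fun z => Subalgebra.mem_center_iff.2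
    (fun y => (inc_central i z.1 (fun w => ((Subalgebra.mem_center_iff.1 z.2) w).symm) y).symm))

theorem prod_incC (z : ι → Subalgebra.center k (MonoidAlgebra k M)) :
    ((∏ i, incC i (z i) : Subalgebra.center k (MonoidAlgebra k (ι → M))) :
      MonoidAlgebra k (ι → M)) = tens (fun i => (z i : MonoidAlgebra k M)) := by
  have h := prod_incZ (fun i => (z i : MonoidAlgebra k M))
    (fun i w => ((Subalgebra.mem_center_iff.1 (z i).2) w).symm) Finset.univ
  simp only [Finset.mem_univ, if_true] at h
  exact h

theorem prod_TrZ (b : ι → M) :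
    (∏ i, incC i (TrZ (b i)) : Subalgebra.center k (MonoidAlgebra k (ι → M))) = TrZ b := by
  apply Subtype.ext
  rw [prod_incC]
  exact tens_Tr b

end incC

section surj
variable {k M C : Type} [Field k] [IsAlgClosed k] [Group M] [Fintype M] [CommGroup C] [Fintype C]
  [DecidableEq C]

theorem surj (p : ℕ) [hp : Fact p.Prime] [CharP k p] (hC : Nat.card C = p)
    (e : MonoidAlgebra k M) (he : CI e) (y : (M ≀ᵣ C) → k) (hy : y ∈ Y (wE C e)) :
    ∃ t : C → M → k, (∀ i, t i ∈ Y e) ∧ Psi t = y := by
  classical
  obtain ⟨hy0, hyF, hye⟩ := hy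
  have hconj : ∀ g x, y (g * x * g⁻¹) = y x := fun g x => FEq.conj hyF hy0 x g
  have hoff : ∀ x : M ≀ᵣ C, x.right ≠ 1 → y x = 0 := by
    intro x hx
    obtain ⟨b, hb⟩ := exists_ne hy0
    have h1 := hyF x b
    rw [sum_off p hC y hconj x b hx] at h1
    exact (mul_eq_zero.1 h1.symm).resolve_right hb
  let F : (C → M) → k := fun b => y ⟨b, 1⟩
  have hmk : ∀ a b : C → M, (⟨a, 1⟩ * ⟨b, 1⟩ : M ≀ᵣ C) = ⟨a * b, 1⟩ := by
    intro a b
    ext <;> simp
  obtain ⟨b0, hb0⟩ : ∃ b, F b ≠ 0 := by
    obtain ⟨x, hx⟩ := exists_ne hy0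
    refine ⟨x.left, ?_⟩
    have h1 : x.right = 1 := by
      by_contra h
      exact hx (hoff x h)
    have h2 : (⟨x.left, 1⟩ : M ≀ᵣ C) = x := by
      ext
      · rfl
      · exact h1.symm
    change y ⟨x.left, 1⟩ ≠ 0
    rwa [h2]
  have hF : ∀ a b, ∑ c : C, ∑ m : C → M, F (a * m * (fun j => b (c⁻¹ * j)) * m⁻¹) = F a * F b := by
    intro a b
    have h1 := hyF ⟨a, 1⟩ ⟨b, 1⟩
    rw [sum_wr] at h1
    simp only [comm_base] at h1
    exact h1
  have hFc : ∀ a b, F (a * b) = F (b * a) := by
    intro a b
    change y ⟨a * b, 1⟩ = y ⟨b * a, 1⟩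
    rw [← hmk, ← hmk]
    exact FEq.comm hyF hy0 _ _
  let L : MonoidAlgebra k (C → M) →ₗ[k] k :=
    { toFun := fun x => ∑ b, x.coeff b * F b
      map_add' := by
        intro u v
        simp [add_mul, Finset.sum_add_distrib]
      map_smul' := by
        intro r u
        simp [Finset.mul_sum, mul_assoc] }
  have hL : ∀ (b : C → M) (r : k), L (single b r) = r * F b := by
    intro b r
    change ∑ b', (single b r : MonoidAlgebra k (C → M)).coeff b' * F b' = r * F b
    rw [Finset.sum_eq_single b]
    · simp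
    · intro b' _ hb'
      rw [MonoidAlgebra.coeff_single, Finsupp.single_apply, if_neg (Ne.symm hb'), zero_mul]
    · intro h
      exact absurd (Finset.mem_univ _) h
  let I : Ideal (Subalgebra.center k (MonoidAlgebra k (C → M))) :=
    { carrier := {z | ∀ a : C → M, L ((z : MonoidAlgebra k (C → M)) * single a 1) = 0}
      add_mem' := by
        intro u v hu hv a
        rw [Subalgebra.coe_add, add_mul, map_add, hu a, hv a, add_zero]
      zero_mem' := by
        intro a
        simp
      smul_mem' := by
        intro w z hz a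
        rw [smul_eq_mul, Subalgebra.coe_mul]
        have h1 : (w : MonoidAlgebra k (C → M)) * (z : MonoidAlgebra k (C → M)) * single a 1 =
            (z : MonoidAlgebra k (C → M)) * ((w : MonoidAlgebra k (C → M)) * single a 1) := by
          rw [← mul_assoc, Subalgebra.mem_center_iff.1 w.2 (z : MonoidAlgebra k (C → M))]
        rw [h1, J482.eq_sum_single ((w : MonoidAlgebra k (C → M)) * single a 1), Finset.mul_sum,
          map_sum]
        apply Finset.sum_eq_zero
        intro g _
        have h2 : (single g (((w : MonoidAlgebra k (C → M)) * single a 1).coeff g) :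
            MonoidAlgebra k (C → M)) =
            ((w : MonoidAlgebra k (C → M)) * single a 1).coeff g • single g 1 := by simp
        rw [h2, mul_smul_comm, map_smul, hz g, smul_zero] }
  have hI : (1 : Subalgebra.center k (MonoidAlgebra k (C → M))) ∉ I := by
    intro h
    have h1 : L ((1 : MonoidAlgebra k (C → M)) * single b0 1) = 0 := h b0
    rw [one_mul, hL, one_mul] at h1
    exact hb0 h1
  have _ifin : Module.Finite k (MonoidAlgebra k (C → M)) := by
    infer_instance
  have _ifin2 : Module.Finite k (Subalgebra.center k (MonoidAlgebra k (C → M))) := by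
    exact FiniteDimensional.finiteDimensional_submodule
      (Subalgebra.toSubmodule (Subalgebra.center k (MonoidAlgebra k (C → M))))
  obtain ⟨χ, hχ⟩ := exists_char' (k := k) I hI
  -- `χ (∑ c, TrZ (c • b)) = F b`
  have hT : ∀ b : C → M, ∑ c : C, χ (TrZ (fun j => b (c⁻¹ * j))) = F b := by
    intro b
    have h1 : (∑ c : C, TrZ (fun j => b (c⁻¹ * j))) - algebraMap k _ (F b) ∈ I := by
      intro a
      rw [Subalgebra.coe_sub, sub_mul, map_sub, AddSubmonoidClass.coe_finsetSum, Finset.sum_mul,
        map_sum]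
      have h2 : ∀ c : C, L (((TrZ (fun j => b (c⁻¹ * j)) :
          Subalgebra.center k (MonoidAlgebra k (C → M))) : MonoidAlgebra k (C → M)) *
          single a 1) = ∑ m : C → M, F (a * m * (fun j => b (c⁻¹ * j)) * m⁻¹) := by
        intro c
        change L (Tr (single (fun j => b (c⁻¹ * j)) (1 : k)) * single a 1) = _
        rw [Tr_single, Finset.sum_mul, map_sum]
        refine Finset.sum_congr rfl (fun m _ => ?_)
        rw [sg_mul, hL, one_mul, one_mul, hFc]
        simp only [mul_assoc]
      rw [Finset.sum_congr rfl (fun c _ => h2 c), hF a b]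
      have h3 : ((algebraMap k (Subalgebra.center k (MonoidAlgebra k (C → M))) (F b) :
          Subalgebra.center k (MonoidAlgebra k (C → M))) : MonoidAlgebra k (C → M)) *
          single a 1 = F b • single a 1 := by
        rw [Algebra.smul_def]
        rfl
      rw [h3, map_smul, hL, smul_eq_mul, one_mul]
      ring
    have h4 := hχ _ h1
    rw [map_sub, map_sum, sub_eq_zero] at h4
    rw [h4]
    exact (AlgHom.commutes χ (F b)).trans rfl
  -- the factors
  let χi : C → (Subalgebra.center k (MonoidAlgebra k M) →ₐ[k] k) := fun i => χ.comp (incC i)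
  let t : C → M → k := fun i m => χi i (TrZ m)
  have ht : ∀ b : C → M, χ (TrZ b) = Ten t b := by
    intro b
    rw [← prod_TrZ, map_prod]
    rfl
  have hFt : ∀ b : C → M, F b = ∑ c, Ten (rot c t) b := by
    intro b
    rw [← hT b]
    refine Finset.sum_congr rfl (fun c _ => ?_)
    rw [ht, Ten_shift]
  have ht0 : ∀ i, t i ≠ 0 := by
    intro i hi
    apply hb0
    rw [hFt]
    apply Finset.sum_eq_zero
    intro c _
    apply Finset.prod_eq_zero (Finset.mem_univ (c⁻¹ * i))
    simp only [rot, mul_inv_cancel_left, hi, Pi.zero_apply]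
  -- the idempotent
  have hprod : χ (∏ i, incC i (toZ e he.1)) = 1 := by
    have h1 : (∏ i, incC i (toZ e he.1)) - 1 ∈ I := by
      intro a
      rw [Subalgebra.coe_sub, prod_incC, sub_mul, map_sub, Subalgebra.coe_one, one_mul, hL, one_mul]
      change L (tens (fun _ : C => e) * single a 1) - F a = 0
      rw [eq_sum_smul (tens (fun _ : C => e)), Finset.sum_mul, map_sum, sub_eq_zero]
      have h2 := hye ⟨a, 1⟩
      rw [sum_wr] at h2
      have h3 : ∀ c : C, c ≠ 1 →
          ∑ m : C → M, (wE C e).coeff ⟨m, c⟩ * y (⟨m, c⟩ * ⟨a, 1⟩) = 0 := by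
        intro c hc
        apply Finset.sum_eq_zero
        intro m _
        rw [wE_coeff, if_neg hc, zero_mul]
      rw [Finset.sum_eq_single (1 : C) (fun c _ hc => h3 c hc)
        (fun h => absurd (Finset.mem_univ _) h)] at h2
      change _ = y ⟨a, 1⟩
      rw [← h2]
      refine Finset.sum_congr rfl (fun m _ => ?_)
      rw [smul_mul_assoc, sg_mul, map_smul, hL, one_mul, one_mul, smul_eq_mul, tens_coeff,
        wE_coeff, if_pos rfl, hmk]
    have h4 := hχ _ h1
    rw [map_sub, map_one, sub_eq_zero] at h4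
    exact h4
  have hone : ∀ i, χi i (toZ e he.1) = 1 := by
    intro i
    have h1 : χi i (toZ e he.1) * χi i (toZ e he.1) = χi i (toZ e he.1) := by
      rw [← map_mul]
      congr 1
      exact Subtype.ext he.2
    have h2 : χi i (toZ e he.1) ≠ 0 := by
      rw [map_prod] at hprod
      intro h
      have h3 : ∏ i, χ (incC i (toZ e he.1)) = 0 := Finset.prod_eq_zero (Finset.mem_univ i) h
      rw [h3] at hprod
      exact zero_ne_one hprod
    exact mul_right_cancel₀ h2 (h1.trans (one_mul _).symm)
  refine ⟨t, fun i => ⟨ht0 i, FEq_of_char (χi i), e_of_char (χi i) e he.1 (hone i)⟩, ?_⟩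
  funext x
  by_cases hx : x.right = 1
  · obtain ⟨b, r⟩ := x
    simp only at hx
    subst hx
    rw [Psi_base, ← hFt]
  · rw [Psi_off t x hx, hoff x hx]

end surj

end Crest.Agent.R170.WW2752
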