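import Mathlib
import Crest.Agent.R170.WW2d_752
import Crest.Agent.R170.WW_350

/-!
# Row 170, leaf WW2 (helper752), part e: `p * f0 (wE C e) + f0 e = f0 e ^ p`
-/

set_option autoImplicit false
set_option linter.unusedSectionVars false
open scoped BigOperators

namespace Crest.Agent.R170.WW2752

open FE (Y)
open MonoidAlgebra

section count
variable {k M C : Type} [Field k] [Group M] [Fintype M] [CommGroup C] [Fintype C] [DecidableEq C]

theorem finY0 : Finite (Y0 k M) := (linInd (k := k) (H := M)).finite

theorem finY (e : MonoidAlgebra k M) : Finite (Y e) := by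
  have := finY0 (k := k) (M := M)
  exact Finite.of_injective (fun φ : Y e => (⟨φ.1, φ.2.1, φ.2.2.1⟩ : Y0 k M))
    (fun a b h => Subtype.ext (congrArg (fun z : Y0 k M => z.1) h))

variable {e : MonoidAlgebra k M}

/-- underlying functions -/
def und (t : C → Y e) : C → M → k := fun i => (t i : M → k)

theorem und_mem (t : C → Y e) (i : C) : und t i ≠ 0 ∧ FEq (und t i) := ⟨(t i).2.1, (t i).2.2.1⟩

/-- rotation -/
def rotY (c : C) (t : C → Y e) : C → Y e := fun i => t (c * i)

theorem und_rotY (c : C) (t : C → Y e) : und (rotY c t) = rot c (und t) := rfl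

theorem LI (e : MonoidAlgebra k M) :
    LinearIndependent k (fun t : C → Y e => (Ten (und t) : (C → M) → k)) := by
  have h := (linInd (k := k) (H := C → M)).comp
    (fun t : C → Y e => (⟨Ten (und t), Ten_ne _ (fun i => (und_mem t i).1),
      Ten_FEq _ (fun i => (und_mem t i).2)⟩ : Y0 k (C → M))) (by
      intro t t' h
      have h1 : Ten (und t) = Ten (und t') := congrArg (fun z : Y0 k (C → M) => z.1) h
      have h2 := Ten_inj _ _ (und_mem t) (und_mem t') h1
      funext i
      exact Subtype.ext (congrFun h2 i))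
  exact h

/-- constant tuples -/
def Cst (t : C → Y e) : Prop := ∀ i, t i = t 1

theorem rot_free (p : ℕ) [hp : Fact p.Prime] (hC : Nat.card C = p) (t : C → Y e) (ht : ¬ Cst t)
    (c : C) (hc : rotY c t = t) : c = 1 := by
  by_contra hne
  apply ht
  let S : Subgroup C :=
    { carrier := {x | ∀ i, t (x * i) = t i}
      mul_mem' := by
        intro x y hx hy i
        rw [mul_assoc, hx, hy]
      one_mem' := by
        intro i
        rw [one_mul]
      inv_mem' := by
        intro x hx i
        have h := hx (x⁻¹ * i)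
        rw [mul_inv_cancel_left] at h
        exact h.symm }
  have hcS : c ∈ S := fun i => congrFun hc i
  have _hf : Fact (Nat.card C).Prime := ⟨hC ▸ hp.out⟩
  rcases Subgroup.eq_bot_or_eq_top_of_prime_card S with h | h
  · rw [h, Subgroup.mem_bot] at hcS
    exact absurd hcS hne
  · intro i
    have h1 : i ∈ S := h ▸ Subgroup.mem_top i
    have h2 := h1 1
    rwa [mul_one] at h2

/-- the orbit sum -/
noncomputable def orb (t : C → Y e) : (C → Y e) →₀ k := ∑ c : C, Finsupp.single (rotY c t) 1

theorem orb_apply (t s : C → Y e) [DecidableEq (C → Y e)] :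
    orb t s = ∑ c : C, if rotY c t = s then (1 : k) else 0 := by
  rw [orb, Finsupp.coe_finsetSum, Finset.sum_apply]
  refine Finset.sum_congr rfl (fun c _ => ?_)
  rw [Finsupp.single_apply]

theorem lc_orb (t : C → Y e) :
    Finsupp.linearCombination k (fun t : C → Y e => (Ten (und t) : (C → M) → k)) (orb t) =
      fun b => Psi (und t) ⟨b, 1⟩ := by
  rw [orb, map_sum]
  funext b
  rw [Finset.sum_apply, Psi_base]
  refine Finset.sum_congr rfl (fun c _ => ?_)
  rw [Finsupp.linearCombination_single, one_smul, und_rotY]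

theorem orb_self (p : ℕ) [hp : Fact p.Prime] (hC : Nat.card C = p) (t : C → Y e) (ht : ¬ Cst t) :
    orb t t = 1 := by
  classical
  rw [orb_apply, Finset.sum_eq_single (1 : C)]
  · rw [if_pos]
    funext i
    simp [rotY]
  · intro c _ hc
    rw [if_neg]
    exact fun h => hc (rot_free p hC t ht c h)
  · intro h
    exact absurd (Finset.mem_univ _) h

theorem Psi_ne (p : ℕ) [hp : Fact p.Prime] (hC : Nat.card C = p) (t : C → Y e) (ht : ¬ Cst t) :
    Psi (und t) ≠ 0 := by
  intro h
  have h1 := lc_orb t
  rw [h] at h1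
  have h2 : orb t = 0 := (LI e) (by rw [h1, map_zero]; rfl)
  have h3 := orb_self p hC t ht
  rw [h2] at h3
  exact zero_ne_one h3

theorem Psi_inj (p : ℕ) [hp : Fact p.Prime] (hC : Nat.card C = p) (t t' : C → Y e) (ht : ¬ Cst t)
    (h : Psi (und t) = Psi (und t')) : ∃ c, rotY c t' = t := by
  classical
  have h1 : orb t = orb t' := (LI e) (by rw [lc_orb, lc_orb, h])
  have h2 := orb_self p hC t ht
  rw [h1, orb_apply] at h2
  by_contra hne
  push Not at hne
  rw [Finset.sum_eq_zero (fun c _ => if_neg (hne c))] at h2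
  exact zero_ne_one h2

theorem Psi_rotY (c : C) (t : C → Y e) : Psi (und (rotY c t)) = Psi (und t) := by
  funext x
  by_cases hx : x.right = 1
  · obtain ⟨b, r⟩ := x
    simp only at hx
    subst hx
    rw [Psi_base, Psi_base, und_rotY]
    simp only [rot_rot]
    exact Fintype.sum_equiv (Equiv.mulLeft c) _ _ (fun d => rfl)
  · rw [Psi_off _ _ hx, Psi_off _ _ hx]

theorem Psi_cst (p : ℕ) [hp : Fact p.Prime] [CharP k p] (hC : Nat.card C = p) (t : C → Y e)
    (ht : Cst t) : Psi (und t) = 0 := by
  funext x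
  by_cases hx : x.right = 1
  · obtain ⟨b, r⟩ := x
    simp only at hx
    subst hx
    have h1 : ∀ c : C, rot c (und t) = und t := by
      intro c
      funext i
      change ((t (c * i) : Y e) : M → k) = t i
      rw [ht, ← ht i]
    rw [Psi_base, Finset.sum_congr rfl (fun c _ => by rw [h1 c]), Finset.sum_const,
      Finset.card_univ, ← Nat.card_eq_fintype_card, hC, nsmul_eq_mul, CharP.cast_eq_zero, zero_mul]
    rfl
  · rw [Psi_off _ _ hx]
    rfl

theorem main_count [IsAlgClosed k] (p : ℕ) [hp : Fact p.Prime] [CharP k p] (hC : Nat.card C = p)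
    (he : CI e) :
    p * Nat.card (Y (wE C e)) + Nat.card (Y e) = Nat.card (Y e) ^ p := by
  classical
  have _f1 := finY e
  have _f2 := finY (M := M ≀ᵣ C) (wE C e)
  let N := {t : C → Y e // ¬ Cst t}
  let Φ : N → Y (wE C e) := fun t => ⟨Psi (und t.1), Psi_ne p hC t.1 t.2,
    Psi_FEq p hC _ (und_mem t.1), Psi_e e _ (fun i a => (t.1 i).2.2.2 a)⟩
  have hsurj : Function.Surjective Φ := by
    intro y
    obtain ⟨t, ht, hty⟩ := surj p hC e he y.1 y.2
    let t' : C → Y e := fun i => ⟨t i, ht i⟩
    have h1 : Psi (und t') = y.1 := hty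
    have h2 : ¬ Cst t' := by
      intro h
      rw [Psi_cst p hC t' h] at h1
      exact y.2.1 h1.symm
    exact ⟨⟨t', h2⟩, Subtype.ext h1⟩
  have hcst : ∀ (c : C) (t : C → Y e), ¬ Cst t → ¬ Cst (rotY c t) := by
    intro c t ht h
    apply ht
    intro i
    have h1 := h (c⁻¹ * i)
    have h2 := h (c⁻¹ * 1)
    simp only [rotY, mul_inv_cancel_left, mul_one, mul_inv_cancel] at h1 h2
    rw [h1, h2]
  have hfib : ∀ y : Y (wE C e), Nat.card {t : N // Φ t = y} = p := by
    intro y
    obtain ⟨t0, rfl⟩ := hsurj y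
    rw [← hC]
    symm
    apply Nat.card_congr
    refine Equiv.ofBijective (fun c : C => (⟨⟨rotY c t0.1, hcst c _ t0.2⟩,
      Subtype.ext (Psi_rotY c t0.1)⟩ : {t : N // Φ t = Φ t0})) ⟨?_, ?_⟩
    · intro c d hcd
      have h1 : rotY c t0.1 = rotY d t0.1 := congrArg (fun z : {t : N // Φ t = Φ t0} => z.1.1) hcd
      have h2 : rotY (d⁻¹ * c) t0.1 = t0.1 := by
        funext i
        have h3 := congrFun h1 (d⁻¹ * i)
        simp only [rotY] at h3 ⊢
        rw [mul_inv_cancel_left] at h3
        rw [← h3]
        congr 1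
        rw [← mul_assoc, mul_comm c]
      have h4 := rot_free p hC t0.1 t0.2 _ h2
      have h5 : d * (d⁻¹ * c) = d * 1 := by rw [h4]
      rw [mul_inv_cancel_left, mul_one] at h5
      exact h5
    · rintro ⟨t, ht⟩
      have h1 : Psi (und t.1) = Psi (und t0.1) := congrArg (fun z : Y (wE C e) => z.1) ht
      obtain ⟨c, hc⟩ := Psi_inj p hC t.1 t0.1 t.2 h1
      exact ⟨c, Subtype.ext (Subtype.ext hc)⟩
  have _fy : Fintype (Y (wE C e)) := Fintype.ofFinite _
  have hN : Nat.card N = Nat.card (Y (wE C e)) * p := by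
    rw [← Nat.card_congr (Equiv.sigmaFiberEquiv Φ), Nat.card_sigma,
      Finset.sum_congr rfl (fun y _ => hfib y), Finset.sum_const, Finset.card_univ,
      ← Nat.card_eq_fintype_card, smul_eq_mul]
  have hK : Nat.card {t : C → Y e // Cst t} = Nat.card (Y e) := by
    apply Nat.card_congr
    exact
      { toFun := fun t => t.1 1
        invFun := fun y => ⟨fun _ => y, fun _ => rfl⟩
        left_inv := by
          intro t
          apply Subtype.ext
          funext i
          exact (t.2 i).symm
        right_inv := fun y => rfl }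
  have htot : Nat.card {t : C → Y e // Cst t} + Nat.card N = Nat.card (C → Y e) := by
    rw [← Nat.card_sum]
    exact Nat.card_congr (Equiv.sumCompl _)
  rw [Nat.card_fun, hC, hK, hN] at htot
  rw [← htot]
  ring

end count

/-- leaf WW2 -/
theorem hWr (p : ℕ) [hp : Fact p.Prime] (k : Type) [Field k] [IsAlgClosed k] [CharP k p] :
    HWr p k := by
  intro C _ _ hC G _ _ e he
  classical
  have _fg : Fintype G := Fintype.ofFinite G
  have _cyc : IsCyclic C := isCyclic_of_prime_card hC
  let _cg : CommGroup C := IsCyclic.commGroup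
  have h := main_count (k := k) (M := G) (C := C) (e := e) p hC he
  have hE : CI (wE C e) := WW4148.CI_wE C e he
  rw [FE.f0_eq_card_Y he]
  have h2 : f0 (wE C e) = Nat.card (Y (wE C e)) := FE.f0_eq_card_Y hE
  rw [h2]
  exact h

end Crest.Agent.R170.WW2752
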