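import Crest.Agent.R170.AMP_534
import Crest.Agent.R170.STP_312
import Crest.Agent.R170.WW2e_752

/-!
# Row 170, PLUG (helper534): **`WCc p` implies S0258** (all joints of chain A plugged)
-/

set_option autoImplicit false

namespace Crest.Agent.R170

open MonoidAlgebra Crest.AlgebraR.Weights Crest.AlgebraR.Blocks

/-- **S0258 from the counting lemma `WCc p`** -/
theorem s0258_of_WCc {p : ℕ} (hp : p.Prime) (hW : WCc p)
    (k : Type) [Field k] [IsAlgClosed k] [CharP k p] (G : Type) [Group G] [Finite G]
    (e : MonoidAlgebra k G) (he : IsBlockIdempotent e) :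
    Nat.card G * blockSimpleCount e = weightedWeightCount p e := by
  have : Fact p.Prime := ⟨hp⟩
  exact FIN534.s0258_joints hp (STP312.stp p k) (WW2752.hWr p k) hW G e he

end Crest.Agent.R170
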