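import Crest.Agent.R170.Stm_995

/-!
# Row 170, leaf P (helper714): `d(G, e) ≡ 0 mod p` for all `(G, e)`

`SP_of` : `SP p k` from `STP`, `SM`, `SQd`, `SOrb`, `SBrCI` and the transport facts `SEqv`
(conjugate chains) and `SEmp` (empty chain).
-/

set_option autoImplicit false

namespace Crest.Agent.R170

open MonoidAlgebra Crest.AlgebraR.Weights Crest.AlgebraR.Blocks

namespace P714

instance finiteCh (p : ℕ) (G : Type) [Group G] [Finite G] : Finite (Ch p G) := by
  unfold Ch
  infer_instance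

/-- the empty chain -/
def emp (p : ℕ) (G : Type) [Group G] : Ch p G := ⟨∅, by simp, by simp⟩

section
variable {p : ℕ} {G : Type} [Group G]

@[simp] theorem st_emp : st (emp p G) = ⊤ := by
  simp [st, emp]

@[simp] theorem top_emp : top (emp p G) = ⊥ := by
  simp [top, emp]

@[simp] theorem sgn_emp : sgn (emp p G) = 1 := by
  simp [sgn, emp]

theorem card_st_emp : Nat.card (st (emp p G)) = Nat.card G := by
  rw [st_emp, Subgroup.card_top]

theorem st_le {σ : Ch p G} {Q : Subgroup G} (hQ : Q ∈ σ.1) :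
    st σ ≤ Subgroup.normalizer (Q : Set G) :=
  iInf₂_le Q hQ

theorem top_le {σ : Ch p G} {Q : Subgroup G} (hQ : Q ∈ σ.1) : Q ≤ top σ :=
  le_iSup₂_of_le Q hQ le_rfl

/-- the members of a nonempty chain have a largest element -/
theorem exists_top {σ : Ch p G} (h : σ ≠ emp p G) : ∃ Q ∈ σ.1, top σ = Q := by
  have hne : σ.1.Nonempty := by
    rw [Finset.nonempty_iff_ne_empty]
    intro h0
    exact h (Subtype.ext h0)
  have hdir : DirectedOn (· ≤ ·) (σ.1 : Set (Subgroup G)) := σ.2.2.directedOn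
  obtain ⟨Q, hQ⟩ := Set.Finite.exists_maximal (s := (σ.1 : Set (Subgroup G)))
    σ.1.finite_toSet hne
  refine ⟨Q, hQ.1, le_antisymm (iSup₂_le fun R hR => ?_) (top_le hQ.1)⟩
  rcases σ.2.2.total hR hQ.1 with h1 | h1
  · exact h1
  · exact hQ.2 hR h1

theorem top_isPGroup (σ : Ch p G) : IsPGroup p (top σ) := by
  by_cases h : σ = emp p G
  · subst h
    rw [top_emp]
    exact IsPGroup.of_bot
  · obtain ⟨Q, hQ, e⟩ := exists_top h
    rw [e]
    exact (σ.2.1 Q hQ).1

theorem centralizer_top_le (σ : Ch p G) :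
    Subgroup.centralizer (top σ : Set G) ≤ st σ := by
  refine le_iInf₂ fun Q hQ => ?_
  exact (Subgroup.centralizer_le (top_le hQ)).trans (Subgroup.centralizer_le_normalizer _)

theorem st_le_normalizer_top (σ : Ch p G) :
    st σ ≤ Subgroup.normalizer (top σ : Set G) := by
  by_cases h : σ = emp p G
  · subst h
    rw [top_emp]
    intro g _
    rw [Subgroup.mem_normalizer_iff]
    intro x
    simp [Subgroup.mem_bot]
  · obtain ⟨Q, hQ, e⟩ := exists_top h
    rw [e]
    exact st_le hQ

/-- a nonempty chain has a proper stabiliser, if there is no nontrivial normal `p`-subgroup -/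
theorem card_st_lt [Finite G] {σ : Ch p G} (h : σ ≠ emp p G)
    (hO : ¬ ∃ N : Subgroup G, N.Normal ∧ IsPGroup p N ∧ N ≠ ⊥) :
    Nat.card (st σ) < Nat.card G := by
  obtain ⟨Q, hQ, -⟩ := exists_top h
  have h1 : Subgroup.normalizer (Q : Set G) ≠ ⊤ := by
    intro ht
    exact hO ⟨Q, Subgroup.normalizer_eq_top_iff.1 ht, (σ.2.1 Q hQ).1, (σ.2.1 Q hQ).2⟩
  have h2 : st σ ≠ ⊤ := fun ht => h1 (top_unique (ht ▸ st_le hQ))
  exact lt_of_le_of_ne (Subgroup.card_le_card_group _) fun hc =>
    h2 (Subgroup.eq_top_of_card_eq _ hc)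

end

section
variable {k : Type} [Field k] {G : Type} [Group G]

/-- the image of a central idempotent under a surjective homomorphism is a central idempotent -/
theorem CI_mapDomain {H : Type} [Group H] (f : G →* H) (hf : Function.Surjective f)
    {e : MonoidAlgebra k G} (he : CI e) : CI (MonoidAlgebra.mapDomain f e) := by
  have hF : ∀ x : MonoidAlgebra k G, MonoidAlgebra.mapDomain f x =
      MonoidAlgebra.mapDomainRingHom k f x := fun x => rfl
  have hsur : Function.Surjective (MonoidAlgebra.mapDomainRingHom k f) := by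
    intro y
    induction y using MonoidAlgebra.induction_on with
    | of h =>
      obtain ⟨g, rfl⟩ := hf h
      exact ⟨MonoidAlgebra.of k G g, by simp⟩
    | add a b ha hb =>
      obtain ⟨a', rfl⟩ := ha
      obtain ⟨b', rfl⟩ := hb
      exact ⟨a' + b', map_add _ _ _⟩
    | smul r a ha =>
      obtain ⟨a', rfl⟩ := ha
      refine ⟨r • a', ?_⟩
      rw [← hF, ← hF, MonoidAlgebra.mapDomain_smul]
  rw [hF]
  refine ⟨fun y => ?_, ?_⟩
  · obtain ⟨x, rfl⟩ := hsur y
    rw [← map_mul, he.1, map_mul]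
  · rw [← map_mul, he.2]

end

/-- transport along conjugate chains -/
def SEqv (p : ℕ) (k : Type) [Field k] : Prop :=
  ∀ (G : Type) [Group G] [Finite G] (e : MonoidAlgebra k G), CI e →
    ∀ σ τ : Ch p G, chRel σ τ → Nat.card (st σ) = Nat.card (st τ) ∧ sgn σ = sgn τ ∧
      lc (eC σ e) = lc (eC τ e) ∧ Wt p (eC σ e) = Wt p (eC τ e)

/-- the empty chain -/
def SEmp (p : ℕ) (k : Type) [Field k] : Prop :=
  ∀ (G : Type) [Group G] [Finite G] (e : MonoidAlgebra k G), CI e →
    lc (eC (emp p G) e) = lc e ∧ Wt p (eC (emp p G) e) = Wt p e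

theorem chRel_emp {p : ℕ} {G : Type} [Group G] {σ τ : Ch p G} (h : chRel σ τ) :
    σ = emp p G ↔ τ = emp p G := by
  obtain ⟨g, hg⟩ := h
  have key : (σ.1 : Set (Subgroup G)) = ∅ ↔ (τ.1 : Set (Subgroup G)) = ∅ := by
    rw [← hg, Set.image_eq_empty]
  constructor
  · intro e
    apply Subtype.ext
    have : (τ.1 : Set (Subgroup G)) = ∅ := key.1 (by rw [e]; simp [emp])
    simpa [emp] using this
  · intro e
    apply Subtype.ext
    have : (σ.1 : Set (Subgroup G)) = ∅ := key.2 (by rw [e]; simp [emp])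
    simpa [emp] using this

variable (p : ℕ) [Fact p.Prime] (k : Type) [Field k] [IsAlgClosed k] [CharP k p]

/-- **LEAF P** -/
theorem SP_of (hTP : STP p k) (hM : SM p k) (hQ : SQd p k) (hO : SOrb p) (hB : SBrCI p k)
    (hE : SEqv p k) (h0 : SEmp p k) : SP p k := by
  intro hWC
  have hp : p.Prime := Fact.out
  have hp0 : (p : ℤ) ≠ 0 := by exact_mod_cast hp.ne_zero
  -- strong induction on the order
  suffices H : ∀ n : ℕ, ∀ (G : Type) [Group G] [Finite G] (e : MonoidAlgebra k G), CI e →
      Nat.card G = n → ∃ m : ℤ, dG p e = (Nat.card G : ℤ) * (p * m) from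
    fun G _ _ e he => H _ G e he rfl
  intro n
  induction n using Nat.strong_induction_on with
  | _ n IH =>
  intro G _ _ e he hn
  by_cases hN : ∃ N : Subgroup G, N.Normal ∧ IsPGroup p N ∧ N ≠ ⊥
  · obtain ⟨N, hNn, hNp, hN1⟩ := hN
    have hlt : Nat.card (G ⧸ N) < n := by
      have h1 := Subgroup.card_eq_card_quotient_mul_card_subgroup N
      have h2 : 1 < Nat.card N := by
        rw [Subgroup.one_lt_card_iff_ne_bot]
        exact hN1
      have h3 : 0 < Nat.card (G ⧸ N) := Nat.card_pos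
      rw [hn] at h1
      nlinarith
    have hci : CI (MonoidAlgebra.mapDomain (QuotientGroup.mk : G → G ⧸ N) e) :=
      CI_mapDomain (QuotientGroup.mk' N) (QuotientGroup.mk'_surjective N) he
    obtain ⟨m, hm⟩ := IH _ hlt (G ⧸ N) _ hci rfl
    refine ⟨m, ?_⟩
    rw [hQ G e N hNp he, hm]
    have h1 := Subgroup.card_eq_card_quotient_mul_card_subgroup N
    rw [h1]
    push_cast
    ring
  · -- values on the nonempty chains
    have hci : ∀ σ : Ch p G, CI (eC σ e) := fun σ =>
      hB G e (st σ) (top σ) (top_isPGroup σ) (centralizer_top_le σ) (st_le_normalizer_top σ) he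
    have hval : ∀ σ : Ch p G, σ ≠ emp p G →
        ∃ m : ℤ, dG p (eC σ e) = (Nat.card (st σ) : ℤ) * (p * m) := fun σ hσ =>
      IH _ (hn ▸ card_st_lt hσ hN) (st σ) _ (hci σ) rfl
    classical
    choose! m hm using hval
    -- the invariant quotient
    set f : Ch p G → ℤ := fun σ =>
      if σ = emp p G then 0 else dG p (eC σ e) / ((Nat.card (st σ) : ℤ) * p) with hf
    have hfm : ∀ σ, σ ≠ emp p G →
        (Nat.card (st σ) : ℤ) * (p * f σ) = dG p (eC σ e) := by
      intro σ hσ
      have h1 : (Nat.card (st σ) : ℤ) * p ∣ dG p (eC σ e) := ⟨m σ, by rw [hm σ hσ]; ring⟩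
      simp only [hf, if_neg hσ]
      rw [← mul_assoc]
      exact Int.mul_ediv_cancel' h1
    have hfinv : ∀ σ τ, chRel σ τ → f σ = f τ := by
      intro σ τ h
      obtain ⟨h1, -, h3, h4⟩ := hE G e he σ τ h
      have h5 : dG p (eC σ e) = dG p (eC τ e) := by
        unfold dG
        rw [h1, h3, h4]
      simp only [hf]
      by_cases hσ : σ = emp p G
      · rw [if_pos hσ, if_pos ((chRel_emp h).1 hσ)]
      · rw [if_neg hσ, if_neg fun e => hσ ((chRel_emp h).2 e), h5, h1]
    have hS1 := hO G f hfinv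
    have hS2 := hO G (fun σ => (lc (eC σ e) : ℤ)) fun σ τ h => by
      obtain ⟨-, -, h3, -⟩ := hE G e he σ τ h
      simp only [h3]
    have hS3 := hM G e he
    obtain ⟨m1, hm1⟩ := hTP hWC G e he
    -- all sums are finite
    have : Fintype (Ch p G) := Fintype.ofFinite _
    rw [finsum_eq_sum_of_fintype] at hS1 hS2 hS3
    have hA : ∑ σ : Ch p G, sgn σ * dG p (eC σ e) =
        (Nat.card G : ℤ) * altSum (fun σ : Ch p G => (lc (eC σ e) : ℤ)) -
          (Nat.card G : ℤ) * f0 e := by
      rw [← hS2, ← hS3, ← Finset.sum_sub_distrib]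
      refine Finset.sum_congr rfl fun σ _ => ?_
      unfold dG
      ring
    have hB' : ∑ σ : Ch p G, sgn σ * dG p (eC σ e) =
        dG p e + p * ∑ σ : Ch p G, sgn σ * ((Nat.card (st σ) : ℤ) * f σ) := by
      rw [Finset.mul_sum, ← Finset.add_sum_erase _ _ (Finset.mem_univ (emp p G)),
        ← Finset.add_sum_erase _ (fun σ => (p : ℤ) * (sgn σ * ((Nat.card (st σ) : ℤ) * f σ)))
          (Finset.mem_univ (emp p G))]
      have e1 : f (emp p G) = 0 := by simp [hf]
      have e2 : dG p (eC (emp p G) e) = dG p e := by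
        obtain ⟨h1, h2⟩ := h0 G e he
        unfold dG
        rw [h1, h2, card_st_emp]
      rw [e1, e2, sgn_emp, one_mul, mul_zero, mul_zero, mul_zero, zero_add]
      congr 1
      refine Finset.sum_congr rfl fun σ hσ => ?_
      rw [← hfm σ (Finset.mem_erase.1 hσ).1]
      ring
    refine ⟨m1 - altSum f, ?_⟩
    rw [hB', hS1] at hA
    have hm1' : altSum (fun σ : Ch p G => (lc (eC σ e) : ℤ)) = f0 e + p * m1 := by
      linarith
    rw [hm1'] at hA
    linear_combination hA

end P714

end Crest.Agent.R170
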