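import Crest.Agent.R170.Q2_940
import Crest.Agent.R170.Stm_995
import Crest.Agent.R170.P2_482

/-!
Row 170 (swarm A), leaf Q, literal (helper940): `SQl`, and tools for `SQd`:
* `f0_zero` (= the statement `SJ2` without the hypothesis `CI e`);
* `f0_iso` : `f0` along an isomorphism of groups.
-/

set_option autoImplicit false

namespace Crest.Agent.R170.Q940

open MonoidAlgebra Crest.AlgebraR.Weights Crest.AlgebraR.Blocks Crest.Agent.R170

/-- **leaf `SQl`** -/
theorem sQl (p : ℕ) [Fact p.Prime] (k : Type) [Field k] [IsAlgClosed k] [CharP k p] : SQl p k := by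
  intro G _ _ e N _ hN _
  exact (lc_quot N hN e).symm

/-- right multiplication -/
def rmul {G : Type} [Group G] (z : G) : Function.End G := fun h => h * z

theorem rmul_one {G : Type} [Group G] : rmul (1 : G) = 1 := by
  funext h
  show h * 1 = h
  rw [mul_one]

theorem rmul_pow {G : Type} [Group G] (z : G) (m : ℕ) : (rmul z) ^ m = rmul (z ^ m) := by
  induction m with
  | zero => rw [pow_zero, pow_zero, rmul_one]
  | succ m ih =>
    rw [pow_succ', ih]
    funext h
    show h * z ^ m * z = h * z ^ (m + 1)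
    rw [pow_succ, mul_assoc]

section f0
variable {k G : Type} [Field k] [Group G]

/-- `f0` along an isomorphism of groups -/
theorem f0_iso {H : Type} [Group H] (φ : G ≃* H) (e : MonoidAlgebra k G) :
    f0 (MonoidAlgebra.mapDomain φ e) = f0 e := by
  unfold f0
  refine (scc_equiv (MonoidAlgebra.domCongr k k φ : MonoidAlgebra k G ≃ₐ[k] MonoidAlgebra k H).toRingEquiv
    _ _ fun m' _ => ?_).symm
  refine and_congr (proj_comap _ m') ?_
  show (MonoidAlgebra.domCongr k k φ) (1 - e) ∈ m' ↔ _
  rw [map_sub, map_one]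
  rfl

variable [Finite G] (p : ℕ) [hp : Fact p.Prime] [CharP k p]

include hp in
/-- no simple projective module if there is a nontrivial normal `p`-subgroup -/
theorem f0_zero (e : MonoidAlgebra k G) (N : Subgroup G) [hN : N.Normal] (hNp : IsPGroup p N)
    (hne : N ≠ ⊥) : f0 e = 0 := by
  classical
  have := Fintype.ofFinite G
  have := Fintype.ofFinite N
  unfold f0 simpleClassCount
  refine Nat.card_eq_zero.2 (Or.inl ?_)
  refine ⟨fun q => ?_⟩
  obtain ⟨⟨m, hm, hP, -⟩, -⟩ := q.exists_rep
  obtain ⟨f, h1, h2⟩ := (proj_iff m).1 hP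
  -- `f` is fixed by `N` from the left and idempotent
  have hfix : ∀ n ∈ N, single n (1 : k) * f = f := by
    intro n hn
    have h3 := h2 _ (fix_all N hNp hm hn)
    rw [sub_mul, one_mul, sub_eq_zero] at h3
    exact h3
  have hff : f * f = f := by
    have h3 := h2 _ h1
    rw [sub_mul, one_mul, sub_eq_zero] at h3
    exact h3.symm
  -- an element of order `p` in `N`
  obtain ⟨z, hzN, hz⟩ : ∃ z ∈ N, orderOf z = p := by
    have hnt : Nontrivial N := (Subgroup.nontrivial_iff_ne_bot N).2 hne
    obtain ⟨n, hn0, hn⟩ := (IsPGroup.nontrivial_iff_card hNp).1 hnt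
    obtain ⟨z, hz⟩ := exists_prime_orderOf_dvd_card' (G := N) p
      (by rw [hn]; exact dvd_pow_self p hn0.ne')
    exact ⟨z, z.2, by rw [Subgroup.orderOf_coe]; exact hz⟩
  have hcoef : ∀ n ∈ N, ∀ g, f.coeff (n * g) = f.coeff g := by
    intro n hn g
    have h3 := congrArg (fun x : MonoidAlgebra k G => x.coeff (n * g)) (hfix n hn)
    simp only [MonoidAlgebra.coeff_single_mul_apply, one_mul] at h3
    rw [← h3]
    congr 1
    group
  have hzero : f = 0 := by
    rw [← hff]
    apply MonoidAlgebra.coeff_injective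
    ext g
    rw [J482.coeff_mul_fin]
    have hs := J482.sum_fixed (R := k) p 1 (rmul z) (by
      rw [rmul_pow, pow_one, ← hz, pow_orderOf_eq_one, rmul_one])
      (fun h => f.coeff h * f.coeff (h⁻¹ * g)) (fun h => by
        show f.coeff (h * z) * f.coeff ((h * z)⁻¹ * g) = _
        have h5 : h * z = (h * z * h⁻¹) * h := by group
        have h6 : (h * z)⁻¹ * g = z⁻¹ * (h⁻¹ * g) := by group
        rw [h5, hcoef _ (hN.conj_mem z hzN h), ← h5, h6, hcoef _ (N.inv_mem hzN)])
    rw [hs]
    refine Finset.sum_eq_zero fun h hh => ?_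
    exfalso
    have h7 : h * z = h := (Finset.mem_filter.1 hh).2
    have h8 : z = 1 := by simpa using h7
    rw [h8, orderOf_one] at hz
    exact hp.out.one_lt.ne hz
  rw [hzero, sub_zero] at h1
  exact hm.1 (Ideal.eq_top_of_isUnit_mem (I := m) h1 isUnit_one)

end f0

/-- **leaf `SJ2`** -/
theorem sJ2 (p : ℕ) [Fact p.Prime] (k : Type) [Field k] [IsAlgClosed k] [CharP k p] : SJ2 p k := by
  rintro G _ _ e _ ⟨N, hN, hNp, hne⟩
  exact f0_zero p e N hNp hne

end Crest.Agent.R170.Q940
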