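import Mathlib
import Crest.Prelude.Def_Weights

/-!
Row 170 (swarm A), leaf Q, part 1 (helper940): quotients by a normal `p`-subgroup.

* `iso_iff` : for maximal left ideals, `A/m ≅ A/m'` iff `m * a ⊆ m'` for some `a ∉ m'`;
* `proj_iff` : `A/m` is projective iff there is `f` with `1 - f ∈ m`, `m * f = 0`;
* `scc_surj` : `simpleClassCount` along a surjective ring map whose kernel is in every maximal left
  ideal;
* `fix_all` : a normal `p`-subgroup acts trivially on a simple `k[G]`-module, `char k = p`;
* `lc_quot` : `blockSimpleCount e = blockSimpleCount (image of e in k[G/N])`.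
-/

set_option autoImplicit false

namespace Crest.Agent.R170.Q940

open Crest.AlgebraR.Weights

section ring

variable {A B : Type*} [Ring A] [Ring B]

/-- criterion for isomorphic simple quotients -/
theorem iso_iff {m m' : Submodule A A} (hm : IsCoatom m) (hm' : IsCoatom m') :
    Nonempty ((A ⧸ m) ≃ₗ[A] (A ⧸ m')) ↔ ∃ a, a ∉ m' ∧ ∀ x ∈ m, x * a ∈ m' := by
  constructor
  · rintro ⟨f⟩
    obtain ⟨a, ha⟩ := Submodule.Quotient.mk_surjective m' (f (Submodule.Quotient.mk 1))
    refine ⟨a, ?_, ?_⟩
    · intro h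
      have h1 : f (Submodule.Quotient.mk 1) = 0 := by
        rw [← ha, Submodule.Quotient.mk_eq_zero]
        exact h
      have h2 : (Submodule.Quotient.mk 1 : A ⧸ m) = 0 := f.map_eq_zero_iff.1 h1
      rw [Submodule.Quotient.mk_eq_zero] at h2
      exact hm.1 (Ideal.eq_top_of_isUnit_mem (I := m) h2 isUnit_one)
    · intro x hx
      rw [← Submodule.Quotient.mk_eq_zero, ← smul_eq_mul, Submodule.Quotient.mk_smul, ha,
        ← map_smul, ← Submodule.Quotient.mk_smul, smul_eq_mul, mul_one]
      rw [(Submodule.Quotient.mk_eq_zero m).2 hx, map_zero]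
  · rintro ⟨a, ha, h⟩
    have : IsSimpleModule A (A ⧸ m) := isSimpleModule_iff_isCoatom.2 hm
    have : IsSimpleModule A (A ⧸ m') := isSimpleModule_iff_isCoatom.2 hm'
    let g : A →ₗ[A] A ⧸ m' := LinearMap.toSpanSingleton A (A ⧸ m') (Submodule.Quotient.mk a)
    have hg : ∀ x, g x = Submodule.Quotient.mk (x * a) := fun x => by
      show x • (Submodule.Quotient.mk a : A ⧸ m') = _
      rw [← Submodule.Quotient.mk_smul, smul_eq_mul]
    have hk : m ≤ LinearMap.ker g := fun x hx => by
      rw [LinearMap.mem_ker, hg, Submodule.Quotient.mk_eq_zero]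
      exact h x hx
    have hne : m.liftQ g hk ≠ 0 := by
      intro h0
      have h1 : m.liftQ g hk (Submodule.Quotient.mk 1) = 0 := by rw [h0]; rfl
      rw [Submodule.liftQ_apply, hg, one_mul, Submodule.Quotient.mk_eq_zero] at h1
      exact ha h1
    exact ⟨LinearEquiv.ofBijective _ (LinearMap.bijective_of_ne_zero hne)⟩

/-- criterion for projective quotients -/
theorem proj_iff (m : Submodule A A) :
    Module.Projective A (A ⧸ m) ↔ ∃ f, 1 - f ∈ m ∧ ∀ x ∈ m, x * f = 0 := by
  constructor
  · intro hP
    obtain ⟨s, hs⟩ := Module.projective_lifting_property (m.mkQ) (LinearMap.id : (A ⧸ m) →ₗ[A] _)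
      m.mkQ_surjective
    have hs' : ∀ y, m.mkQ (s y) = y := fun y => LinearMap.congr_fun hs y
    refine ⟨s (m.mkQ 1), ?_, ?_⟩
    · rw [← Submodule.Quotient.mk_eq_zero, ← Submodule.mkQ_apply, map_sub, hs', sub_self]
    · intro x hx
      rw [← smul_eq_mul, ← map_smul, ← map_smul, smul_eq_mul, mul_one, Submodule.mkQ_apply,
        (Submodule.Quotient.mk_eq_zero m).2 hx, map_zero]
  · rintro ⟨f, h1, h2⟩
    let g : A →ₗ[A] A := LinearMap.toSpanSingleton A A f
    have hg : ∀ x, g x = x * f := fun x => rfl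
    have hk : m ≤ LinearMap.ker g := fun x hx => by
      rw [LinearMap.mem_ker, hg]
      exact h2 x hx
    refine Module.Projective.of_split (m.liftQ g hk) m.mkQ ?_
    apply Submodule.linearMap_qext
    ext
    show m.mkQ (m.liftQ g hk (Submodule.Quotient.mk 1)) = Submodule.Quotient.mk 1
    rw [Submodule.liftQ_apply, hg, one_mul, Submodule.mkQ_apply]
    have := (Submodule.Quotient.mk_eq_zero m).2 h1
    rw [Submodule.Quotient.mk_sub, sub_eq_zero] at this
    exact this.symm

/-- `simpleClassCount` along a surjective ring map -/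
theorem scc_surj (π : A →+* B) (hπ : Function.Surjective π)
    (P : Submodule A A → Prop) (P' : Submodule B B → Prop)
    (hker : ∀ m : Ideal A, IsCoatom m → P m → ∀ a, π a = 0 → a ∈ m)
    (hP : ∀ m' : Ideal B, IsCoatom m' → (P (Ideal.comap π m') ↔ P' m')) :
    simpleClassCount A P = simpleClassCount B P' := by
  have hco : ∀ m' : Ideal B, IsCoatom m' ↔ IsCoatom (Ideal.comap π m') := by
    intro m'
    constructor
    · intro h
      have : m'.IsMaximal := ⟨h⟩
      exact (Ideal.comap_isMaximal_of_surjective π hπ).out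
    · intro h
      refine ⟨fun ht => h.1 (by rw [ht, Ideal.comap_top]), fun J hJ => ?_⟩
      have h1 : Ideal.comap π m' < Ideal.comap π J := by
        refine lt_of_le_of_ne (Ideal.comap_mono hJ.le) fun he => hJ.ne ?_
        rw [← Ideal.map_comap_of_surjective π hπ m', he, Ideal.map_comap_of_surjective π hπ J]
      have h2 := h.2 _ h1
      rw [← Ideal.map_comap_of_surjective π hπ J, h2]
      exact Ideal.map_top π
  have hcm : ∀ m : Ideal A, IsCoatom m → P m → Ideal.comap π (Ideal.map π m) = m := by
    intro m hm hPm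
    rw [Ideal.comap_map_of_surjective π hπ, sup_eq_left]
    intro a ha
    exact hker m hm hPm a (by simpa using ha)
  let E : {m : Submodule B B // IsCoatom m ∧ P' m} ≃ {m : Submodule A A // IsCoatom m ∧ P m} :=
    { toFun := fun m => ⟨Ideal.comap π m.1, (hco m.1).1 m.2.1, (hP m.1 m.2.1).2 m.2.2⟩
      invFun := fun m => ⟨Ideal.map π m.1, by
        have h1 := hcm m.1 m.2.1 m.2.2
        have h2 : IsCoatom (Ideal.map π m.1) := (hco _).2 (by rw [h1]; exact m.2.1)
        exact ⟨h2, (hP _ h2).1 (by rw [h1]; exact m.2.2)⟩⟩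
      left_inv := fun m => Subtype.ext (Ideal.map_comap_of_surjective π hπ m.1)
      right_inv := fun m => Subtype.ext (hcm m.1 m.2.1 m.2.2) }
  unfold simpleClassCount
  refine (Nat.card_congr (Quotient.congr E ?_)).symm
  intro m m'
  show Nonempty _ ↔ Nonempty _
  rw [iso_iff m.2.1 m'.2.1, iso_iff (E m).2.1 (E m').2.1]
  constructor
  · rintro ⟨b, hb, h⟩
    obtain ⟨a, rfl⟩ := hπ b
    refine ⟨a, hb, fun x hx => ?_⟩
    show π (x * a) ∈ m'.1
    rw [map_mul]
    exact h _ hx
  · rintro ⟨a, ha, h⟩
    refine ⟨π a, ha, fun y hy => ?_⟩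
    obtain ⟨x, rfl⟩ := hπ y
    rw [← map_mul]
    exact h x hy

/-- `simpleClassCount` along a ring isomorphism -/
theorem scc_equiv (φ : A ≃+* B) (P : Submodule A A → Prop) (P' : Submodule B B → Prop)
    (hP : ∀ m' : Ideal B, IsCoatom m' → (P (Ideal.comap (φ : A →+* B) m') ↔ P' m')) :
    simpleClassCount A P = simpleClassCount B P' :=
  scc_surj (φ : A →+* B) φ.surjective P P'
    (fun m _ _ a ha => by
      have : a = 0 := φ.injective (by simpa using ha)
      rw [this]
      exact m.zero_mem) hP

/-- projectivity of the quotient along a ring isomorphism -/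
theorem proj_comap (φ : A ≃+* B) (m' : Ideal B) :
    Module.Projective A (A ⧸ (Ideal.comap (φ : A →+* B) m' : Submodule A A)) ↔
      Module.Projective B (B ⧸ (m' : Submodule B B)) := by
  rw [proj_iff, proj_iff]
  constructor
  · rintro ⟨f, h1, h2⟩
    refine ⟨φ f, ?_, fun x hx => ?_⟩
    · have : φ (1 - f) ∈ m' := h1
      simpa using this
    · have := h2 (φ.symm x) (show φ (φ.symm x) ∈ m' by simpa using hx)
      have h3 := congrArg φ this
      simpa using h3
  · rintro ⟨f, h1, h2⟩
    refine ⟨φ.symm f, ?_, fun x hx => ?_⟩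
    · show φ (1 - φ.symm f) ∈ m'
      simpa using h1
    · have := h2 (φ x) hx
      apply φ.injective
      simpa using this

end ring

end Crest.Agent.R170.Q940
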