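import Crest.Agent.R170.DefW_995

/-!
Row 170, leaf S4, part (e) (helper624): if the finite group `H` has a nontrivial normal
`p`-subgroup then `p * |H|_p` divides `#{(x,y,h) : h ∈ D, h⁻¹[x,y] a p-element}`.
-/

set_option autoImplicit false

open Finset

namespace Crest.Agent.R170.S4e624

theorem pPart_mul {p : ℕ} [Fact p.Prime] {a b : ℕ} (ha : a ≠ 0) (hb : b ≠ 0) :
    pPart p (a * b) = pPart p a * pPart p b := by
  unfold pPart
  rw [padicValNat.mul ha hb, pow_add]

theorem pPart_dvd_self {p : ℕ} (a : ℕ) : pPart p a ∣ a := pow_padicValNat_dvd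

theorem pPart_dvd {p : ℕ} [Fact p.Prime] {a b : ℕ} (h : a ∣ b) (hb : b ≠ 0) :
    pPart p a ∣ pPart p b := by
  obtain ⟨c, rfl⟩ := h
  have ha : a ≠ 0 := fun h0 => hb (by simp [h0])
  have hc : c ≠ 0 := fun h0 => hb (by simp [h0])
  rw [pPart_mul ha hc]
  exact dvd_mul_right _ _

/-- A general orbit-sum divisibility. -/
theorem orbit_dvd {p : ℕ} [Fact p.Prime] {H X : Type*} [Group H] [Finite H] [Finite X]
    (φ : H →* Equiv.Perm X) (f : X → ℤ) (hf : ∀ (g : H) (x : X), f (φ g x) = f x) (N : ℤ)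
    (h : ∀ x : X, ((pPart p (Nat.card {g : H // φ g x = x}) : ℕ) : ℤ) * N ∣ f x) :
    ((pPart p (Nat.card H) : ℕ) : ℤ) * N ∣ ∑ᶠ x, f x := by
  classical
  have := Fintype.ofFinite X
  have := Fintype.ofFinite H
  let _ : MulAction H X := MulAction.compHom X φ
  rw [finsum_eq_sum_of_fintype]
  have hfib : ∑ x, f x = ∑ ω : MulAction.orbitRel.Quotient H X,
      ∑ x ∈ univ.filter (fun x : X => (Quotient.mk'' x : MulAction.orbitRel.Quotient H X) = ω),
        f x := by
    rw [← Finset.sum_fiberwise univ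
      (fun x : X => (Quotient.mk'' x : MulAction.orbitRel.Quotient H X)) f]
  rw [hfib]
  apply Finset.dvd_sum
  rintro ω -
  induction ω using Quotient.inductionOn' with
  | _ a =>
    have hfil : univ.filter (fun x : X => (Quotient.mk'' x : MulAction.orbitRel.Quotient H X) =
        Quotient.mk'' a) = (MulAction.orbit H a).toFinset := by
      ext x
      simp only [mem_filter, mem_univ, true_and, Set.mem_toFinset]
      rw [Quotient.eq'']
      rfl
    rw [hfil]
    have hconst : ∑ x ∈ (MulAction.orbit H a).toFinset, f x =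
        (Nat.card (MulAction.orbit H a) : ℤ) * f a := by
      rw [Finset.sum_congr rfl (g := fun _ => f a)]
      · rw [Finset.sum_const, nsmul_eq_mul, Set.toFinset_card, Nat.card_eq_fintype_card]
      · intro x hx
        rw [Set.mem_toFinset] at hx
        obtain ⟨g, rfl⟩ := hx
        exact hf g a
    rw [hconst]
    have hcard : Nat.card (MulAction.orbit H a) * Nat.card (MulAction.stabilizer H a) =
        Nat.card H := by
      rw [Nat.card_eq_fintype_card, Nat.card_eq_fintype_card, Nat.card_eq_fintype_card,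
        MulAction.card_orbit_mul_card_stabilizer_eq_card_group]
    have h1 : Nat.card (MulAction.orbit H a) ≠ 0 := by
      intro h0
      rw [h0, zero_mul] at hcard
      exact Nat.card_pos.ne hcard
    have h2 : Nat.card (MulAction.stabilizer H a) ≠ 0 := Nat.card_pos.ne'
    rw [← hcard, pPart_mul h1 h2, Nat.cast_mul, mul_assoc]
    apply mul_dvd_mul _ (h a)
    exact_mod_cast pPart_dvd_self _

/-- conjugation on pairs -/
def conj2 (Q : Type*) [Group Q] : Q →* Equiv.Perm (Q × Q) where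
  toFun s := (MulAut.conj s).toEquiv.prodCongr (MulAut.conj s).toEquiv
  map_one' := by ext w <;> simp
  map_mul' s t := by ext w <;> simp

@[simp] theorem conj2_apply {Q : Type*} [Group Q] (s : Q) (w : Q × Q) :
    conj2 Q s w = (s * w.1 * s⁻¹, s * w.2 * s⁻¹) := rfl

/-- conjugation -/
def conj1 (Q : Type*) [Group Q] : Q →* Equiv.Perm Q where
  toFun s := (MulAut.conj s).toEquiv
  map_one' := by ext w; simp
  map_mul' s t := by ext w; simp

@[simp] theorem conj1_apply {Q : Type*} [Group Q] (s : Q) (w : Q) :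
    conj1 Q s w = s * w * s⁻¹ := rfl

theorem isPElt_conj {Q : Type} [Group Q] {p : ℕ} {g : Q} (s : Q) (h : IsPElt p g) :
    IsPElt p (s * g * s⁻¹) := by
  obtain ⟨n, hn⟩ := h
  exact ⟨n, by rw [conj_pow, hn, mul_one, mul_inv_cancel]⟩

theorem isPElt_conj_iff {Q : Type} [Group Q] {p : ℕ} {g : Q} (s : Q) :
    IsPElt p (s * g * s⁻¹) ↔ IsPElt p g := by
  refine ⟨fun h => ?_, isPElt_conj s⟩
  have := isPElt_conj s⁻¹ h
  simpa [mul_assoc] using this

/-- `c(q) = #{(x,y) : q⁻¹[x,y] a p-element}` -/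
noncomputable def cnt (p : ℕ) {Q : Type} [Group Q] (q : Q) : ℕ :=
  Nat.card {w : Q × Q // IsPElt p (q⁻¹ * (w.1 * w.2 * w.1⁻¹ * w.2⁻¹))}

theorem cnt_conj (p : ℕ) {Q : Type} [Group Q] (q s : Q) : cnt p (s * q * s⁻¹) = cnt p q := by
  unfold cnt
  symm
  apply Nat.card_congr
  refine (conj2 Q s).subtypeEquiv ?_
  rintro ⟨x, y⟩
  rw [← isPElt_conj_iff s]
  simp [mul_assoc]

theorem mem_cent {Q : Type*} [Group Q] {q g : Q} :
    g ∈ Subgroup.centralizer ({q} : Set Q) ↔ g * q * g⁻¹ = q := by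
  rw [Subgroup.mem_centralizer_singleton_iff]
  constructor
  · intro h; rw [h]; group
  · intro h
    have := congrArg (· * g) h
    simpa using this

theorem card_fib {p : ℕ} {Q : Type} [Group Q] [Finite Q] (q : Q) :
    (cnt p q : ℤ) = ∑ᶠ w : Q × Q, (open Classical in if IsPElt p w.2 then
      (Nat.card {y : Q // y * w.1⁻¹ * y⁻¹ = w.1⁻¹ * q * w.2} : ℤ) else 0) := by
  classical
  have := Fintype.ofFinite Q
  let e : {w : Q × Q // IsPElt p (q⁻¹ * (w.1 * w.2 * w.1⁻¹ * w.2⁻¹))} ≃
      Σ v : Q × Q, {y : Q // IsPElt p v.2 ∧ y * v.1⁻¹ * y⁻¹ = v.1⁻¹ * q * v.2} :=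
    { toFun := fun w => ⟨(w.1.1, q⁻¹ * (w.1.1 * w.1.2 * w.1.1⁻¹ * w.1.2⁻¹)), w.1.2, w.2, by
        group⟩
      invFun := fun v => ⟨(v.1.1, v.2.1), by
        obtain ⟨⟨x, j⟩, y, h1, h2⟩ := v
        have h : j = q⁻¹ * (x * y * x⁻¹ * y⁻¹) := by
          calc j = q⁻¹ * x * (x⁻¹ * q * j) := by group
            _ = _ := by rw [← h2]; group
        show IsPElt p (q⁻¹ * (x * y * x⁻¹ * y⁻¹))
        rw [← h]
        exact h1⟩
      left_inv := fun w => rfl
      right_inv := by
        rintro ⟨⟨x, j⟩, y, h1, h2⟩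
        have h : j = q⁻¹ * (x * y * x⁻¹ * y⁻¹) := by
          calc j = q⁻¹ * x * (x⁻¹ * q * j) := by group
            _ = _ := by rw [← h2]; group
        subst h
        rfl }
  unfold cnt
  rw [Nat.card_congr e, Nat.card_sigma, finsum_eq_sum_of_fintype, Nat.cast_sum]
  apply Finset.sum_congr rfl
  intro v _
  split_ifs with h
  · congr 1
    apply Nat.card_congr
    exact Equiv.subtypeEquivRight fun y => by simp [h]
  · rw [Nat.cast_eq_zero, Nat.card_eq_zero]
    left
    exact ⟨fun y => h y.2.1⟩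

theorem pPart_card_dvd_cnt {p : ℕ} [Fact p.Prime] {Q : Type} [Group Q] [Finite Q] (q : Q) :
    pPart p (Nat.card (Subgroup.centralizer ({q} : Set Q))) ∣ cnt p q := by
  classical
  have key := orbit_dvd (p := p) (H := Subgroup.centralizer ({q} : Set Q)) (X := Q × Q)
    ((conj2 Q).comp (Subgroup.subtype _))
    (fun w => if IsPElt p w.2 then
      (Nat.card {y : Q // y * w.1⁻¹ * y⁻¹ = w.1⁻¹ * q * w.2} : ℤ) else 0) ?_ 1 ?_
  · rw [mul_one] at key
    have h2 := card_fib (p := p) q
    have h3 : ((pPart p (Nat.card (Subgroup.centralizer ({q} : Set Q))) : ℕ) : ℤ) ∣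
        (cnt p q : ℤ) := by
      rw [h2]
      convert key using 1
    exact_mod_cast h3
  · rintro ⟨g, hg⟩ ⟨x, j⟩
    have hg' := mem_cent.mp hg
    simp only [MonoidHom.coe_comp, Function.comp_apply, Subgroup.subtype_apply, conj2_apply,
      isPElt_conj_iff]
    split_ifs with h
    · congr 1
      symm
      apply Nat.card_congr
      refine (MulAut.conj g).toEquiv.subtypeEquiv ?_
      intro y
      have hq : q = g * q * g⁻¹ := hg'.symm
      constructor
      · intro hy
        show g * y * g⁻¹ * (g * x * g⁻¹)⁻¹ * (g * y * g⁻¹)⁻¹ = (g * x * g⁻¹)⁻¹ * q * (g * j * g⁻¹)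
        calc g * y * g⁻¹ * (g * x * g⁻¹)⁻¹ * (g * y * g⁻¹)⁻¹ = g * (y * x⁻¹ * y⁻¹) * g⁻¹ := by group
          _ = g * (x⁻¹ * q * j) * g⁻¹ := by rw [hy]
          _ = (g * x * g⁻¹)⁻¹ * (g * q * g⁻¹) * (g * j * g⁻¹) := by group
          _ = _ := by rw [hg']
      · intro hy
        replace hy : g * y * g⁻¹ * (g * x * g⁻¹)⁻¹ * (g * y * g⁻¹)⁻¹ =
          (g * x * g⁻¹)⁻¹ * q * (g * j * g⁻¹) := hy
        calc y * x⁻¹ * y⁻¹ = g⁻¹ * (g * y * g⁻¹ * (g * x * g⁻¹)⁻¹ * (g * y * g⁻¹)⁻¹) * g := by group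
          _ = g⁻¹ * ((g * x * g⁻¹)⁻¹ * (g * q * g⁻¹) * (g * j * g⁻¹)) * g := by rw [hy, hg']
          _ = _ := by group
    · rfl
  · rintro ⟨x, j⟩
    rw [mul_one]
    simp only
    split_ifs with h
    · norm_cast
      by_cases hne : Nonempty {y : Q // y * x⁻¹ * y⁻¹ = x⁻¹ * q * j}
      · obtain ⟨y0, hy0⟩ := hne
        have h1 : Nat.card {y : Q // y * x⁻¹ * y⁻¹ = x⁻¹ * q * j} =
            Nat.card (Subgroup.centralizer ({x} : Set Q)) := by
          symm
          apply Nat.card_congr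
          refine (Equiv.mulLeft y0).subtypeEquiv ?_
          intro c
          rw [← hy0]
          constructor
          · intro hc
            have hc' := mem_cent.mp hc
            have : c * x⁻¹ * c⁻¹ = x⁻¹ := by
              have := congrArg (·⁻¹) hc'
              simpa [mul_assoc] using this
            show y0 * c * x⁻¹ * (y0 * c)⁻¹ = y0 * x⁻¹ * y0⁻¹
            calc y0 * c * x⁻¹ * (y0 * c)⁻¹ = y0 * (c * x⁻¹ * c⁻¹) * y0⁻¹ := by group
              _ = _ := by rw [this]
          · intro hc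
            replace hc : y0 * c * x⁻¹ * (y0 * c)⁻¹ = y0 * x⁻¹ * y0⁻¹ := hc
            apply mem_cent.mpr
            have h5 : c * x⁻¹ * c⁻¹ = x⁻¹ := by
              calc c * x⁻¹ * c⁻¹ = y0⁻¹ * (y0 * c * x⁻¹ * (y0 * c)⁻¹) * y0 := by group
                _ = y0⁻¹ * (y0 * x⁻¹ * y0⁻¹) * y0 := by rw [hc]
                _ = _ := by group
            have := congrArg (·⁻¹) h5
            simpa [mul_assoc] using this
        rw [h1]
        refine (pPart_dvd_self _).trans ?_
        let S : Subgroup (Subgroup.centralizer ({q} : Set Q)) :=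
          { carrier := {g | ((conj2 Q).comp (Subgroup.subtype _)) g (x, j) = (x, j)}
            mul_mem' := by
              intro a b ha hb
              simp only [Set.mem_ofPred_eq] at ha hb ⊢
              rw [map_mul, Equiv.Perm.mul_apply, hb, ha]
            one_mem' := by simp
            inv_mem' := by
              intro a ha
              simp only [Set.mem_ofPred_eq] at ha ⊢
              rw [map_inv, Equiv.Perm.inv_eq_iff_eq]
              exact ha.symm }
        have hS : Nat.card {g : Subgroup.centralizer ({q} : Set Q) //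
            ((conj2 Q).comp (Subgroup.subtype _)) g (x, j) = (x, j)} = Nat.card S := rfl
        rw [hS]
        let ψ : S →* Subgroup.centralizer ({x} : Set Q) :=
          { toFun := fun s => ⟨s.1.1, by
              have := congrArg Prod.fst s.2
              exact mem_cent.mpr this⟩
            map_one' := rfl
            map_mul' := fun _ _ => rfl }
        apply Subgroup.card_dvd_of_injective ψ
        intro a b hab
        have := congrArg (fun t : Subgroup.centralizer ({x} : Set Q) => (t : Q)) hab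
        exact Subtype.ext (Subtype.ext this)
      · rw [not_nonempty_iff] at hne
        rw [Nat.card_of_isEmpty (α := {y : Q // y * x⁻¹ * y⁻¹ = x⁻¹ * q * j})]
        exact dvd_zero _
    · exact dvd_zero _

theorem isPElt_mk_iff {p : ℕ} {H : Type} [Group H] (N : Subgroup H) [N.Normal]
    (hN : IsPGroup p N) (g : H) : IsPElt p (QuotientGroup.mk g : H ⧸ N) ↔ IsPElt p g := by
  constructor
  · rintro ⟨n, hn⟩
    rw [← QuotientGroup.mk_pow, QuotientGroup.eq_one_iff] at hn
    obtain ⟨m, hm⟩ := hN ⟨_, hn⟩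
    refine ⟨n + m, ?_⟩
    have := congrArg (fun t : N => (t : H)) hm
    simpa [pow_add, pow_mul] using this
  · rintro ⟨n, hn⟩
    exact ⟨n, by rw [← QuotientGroup.mk_pow, hn, QuotientGroup.mk_one]⟩

theorem cnt_quot {p : ℕ} {H : Type} [Group H] [Finite H] (N : Subgroup H) [N.Normal]
    (hN : IsPGroup p N) (h : H) :
    cnt p h = cnt p (QuotientGroup.mk h : H ⧸ N) * (Nat.card N * Nat.card N) := by
  unfold cnt
  let E : H ≃ (H ⧸ N) × N := Subgroup.groupEquivQuotientProdSubgroup
  have hE : ∀ g : H, (E g).1 = QuotientGroup.mk g := fun g => rfl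
  rw [← Nat.card_prod, ← Nat.card_prod]
  apply Nat.card_congr
  let E2 : H × H ≃ ((H ⧸ N) × (H ⧸ N)) × (N × N) :=
    (E.prodCongr E).trans (Equiv.prodProdProdComm _ _ _ _)
  have hE2 : ∀ w : H × H, (E2 w).1 = (QuotientGroup.mk w.1, QuotientGroup.mk w.2) := fun w => rfl
  let P : ((H ⧸ N) × (H ⧸ N)) → Prop := fun w =>
    IsPElt p ((QuotientGroup.mk h : H ⧸ N)⁻¹ * (w.1 * w.2 * w.1⁻¹ * w.2⁻¹))
  have e1 : {w : H × H // IsPElt p (h⁻¹ * (w.1 * w.2 * w.1⁻¹ * w.2⁻¹))} ≃
      {v : ((H ⧸ N) × (H ⧸ N)) × (N × N) // P v.1} := by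
    refine E2.subtypeEquiv ?_
    intro w
    rw [hE2 w, ← isPElt_mk_iff N hN]
    rfl
  have e2 : {v : ((H ⧸ N) × (H ⧸ N)) × (N × N) // P v.1} ≃ {w // P w} × (N × N) :=
    { toFun := fun v => (⟨v.1.1, v.2⟩, v.1.2)
      invFun := fun v => ⟨(v.1.1, v.2), v.1.2⟩
      left_inv := fun _ => rfl
      right_inv := fun _ => rfl }
  exact e1.trans e2

theorem card_cent_dvd {H : Type} [Group H] [Finite H] (N : Subgroup H) [N.Normal] (h : H) :
    Nat.card (Subgroup.centralizer ({h} : Set H)) ∣ Nat.card N *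
      Nat.card (Subgroup.centralizer ({(QuotientGroup.mk h : H ⧸ N)} : Set (H ⧸ N))) := by
  let C := Subgroup.centralizer ({h} : Set H)
  let f : C →* (Subgroup.centralizer ({(QuotientGroup.mk h : H ⧸ N)} : Set (H ⧸ N))) :=
    ((QuotientGroup.mk' N).comp C.subtype).codRestrict _ (by
      rintro ⟨x, hx⟩
      rw [mem_cent]
      have := mem_cent.mp hx
      have h2 := congrArg (QuotientGroup.mk (s := N)) this
      exact h2)
  have h1 : Nat.card C = Nat.card f.ker * Nat.card f.range := by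
    rw [← Subgroup.index_ker, Subgroup.card_mul_index]
  show Nat.card C ∣ _
  rw [h1]
  apply mul_dvd_mul
  · let ψ : f.ker →* N :=
      { toFun := fun s => ⟨s.1.1, by
          have := s.2
          rw [MonoidHom.mem_ker] at this
          have h3 := congrArg (fun t : Subgroup.centralizer ({(QuotientGroup.mk h : H ⧸ N)} :
            Set (H ⧸ N)) => (t : H ⧸ N)) this
          exact (QuotientGroup.eq_one_iff _).mp h3⟩
        map_one' := rfl
        map_mul' := fun _ _ => rfl }
    apply Subgroup.card_dvd_of_injective ψ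
    intro a b hab
    have := congrArg (fun t : N => (t : H)) hab
    exact Subtype.ext (Subtype.ext this)
  · exact Subgroup.card_subgroup_dvd_card _

/-- **(e)** -/
theorem dvd_of_normal {p : ℕ} [Fact p.Prime] {H : Type} [Group H] [Finite H] (N : Subgroup H)
    [N.Normal] (hN : IsPGroup p N) (hN1 : N ≠ ⊥) (D : Set H)
    (hD : ∀ g h : H, h ∈ D → g * h * g⁻¹ ∈ D) :
    p * pPart p (Nat.card H) ∣ Nat.card {w : H × H × H // w.2.2 ∈ D ∧
      IsPElt p (w.2.2⁻¹ * (w.1 * w.2.1 * w.1⁻¹ * w.2.1⁻¹))} := by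
  classical
  have := Fintype.ofFinite H
  have hA : ((Nat.card {w : H × H × H // w.2.2 ∈ D ∧
      IsPElt p (w.2.2⁻¹ * (w.1 * w.2.1 * w.1⁻¹ * w.2.1⁻¹))} : ℕ) : ℤ) =
      ∑ᶠ h : H, if h ∈ D then (cnt p h : ℤ) else 0 := by
    let e : {w : H × H × H // w.2.2 ∈ D ∧
      IsPElt p (w.2.2⁻¹ * (w.1 * w.2.1 * w.1⁻¹ * w.2.1⁻¹))} ≃
      Σ h : H, {w : H × H // h ∈ D ∧ IsPElt p (h⁻¹ * (w.1 * w.2 * w.1⁻¹ * w.2⁻¹))} :=
      { toFun := fun w => ⟨w.1.2.2, (w.1.1, w.1.2.1), w.2⟩
        invFun := fun v => ⟨(v.2.1.1, v.2.1.2, v.1), v.2.2⟩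
        left_inv := fun _ => rfl
        right_inv := fun _ => rfl }
    rw [Nat.card_congr e, Nat.card_sigma, finsum_eq_sum_of_fintype, Nat.cast_sum]
    apply Finset.sum_congr rfl
    intro h _
    split_ifs with hh
    · congr 1
      unfold cnt
      apply Nat.card_congr
      exact Equiv.subtypeEquivRight fun y => by simp [hh]
    · rw [Nat.cast_eq_zero, Nat.card_eq_zero]
      left
      exact ⟨fun y => hh y.2.1⟩
  have hDiff : ∀ g h : H, g * h * g⁻¹ ∈ D ↔ h ∈ D := by
    intro g h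
    refine ⟨fun hh => ?_, hD g h⟩
    have := hD g⁻¹ _ hh
    simpa [mul_assoc] using this
  have hpN : p ∣ Nat.card N := by
    obtain ⟨n, hn⟩ := (IsPGroup.iff_card).mp hN
    rcases n with _ | n
    · exfalso
      apply hN1
      rw [pow_zero] at hn
      exact Subgroup.eq_bot_of_card_eq N hn
    · rw [hn, pow_succ]
      exact dvd_mul_left _ _
  have key := orbit_dvd (p := p) (H := H) (X := H) (conj1 H)
    (fun h => if h ∈ D then (cnt p h : ℤ) else 0) ?_ (p : ℤ) ?_
  · rw [← hA] at key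
    rw [mul_comm]
    exact_mod_cast key
  · intro g h
    simp only [conj1_apply, hDiff, cnt_conj]
  · intro h
    split_ifs with hh
    · norm_cast
      have hst : Nat.card {g : H // conj1 H g h = h} =
          Nat.card (Subgroup.centralizer ({h} : Set H)) := by
        apply Nat.card_congr
        exact Equiv.subtypeEquivRight fun g => by rw [mem_cent]; rfl
      rw [hst, cnt_quot N hN h]
      have h1 : pPart p (Nat.card (Subgroup.centralizer ({h} : Set H))) ∣
          Nat.card N * cnt p (QuotientGroup.mk h : H ⧸ N) := by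
        refine (pPart_dvd (card_cent_dvd N h) ?_).trans ?_
        · exact mul_ne_zero Nat.card_pos.ne' Nat.card_pos.ne'
        · rw [pPart_mul Nat.card_pos.ne' Nat.card_pos.ne']
          exact mul_dvd_mul (pPart_dvd_self _) (pPart_card_dvd_cnt _)
      calc pPart p (Nat.card (Subgroup.centralizer ({h} : Set H))) * p ∣
          (Nat.card N * cnt p (QuotientGroup.mk h : H ⧸ N)) * Nat.card N := mul_dvd_mul h1 hpN
        _ = _ := by ring
    · exact dvd_zero _

end Crest.Agent.R170.S4e624
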