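import Crest.Agent.R170.Q3_940

/-!
Row 170 (swarm A), leaf SQd (helper940, second of 544): `Wt` modulo a normal `p`-subgroup.
-/

set_option autoImplicit false

namespace Crest.Agent.R170.SQd940

open MonoidAlgebra Crest.AlgebraR.Weights Crest.AlgebraR.Blocks Crest.Agent.R170

/-! ### linearity of `localImage` -/

section lin
variable {k G : Type} [Field k] [Group G] [Finite G]

theorem restrict_coeff (H : Subgroup G) (z : MonoidAlgebra k G) (h : H) :
    (restrictCoeff H z).coeff h = z.coeff (h : G) := rfl

theorem restrict_zero (H : Subgroup G) : restrictCoeff H (0 : MonoidAlgebra k G) = 0 := by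
  apply MonoidAlgebra.coeff_injective
  ext h
  rfl

theorem restrict_add (H : Subgroup G) (x y : MonoidAlgebra k G) :
    restrictCoeff H (x + y) = restrictCoeff H x + restrictCoeff H y := by
  apply MonoidAlgebra.coeff_injective
  ext h
  rfl

theorem restrict_single_mem (H : Subgroup G) (h : H) (c : k) :
    restrictCoeff H (single (h : G) c) = single h c := by
  classical
  apply MonoidAlgebra.coeff_injective
  ext x
  rw [restrict_coeff]
  show (Finsupp.single (h : G) c) (x : G) = (Finsupp.single h c) x
  by_cases hx : h = x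
  · subst hx
    rw [Finsupp.single_eq_same, Finsupp.single_eq_same]
  · rw [Finsupp.single_apply, Finsupp.single_apply, if_neg hx,
      if_neg (fun e => hx (Subtype.ext e))]

theorem restrict_single_not_mem (H : Subgroup G) (g : G) (hg : g ∉ H) (c : k) :
    restrictCoeff H (single g c) = 0 := by
  classical
  apply MonoidAlgebra.coeff_injective
  ext x
  rw [restrict_coeff]
  show (Finsupp.single g c) (x : G) = 0
  rw [Finsupp.single_apply, if_neg]
  rintro rfl
  exact hg x.2

theorem localImage_zero (Q : Subgroup G) : localImage Q (0 : MonoidAlgebra k G) = 0 := by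
  unfold localImage
  rw [restrict_zero, MonoidAlgebra.mapDomain_zero]

theorem localImage_add (Q : Subgroup G) (x y : MonoidAlgebra k G) :
    localImage Q (x + y) = localImage Q x + localImage Q y := by
  unfold localImage
  rw [restrict_add, MonoidAlgebra.mapDomain_add]

theorem localImage_single_mem (Q : Subgroup G) (h : Subgroup.normalizer (Q : Set G)) (c : k) :
    localImage Q (single (h : G) c) = single (QuotientGroup.mk h : NormQuot Q) c := by
  unfold localImage
  rw [restrict_single_mem, MonoidAlgebra.mapDomain_single]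

theorem localImage_single_not_mem (Q : Subgroup G) (g : G)
    (hg : g ∉ Subgroup.normalizer (Q : Set G)) (c : k) : localImage Q (single g c) = 0 := by
  unfold localImage
  rw [restrict_single_not_mem _ _ hg, MonoidAlgebra.mapDomain_zero]

end lin

/-! ### the third isomorphism -/

section third
variable {G : Type} [Group G] (N : Subgroup G) [hN : N.Normal] (R : Subgroup (G ⧸ N))

/-- preimage -/
abbrev pre : Subgroup G := R.comap (QuotientGroup.mk' N)

theorem le_pre : N ≤ pre N R := QuotientGroup.le_comap_mk' N R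

theorem norm_pre : Subgroup.normalizer ((pre N R : Subgroup G) : Set G) =
    (Subgroup.normalizer (R : Set (G ⧸ N))).comap (QuotientGroup.mk' N) :=
  (Subgroup.comap_normalizer_eq_of_surjective R (QuotientGroup.mk'_surjective N)).symm

theorem mem_norm_pre (g : G) : g ∈ Subgroup.normalizer ((pre N R : Subgroup G) : Set G) ↔
    (QuotientGroup.mk g : G ⧸ N) ∈ Subgroup.normalizer (R : Set (G ⧸ N)) := by
  rw [norm_pre]
  rfl

/-- the map of normalizers -/
def nmap : Subgroup.normalizer ((pre N R : Subgroup G) : Set G) →*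
    Subgroup.normalizer (R : Set (G ⧸ N)) where
  toFun x := ⟨QuotientGroup.mk x.1, (mem_norm_pre N R x.1).1 x.2⟩
  map_one' := rfl
  map_mul' _ _ := rfl

theorem nmap_surj : Function.Surjective (nmap N R) := by
  rintro ⟨y, hy⟩
  obtain ⟨g, rfl⟩ := QuotientGroup.mk_surjective y
  exact ⟨⟨g, (mem_norm_pre N R g).2 hy⟩, rfl⟩

/-- the map of the quotients -/
def qmap : NormQuot (pre N R) →* NormQuot R :=
  QuotientGroup.map _ _ (nmap N R) fun x hx => by
    rw [Subgroup.mem_comap, Subgroup.mem_subgroupOf]
    exact hx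

theorem qmap_mk (x : Subgroup.normalizer ((pre N R : Subgroup G) : Set G)) :
    qmap N R (QuotientGroup.mk x) = QuotientGroup.mk (nmap N R x) := rfl

theorem qmap_bij : Function.Bijective (qmap N R) := by
  constructor
  · rw [injective_iff_map_eq_one]
    intro q hq
    obtain ⟨x, rfl⟩ := QuotientGroup.mk_surjective q
    rw [qmap_mk, QuotientGroup.eq_one_iff, Subgroup.mem_subgroupOf] at hq
    rw [QuotientGroup.eq_one_iff, Subgroup.mem_subgroupOf]
    exact hq
  · intro y
    obtain ⟨z, rfl⟩ := QuotientGroup.mk_surjective y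
    obtain ⟨x, rfl⟩ := nmap_surj N R z
    exact ⟨QuotientGroup.mk x, rfl⟩

/-- the isomorphism -/
noncomputable def qiso : NormQuot (pre N R) ≃* NormQuot R :=
  MulEquiv.ofBijective (qmap N R) (qmap_bij N R)

theorem card_norm [Finite G] : Nat.card (Subgroup.normalizer ((pre N R : Subgroup G) : Set G)) =
    Nat.card N * Nat.card (Subgroup.normalizer (R : Set (G ⧸ N))) := by
  have h1 := Subgroup.card_eq_card_quotient_mul_card_subgroup (nmap N R).ker
  rw [h1, mul_comm]
  congr 1
  · refine Nat.card_congr ?_
    refine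
      { toFun := fun x => ⟨x.1.1, ?_⟩
        invFun := fun n => ⟨⟨n.1, ?_⟩, ?_⟩
        left_inv := fun x => rfl
        right_inv := fun n => rfl }
    · have h2 : nmap N R x.1 = 1 := x.2
      have h3 : (QuotientGroup.mk x.1.1 : G ⧸ N) = 1 := congrArg Subtype.val h2
      exact (QuotientGroup.eq_one_iff _).1 h3
    · exact Subgroup.le_normalizer (le_pre N R n.2)
    · rw [MonoidHom.mem_ker]
      apply Subtype.ext
      exact (QuotientGroup.eq_one_iff _).2 n.2
  · exact Nat.card_congr (QuotientGroup.quotientKerEquivOfSurjective (nmap N R) (nmap_surj N R)).toEquiv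

variable {k : Type} [Field k] [Finite G]

theorem localImage_pre (z : MonoidAlgebra k G) :
    MonoidAlgebra.mapDomain (qiso N R) (localImage (pre N R) z) =
      localImage R (MonoidAlgebra.mapDomain (QuotientGroup.mk : G → G ⧸ N) z) := by
  induction z using MonoidAlgebra.induction_linear with
  | zero => rw [localImage_zero, MonoidAlgebra.mapDomain_zero, MonoidAlgebra.mapDomain_zero,
      localImage_zero]
  | add x y hx hy => rw [localImage_add, MonoidAlgebra.mapDomain_add, MonoidAlgebra.mapDomain_add,
      localImage_add, hx, hy]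
  | single g c =>
    rw [MonoidAlgebra.mapDomain_single]
    by_cases hg : g ∈ Subgroup.normalizer ((pre N R : Subgroup G) : Set G)
    · have h1 := localImage_single_mem (pre N R) ⟨g, hg⟩ c
      have h2 := localImage_single_mem (k := k) R (nmap N R ⟨g, hg⟩) c
      have h3 : ((nmap N R ⟨g, hg⟩ : Subgroup.normalizer (R : Set (G ⧸ N))) : G ⧸ N) =
        QuotientGroup.mk g := rfl
      rw [h3] at h2
      rw [h2, show (single g c : MonoidAlgebra k G) =
        single ((⟨g, hg⟩ : Subgroup.normalizer ((pre N R : Subgroup G) : Set G)) : G) c from rfl, h1,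
        MonoidAlgebra.mapDomain_single]
      rfl
    · rw [localImage_single_not_mem _ _ hg, MonoidAlgebra.mapDomain_zero,
        localImage_single_not_mem _ _ (fun h => hg ((mem_norm_pre N R g).2 h))]

theorem f0_pre (z : MonoidAlgebra k G) : f0 (localImage (pre N R) z) =
    f0 (localImage R (MonoidAlgebra.mapDomain (QuotientGroup.mk : G → G ⧸ N) z)) := by
  rw [← localImage_pre, Q940.f0_iso]

end third

/-! ### subgroups that do not contain `N` -/

section no
variable {k G : Type} [Field k] [Group G] [Finite G] {p : ℕ} [hp : Fact p.Prime] [CharP k p]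

include hp in
theorem f0_not_le (N : Subgroup G) [hN : N.Normal] (hNp : IsPGroup p N) (Q : Subgroup G)
    (hQ : IsPGroup p Q) (h : ¬ N ≤ Q) (z : WeightAlgebra k Q) : f0 z = 0 := by
  classical
  -- `N Q` is a `p`-group
  have hNQ : IsPGroup p (N ⊔ Q : Subgroup G) := hNp.to_sup_of_normal_left hQ
  -- the normal subgroup of `N(Q)/Q`
  let M : Subgroup (NormQuot Q) :=
    ((N ⊔ Q).subgroupOf (Subgroup.normalizer (Q : Set G))).map (QuotientGroup.mk' _)
  have hMn : ((N ⊔ Q).subgroupOf (Subgroup.normalizer (Q : Set G))).Normal := by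
    refine ⟨fun x hx g => ?_⟩
    rw [Subgroup.mem_subgroupOf, Subgroup.mem_sup_of_normal_left] at hx ⊢
    obtain ⟨n, hn, q, hq, he⟩ := hx
    refine ⟨(g : G) * n * (g : G)⁻¹, hN.conj_mem n hn g, (g : G) * q * (g : G)⁻¹,
      (Subgroup.mem_normalizer_iff.1 g.2 q).1 hq, ?_⟩
    show _ = (g : G) * (x : G) * (g : G)⁻¹
    rw [← he]
    group
  have hM : M.Normal := hMn.map _ (QuotientGroup.mk'_surjective _)
  have hMp : IsPGroup p M := by
    have h1 : IsPGroup p ((N ⊔ Q).subgroupOf (Subgroup.normalizer (Q : Set G))) :=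
      hNQ.comap_of_injective _ Subtype.coe_injective
    exact h1.map _
  refine Q940.f0_zero p z M hMp ?_
  -- nontrivial
  have hlt : Q.subgroupOf (N ⊔ Q) < ⊤ := by
    refine lt_top_iff_ne_top.2 fun h1 => h ?_
    rw [Subgroup.subgroupOf_eq_top] at h1
    exact le_sup_left.trans h1
  have hnil : Group.IsNilpotent (N ⊔ Q : Subgroup G) := hNQ.isNilpotent
  have h2 := Group.normalizerCondition_of_isNilpotent _ hlt
  obtain ⟨x, hx, hxQ⟩ := SetLike.exists_of_lt h2
  rw [Subgroup.mem_subgroupOf] at hxQ
  have hxn : (x : G) ∈ Subgroup.normalizer (Q : Set G) := by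
    rw [Subgroup.mem_normalizer_iff] at hx ⊢
    intro y
    constructor
    · intro hy
      have h3 := (hx ⟨y, (le_sup_right : Q ≤ N ⊔ Q) hy⟩).1 (by rw [Subgroup.mem_subgroupOf]; exact hy)
      rw [Subgroup.mem_subgroupOf] at h3
      exact h3
    · intro hy
      have hyP : y ∈ N ⊔ Q := by
        have h4 := (N ⊔ Q).mul_mem ((N ⊔ Q).mul_mem ((N ⊔ Q).inv_mem x.2)
          ((le_sup_right : Q ≤ N ⊔ Q) hy)) x.2
        have h5 : (x : G)⁻¹ * ((x : G) * y * (x : G)⁻¹) * x = y := by group
        rwa [h5] at h4
      have h3 := (hx ⟨y, hyP⟩).2 (by rw [Subgroup.mem_subgroupOf]; exact hy)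
      rw [Subgroup.mem_subgroupOf] at h3
      exact h3
  intro hbot
  have h6 : (QuotientGroup.mk (⟨x, hxn⟩ : Subgroup.normalizer (Q : Set G)) : NormQuot Q) ∈ M :=
    ⟨⟨x, hxn⟩, by
      show _ ∈ ((N ⊔ Q).subgroupOf _ : Subgroup _)
      rw [Subgroup.mem_subgroupOf]
      exact x.2, rfl⟩
  rw [hbot, Subgroup.mem_bot, QuotientGroup.eq_one_iff, Subgroup.mem_subgroupOf] at h6
  exact hxQ h6

end no

/-! ### the count -/

section count
variable {k G : Type} [Field k] [Group G] [Finite G] {p : ℕ} [hp : Fact p.Prime] [CharP k p]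

omit [Finite G] hp in
theorem pre_isP (N : Subgroup G) [hN : N.Normal] (hNp : IsPGroup p N) (R : Subgroup (G ⧸ N)) :
    IsPGroup p (pre N R) ↔ IsPGroup p R := by
  constructor
  · intro h
    have h1 : R = (pre N R).map (QuotientGroup.mk' N) :=
      (Subgroup.map_comap_eq_self_of_surjective (QuotientGroup.mk'_surjective N) R).symm
    rw [h1]
    exact h.map _
  · intro h
    exact h.comap_of_ker_isPGroup _ (by rw [QuotientGroup.ker_mk']; exact hNp)

include hp in
theorem Wt_quot (N : Subgroup G) [hN : N.Normal] (hNp : IsPGroup p N) (e : MonoidAlgebra k G) :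
    Wt p e = Nat.card N * Wt p (MonoidAlgebra.mapDomain (QuotientGroup.mk : G → G ⧸ N) e) := by
  classical
  unfold Wt
  rw [mul_finsum]
  -- all subgroups, those containing `N`
  let F : {Q : Subgroup G // IsPGroup p Q} → ℕ := fun Q =>
    Nat.card (Subgroup.normalizer (Q.1 : Set G)) * f0 (localImage Q.1 e)
  let j : {R : Subgroup (G ⧸ N) // IsPGroup p R} → {Q : Subgroup G // IsPGroup p Q} :=
    fun R => ⟨pre N R.1, (pre_isP N hNp R.1).2 R.2⟩
  have hj : Function.Injective j := by
    intro R R' h
    apply Subtype.ext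
    exact Subgroup.comap_injective (QuotientGroup.mk'_surjective N) (congrArg Subtype.val h)
  have h1 : ∑ᶠ Q, F Q = ∑ᶠ R, F (j R) := by
    rw [← finsum_mem_range hj, finsum_mem_inter_support_eq _ (Set.range j) Set.univ,
      finsum_mem_univ]
    rw [Set.univ_inter]
    refine Set.inter_eq_right.2 ?_
    intro Q hQ
    by_cases hle : N ≤ Q.1
    · refine ⟨⟨Q.1.map (QuotientGroup.mk' N), Q.2.map _⟩, Subtype.ext ?_⟩
      show (Q.1.map (QuotientGroup.mk' N)).comap (QuotientGroup.mk' N) = Q.1
      rw [Subgroup.comap_map_eq, QuotientGroup.ker_mk', sup_eq_left]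
      exact hle
    · exfalso
      apply hQ
      show _ * f0 _ = 0
      rw [f0_not_le N hNp Q.1 Q.2 hle, mul_zero]
  show ∑ᶠ Q, F Q = _
  rw [h1]
  refine finsum_congr fun R => ?_
  show Nat.card _ * f0 _ = _
  rw [card_norm N R.1, f0_pre N R.1, mul_assoc]

end count

/-- **leaf `SQd`** -/
theorem sQd (p : ℕ) [Fact p.Prime] (k : Type) [Field k] [IsAlgClosed k] [CharP k p] : SQd p k := by
  intro G _ _ e N _ hN _
  unfold dG
  rw [Wt_quot N hN e, show lc (MonoidAlgebra.mapDomain (QuotientGroup.mk : G → G ⧸ N) e) = lc e from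
    (Q940.lc_quot N hN e).symm, Subgroup.card_eq_card_quotient_mul_card_subgroup N]
  push_cast
  ring

end Crest.Agent.R170.SQd940
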