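import Crest.Agent.R170.DefW_995
import Crest.Agent.R170.SCC_538
import Crest.Agent.R170.P2_482

/-!
Row 170, leaf WW3 (helper538), part 3: centre of the group algebra of a finite product of groups and
its characters.
-/

set_option autoImplicit false
set_option linter.unusedSectionVars false

namespace Crest.Agent.R170.SCC538

open MonoidAlgebra Crest.AlgebraR.Weights Crest.AlgebraR.Blocks Crest.Agent.R170

section center
variable {k G : Type} [Field k] [Group G] [Finite G]

/-- the centre of `kG` -/
abbrev ZZ (k G : Type) [Field k] [Group G] : Type := Subalgebra.center k (MonoidAlgebra k G)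

theorem coeff_mul' (x y : MonoidAlgebra k G) (g : G) [Fintype G] :
    (x * y).coeff g = ∑ h, x.coeff h * y.coeff (h⁻¹ * g) := J482.coeff_mul_fin x y g

theorem mem_center_iff (z : MonoidAlgebra k G) :
    z ∈ Subalgebra.center k (MonoidAlgebra k G) ↔ ∀ g h : G, z.coeff (h * g * h⁻¹) = z.coeff g := by
  rw [Subalgebra.mem_center_iff]
  constructor
  · intro H g h
    have h1 := H (MonoidAlgebra.single h 1)
    have h2 := congrArg (fun w => w.coeff (h * g)) h1
    simp only [MonoidAlgebra.coeff_single_mul_apply, MonoidAlgebra.coeff_mul_single_apply] at h2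
    simpa using h2.symm
  · intro H b
    have := Fintype.ofFinite G
    rw [J482.eq_sum_single b, Finset.mul_sum, Finset.sum_mul]
    refine Finset.sum_congr rfl fun g _ => ?_
    apply MonoidAlgebra.coeff_injective
    ext h
    rw [MonoidAlgebra.coeff_mul_single_apply, MonoidAlgebra.coeff_single_mul_apply, mul_comm]
    congr 1
    rw [← H (g⁻¹ * h) g]
    congr 1
    group

theorem coeff_isConj (z : ZZ k G) {g h : G} (hgh : IsConj g h) :
    (z : MonoidAlgebra k G).coeff g = (z : MonoidAlgebra k G).coeff h := by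
  obtain ⟨c, rfl⟩ := isConj_iff.1 hgh
  exact ((mem_center_iff _).1 z.2 g c).symm

open Classical in
/-- class sum -/
noncomputable def κ (c : ConjClasses G) : ZZ k G :=
  ⟨.ofCoeff (Finsupp.equivFunOnFinite.symm fun g => if ConjClasses.mk g = c then 1 else 0), by
    rw [mem_center_iff]
    intro g h
    have : ConjClasses.mk (h * g * h⁻¹) = ConjClasses.mk g := by
      rw [ConjClasses.mk_eq_mk_iff_isConj, isConj_comm, isConj_iff]
      exact ⟨h, rfl⟩
    change (if ConjClasses.mk (h * g * h⁻¹) = c then (1 : k) else 0) =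
      if ConjClasses.mk g = c then (1 : k) else 0
    rw [this]⟩

open Classical in
theorem κ_coeff (c : ConjClasses G) (g : G) :
    (κ c : ZZ k G).1.coeff g = if ConjClasses.mk g = c then 1 else 0 := rfl

theorem isConj_out (g : G) : IsConj (ConjClasses.mk g).out g := by
  rw [← ConjClasses.mk_eq_mk_iff_isConj]
  exact Quotient.out_eq _

end center

section tens
variable {k : Type} [Field k] {ι : Type} [Fintype ι] {M : ι → Type} [∀ i, Group (M i)]
  [∀ i, Finite (M i)]

/-- outer product -/
noncomputable def tens (x : ∀ i, MonoidAlgebra k (M i)) : MonoidAlgebra k (∀ i, M i) :=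
  .ofCoeff (Finsupp.equivFunOnFinite.symm fun g => ∏ i, (x i).coeff (g i))

theorem tens_coeff (x : ∀ i, MonoidAlgebra k (M i)) (g : ∀ i, M i) :
    (tens x).coeff g = ∏ i, (x i).coeff (g i) := rfl

theorem tens_mul (x y : ∀ i, MonoidAlgebra k (M i)) : tens (x * y) = tens x * tens y := by
  classical
  have := fun i => Fintype.ofFinite (M i)
  have := Fintype.ofFinite (∀ i, M i)
  apply MonoidAlgebra.coeff_injective
  ext g
  rw [coeff_mul', tens_coeff]
  simp only [tens_coeff, Pi.mul_apply, Pi.inv_apply, coeff_mul', ← Finset.prod_mul_distrib]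
  rw [Finset.prod_univ_sum]
  refine Finset.sum_bij (fun f _ => f) (by simp) (by simp) (by simp) (by simp)

theorem tens_one : tens (1 : ∀ i, MonoidAlgebra k (M i)) = 1 := by
  classical
  apply MonoidAlgebra.coeff_injective
  ext g
  rw [tens_coeff]
  simp only [Pi.one_apply, MonoidAlgebra.one_def, MonoidAlgebra.coeff_single, Finsupp.single_apply]
  by_cases h : 1 = g
  · subst h
    simp
  · rw [if_neg h]
    obtain ⟨i, hi⟩ := Function.ne_iff.1 h
    exact Finset.prod_eq_zero (Finset.mem_univ i) (if_neg hi)

/-- on centres, as a monoid homomorphism -/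
noncomputable def tensZ : (∀ i, ZZ k (M i)) →* ZZ k (∀ i, M i) where
  toFun z := ⟨tens fun i => (z i).1, by
    rw [mem_center_iff]
    intro g h
    rw [tens_coeff, tens_coeff]
    exact Finset.prod_congr rfl fun i _ => (mem_center_iff _).1 (z i).2 (g i) (h i)⟩
  map_one' := Subtype.ext tens_one
  map_mul' x y := Subtype.ext (tens_mul (fun i => (x i).1) (fun i => (y i).1))

theorem tensZ_coeff (z : ∀ i, ZZ k (M i)) (g : ∀ i, M i) :
    (tensZ z).1.coeff g = ∏ i, (z i).1.coeff (g i) := rfl

/-- expansion of a central element in class sums -/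
theorem expand [Fintype (∀ i, ConjClasses (M i))] (z : ZZ k (∀ i, M i)) :
    z = ∑ c : (∀ i, ConjClasses (M i)), z.1.coeff (fun i => (c i).out) • tensZ (fun i => κ (c i)) := by
  classical
  apply Subtype.ext
  apply MonoidAlgebra.coeff_injective
  ext g
  have h1 : ((∑ c : (∀ i, ConjClasses (M i)), z.1.coeff (fun i => (c i).out) •
      tensZ (fun i => κ (c i)) : ZZ k (∀ i, M i)) : MonoidAlgebra k (∀ i, M i)).coeff g =
      ∑ c : (∀ i, ConjClasses (M i)), z.1.coeff (fun i => (c i).out) *
        ∏ i, (κ (c i) : ZZ k (M i)).1.coeff (g i) := by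
    rw [AddSubmonoidClass.coe_finsetSum, MonoidAlgebra.coeff_sum, Finsupp.finsetSum_apply]
    rfl
  rw [h1, Finset.sum_eq_single (fun i => ConjClasses.mk (g i))]
  · rw [Finset.prod_eq_one, mul_one]
    · refine (coeff_isConj z ?_).symm
      have h2 : ∀ i, ∃ c, c * (ConjClasses.mk (g i)).out * c⁻¹ = g i := fun i =>
        isConj_iff.1 (isConj_out (g i))
      choose c hc using h2
      exact isConj_iff.2 ⟨c, funext hc⟩
    · intro i _
      rw [κ_coeff, if_pos rfl]
  · intro c _ hc
    obtain ⟨i, hi⟩ := Function.ne_iff.1 hc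
    rw [Finset.prod_eq_zero (Finset.mem_univ i), mul_zero]
    rw [κ_coeff, if_neg (Ne.symm hi)]
  · intro h
    exact absurd (Finset.mem_univ _) h

/-- the same for one group -/
theorem expand1 {H : Type} [Group H] [Finite H] [Fintype (ConjClasses H)] (z : ZZ k H) :
    z = ∑ c : ConjClasses H, z.1.coeff c.out • κ c := by
  classical
  apply Subtype.ext
  apply MonoidAlgebra.coeff_injective
  ext g
  have h1 : ((∑ c : ConjClasses H, z.1.coeff c.out • κ c : ZZ k H) : MonoidAlgebra k H).coeff g =
      ∑ c : ConjClasses H, z.1.coeff c.out * (κ c : ZZ k H).1.coeff g := by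
    rw [AddSubmonoidClass.coe_finsetSum, MonoidAlgebra.coeff_sum, Finsupp.finsetSum_apply]
    rfl
  rw [h1, Finset.sum_eq_single (ConjClasses.mk g)]
  · rw [κ_coeff, if_pos rfl, mul_one]
    exact (coeff_isConj z (isConj_out g)).symm
  · intro c _ hc
    rw [κ_coeff, if_neg (Ne.symm hc), mul_zero]
  · intro h
    exact absurd (Finset.mem_univ _) h

/-- the product of linear functionals on the centres -/
noncomputable def prodLin [Fintype (∀ i, ConjClasses (M i))] (w : ∀ i, ZZ k (M i) →ₐ[k] k) :
    ZZ k (∀ i, M i) →ₗ[k] k where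
  toFun z := ∑ c : (∀ i, ConjClasses (M i)), z.1.coeff (fun i => (c i).out) * ∏ i, w i (κ (c i))
  map_add' x y := by
    rw [← Finset.sum_add_distrib]
    refine Finset.sum_congr rfl fun c _ => ?_
    rw [← add_mul]
    rfl
  map_smul' a x := by
    rw [RingHom.id_apply, smul_eq_mul, Finset.mul_sum]
    refine Finset.sum_congr rfl fun c _ => ?_
    rw [← mul_assoc]
    rfl

theorem prodLin_tensZ [Fintype (∀ i, ConjClasses (M i))] [∀ i, Fintype (ConjClasses (M i))] (w : ∀ i, ZZ k (M i) →ₐ[k] k)
    (z : ∀ i, ZZ k (M i)) : prodLin w (tensZ z) = ∏ i, w i (z i) := by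
  classical
  have h1 : ∀ i, w i (z i) = ∑ c : ConjClasses (M i), (z i).1.coeff c.out * w i (κ c) := by
    intro i
    conv_lhs => rw [expand1 (z i)]
    rw [map_sum]
    exact Finset.sum_congr rfl fun c _ => by rw [map_smul, smul_eq_mul]
  simp only [h1]
  rw [Finset.prod_univ_sum]
  change ∑ c : (∀ i, ConjClasses (M i)), (tensZ z).1.coeff (fun i => (c i).out) *
    ∏ i, w i (κ (c i)) = _
  simp only [tensZ_coeff, ← Finset.prod_mul_distrib]
  refine Finset.sum_bij (fun f _ => f) (by simp) (by simp) (by simp) (by simp)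

/-- the product of characters of the centres -/
noncomputable def prodChar (w : ∀ i, ZZ k (M i) →ₐ[k] k) : ZZ k (∀ i, M i) →ₐ[k] k :=
  letI := fun i => Fintype.ofFinite (ConjClasses (M i))
  letI := Fintype.ofFinite (∀ i, ConjClasses (M i))
  AlgHom.ofLinearMap (prodLin w)
    (by
      rw [← map_one (tensZ (k := k) (M := M)), prodLin_tensZ]
      simp)
    (by
      intro x y
      rw [expand x, expand y, Finset.sum_mul_sum]
      simp only [map_sum, Finset.sum_mul_sum]
      refine Finset.sum_congr rfl fun c _ => Finset.sum_congr rfl fun d _ => ?_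
      rw [smul_mul_smul_comm, ← map_mul, map_smul, map_smul, map_smul, prodLin_tensZ,
        prodLin_tensZ, prodLin_tensZ]
      simp only [Pi.mul_apply, map_mul, Finset.prod_mul_distrib, smul_eq_mul]
      ring)

theorem prodChar_tensZ (w : ∀ i, ZZ k (M i) →ₐ[k] k) (z : ∀ i, ZZ k (M i)) :
    prodChar w (tensZ z) = ∏ i, w i (z i) := by
  letI := fun i => Fintype.ofFinite (ConjClasses (M i))
  letI := Fintype.ofFinite (∀ i, ConjClasses (M i))
  exact prodLin_tensZ w z

open Classical in
/-- the inclusion of one factor -/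
noncomputable def incl (i : ι) : ZZ k (M i) →ₐ[k] ZZ k (∀ i, M i) :=
  AlgHom.ofLinearMap
    { toFun := fun z => tensZ (Pi.mulSingle i z)
      map_add' := by
        intro x y
        apply Subtype.ext
        apply MonoidAlgebra.coeff_injective
        ext g
        change ∏ j, ((Pi.mulSingle i (x + y) : ∀ i, ZZ k (M i)) j).1.coeff (g j) =
          ∏ j, ((Pi.mulSingle i x : ∀ i, ZZ k (M i)) j).1.coeff (g j) +
          ∏ j, ((Pi.mulSingle i y : ∀ i, ZZ k (M i)) j).1.coeff (g j)
        rw [← Finset.mul_prod_erase _ _ (Finset.mem_univ i), ← Finset.mul_prod_erase _ _ (Finset.mem_univ i),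
          ← Finset.mul_prod_erase Finset.univ (fun j => ((Pi.mulSingle i y : ∀ i, ZZ k (M i)) j).1.coeff (g j))
            (Finset.mem_univ i)]
        simp only [Pi.mulSingle_eq_same]
        have e1 : ∀ t : ZZ k (M i), ∏ j ∈ Finset.univ.erase i,
            ((Pi.mulSingle i t : ∀ i, ZZ k (M i)) j).1.coeff (g j) =
            ∏ j ∈ Finset.univ.erase i, ((1 : ZZ k (M j))).1.coeff (g j) := by
          intro t
          refine Finset.prod_congr rfl fun j hj => ?_
          rw [Pi.mulSingle_eq_of_ne (Finset.ne_of_mem_erase hj)]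
        rw [e1, e1, e1, ← add_mul]
        rfl
      map_smul' := by
        intro a x
        apply Subtype.ext
        apply MonoidAlgebra.coeff_injective
        ext g
        change ∏ j, ((Pi.mulSingle i (a • x) : ∀ i, ZZ k (M i)) j).1.coeff (g j) =
          a * ∏ j, ((Pi.mulSingle i x : ∀ i, ZZ k (M i)) j).1.coeff (g j)
        rw [← Finset.mul_prod_erase _ _ (Finset.mem_univ i),
          ← Finset.mul_prod_erase Finset.univ (fun j => ((Pi.mulSingle i x : ∀ i, ZZ k (M i)) j).1.coeff (g j))
            (Finset.mem_univ i)]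
        simp only [Pi.mulSingle_eq_same]
        have e1 : ∀ t : ZZ k (M i), ∏ j ∈ Finset.univ.erase i,
            ((Pi.mulSingle i t : ∀ i, ZZ k (M i)) j).1.coeff (g j) =
            ∏ j ∈ Finset.univ.erase i, ((1 : ZZ k (M j))).1.coeff (g j) := by
          intro t
          refine Finset.prod_congr rfl fun j hj => ?_
          rw [Pi.mulSingle_eq_of_ne (Finset.ne_of_mem_erase hj)]
        rw [e1, e1, ← mul_assoc]
        rfl }
    (by
      change tensZ (Pi.mulSingle i 1) = 1
      rw [Pi.mulSingle_one, map_one])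
    (by
      intro x y
      change tensZ (Pi.mulSingle i (x * y)) = tensZ (Pi.mulSingle i x) * tensZ (Pi.mulSingle i y)
      rw [Pi.mulSingle_mul, map_mul])

open Classical in
theorem incl_apply (i : ι) (z : ZZ k (M i)) : incl i z = tensZ (Pi.mulSingle i z) := rfl

open Classical in
theorem tensZ_eq_prod (z : ∀ i, ZZ k (M i)) : tensZ z = ∏ i, incl i (z i) := by
  conv_lhs => rw [← Finset.univ_prod_mulSingle z]
  rw [map_prod]
  rfl

/-- characters of the centre of a product -/
noncomputable def charEquiv :
    (ZZ k (∀ i, M i) →ₐ[k] k) ≃ (∀ i, ZZ k (M i) →ₐ[k] k) where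
  toFun w i := w.comp (incl i)
  invFun w := prodChar w
  left_inv w := by
    letI := Fintype.ofFinite (∀ i, ConjClasses (M i))
    apply AlgHom.ext
    intro z
    rw [expand z, map_sum, map_sum]
    refine Finset.sum_congr rfl fun c _ => ?_
    rw [map_smul, map_smul, prodChar_tensZ, tensZ_eq_prod, map_prod]
    rfl
  right_inv w := by
    classical
    funext i
    apply AlgHom.ext
    intro z
    change prodChar w (tensZ (Pi.mulSingle i z)) = w i z
    rw [prodChar_tensZ, Finset.prod_eq_single i]
    · rw [Pi.mulSingle_eq_same]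
    · intro j _ hj
      rw [Pi.mulSingle_eq_of_ne hj, map_one]
    · intro h
      exact absurd (Finset.mem_univ i) h

theorem charEquiv_tensZ (w : ZZ k (∀ i, M i) →ₐ[k] k) (z : ∀ i, ZZ k (M i)) :
    w (tensZ z) = ∏ i, (charEquiv w i) (z i) := by
  rw [tensZ_eq_prod, map_prod]
  rfl

end tens

end Crest.Agent.R170.SCC538
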