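import Mathlib

/-! Row 170, leaf WL, part a (helper512): interpolation for functions on a power `ι → X` all of whose partial
functions lie in a finite-dimensional space `V` of functions on `X`, its compatibility with permutations of
`ι`, and the dimension of the functions invariant under a group of permutations. -/

set_option autoImplicit false

namespace Crest.Agent.R170.WL512

open Function

variable {k : Type*} [Field k]

/-- Interpolation points. -/
theorem exists_points {X : Type*} (V : Submodule k (X → k)) [FiniteDimensional k V] :
    ∃ (κ : Type) (_ : Fintype κ) (a : κ → X), Nat.card κ = Module.finrank k V ∧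
      Bijective (fun v : V => fun j : κ => (v : X → k) (a j)) := by
  classical
  -- evaluation functionals
  let ev : X → Module.Dual k V := fun x => (LinearMap.proj x).comp V.subtype
  obtain ⟨κ, a, ha, hspan, hli⟩ := exists_linearIndependent' k ev
  have hfin : Finite κ := hli.finite
  let _ := Fintype.ofFinite κ
  have htop : Submodule.span k (Set.range ev) = ⊤ := by
    have hbot : (Submodule.span k (Set.range ev)).dualCoannihilator = ⊥ := by
      rw [eq_bot_iff]
      intro v hv
      rw [Submodule.mem_dualCoannihilator] at hv
      simp only [Submodule.mem_bot]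
      ext x
      exact hv (ev x) (Submodule.subset_span ⟨x, rfl⟩)
    rw [← Subspace.dualCoannihilator_dualAnnihilator_eq (W := Submodule.span k (Set.range ev)), hbot,
      Submodule.dualAnnihilator_bot]
  let b : Module.Basis κ k (Module.Dual k V) :=
    Module.Basis.mk hli (by rw [hspan, htop])
  have hcard : Fintype.card κ = Module.finrank k V := by
    rw [← Subspace.dual_finrank_eq (K := k) (V := V)]
    exact (Module.finrank_eq_card_basis b).symm
  have hinj : Injective (fun v : V => fun j : κ => (v : X → k) (a j)) := by
    intro v w hvw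
    have h0 : ∀ f : Module.Dual k V, f (v - w) = 0 := by
      intro f
      have : f ∈ Submodule.span k (Set.range (ev ∘ a)) := by rw [hspan, htop]; trivial
      induction this using Submodule.span_induction with
      | mem f hf =>
        obtain ⟨j, rfl⟩ := hf
        have := congrFun hvw j
        simp only [comp, ev, LinearMap.comp_apply, map_sub]
        exact sub_eq_zero.2 this
      | zero => rfl
      | add f g _ _ hf hg => simp [hf, hg]
      | smul c f _ hf => simp [hf]
    have := (Module.forall_dual_apply_eq_zero_iff k (v - w)).1 h0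
    exact sub_eq_zero.1 this
  let L : V →ₗ[k] (κ → k) :=
    { toFun := fun v j => (v : X → k) (a j)
      map_add' := fun _ _ => rfl
      map_smul' := fun _ _ => rfl }
  have hinjL : Injective L := hinj
  have hsurj : Surjective L := by
    refine (LinearMap.injective_iff_surjective_of_finrank_eq_finrank ?_).1 hinjL
    rw [Module.finrank_fintype_fun_eq_card, hcard]
  -- universe change of κ
  refine ⟨Fin (Fintype.card κ), inferInstance, a ∘ (Fintype.equivFin κ).symm, ?_, ?_, ?_⟩
  · simp [hcard]
  · intro v w hvw
    apply hinj
    funext j
    have := congrFun hvw (Fintype.equivFin κ j)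
    simpa using this
  · intro f
    obtain ⟨v, hv⟩ := hsurj (f ∘ Fintype.equivFin κ)
    refine ⟨v, ?_⟩
    funext j
    have := congrFun hv ((Fintype.equivFin κ).symm j)
    simpa [L] using this

/-! ### Functions on a power whose partial functions are in `V` -/

variable {ι X : Type*} [Fintype ι] [DecidableEq ι]

/-- Functions on `ι → X` all of whose partial functions lie in `V`. -/
def Part (ι : Type*) [DecidableEq ι] {X : Type*} (V : Submodule k (X → k)) : Submodule k ((ι → X) → k) where
  carrier := {F | ∀ (i : ι) (g : ι → X), (fun x => F (update g i x)) ∈ V}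
  add_mem' := by
    intro F G hF hG i g
    exact V.add_mem (hF i g) (hG i g)
  zero_mem' := by
    intro i g
    exact V.zero_mem
  smul_mem' := by
    intro c F hF i g
    exact V.smul_mem c (hF i g)

omit [Fintype ι] in
theorem mem_Part {V : Submodule k (X → k)} {F : (ι → X) → k} :
    F ∈ Part ι V ↔ ∀ (i : ι) (g : ι → X), (fun x => F (update g i x)) ∈ V := Iff.rfl

/-- An element of `Part ι V` vanishing on the grid of points is zero. -/
theorem Part.eq_zero {V : Submodule k (X → k)} {κ : Type*} {a : κ → X}
    (ha : Injective (fun v : V => fun j : κ => (v : X → k) (a j)))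
    {F : (ι → X) → k} (hF : F ∈ Part ι V) (h0 : ∀ I : ι → κ, F (fun i => a (I i)) = 0) : F = 0 := by
  classical
  have key : ∀ s : Finset ι, ∀ g : ι → X, (∀ i ∉ s, g i ∈ Set.range a) → F g = 0 := by
    intro s
    induction s using Finset.induction_on with
    | empty =>
      intro g hg
      choose I hI using fun i => hg i (by simp)
      have : g = fun i => a (I i) := funext fun i => (hI i).symm
      rw [this]
      exact h0 I
    | insert i s hi ih =>
      intro g hg
      have hv : (⟨fun x => F (update g i x), hF i g⟩ : V) = 0 := by
        apply ha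
        funext j
        change F (update g i (a j)) = 0
        apply ih
        intro i' hi'
        by_cases h : i' = i
        · subst h
          simp
        · rw [update_of_ne h]
          exact hg i' (by simp [h, hi'])
      have := congrFun (congrArg Subtype.val hv) (g i)
      simpa using this
  funext g
  exact key Finset.univ g (by simp)

/-- Product functions are in `Part`. -/
theorem prod_mem_Part {V : Submodule k (X → k)} (φ : ι → X → k) (hφ : ∀ i, φ i ∈ V) :
    (fun g : ι → X => ∏ i, φ i (g i)) ∈ Part ι V := by
  intro i g
  have : (fun x => ∏ j, φ j (update g i x j)) =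
      (∏ j ∈ Finset.univ.erase i, φ j (g j)) • φ i := by
    funext x
    rw [← Finset.mul_prod_erase Finset.univ _ (Finset.mem_univ i)]
    simp only [update_self, Pi.smul_apply, smul_eq_mul]
    rw [mul_comm]
    congr 1
    apply Finset.prod_congr rfl
    intro j hj
    rw [update_of_ne (Finset.ne_of_mem_erase hj)]
  rw [this]
  exact V.smul_mem _ (hφ i)

/-- The explicit interpolation: every `f` on the grid is the restriction of a combination of products of
elements of `V`. -/
theorem exists_prod {V : Submodule k (X → k)} {κ : Type*} [Fintype κ] {a : κ → X}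
    (ha : Bijective (fun v : V => fun j : κ => (v : X → k) (a j))) :
    ∃ φ : κ → X → k, (∀ j, φ j ∈ V) ∧ ∀ f : (ι → κ) → k, ∀ J : ι → κ,
      (∑ I : ι → κ, f I * ∏ i, φ (I i) (a (J i))) = f J := by
  classical
  have h1 : ∀ j : κ, ∃ v : V, ∀ i, (v : X → k) (a i) = if j = i then 1 else 0 := by
    intro j
    obtain ⟨v, hv⟩ := ha.2 (fun i => if j = i then 1 else 0)
    exact ⟨v, fun i => congrFun hv i⟩
  choose v hv using h1
  refine ⟨fun j => v j, fun j => (v j).2, ?_⟩
  intro f J
  rw [Finset.sum_eq_single J]
  · simp [hv]
  · intro I _ hI
    obtain ⟨i, hi⟩ := Function.ne_iff.1 hI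
    rw [Finset.prod_eq_zero (Finset.mem_univ i), mul_zero]
    change (v (I i) : X → k) (a (J i)) = 0
    rw [hv, if_neg hi]
  · simp

/-! ### Invariant functions and orbits -/

/-- Functions invariant under a group. -/
def Inv (k Q Y : Type*) [Field k] [Group Q] [MulAction Q Y] : Submodule k (Y → k) where
  carrier := {f | ∀ (q : Q) (y : Y), f (q • y) = f y}
  add_mem' := by
    intro f g hf hg q y
    simp [hf q y, hg q y]
  zero_mem' := by
    intro q y
    rfl
  smul_mem' := by
    intro c f hf q y
    simp [hf q y]

theorem finrank_Inv (k Q Y : Type*) [Field k] [Group Q] [MulAction Q Y] [Finite Y] :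
    Module.finrank k (Inv k Q Y) = Nat.card (MulAction.orbitRel.Quotient Q Y) := by
  classical
  have hfin : Finite (MulAction.orbitRel.Quotient Q Y) := Quotient.finite _
  let _ := Fintype.ofFinite (MulAction.orbitRel.Quotient Q Y)
  let L : (MulAction.orbitRel.Quotient Q Y → k) →ₗ[k] Inv k Q Y :=
    { toFun := fun f => ⟨fun y => f (Quotient.mk _ y), by
        intro q y
        exact congrArg f (Quotient.sound (s := MulAction.orbitRel Q Y)
          (show (q • y) ∈ MulAction.orbit Q y from ⟨q, rfl⟩))⟩
      map_add' := fun _ _ => rfl
      map_smul' := fun _ _ => rfl }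
  have hinj : Injective L := by
    intro f g hfg
    funext ω
    induction ω using Quotient.inductionOn with
    | h y => exact congrFun (congrArg Subtype.val hfg) y
  have hsurj : Surjective L := by
    intro f
    refine ⟨fun ω => Quotient.liftOn ω f.1 ?_, ?_⟩
    · rintro y z ⟨q, rfl⟩
      exact f.2 q z
    · rfl
  rw [← (LinearEquiv.ofBijective L ⟨hinj, hsurj⟩).finrank_eq, Module.finrank_fintype_fun_eq_card,
    Nat.card_eq_fintype_card]

/-- The number of orbits of rotations: `Q` of prime order `p` acting on `Q → κ` by translations. -/
theorem card_orbits {p : ℕ} (hp : p.Prime) (Q κ : Type*) [Group Q] [Finite Q] (hQ : Nat.card Q = p)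
    [Finite κ] [MulAction Q (Q → κ)] (hact : ∀ (q : Q) (I : Q → κ), q • I = fun x => I (q⁻¹ * x)) :
    Nat.card (MulAction.orbitRel.Quotient Q (Q → κ)) =
      (Nat.card κ ^ p - Nat.card κ) / p + Nat.card κ := by
  classical
  let _ := Fintype.ofFinite Q
  let _ := Fintype.ofFinite κ
  have hfin : Finite (MulAction.orbitRel.Quotient Q (Q → κ)) := Quotient.finite _
  let _ := Fintype.ofFinite (MulAction.orbitRel.Quotient Q (Q → κ))
  have hB := MulAction.sum_card_fixedBy_eq_card_orbits_mul_card_group Q (Q → κ)
  have hQ' : Fintype.card Q = p := by rw [← Nat.card_eq_fintype_card, hQ]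
  have h1 : Fintype.card (MulAction.fixedBy (Q → κ) (1 : Q)) = Fintype.card κ ^ p := by
    rw [← hQ', ← Fintype.card_fun]
    apply Fintype.card_congr
    refine (Equiv.subtypeUnivEquiv ?_)
    intro I
    simp
  have h2 : ∀ q : Q, q ≠ 1 → Fintype.card (MulAction.fixedBy (Q → κ) q) = Fintype.card κ := by
    intro q hq
    have hzt : Subgroup.zpowers q = ⊤ := by
      have : Fact p.Prime := ⟨hp⟩
      exact zpowers_eq_top_of_prime_card hQ hq
    refine (Fintype.card_congr (Equiv.ofBijective
      (fun c : κ => (⟨fun _ => c, by simp [MulAction.mem_fixedBy, hact]⟩ :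
        MulAction.fixedBy (Q → κ) q)) ⟨?_, ?_⟩)).symm
    · intro c d hcd
      have := congrArg (fun F : MulAction.fixedBy (Q → κ) q => (F : Q → κ) 1) hcd
      exact this
    · rintro ⟨I, hI⟩
      rw [MulAction.mem_fixedBy] at hI
      refine ⟨I 1, ?_⟩
      apply Subtype.ext
      funext x
      change I 1 = I x
      have hstab : ∀ r ∈ Subgroup.zpowers q, r • I = I := by
        intro r hr
        have : Subgroup.zpowers q ≤ MulAction.stabilizer Q I := by
          rw [Subgroup.zpowers_le]
          exact hI
        exact this hr
      have := congrFun (hstab x (by rw [hzt]; trivial)) x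
      rw [hact] at this
      simpa using this
  have hsum : (∑ q : Q, Fintype.card (MulAction.fixedBy (Q → κ) q)) =
      Fintype.card κ ^ p + (p - 1) * Fintype.card κ := by
    rw [← Finset.add_sum_erase Finset.univ _ (Finset.mem_univ (1 : Q)), h1,
      Finset.sum_congr rfl (fun q hq => h2 q (Finset.ne_of_mem_erase hq))]
    simp [hQ']
  rw [hsum, hQ'] at hB
  have hpos := hp.pos
  have hle : Fintype.card κ ≤ Fintype.card κ ^ p := Nat.le_self_pow hp.ne_zero _
  rw [Nat.card_eq_fintype_card, Nat.card_eq_fintype_card]
  set l := Fintype.card κ
  set o := Fintype.card (MulAction.orbitRel.Quotient Q (Q → κ))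
  have h3 : l ^ p - l + p * l = o * p := by
    obtain ⟨p', rfl⟩ : ∃ p', p = p' + 1 := ⟨p - 1, by omega⟩
    simp only [Nat.add_sub_cancel] at hB
    have : (p' + 1) * l = p' * l + l := by ring
    rw [this]
    omega
  have h4 : (l ^ p - l + p * l) / p = (l ^ p - l) / p + l := by
    rw [Nat.add_mul_div_left _ _ hpos]
  rw [← h4, h3, Nat.mul_div_cancel _ hpos]

end Crest.Agent.R170.WL512
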