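import Crest.Agent.R170.P2_482

/-! Row 170, leaf WL, part b (helper512): class functions constant on `p`-sections, stability under the
action of central elements of `kH`, values on `x^{p^n}`. -/

set_option autoImplicit false

namespace Crest.Agent.R170.WL512

open Crest.Agent.R170

/-- `p^n`-th power maps `H` onto its `p`-regular elements and fixes them. -/
def Good (p n : ℕ) (H : Type*) [Group H] : Prop := 1 ≤ n ∧ ∀ h : H, (h ^ p ^ n) ^ p ^ n = h ^ p ^ n

section
variable {k H : Type*} [Field k] [Group H] [Fintype H]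

/-- class functions `φ` with `φ(g^(p^n)) = φ(g)` and `φ(e g) = φ(g)` -/
def TFf (p n : ℕ) (e : MonoidAlgebra k H) : Submodule k (H → k) where
  carrier := {φ | (∀ g h, φ (g * h) = φ (h * g)) ∧ (∀ g, φ (g ^ p ^ n) = φ g) ∧
    ∀ g, ∑ h, e.coeff h * φ (h * g) = φ g}
  add_mem' := by
    rintro φ ψ ⟨h1, h2, h3⟩ ⟨i1, i2, i3⟩
    refine ⟨fun g h => ?_, fun g => ?_, fun g => ?_⟩
    · simp [h1 g h, i1 g h]
    · simp [h2 g, i2 g]
    · simp only [Pi.add_apply, mul_add, Finset.sum_add_distrib, h3 g, i3 g]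
  zero_mem' := by
    refine ⟨fun g h => rfl, fun g => rfl, fun g => ?_⟩
    simp
  smul_mem' := by
    rintro c φ ⟨h1, h2, h3⟩
    refine ⟨fun g h => ?_, fun g => ?_, fun g => ?_⟩
    · simp [h1 g h]
    · simp [h2 g]
    · simp only [Pi.smul_apply, smul_eq_mul]
      rw [← h3 g, Finset.mul_sum]
      refine Finset.sum_congr rfl fun h _ => by ring

/-- the linear extension of a function on the group -/
noncomputable def ext (φ : H → k) : MonoidAlgebra k H →+ k where
  toFun x := ∑ g, x.coeff g * φ g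
  map_zero' := by simp
  map_add' x y := by
    simp [add_mul, Finset.sum_add_distrib]

theorem ext_apply (φ : H → k) (x : MonoidAlgebra k H) : ext φ x = ∑ g, x.coeff g * φ g := rfl

theorem ext_single (φ : H → k) (g : H) (c : k) : ext φ (MonoidAlgebra.single g c) = c * φ g := by
  classical
  rw [ext_apply, Finset.sum_eq_single g]
  · simp
  · intro h _ hh
    rw [MonoidAlgebra.coeff_single, Finsupp.single_apply, if_neg (fun h' => hh h'.symm), zero_mul]
  · simp

theorem ext_mul_single (φ : H → k) (x : MonoidAlgebra k H) (g : H) :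
    ext φ (x * MonoidAlgebra.single g 1) = ∑ h, x.coeff h * φ (h * g) := by
  rw [ext_apply]
  refine Fintype.sum_equiv (Equiv.mulRight g⁻¹) _ _ ?_
  intro h
  rw [MonoidAlgebra.coeff_mul_single_apply]
  simp

theorem ext_trace {φ : H → k} (hφ : ∀ g h, φ (g * h) = φ (h * g)) (x y : MonoidAlgebra k H) :
    ext φ (x * y) = ext φ (y * x) := by
  have key : ∀ x y : MonoidAlgebra k H,
      ext φ (x * y) = ∑ g, ∑ h, x.coeff g * y.coeff h * φ (g * h) := by
    intro x y
    conv_lhs => rw [J482.eq_sum_single x, J482.eq_sum_single y]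
    rw [Finset.sum_mul_sum, map_sum]
    refine Finset.sum_congr rfl fun g _ => ?_
    rw [map_sum]
    refine Finset.sum_congr rfl fun h _ => ?_
    rw [MonoidAlgebra.single_mul_single, ext_single]
  rw [key, key, Finset.sum_comm]
  refine Finset.sum_congr rfl fun g _ => Finset.sum_congr rfl fun h _ => ?_
  rw [hφ, mul_comm (x.coeff h)]

/-- the value on a `p^n`-th power -/
theorem ext_pow (p n : ℕ) [Fact p.Prime] [CharP k p] {φ : H → k}
    (hφ : ∀ g h, φ (g * h) = φ (h * g)) (h2 : ∀ g, φ (g ^ p ^ n) = φ g) (x : MonoidAlgebra k H) :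
    ext (fun g => φ g ^ p ^ n) (x ^ p ^ n) = ext φ x ^ p ^ n := by
  classical
  have h3 : ∀ g h, (fun g => φ g ^ p ^ n) (g * h) = (fun g => φ g ^ p ^ n) (h * g) := by
    intro g h
    simp only [hφ g h]
  conv_lhs => rw [J482.eq_sum_single x]
  rw [J482.trace_pow p n (ext fun g => φ g ^ p ^ n) (fun a b => ext_trace h3 a b)]
  rw [ext_apply, sum_pow_char_pow]
  refine Finset.sum_congr rfl fun g _ => ?_
  rw [MonoidAlgebra.single_pow, ext_single, h2, mul_pow]

theorem ext_nilpotent (p n : ℕ) [Fact p.Prime] [CharP k p] {φ : H → k}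
    (hφ : ∀ g h, φ (g * h) = φ (h * g)) (h2 : ∀ g, φ (g ^ p ^ n) = φ g) (x : MonoidAlgebra k H)
    (hx : x ^ p ^ n = 0) : ext φ x = 0 := by
  have := ext_pow p n hφ h2 x
  rw [hx, map_zero] at this
  exact pow_eq_zero_iff (pow_pos (Fact.out : p.Prime).pos n).ne' |>.1 this.symm

/-- stability: for central `z`, the function `g ↦ φ(z g)` is again invariant under `g ↦ g^(p^n)` -/
theorem stab (p n : ℕ) [Fact p.Prime] [CharP k p] (hg : Good p n H) {φ : H → k}
    (hφ : ∀ g h, φ (g * h) = φ (h * g)) (h2 : ∀ g, φ (g ^ p ^ n) = φ g) {z : MonoidAlgebra k H}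
    (hz : ∀ x, z * x = x * z) (g : H) :
    ∑ h, z.coeff h * φ (h * g ^ p ^ n) = ∑ h, z.coeff h * φ (h * g) := by
  rw [← ext_mul_single, ← ext_mul_single, ← sub_eq_zero, ← map_sub, ← mul_sub]
  apply ext_nilpotent p n hφ h2
  have hc : Commute z (MonoidAlgebra.single (g ^ p ^ n) 1 - MonoidAlgebra.single g 1) := hz _
  rw [hc.mul_pow]
  have hcg : Commute (MonoidAlgebra.single (g ^ p ^ n) (1 : k)) (MonoidAlgebra.single g 1) := by
    change _ * _ = _ * _
    rw [MonoidAlgebra.single_mul_single, MonoidAlgebra.single_mul_single]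
    congr 1
    exact (Commute.pow_self g _)
  have hchar : CharP (MonoidAlgebra k H) p := by
    exact charP_of_injective_algebraMap (FaithfulSMul.algebraMap_injective k (MonoidAlgebra k H)) p
  rw [sub_pow_char_pow_of_commute (p := p) (n := n) hcg, MonoidAlgebra.single_pow, MonoidAlgebra.single_pow,
    one_pow, hg.2 g, sub_self, mul_zero]

end

end Crest.Agent.R170.WL512
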