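import Crest.Agent.R170.WLa_512
import Crest.Agent.R170.WLb_512

/-! Row 170, leaf WL, part c (helper512): `TFf` of the wreath product `G ≀ᵣ Q`, `|Q| = p`. -/

set_option autoImplicit false
set_option linter.unusedSectionVars false

namespace Crest.Agent.R170.WL512

open Crest.Agent.R170 Function

section
variable {k G Q : Type*} [Field k] [Group G] [Fintype G] [Group Q] [Fintype Q] [DecidableEq Q]

noncomputable instance : Fintype (G ≀ᵣ Q) := Fintype.ofEquiv _ (RegularWreathProduct.equivProd G Q).symm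

/-- element of the base group -/
def bs (g : Q → G) : G ≀ᵣ Q := ⟨g, 1⟩

omit [Fintype G] [Fintype Q] [DecidableEq Q] in
theorem bs_mul (g h : Q → G) : bs (g * h) = bs g * bs h := by
  apply RegularWreathProduct.ext
  · funext x
    simp [bs]
  · simp [bs]

omit [Fintype G] [Fintype Q] [DecidableEq Q] in
theorem bs_one : bs (1 : Q → G) = 1 := rfl

omit [Fintype G] [Fintype Q] [DecidableEq Q] in
theorem bs_pow (g : Q → G) (m : ℕ) : bs (g ^ m) = bs g ^ m := by
  induction m with
  | zero => rw [pow_zero, pow_zero, bs_one]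
  | succ m ih => rw [pow_succ, pow_succ, bs_mul, ih]

omit [Fintype G] [Fintype Q] [DecidableEq Q] in
theorem bs_inj {g h : Q → G} (hgh : bs g = bs h) : g = h := congrArg RegularWreathProduct.left hgh

omit [Fintype G] [DecidableEq Q] in
theorem pow_base {p n : ℕ} (hQ : Nat.card Q = p) (hn : 1 ≤ n) (γ : G ≀ᵣ Q) :
    γ ^ p ^ n = bs (γ ^ p ^ n).left := by
  apply RegularWreathProduct.ext
  · rfl
  · change (γ ^ p ^ n).right = 1
    have h1 : (γ ^ p ^ n).right = γ.right ^ p ^ n := by
      exact map_pow (RegularWreathProduct.rightHom (D := G) (Q := Q)) γ (p ^ n)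
    rw [h1]
    obtain ⟨m, rfl⟩ : ∃ m, n = m + 1 := ⟨n - 1, by omega⟩
    rw [pow_succ, mul_comm, pow_mul, ← hQ, pow_card_eq_one', one_pow]

/-- the condition on the coefficients of `e^{⊗ p}` -/
def IsTensor (e : MonoidAlgebra k G) (E : MonoidAlgebra k (G ≀ᵣ Q)) : Prop :=
  ∀ γ : G ≀ᵣ Q, E.coeff γ = if γ.right = 1 then ∏ i, e.coeff (γ.left i) else 0

theorem sumE {e : MonoidAlgebra k G} {E : MonoidAlgebra k (G ≀ᵣ Q)} (hE : IsTensor e E)
    (f : G ≀ᵣ Q → k) :
    ∑ δ, E.coeff δ * f δ = ∑ h : Q → G, (∏ i, e.coeff (h i)) * f (bs h) := by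
  rw [Fintype.sum_equiv (RegularWreathProduct.equivProd G Q) (fun δ => E.coeff δ * f δ)
    (fun x : (Q → G) × Q => E.coeff ⟨x.1, x.2⟩ * f ⟨x.1, x.2⟩) (fun x => rfl), Fintype.sum_prod_type]
  refine Finset.sum_congr rfl fun h _ => ?_
  rw [Finset.sum_eq_single (1 : Q)]
  · rw [hE]
    simp [bs]
  · intro q _ hq
    rw [hE]
    simp [hq]
  · simp

theorem good_base {p n : ℕ} (hg : Good p n (G ≀ᵣ Q)) (x : G) : (x ^ p ^ n) ^ p ^ n = x ^ p ^ n := by
  have := hg.2 (bs fun _ => x)
  rw [← bs_pow, ← bs_pow] at this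
  exact congrFun (bs_inj this) 1

/-- restriction to the base group: all partial functions are in `TFf e` -/
theorem restrict_mem {p n : ℕ} (hg : Good p n (G ≀ᵣ Q)) {e : MonoidAlgebra k G} (he : e * e = e)
    {E : MonoidAlgebra k (G ≀ᵣ Q)} (hE : IsTensor e E) {φ : G ≀ᵣ Q → k} (hφ : φ ∈ TFf p n E) :
    (fun g : Q → G => φ (bs g)) ∈ Part Q (TFf p n e) := by
  obtain ⟨h1, h2, h3⟩ := hφ
  intro i g
  refine ⟨fun x y => ?_, fun x => ?_, fun x => ?_⟩
  · change φ (bs (update g i (x * y))) = φ (bs (update g i (y * x)))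
    have e1 : update g i (x * y) = Pi.mulSingle i x * update g i y := by
      funext j
      by_cases hj : j = i
      · subst hj; simp
      · simp [hj]
    have e2 : update g i (y * x) = update g i y * Pi.mulSingle i x := by
      funext j
      by_cases hj : j = i
      · subst hj; simp
      · simp [hj]
    rw [e1, e2, bs_mul, bs_mul, h1]
  · change φ (bs (update g i (x ^ p ^ n))) = φ (bs (update g i x))
    rw [← h2 (bs (update g i (x ^ p ^ n))), ← h2 (bs (update g i x)), ← bs_pow, ← bs_pow]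
    congr 2
    funext j
    by_cases hj : j = i
    · subst hj
      simp [good_base hg x]
    · simp [hj]
  · change ∑ h, e.coeff h * φ (bs (update g i (h * x))) = φ (bs (update g i x))
    have key : ∀ γ, ∑ h : Q → G, (∏ j, e.coeff (h j)) * φ (bs h * γ) = φ γ := by
      intro γ
      rw [← sumE hE (fun δ => φ (δ * γ))]
      exact h3 γ
    -- left side
    have e1 : ∀ h : G, e.coeff h * φ (bs (update g i (h * x))) =
        ∑ v : Q → G, (e.coeff (v i * h⁻¹) * e.coeff h *
          ∏ j ∈ Finset.univ.erase i, e.coeff (v j)) * φ (bs (v * update g i x)) := by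
      intro h
      rw [← key (bs (update g i (h * x))), Finset.mul_sum]
      refine Fintype.sum_equiv (Equiv.mulRight (Pi.mulSingle i h : Q → G)) _ _ ?_
      intro w
      have e3 : w * update g i (h * x) = w * Pi.mulSingle i h * update g i x := by
        funext j
        by_cases hj : j = i
        · subst hj; simp [mul_assoc]
        · simp [hj]
      rw [← bs_mul, e3]
      simp only [Equiv.coe_mulRight, Pi.mul_apply, Pi.mulSingle_eq_same, mul_inv_cancel_right]
      rw [← Finset.mul_prod_erase Finset.univ _ (Finset.mem_univ i)]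
      have e4 : ∏ j ∈ Finset.univ.erase i, e.coeff (w j * (Pi.mulSingle i h : Q → G) j) =
          ∏ j ∈ Finset.univ.erase i, e.coeff (w j) := by
        refine Finset.prod_congr rfl fun j hj => ?_
        rw [Pi.mulSingle_eq_of_ne (Finset.ne_of_mem_erase hj), mul_one]
      rw [e4]
      ring
    rw [Finset.sum_congr rfl fun h _ => e1 h, Finset.sum_comm, ← key (bs (update g i x))]
    refine Finset.sum_congr rfl fun v _ => ?_
    rw [← bs_mul, ← Finset.sum_mul, ← Finset.sum_mul]
    congr 1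
    rw [← Finset.mul_prod_erase Finset.univ _ (Finset.mem_univ i)]
    congr 1
    conv_rhs => rw [← he, J482.coeff_mul_fin]
    refine Fintype.sum_equiv ((Equiv.inv G).trans (Equiv.mulLeft (v i))) _ _ ?_
    intro h
    simp

/-- the interpolating function on the base group -/
def FI {κ : Type*} [Fintype κ] (φ : κ → G → k) (f : (Q → κ) → k) (g : Q → G) : k :=
  ∑ I : Q → κ, f I * ∏ i, φ (I i) (g i)

/-- translation action -/
@[reducible] def act (Q κ : Type*) [Group Q] : MulAction Q (Q → κ) where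
  smul q I := fun x => I (q⁻¹ * x)
  one_smul I := by
    funext x
    change I (1⁻¹ * x) = I x
    simp
  mul_smul q r I := by
    funext x
    change I ((q * r)⁻¹ * x) = I (r⁻¹ * (q⁻¹ * x))
    simp [mul_assoc]

omit [Fintype G] in
theorem FI_conj {κ : Type*} [Fintype κ] {φ : κ → G → k}
    (hφ : ∀ j g h, φ j (g * h) = φ j (h * g)) {f : (Q → κ) → k}
    (hf : ∀ (q : Q) (I : Q → κ), f (fun x => I (q⁻¹ * x)) = f I) (c g : Q → G) (q : Q) :
    FI φ f (fun x => c x * g (q⁻¹ * x) * (c x)⁻¹) = FI φ f g := by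
  classical
  unfold FI
  have hc : ∀ j (a b : G), φ j (a * b * a⁻¹) = φ j b := by
    intro j a b
    rw [mul_assoc, hφ]
    simp
  simp only [hc]
  refine (Fintype.sum_equiv (Equiv.arrowCongr (Equiv.mulLeft q) (Equiv.refl κ)) _ _ ?_).symm
  intro I
  have e1 : (Equiv.arrowCongr (Equiv.mulLeft q) (Equiv.refl κ)) I = fun x => I (q⁻¹ * x) := by
    funext x
    simp [Equiv.arrowCongr]
  rw [e1, hf]
  congr 1
  refine Fintype.prod_equiv (Equiv.mulLeft q) _ _ ?_
  intro i
  simp

theorem FI_pow {κ : Type*} [Fintype κ] {φ : κ → G → k} {N : ℕ}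
    (hφ : ∀ j g, φ j (g ^ N) = φ j g) (f : (Q → κ) → k) (g : Q → G) :
    FI φ f (g ^ N) = FI φ f g := by
  unfold FI
  simp only [Pi.pow_apply, hφ]

theorem FI_e {κ : Type*} [Fintype κ] {φ : κ → G → k} {e : MonoidAlgebra k G}
    (hφ : ∀ j g, ∑ h, e.coeff h * φ j (h * g) = φ j g) (f : (Q → κ) → k) (g : Q → G) :
    ∑ h : Q → G, (∏ i, e.coeff (h i)) * FI φ f (h * g) = FI φ f g := by
  classical
  unfold FI
  simp only [Finset.mul_sum]
  rw [Finset.sum_comm]
  refine Finset.sum_congr rfl fun I _ => ?_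
  have e1 : ∀ h : Q → G, (∏ i, e.coeff (h i)) * (f I * ∏ i, φ (I i) ((h * g) i)) =
      f I * ∏ i, (e.coeff (h i) * φ (I i) (h i * g i)) := by
    intro h
    rw [Finset.prod_mul_distrib]
    simp only [Pi.mul_apply]
    ring
  rw [Finset.sum_congr rfl fun h _ => e1 h, ← Finset.mul_sum]
  congr 1
  have e2 := Finset.prod_univ_sum (fun _ : Q => (Finset.univ : Finset G))
    (fun i h => e.coeff h * φ (I i) (h * g i))
  rw [Fintype.piFinset_univ] at e2
  rw [← e2]
  exact Finset.prod_congr rfl fun i _ => hφ _ _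

/-- the extension of an interpolating function to the wreath product -/
theorem ext_mem {p n : ℕ} [Fact p.Prime] [CharP k p] (hQ : Nat.card Q = p)
    (hg : Good p n (G ≀ᵣ Q)) {e : MonoidAlgebra k G}
    {E : MonoidAlgebra k (G ≀ᵣ Q)} (hE : IsTensor e E) (hEc : ∀ x, E * x = x * E)
    {κ : Type*} [Fintype κ] {φ : κ → G → k} (hφ : ∀ j, φ j ∈ TFf p n e) {f : (Q → κ) → k}
    (hf : ∀ (q : Q) (I : Q → κ), f (fun x => I (q⁻¹ * x)) = f I) :
    (fun γ : G ≀ᵣ Q => FI φ f (γ ^ p ^ n).left) ∈ TFf p n E := by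
  have h1 : ∀ γ δ : G ≀ᵣ Q, FI φ f ((γ * δ) ^ p ^ n).left = FI φ f ((δ * γ) ^ p ^ n).left := by
    intro γ δ
    have e1 : γ * δ = γ * (δ * γ) * γ⁻¹ := by group
    rw [e1, conj_pow, pow_base hQ hg.1 (δ * γ)]
    set u := ((δ * γ) ^ p ^ n).left
    change FI φ f (γ * bs u * γ⁻¹).left = FI φ f u
    rw [← FI_conj (fun j => (hφ j).1) hf γ.left u γ.right]
    congr 1
    funext x
    simp [bs]
  have h2 : ∀ γ : G ≀ᵣ Q, FI φ f ((γ ^ p ^ n) ^ p ^ n).left = FI φ f (γ ^ p ^ n).left := by
    intro γ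
    rw [hg.2]
  refine ⟨h1, h2, ?_⟩
  intro γ
  change ∑ h, E.coeff h * FI φ f ((h * γ) ^ p ^ n).left = FI φ f (γ ^ p ^ n).left
  have h3 := stab (φ := fun γ : G ≀ᵣ Q => FI φ f (γ ^ p ^ n).left) p n hg h1 h2 hEc γ
  beta_reduce at h3
  rw [← h3, sumE hE (fun δ => FI φ f ((δ * γ ^ p ^ n) ^ p ^ n).left)]
  rw [pow_base hQ hg.1 γ]
  set u := (γ ^ p ^ n).left
  have h4 : ∀ h : Q → G, FI φ f ((bs h * bs u) ^ p ^ n).left = FI φ f (h * u) := by
    intro h
    rw [← bs_mul, ← bs_pow]
    exact FI_pow (fun j => (hφ j).2.1) f (h * u)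
  simp only [h4]
  exact FI_e (fun j => (hφ j).2.2) f u

/-- **the count for the wreath product**, in terms of class functions -/
theorem finrank_TFf {p n : ℕ} [Fact p.Prime] [CharP k p] (hQ : Nat.card Q = p)
    (hg : Good p n (G ≀ᵣ Q)) {e : MonoidAlgebra k G} (he : e * e = e)
    {E : MonoidAlgebra k (G ≀ᵣ Q)} (hE : IsTensor e E) (hEc : ∀ x, E * x = x * E) :
    Module.finrank k (TFf p n E) =
      (Module.finrank k (TFf p n e) ^ p - Module.finrank k (TFf p n e)) / p +
        Module.finrank k (TFf p n e) := by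
  classical
  obtain ⟨κ, hκ, a, hcard, hbij⟩ := exists_points (TFf p n e)
  obtain ⟨φ, hφ, hφ2⟩ := exists_prod (ι := Q) hbij
  let _ := act Q κ
  have hact : ∀ (q : Q) (I : Q → κ), q • I = fun x => I (q⁻¹ * x) := fun _ _ => rfl
  let L : TFf p n E →ₗ[k] Inv k Q (Q → κ) :=
    { toFun := fun ψ => ⟨fun I => ψ.1 (bs fun i => a (I i)), by
        intro q I
        change ψ.1 (bs fun i => a (I (q⁻¹ * i))) = ψ.1 (bs fun i => a (I i))
        have e1 : bs (fun i => a (I (q⁻¹ * i))) =
            (RegularWreathProduct.inl q : G ≀ᵣ Q) * (bs (fun i => a (I i)) *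
              (RegularWreathProduct.inl q)⁻¹) := by
          apply RegularWreathProduct.ext
          · funext x
            simp [bs]
          · simp [bs]
        rw [e1, ψ.2.1]
        simp⟩
      map_add' := fun _ _ => rfl
      map_smul' := fun _ _ => rfl }
  have hinj : Injective L := by
    rw [injective_iff_map_eq_zero]
    intro ψ hψ
    have h0 : (fun g : Q → G => ψ.1 (bs g)) = 0 := by
      apply Part.eq_zero (a := a) hbij.1 (restrict_mem hg he hE ψ.2)
      intro I
      exact congrFun (congrArg Subtype.val hψ) I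
    apply Subtype.ext
    funext γ
    rw [← ψ.2.2.1 γ, pow_base hQ hg.1 γ]
    exact congrFun h0 _
  have hsurj : Surjective L := by
    intro f
    have hf : ∀ (q : Q) (I : Q → κ), f.1 (fun x => I (q⁻¹ * x)) = f.1 I := f.2
    refine ⟨⟨_, ext_mem hQ hg hE hEc hφ hf⟩, ?_⟩
    apply Subtype.ext
    funext I
    change FI φ f.1 ((bs fun i => a (I i)) ^ p ^ n).left = f.1 I
    rw [← bs_pow]
    change FI φ f.1 ((fun i => a (I i)) ^ p ^ n) = f.1 I
    rw [FI_pow (fun j => (hφ j).2.1)]
    exact hφ2 f.1 I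
  rw [(LinearEquiv.ofBijective L ⟨hinj, hsurj⟩).finrank_eq, finrank_Inv,
    card_orbits (Fact.out : p.Prime) Q κ hQ hact, hcard]

end

end Crest.Agent.R170.WL512
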