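import Crest.Agent.R170.WLc_512
import Crest.Agent.R170.LC_806
import Crest.Agent.R170.LD_170
import Crest.Agent.R170.Wr_350

/-! Row 170, leaf WL, part d (helper512): `lc e = finrank (TFf e)` and the wreath product formula
`lc (wE C e) = (lc e ^ p - lc e) / p + lc e`. -/

set_option autoImplicit false
set_option linter.unusedSectionVars false

namespace Crest.Agent.R170.WL512

open Crest.Agent.R170 Function

/-- existence of a good exponent -/
theorem exists_good (p : ℕ) (hp : p.Prime) (H : Type*) [Group H] [Finite H] : ∃ n, Good p n H := by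
  obtain ⟨a, m, hm, hcard⟩ := Nat.exists_eq_pow_mul_and_not_dvd (Nat.card_pos (α := H)).ne' p hp.ne_one
  have hcop : Nat.Coprime p m := (Nat.Prime.coprime_iff_not_dvd hp).2 hm
  have hmpos : 0 < m := Nat.pos_of_ne_zero (by rintro rfl; simp at hm)
  have htot : 0 < Nat.totient m := Nat.totient_pos.2 hmpos
  refine ⟨(a + 1) * Nat.totient m, ?_, ?_⟩
  · exact Nat.mul_pos (Nat.succ_pos a) htot
  · intro h
    set N := p ^ ((a + 1) * Nat.totient m) with hN
    have h1 : p ^ a ∣ N := by
      apply pow_dvd_pow
      calc a ≤ (a + 1) * 1 := by omega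
        _ ≤ _ := Nat.mul_le_mul_left _ htot
    have h2 : m ∣ N - 1 := by
      have : N ≡ 1 [MOD m] := by
        rw [hN, mul_comm, pow_mul]
        calc (p ^ Nat.totient m) ^ (a + 1) ≡ 1 ^ (a + 1) [MOD m] :=
              (Nat.ModEq.pow_totient hcop).pow _
          _ = 1 := one_pow _
      exact (Nat.modEq_iff_dvd' (Nat.one_le_pow _ _ hp.pos)).1 this.symm
    have h3 : Nat.card H ∣ N * (N - 1) := by
      rw [hcard]
      exact Nat.mul_dvd_mul h1 h2
    have h4 : h ^ (N * (N - 1)) = 1 := by
      obtain ⟨c, hc⟩ := h3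
      rw [hc, pow_mul, pow_card_eq_one', one_pow]
    have hN1 : 1 ≤ N := Nat.one_le_pow _ _ hp.pos
    rw [← pow_mul]
    have h5 : N * N = N * (N - 1) + N := by
      obtain ⟨N', hN'⟩ : ∃ N', N = N' + 1 := ⟨N - 1, by omega⟩
      rw [hN']
      simp
      ring
    rw [h5, pow_add, h4, one_mul]

section
variable {k H : Type*} [Field k] [Group H] [Fintype H]

/-- the linear extension -/
noncomputable def extL (φ : H → k) : MonoidAlgebra k H →ₗ[k] k where
  toFun x := ∑ g, x.coeff g * φ g
  map_add' x y := by
    simp [add_mul, Finset.sum_add_distrib]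
  map_smul' c x := by
    simp [Finset.mul_sum, mul_assoc]

theorem extL_apply (φ : H → k) (x : MonoidAlgebra k H) : extL φ x = ext φ x := rfl

theorem inv_iter {p n : ℕ} {φ : H → k} (h2 : ∀ g, φ (g ^ p ^ n) = φ g) (t : ℕ) (g : H) :
    φ (g ^ p ^ (n * t)) = φ g := by
  induction t with
  | zero => simp
  | succ t ih =>
    rw [Nat.mul_succ, pow_add, pow_mul, h2, ih]

theorem ext_TA (p n : ℕ) [Fact p.Prime] [CharP k p] (hn : 1 ≤ n) {φ : H → k}
    (hφ : ∀ g h, φ (g * h) = φ (h * g)) (h2 : ∀ g, φ (g ^ p ^ n) = φ g)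
    {x : MonoidAlgebra k H} (hx : x ∈ LC806.TA k (MonoidAlgebra k H) p) : extL φ x = 0 := by
  obtain ⟨n₀, hn₀⟩ := LC806.TA_pow_mem p hx
  have h3 : n₀ ≤ n * n₀ := Nat.le_mul_of_pos_left _ hn
  have h4 := hn₀ _ h3
  have h5 := ext_pow p (n * n₀) hφ (inv_iter h2 n₀) x
  have h6 : ext (fun g => φ g ^ p ^ (n * n₀)) (x ^ p ^ (n * n₀)) = 0 := by
    refine LC806.vanish_CA (extL fun g => φ g ^ p ^ (n * n₀)) ?_ h4
    intro a b
    rw [extL_apply, extL_apply]
    exact ext_trace (fun g h => by simp only [hφ g h]) a b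
  rw [h6] at h5
  exact pow_eq_zero_iff (pow_pos (Fact.out : p.Prime).pos _).ne' |>.1 h5.symm

theorem finrank_dualSpace (p n : ℕ) [Fact p.Prime] [CharP k p] [IsAlgClosed k] (hg : Good p n H)
    (e : MonoidAlgebra k H) :
    Module.finrank k (LD170.dualSpace k (MonoidAlgebra k H) e) = Module.finrank k (TFf p n e) := by
  classical
  have hTT : ∀ x, x ∈ LD170.TT k (MonoidAlgebra k H) ↔ x ∈ LC806.TA k (MonoidAlgebra k H) p := by
    intro x
    rw [LC806.TA_eq_sup_jacobson p]
    rfl
  have hexp : ∀ (l : MonoidAlgebra k H →ₗ[k] k) (x : MonoidAlgebra k H),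
      l x = ∑ g, x.coeff g * l (MonoidAlgebra.single g 1) := by
    intro l x
    conv_lhs => rw [J482.eq_sum_single x, map_sum]
    refine Finset.sum_congr rfl fun g _ => ?_
    rw [← smul_eq_mul, ← map_smul]
    congr 1
    simp
  let T : LD170.dualSpace k (MonoidAlgebra k H) e →ₗ[k] TFf p n e :=
    { toFun := fun l => ⟨fun g => l.1 (MonoidAlgebra.single g 1), by
        obtain ⟨l, hl1, hl2⟩ := l
        refine ⟨fun g h => ?_, fun g => ?_, fun g => ?_⟩
        · rw [← sub_eq_zero, ← map_sub]
          apply hl1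
          apply LD170.comm_le_TT
          apply Submodule.subset_span
          exact ⟨MonoidAlgebra.single g 1, MonoidAlgebra.single h 1, by
            simp [MonoidAlgebra.single_mul_single]⟩
        · rw [← sub_eq_zero, ← map_sub]
          apply hl1
          rw [hTT]
          apply LC806.nilpotent_mem_TA
          refine ⟨p ^ n, ?_⟩
          have hcg : Commute (MonoidAlgebra.single (g ^ p ^ n) (1 : k)) (MonoidAlgebra.single g 1) := by
            change _ * _ = _ * _
            rw [MonoidAlgebra.single_mul_single, MonoidAlgebra.single_mul_single]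
            congr 1
            exact (Commute.pow_self g _)
          have hchar : CharP (MonoidAlgebra k H) p := by
            exact charP_of_injective_algebraMap
              (FaithfulSMul.algebraMap_injective k (MonoidAlgebra k H)) p
          rw [sub_pow_char_pow_of_commute (p := p) (n := n) hcg, MonoidAlgebra.single_pow,
            MonoidAlgebra.single_pow, one_pow, hg.2 g, sub_self]
        · have h3 := hl2 (MonoidAlgebra.single g 1)
          rw [hexp l (e * MonoidAlgebra.single g 1)] at h3
          exact (ext_mul_single (fun g => l (MonoidAlgebra.single g 1)) e g).symm.trans h3⟩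
      map_add' := fun _ _ => rfl
      map_smul' := fun _ _ => rfl }
  have hinj : Injective T := by
    intro l m hlm
    apply Subtype.ext
    apply LinearMap.ext
    intro x
    rw [hexp l.1 x, hexp m.1 x]
    refine Finset.sum_congr rfl fun g _ => ?_
    rw [show l.1 (MonoidAlgebra.single g 1) = m.1 (MonoidAlgebra.single g 1) from
      congrFun (congrArg Subtype.val hlm) g]
  have hsurj : Surjective T := by
    rintro ⟨φ, h1, h2, h3⟩
    refine ⟨⟨extL φ, fun x hx => ext_TA p n hg.1 h1 h2 ((hTT x).1 hx), fun x => ?_⟩, ?_⟩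
    · -- `φ(e x) = φ(x)`
      conv_rhs => rw [J482.eq_sum_single x]
      conv_lhs => rw [J482.eq_sum_single x]
      rw [Finset.mul_sum, map_sum, map_sum]
      refine Finset.sum_congr rfl fun g _ => ?_
      have e1 : MonoidAlgebra.single g (x.coeff g) = x.coeff g • MonoidAlgebra.single g (1 : k) := by
        simp
      rw [e1, mul_smul_comm, map_smul, map_smul]
      congr 1
      rw [extL_apply, extL_apply, ext_mul_single, h3, ext_single, one_mul]
    · apply Subtype.ext
      funext g
      change extL φ (MonoidAlgebra.single g 1) = φ g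
      rw [extL_apply, ext_single, one_mul]
  exact (LinearEquiv.ofBijective T ⟨hinj, hsurj⟩).finrank_eq

end

section
variable {k : Type} [Field k] [IsAlgClosed k] {G : Type} [Group G] [Finite G]

theorem lc_eq {H : Type} [Group H] [Fintype H] (p n : ℕ) [Fact p.Prime] [CharP k p] (hg : Good p n H)
    {e : MonoidAlgebra k H} (he : CI e) : lc e = Module.finrank k (TFf p n e) := by
  rw [← finrank_dualSpace p n hg e]
  exact LD170.blockSimpleCount_eq_finrank_dual e he.1 he.2

/-- **WL** -/
theorem lc_wE (p : ℕ) [Fact p.Prime] [CharP k p] (C : Type) [Group C] [Fintype C]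
    (hC : Nat.card C = p) {e : MonoidAlgebra k G} (he : CI e) (hE : CI (wE C e)) :
    lc (wE C e) = (lc e ^ p - lc e) / p + lc e := by
  classical
  let _ := Fintype.ofFinite G
  obtain ⟨n, hg⟩ := exists_good p (Fact.out : p.Prime) (G ≀ᵣ C)
  have hgG : Good p n G := ⟨hg.1, fun x => good_base hg x⟩
  rw [lc_eq p n hg hE, lc_eq p n hgG he]
  exact finrank_TFf hC hg he.2 (fun γ => wE_coeff C e γ) hE.1

end

end Crest.Agent.R170.WL512
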