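import Mathlib

/-!
# Row 170, leaf WL: orbits of `C_p` on `κ^p` (helper196)
-/

set_option autoImplicit false
set_option linter.style.haveILetI false

namespace Crest.Agent.R170.WLorb196

open MulAction

/-- invariant functions on a finite `G`-set -/
def inv (k G X : Type*) [Field k] [Group G] [MulAction G X] : Submodule k (X → k) where
  carrier := {F | ∀ (g : G) (x : X), F (g • x) = F x}
  add_mem' := by
    intro a b ha hb g x
    simp only [Pi.add_apply]
    rw [ha g x, hb g x]
  zero_mem' := by
    intro g x
    rfl
  smul_mem' := by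
    intro c a ha g x
    simp only [Pi.smul_apply]
    rw [ha g x]

/-- invariant functions = functions on the orbits -/
noncomputable def invEquiv (k G X : Type*) [Field k] [Group G] [MulAction G X] :
    inv k G X ≃ₗ[k] (Quotient (orbitRel G X) → k) where
  toFun F := Quotient.lift F.1 (by
    rintro a b ⟨g, rfl⟩
    exact F.2 g b)
  invFun f := ⟨fun x => f (Quotient.mk _ x), fun g x => by
    have h : (Quotient.mk (orbitRel G X) (g • x)) = Quotient.mk (orbitRel G X) x :=
      Quotient.sound (s := orbitRel G X) ⟨g, rfl⟩
    exact congrArg f h⟩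
  map_add' := by
    intro a b
    ext q
    induction q using Quotient.inductionOn
    rfl
  map_smul' := by
    intro c a
    ext q
    induction q using Quotient.inductionOn
    rfl
  left_inv := by
    intro F
    ext x
    rfl
  right_inv := by
    intro f
    ext q
    induction q using Quotient.inductionOn
    rfl

theorem finrank_inv (k G X : Type*) [Field k] [Group G] [MulAction G X] [Finite X] :
    Module.finrank k (inv k G X) = Nat.card (Quotient (orbitRel G X)) := by
  haveI : Finite (Quotient (orbitRel G X)) := Quotient.finite _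
  haveI := Fintype.ofFinite (Quotient (orbitRel G X))
  rw [(invEquiv k G X).finrank_eq, Module.finrank_fintype_fun_eq_card, Nat.card_eq_fintype_card]

section rot

variable (p : ℕ) [Fact p.Prime] (κ : Type*)

/-- rotation of `κ^p`: `(c • f) x = f (c⁻¹ * x)` -/
@[reducible] def rot : MulAction (Multiplicative (ZMod p)) (Multiplicative (ZMod p) → κ) where
  smul c f := fun x => f (c⁻¹ * x)
  one_smul f := by
    funext x
    show f (1⁻¹ * x) = f x
    simp
  mul_smul a b f := by
    funext x
    show f ((a * b)⁻¹ * x) = f (b⁻¹ * (a⁻¹ * x))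
    rw [mul_inv_rev, mul_assoc]

/-- **orbit count**: `p · #orbits = l^p - l + p l` -/
theorem card_orbits [Finite κ] :
    letI := rot p κ
    (p : ℤ) * Nat.card (Quotient (orbitRel (Multiplicative (ZMod p))
      (Multiplicative (ZMod p) → κ))) =
      (Nat.card κ : ℤ) ^ p - Nat.card κ + p * Nat.card κ := by
  letI := rot p κ
  classical
  haveI := Fintype.ofFinite κ
  have hp : p.Prime := Fact.out
  haveI : NeZero p := ⟨hp.ne_zero⟩
  have hC : Fintype.card (Multiplicative (ZMod p)) = p := by
    rw [Fintype.card_multiplicative, ZMod.card]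
  haveI : Finite (Quotient (orbitRel (Multiplicative (ZMod p)) (Multiplicative (ZMod p) → κ))) :=
    Quotient.finite _
  haveI := Fintype.ofFinite
    (Quotient (orbitRel (Multiplicative (ZMod p)) (Multiplicative (ZMod p) → κ)))
  have key := sum_card_fixedBy_eq_card_orbits_mul_card_group (Multiplicative (ZMod p))
    (Multiplicative (ZMod p) → κ)
  have h1 : Fintype.card (fixedBy (Multiplicative (ZMod p) → κ) (1 : Multiplicative (ZMod p))) =
      Fintype.card κ ^ p := by
    have h0 : Fintype.card (Multiplicative (ZMod p) → κ) = Fintype.card κ ^ p := by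
      rw [Fintype.card_fun, hC]
    rw [← h0]
    apply Fintype.card_congr
    refine ⟨fun f => f.1, fun f => ⟨f, by simp⟩, fun f => by simp, fun f => by simp⟩
  have h2 : ∀ c : Multiplicative (ZMod p), c ≠ 1 →
      Fintype.card (fixedBy (Multiplicative (ZMod p) → κ) c) = Fintype.card κ := by
    intro c hc
    apply Fintype.card_congr
    have hgen : ∀ x : Multiplicative (ZMod p), x ∈ Subgroup.zpowers c⁻¹ := by
      intro x
      have hcard : Nat.card (Multiplicative (ZMod p)) = p := by
        rw [Nat.card_eq_fintype_card, hC]
      exact mem_zpowers_of_prime_card hcard (by simpa using hc)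
    refine ⟨fun f => f.1 1, fun a => ⟨fun _ => a, ?_⟩, ?_, ?_⟩
    · rw [mem_fixedBy]
      rfl
    · intro f
      ext x
      show f.1 1 = f.1 x
      obtain ⟨n, hn⟩ := hgen x
      have hf : ∀ y, f.1 (c⁻¹ * y) = f.1 y := fun y => congrFun f.2 y
      have hn1 : ∀ n : ℤ, f.1 ((c⁻¹) ^ n) = f.1 1 := by
        intro n
        induction n using Int.induction_on with
        | zero => simp
        | succ i ih =>
          rw [zpow_add_one, mul_comm, hf, ih]
        | pred i ih =>
          rw [← hf, ← mul_comm ((c⁻¹) ^ (-(i : ℤ) - 1)), ← zpow_add_one]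
          rw [sub_add_cancel, ih]
      rw [← hn]
      exact (hn1 n).symm
    · intro a
      rfl
  have h3 : ∑ c : Multiplicative (ZMod p), Fintype.card (fixedBy (Multiplicative (ZMod p) → κ) c) =
      Fintype.card κ ^ p + (p - 1) * Fintype.card κ := by
    rw [← Finset.add_sum_erase _ _ (Finset.mem_univ (1 : Multiplicative (ZMod p))), h1]
    congr 1
    rw [Finset.sum_congr rfl (fun c hc => h2 c (Finset.ne_of_mem_erase hc)), Finset.sum_const,
      Finset.card_erase_of_mem (Finset.mem_univ _), Finset.card_univ, hC, smul_eq_mul]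
  rw [h3, hC] at key
  rw [Nat.card_eq_fintype_card, Nat.card_eq_fintype_card]
  have h4 : 1 ≤ p := hp.one_le
  have key' : ((Fintype.card κ : ℤ) ^ p + ((p : ℤ) - 1) * Fintype.card κ) =
      (Fintype.card (Quotient (orbitRel (Multiplicative (ZMod p))
        (Multiplicative (ZMod p) → κ))) : ℤ) * p := by
    have := congrArg (fun n : ℕ => (n : ℤ)) key
    push_cast [Nat.cast_sub h4] at this
    exact this
  linarith [key']

/-- **finrank of the rotation invariant functions** -/
theorem finrank_rot (k : Type*) [Field k] [Finite κ] (V : Submodule k ((Multiplicative (ZMod p) → κ) → k))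
    (hV : ∀ F, F ∈ V ↔ ∀ (c : Multiplicative (ZMod p)) (f : Multiplicative (ZMod p) → κ),
      F (fun x => f (c⁻¹ * x)) = F f) :
    (p : ℤ) * Module.finrank k V = (Nat.card κ : ℤ) ^ p - Nat.card κ + p * Nat.card κ := by
  letI := rot p κ
  have hp : p.Prime := Fact.out
  haveI : NeZero p := ⟨hp.ne_zero⟩
  have h : V = inv k (Multiplicative (ZMod p)) (Multiplicative (ZMod p) → κ) := by
    ext F
    rw [hV F]
    rfl
  rw [h, finrank_inv]
  exact card_orbits p κ

end rot

end Crest.Agent.R170.WLorb196
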