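import Crest.Agent.R170.Wr_350

/-! Row 170, leaf WW1 (helper628): radical p-subgroups of a regular wreath product `G ≀ᵣ C`, `|C| = p`. -/

set_option autoImplicit false

namespace Crest.Agent.R170.WW1628

open RegularWreathProduct Crest.Agent.R170
open scoped Pointwise

section general

variable {p : ℕ} {H : Type} [Group H]

theorem mem_norm_of {K : Subgroup H} {g : H} (h1 : ∀ k ∈ K, g * k * g⁻¹ ∈ K)
    (h2 : ∀ k ∈ K, g⁻¹ * k * g ∈ K) : g ∈ Subgroup.normalizer (K : Set H) := by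
  rw [Subgroup.mem_normalizer_iff]
  intro k
  constructor
  · exact h1 k
  · intro hk
    have := h2 _ hk
    have e : g⁻¹ * (g * k * g⁻¹) * g = k := by group
    rwa [e] at this

theorem norm_conj_mem {K : Subgroup H} {g k : H} (hg : g ∈ Subgroup.normalizer (K : Set H))
    (hk : k ∈ K) : g * k * g⁻¹ ∈ K := (Subgroup.mem_normalizer_iff.1 hg k).1 hk

theorem norm_conj_mem' {K : Subgroup H} {g k : H} (hg : g ∈ Subgroup.normalizer (K : Set H))
    (hk : k ∈ K) : g⁻¹ * k * g ∈ K := by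
  have := norm_conj_mem (inv_mem hg) hk
  simpa using this

theorem normalizer_inf_le_of {K Q : Subgroup H}
    (h : Subgroup.normalizer (Q : Set H) ≤ Subgroup.normalizer (K : Set H)) :
    Subgroup.normalizer (Q : Set H) ≤
      Subgroup.normalizer ((K ⊓ Subgroup.normalizer (Q : Set H) : Subgroup H) : Set H) := by
  intro g hg
  refine mem_norm_of ?_ ?_
  · intro k hk
    exact ⟨norm_conj_mem (h hg) hk.1, Subgroup.mul_mem _ (Subgroup.mul_mem _ hg hk.2) (Subgroup.inv_mem _ hg)⟩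
  · intro k hk
    exact ⟨norm_conj_mem' (h hg) hk.1, Subgroup.mul_mem _ (Subgroup.mul_mem _ (Subgroup.inv_mem _ hg) hk.2) hg⟩

theorem rad_le_of [Finite H] [Fact p.Prime] {Q K : Subgroup H} (hQ : IsRad p Q)
    (hK : IsPGroup p K)
    (h : Subgroup.normalizer (Q : Set H) ≤ Subgroup.normalizer (K : Set H)) : K ≤ Q := by
  have hQK : Q ≤ Subgroup.normalizer (K : Set H) := Subgroup.le_normalizer.trans h
  have hP : IsPGroup p (K ⊔ Q : Subgroup H) := hK.to_sup_of_normal_left' hQ.1 hQK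
  -- elements of K ⊔ Q
  have hM : K ⊓ Subgroup.normalizer (Q : Set H) ≤ Q :=
    hQ.2 _ (hK.to_le inf_le_left) inf_le_right (normalizer_inf_le_of h)
  by_contra hne
  have hlt : Q.subgroupOf (K ⊔ Q) < ⊤ := by
    refine lt_top_iff_ne_top.2 ?_
    intro e
    rw [Subgroup.subgroupOf_eq_top] at e
    exact hne (le_sup_left.trans e)
  have : Group.IsNilpotent (K ⊔ Q : Subgroup H) := hP.isNilpotent
  have hgrow := (Group.normalizerCondition_of_isNilpotent (G := (K ⊔ Q : Subgroup H))) _ hlt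
  obtain ⟨x, hx1, hx2⟩ := SetLike.exists_of_lt hgrow
  apply hx2
  rw [Subgroup.mem_subgroupOf]
  -- x normalises Q
  have hxN : (x : H) ∈ Subgroup.normalizer (Q : Set H) := by
    refine mem_norm_of ?_ ?_
    · intro k hk
      have hk' : (⟨k, (le_sup_right : Q ≤ K ⊔ Q) hk⟩ : (K ⊔ Q : Subgroup H)) ∈ Q.subgroupOf (K ⊔ Q) := by
        rw [Subgroup.mem_subgroupOf]; exact hk
      have := norm_conj_mem hx1 hk'
      rw [Subgroup.mem_subgroupOf] at this
      exact this
    · intro k hk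
      have hk' : (⟨k, (le_sup_right : Q ≤ K ⊔ Q) hk⟩ : (K ⊔ Q : Subgroup H)) ∈ Q.subgroupOf (K ⊔ Q) := by
        rw [Subgroup.mem_subgroupOf]; exact hk
      have := norm_conj_mem' hx1 hk'
      rw [Subgroup.mem_subgroupOf] at this
      exact this
  have hx : (x : H) ∈ ((K : Set H) * (Q : Set H)) := by
    have := x.2
    rw [← SetLike.mem_coe, Subgroup.coe_mul_of_right_le_normalizer_left K Q hQK] at this
    exact this
  obtain ⟨k, hk, q, hq, hkq⟩ := hx
  have hkN : k ∈ Subgroup.normalizer (Q : Set H) := by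
    have : k = (x : H) * q⁻¹ := by rw [← hkq]; simp
    rw [this]
    exact mul_mem hxN (inv_mem (Subgroup.le_normalizer hq))
  have : k ∈ Q := hM ⟨hk, hkN⟩
  rw [← hkq]
  exact mul_mem this hq

end general

section wreath

variable {p : ℕ} {G C : Type} [Group G] [Group C]

/-- `i`-th projection of `Q ⊓ base`. -/
def proj (Q : Subgroup (G ≀ᵣ C)) (i : C) : Subgroup G where
  carrier := {x | ∃ g ∈ Q, g.right = 1 ∧ g.left i = x}
  one_mem' := ⟨1, Q.one_mem, rfl, rfl⟩
  mul_mem' := by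
    rintro _ _ ⟨g, hg, hg1, rfl⟩ ⟨h, hh, hh1, rfl⟩
    exact ⟨g * h, Q.mul_mem hg hh, by simp [hg1, hh1], by simp [hg1]⟩
  inv_mem' := by
    rintro _ ⟨g, hg, hg1, rfl⟩
    exact ⟨g⁻¹, Q.inv_mem hg, by simp [hg1], by simp [hg1]⟩

theorem mem_proj {Q : Subgroup (G ≀ᵣ C)} {i : C} {x : G} :
    x ∈ proj Q i ↔ ∃ g ∈ Q, g.right = 1 ∧ g.left i = x := Iff.rfl

theorem conj_left (n b : G ≀ᵣ C) (hb : b.right = 1) (i : C) :
    (n * b * n⁻¹).left i = n.left i * b.left (n.right⁻¹ * i) * (n.left i)⁻¹ := by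
  simp [hb]

theorem conj_right (n b : G ≀ᵣ C) (hb : b.right = 1) : (n * b * n⁻¹).right = 1 := by
  simp [hb]

theorem pow_right (a : G ≀ᵣ C) (n : ℕ) : (a ^ n).right = a.right ^ n :=
  map_pow (rightHom : G ≀ᵣ C →* C) a n

theorem pow_left_base (a : G ≀ᵣ C) (ha : a.right = 1) (n : ℕ) (i : C) :
    (a ^ n).left i = a.left i ^ n := by
  induction n with
  | zero => simp
  | succ n ih =>
    rw [pow_succ, pow_succ]
    have : (a ^ n * a).left i = (a ^ n).left i * a.left i := by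
      simp [pow_right, ha]
    rw [this, ih]

theorem norm_le_norm_prodSub_proj (Q : Subgroup (G ≀ᵣ C)) :
    Subgroup.normalizer (Q : Set (G ≀ᵣ C)) ≤
      Subgroup.normalizer ((prodSub (proj Q) : Subgroup (G ≀ᵣ C)) : Set (G ≀ᵣ C)) := by
  have key : ∀ n ∈ Subgroup.normalizer (Q : Set (G ≀ᵣ C)), ∀ b ∈ prodSub (proj Q),
      n * b * n⁻¹ ∈ prodSub (proj Q) := by
    rintro n hn b ⟨hb1, hb⟩
    refine ⟨conj_right n b hb1, fun i => ?_⟩
    obtain ⟨q, hq, hq1, hqe⟩ := hb (n.right⁻¹ * i)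
    refine ⟨n * q * n⁻¹, norm_conj_mem hn hq, conj_right n q hq1, ?_⟩
    rw [conj_left n q hq1, conj_left n b hb1, hqe]
  intro n hn
  refine mem_norm_of (key n hn) ?_
  intro k hk
  have := key n⁻¹ (Subgroup.inv_mem _ hn) k hk
  rwa [inv_inv] at this

theorem isPGroup_proj {Q : Subgroup (G ≀ᵣ C)} (hQ : IsPGroup p Q) (i : C) :
    IsPGroup p (proj Q i) := by
  rintro ⟨x, g, hg, hg1, rfl⟩
  obtain ⟨k, hk⟩ := hQ ⟨g, hg⟩
  refine ⟨k, Subtype.ext ?_⟩
  have h2 : g ^ p ^ k = 1 := by simpa using congrArg Subtype.val hk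
  have h3 : g.left i ^ p ^ k = 1 := by
    rw [← pow_left_base g hg1, h2]
    rfl
  exact h3

theorem isPGroup_prodSub [Finite C] {R : C → Subgroup G} (hR : ∀ i, IsPGroup p (R i)) :
    IsPGroup p (prodSub R : Subgroup (G ≀ᵣ C)) := by
  cases nonempty_fintype C
  rintro ⟨g, hg1, hg⟩
  have : ∀ i, ∃ k : ℕ, g.left i ^ p ^ k = 1 := by
    intro i
    obtain ⟨k, hk⟩ := hR i ⟨g.left i, hg i⟩
    exact ⟨k, by simpa using congrArg Subtype.val hk⟩
  choose k hk using this
  refine ⟨∑ i, k i, Subtype.ext ?_⟩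
  change g ^ p ^ (∑ i, k i) = 1
  ext i
  · rw [pow_left_base g hg1]
    have hd : p ^ k i ∣ p ^ ∑ i, k i :=
      pow_dvd_pow _ (Finset.single_le_sum (f := k) (fun _ _ => Nat.zero_le _) (Finset.mem_univ i))
    obtain ⟨m, hm⟩ := hd
    rw [hm, pow_mul, hk i, one_pow]
    rfl
  · rw [pow_right, hg1, one_pow]
    rfl

/-- radical: the base part is the product of its projections. -/
theorem rad_inf_base [Finite G] [Finite C] [Fact p.Prime] {Q : Subgroup (G ≀ᵣ C)}
    (hQ : IsRad p Q) : Q ⊓ baseG G C = prodSub (proj Q) := by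
  apply le_antisymm
  · rintro g ⟨hg, hg1⟩
    exact ⟨hg1, fun i => ⟨g, hg, hg1, rfl⟩⟩
  · intro g hg
    exact ⟨rad_le_of hQ (isPGroup_prodSub fun i => isPGroup_proj hQ.1 i)
      (norm_le_norm_prodSub_proj Q) hg, hg.1⟩

/-- (a) radical and inside the base group. -/
theorem rad_base [Finite G] [Finite C] [Fact p.Prime] {Q : Subgroup (G ≀ᵣ C)}
    (hQ : IsRad p Q) (hB : Q ≤ baseG G C) : Q = prodSub (proj Q) := by
  rw [← rad_inf_base hQ, inf_eq_left.2 hB]

theorem proj_prodSub (R : C → Subgroup G) (i : C) : proj (prodSub R) i = R i := by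
  classical
  ext x
  constructor
  · rintro ⟨g, hg, _, rfl⟩
    exact hg.2 i
  · intro hx
    refine ⟨⟨Pi.mulSingle i x, 1⟩, ⟨rfl, fun j => ?_⟩, rfl, by simp⟩
    by_cases h : j = i
    · subst h; simpa using hx
    · simp [Pi.mulSingle_eq_of_ne h]

theorem prodSub_injective : Function.Injective (prodSub : (C → Subgroup G) → Subgroup (G ≀ᵣ C)) := by
  intro R R' h
  funext i
  rw [← proj_prodSub R i, h, proj_prodSub]

theorem prodSub_le_base (R : C → Subgroup G) : prodSub R ≤ baseG G C := fun _ hg => hg.1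

end wreath

end Crest.Agent.R170.WW1628
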