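import Crest.Agent.R170.WW1_628

/-! Row 170, leaf WW1 (helper628), second part: radical subgroups outside the base group. -/

set_option autoImplicit false

namespace Crest.Agent.R170.WW1628

open RegularWreathProduct Crest.Agent.R170
open scoped Pointwise

section transport

variable {p : ℕ} {H H' : Type} [Group H] [Group H']

theorem mem_normalizer_map (f : H ≃* H') (K : Subgroup H) (x : H) :
    f x ∈ Subgroup.normalizer ((K.map f.toMonoidHom : Subgroup H') : Set H') ↔
      x ∈ Subgroup.normalizer (K : Set H) := by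
  have hm : ∀ y, f y ∈ K.map f.toMonoidHom ↔ y ∈ K := by
    intro y
    constructor
    · rintro ⟨z, hz, hzy⟩
      have : z = y := f.injective hzy
      rwa [← this]
    · intro hy
      exact ⟨y, hy, rfl⟩
  rw [Subgroup.mem_normalizer_iff, Subgroup.mem_normalizer_iff]
  constructor
  · intro h y
    have := h (f y)
    rw [hm, ← map_mul, ← map_inv, ← map_mul, hm] at this
    exact this
  · intro h y'
    obtain ⟨y, rfl⟩ := f.surjective y'
    rw [hm, ← map_mul, ← map_inv, ← map_mul, hm]
    exact h y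

theorem isRad_map (f : H ≃* H') {Q : Subgroup H} (hQ : IsRad p Q) :
    IsRad p (Q.map f.toMonoidHom) := by
  refine ⟨hQ.1.map _, ?_⟩
  intro K hK h1 h2
  have e : K = (K.map f.symm.toMonoidHom).map f.toMonoidHom := by
    rw [Subgroup.map_map]
    ext x
    simp
  have hK' : IsPGroup p (K.map f.symm.toMonoidHom) := hK.map _
  rw [e]
  apply Subgroup.map_mono
  refine hQ.2 _ hK' ?_ ?_
  · intro x hx
    rw [← mem_normalizer_map f]
    apply h1
    obtain ⟨y, hy, rfl⟩ := hx
    simpa using hy
  · intro x hx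
    rw [← mem_normalizer_map f, ← e]
    apply h2
    rwa [mem_normalizer_map f]

end transport

section wreath

variable {p : ℕ} {G C : Type} [Group G] [Group C]

theorem pow_succ_left (a : G ≀ᵣ C) (n : ℕ) (i : C) :
    (a ^ (n + 1)).left i = (a ^ n).left i * a.left ((a.right ^ n)⁻¹ * i) := by
  rw [pow_succ]
  simp [pow_right]

theorem conj_right_ne (n b : G ≀ᵣ C) (hn : n.right = 1) : (n * b * n⁻¹).right = b.right := by
  simp [hn]

theorem conj_left_base (n b : G ≀ᵣ C) (hn : n.right = 1) (i : C) :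
    (n * b * n⁻¹).left i = n.left i * b.left i * (n.left (b.right⁻¹ * i))⁻¹ := by
  simp [hn]

/-- If `Q ⊓ base` is the product of its projections and `Q` is not inside the base group, then
`Q` contains, up to base conjugation, the complement. -/
theorem exists_conj_inl [Finite C] [Fact p.Prime] (hC : Nat.card C = p) {Q : Subgroup (G ≀ᵣ C)}
    (hQ : Q ⊓ baseG G C = prodSub (proj Q)) (hB : ¬ Q ≤ baseG G C) :
    ∃ b : G ≀ᵣ C, b.right = 1 ∧ ∀ s : C, b⁻¹ * inl s * b ∈ Q := by
  classical
  have hp : p.Prime := Fact.out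
  obtain ⟨t, htQ, ht⟩ := Set.not_subset.1 hB
  have hc : t.right ≠ 1 := fun h => ht h
  have horder : orderOf t.right = p := by
    have h1 : orderOf t.right ∣ p := hC ▸ orderOf_dvd_natCard t.right
    rcases (Nat.dvd_prime hp).1 h1 with h | h
    · exact absurd (orderOf_eq_one_iff.1 h) hc
    · exact h
  have hgen : ∀ i : C, ∃ n : ℕ, t.right ^ n = i := by
    intro i
    have h1 : Subgroup.zpowers t.right = ⊤ := by
      apply Subgroup.eq_top_of_card_eq
      rw [Nat.card_zpowers, horder, hC]
    have h2 : i ∈ Subgroup.zpowers t.right := by rw [h1]; trivial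
    have h3 := (mem_powers_iff_mem_zpowers (x := t.right) (y := i)).2 h2
    exact h3
  -- correct t
  have htp : (t ^ p).left 1 ∈ proj Q 1 := by
    refine ⟨t ^ p, Q.pow_mem htQ p, ?_, rfl⟩
    rw [pow_right, ← horder, pow_orderOf_eq_one]
  set r : G ≀ᵣ C := ⟨Pi.mulSingle 1 ((t ^ p).left 1)⁻¹, 1⟩ with hr
  have hrQ : r ∈ Q := by
    have : r ∈ prodSub (proj Q) := by
      refine ⟨rfl, fun i => ?_⟩
      by_cases h : i = 1
      · subst h
        simpa [hr] using htp
      · simp [hr, Pi.mulSingle_eq_of_ne h]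
    rw [← hQ] at this
    exact this.1
  set t' : G ≀ᵣ C := r * t with ht'
  have ht'Q : t' ∈ Q := Q.mul_mem hrQ htQ
  have ht'r : t'.right = t.right := by simp [ht', hr]
  have ht'l : ∀ i, i ≠ 1 → t'.left i = t.left i := by
    intro i hi
    simp [ht', hr, Pi.mulSingle_eq_of_ne hi]
  have ht'1 : t'.left 1 = ((t ^ p).left 1)⁻¹ * t.left 1 := by
    simp [ht', hr]
  have hpow : ∀ n : ℕ, n + 1 ≤ p → (t' ^ (n + 1)).left 1 = ((t ^ p).left 1)⁻¹ * (t ^ (n + 1)).left 1 := by
    intro n
    induction n with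
    | zero =>
      intro _
      simpa using ht'1
    | succ n ih =>
      intro hn
      rw [pow_succ_left, pow_succ_left t, ih (by omega), ht'r, mul_assoc]
      congr 2
      apply ht'l
      intro h
      have h' : t.right ^ (n + 1) = 1 := by simpa using h
      have := orderOf_dvd_of_pow_eq_one h'
      rw [horder] at this
      have := Nat.le_of_dvd (by omega) this
      omega
  have h1p : (t' ^ p).left 1 = 1 := by
    obtain ⟨m, hm⟩ : ∃ m, p = m + 1 := ⟨p - 1, by have := hp.pos; omega⟩
    have := hpow m (by omega)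
    rw [← hm] at this
    rw [this, inv_mul_cancel]
  have hrp : (t' ^ p).right = 1 := by
    rw [pow_right, ht'r, ← horder, pow_orderOf_eq_one]
  have hall : ∀ n : ℕ, (t' ^ p).left (t.right ^ n) = 1 := by
    intro n
    induction n with
    | zero => simpa using h1p
    | succ n ih =>
      have e : t' * t' ^ p * t'⁻¹ = t' ^ p := by
        rw [← pow_succ', pow_succ, mul_inv_cancel_right]
      have e2 := conj_left t' (t' ^ p) hrp (t.right ^ (n + 1))
      rw [e, ht'r] at e2
      rw [e2]
      have e3 : t.right⁻¹ * t.right ^ (n + 1) = t.right ^ n := by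
        rw [pow_succ', inv_mul_cancel_left]
      rw [e3, ih]
      simp
  have ht'p : t' ^ p = 1 := by
    ext i
    · obtain ⟨n, rfl⟩ := hgen i
      rw [hall]
      rfl
    · exact hrp
  choose nn hnn using hgen
  have hf : ∀ i, t' ^ nn i = t' * t' ^ nn (t.right⁻¹ * i) := by
    intro i
    rw [← pow_succ']
    have e : t.right ^ nn i = t.right ^ (nn (t.right⁻¹ * i) + 1) := by
      rw [pow_succ', hnn, hnn, mul_inv_cancel_left]
    rw [pow_eq_pow_iff_modEq, horder] at e
    rw [pow_eq_pow_iff_modEq]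
    exact e.of_dvd (orderOf_dvd_of_pow_eq_one ht'p)
  set b : G ≀ᵣ C := ⟨fun i => ((t' ^ nn i).left i)⁻¹, 1⟩ with hb
  have hbt : b * t' * b⁻¹ = inl t.right := by
    ext i
    · rw [conj_left_base b t' rfl i]
      have e := congrArg (fun x : G ≀ᵣ C => x.left i) (hf i)
      simp only [mul_left, Pi.mul_apply, ht'r] at e
      simp only [hb, inv_inv, ht'r, left_inl, Pi.one_apply]
      rw [e]
      group
    · rw [conj_right_ne b t' rfl, ht'r]
      rfl
  refine ⟨b, rfl, ?_⟩
  intro s
  obtain ⟨n, rfl⟩ : ∃ n : ℕ, t.right ^ n = s := ⟨nn s, hnn s⟩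
  have e1 : b⁻¹ * inl (t.right ^ n) * b = (b⁻¹ * inl t.right * b) ^ n := by
    rw [map_pow]
    have := conj_pow (i := n) (a := b⁻¹) (b := (inl t.right : G ≀ᵣ C))
    simpa using this.symm
  have e2 : b⁻¹ * inl t.right * b = t' := by
    rw [← hbt]; group
  rw [e1, e2]
  exact Q.pow_mem ht'Q n

/-- (b) radical and not inside the base group. -/
theorem rad_nonbase [Finite G] [Finite C] [Fact p.Prime] (hC : Nat.card C = p)
    {Q : Subgroup (G ≀ᵣ C)} (hQ : IsRad p Q) (hB : ¬ Q ≤ baseG G C) :
    ∃ g ∈ baseG G C, ∃ R : Subgroup G, Q = (wrSub R).map (MulAut.conj g).toMonoidHom := by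
  obtain ⟨b, hb1, hb⟩ := exists_conj_inl hC (rad_inf_base hQ) hB
  have hQ' : IsRad p (Q.map (MulAut.conj b).toMonoidHom) := isRad_map (MulAut.conj b) hQ
  set Q' := Q.map (MulAut.conj b).toMonoidHom with hQ'def
  have hinl : ∀ s : C, inl s ∈ Q' := by
    intro s
    refine ⟨b⁻¹ * inl s * b, hb s, ?_⟩
    simp only [MulEquiv.coe_toMonoidHom, MulAut.conj_apply]
    group
  have hinf := rad_inf_base hQ'
  have hmono : ∀ (s i : C), proj Q' (s⁻¹ * i) ≤ proj Q' i := by
    rintro s i x ⟨q, hq, hq1, rfl⟩
    refine ⟨inl s * q * (inl s)⁻¹, Q'.mul_mem (Q'.mul_mem (hinl s) hq) (Q'.inv_mem (hinl s)),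
      conj_right _ q hq1, ?_⟩
    rw [conj_left _ q hq1]
    simp
  have hconst : ∀ i, proj Q' i = proj Q' 1 := by
    intro i
    apply le_antisymm
    · have := hmono i⁻¹ 1
      simpa using this
    · have := hmono i i
      simpa using this
  have hwr : Q' = wrSub (proj Q' 1) := by
    ext g
    have hkey : g * (inl g.right)⁻¹ ∈ prodSub (proj Q') ↔ ∀ i, g.left i ∈ proj Q' 1 := by
      rw [mem_prodSub]
      have e1 : (g * (inl g.right)⁻¹).right = 1 := by simp
      have e2 : ∀ i, (g * (inl g.right)⁻¹).left i = g.left i := by intro i; simp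
      constructor
      · rintro ⟨_, h⟩ i
        have := h i
        rwa [e2, hconst] at this
      · intro h
        refine ⟨e1, fun i => ?_⟩
        rw [e2, hconst]
        exact h i
    rw [mem_wrSub, ← hkey, ← hinf]
    constructor
    · intro hg
      exact ⟨Q'.mul_mem hg (Q'.inv_mem (hinl _)), by simp [mem_baseG]⟩
    · rintro ⟨hg, _⟩
      have := Q'.mul_mem hg (hinl g.right)
      simpa using this
  refine ⟨b⁻¹, ?_, proj Q' 1, ?_⟩
  · simp [mem_baseG, hb1]
  · rw [← hwr, hQ'def, Subgroup.map_map]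
    have : ((MulAut.conj b⁻¹).toMonoidHom.comp (MulAut.conj b).toMonoidHom) = MonoidHom.id (G ≀ᵣ C) := by
      ext1 x
      simp only [MonoidHom.comp_apply, MulEquiv.coe_toMonoidHom, MulAut.conj_apply, MonoidHom.id_apply]
      group
    rw [this, Subgroup.map_id]

end wreath

end Crest.Agent.R170.WW1628
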