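import Crest.Agent.R170.WW1c_628
import Crest.Agent.R170.Q3_940

/-! Row 170, leaf WW1 (helper628), (a): `f0 ≠ 0` on `k[N(Q)/Q]` implies that `Q` is radical. -/

set_option autoImplicit false

namespace Crest.Agent.R170.WW1628

open Crest.Agent.R170 Crest.AlgebraR.Weights

theorem isRad_of_f0 {p : ℕ} [Fact p.Prime] {k : Type} [Field k] [CharP k p] {H : Type}
    [Group H] [Finite H] {Q : Subgroup H} (hQ : IsPGroup p Q)
    (x : WeightAlgebra k Q) (h : f0 x ≠ 0) : IsRad p Q := by
  refine ⟨hQ, ?_⟩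
  intro K hK h1 h2
  by_contra hne
  apply h
  let N := Subgroup.normalizer (Q : Set H)
  let K' : Subgroup (NormQuot Q) := (K.subgroupOf N).map (QuotientGroup.mk' (Q.subgroupOf N))
  have hn : (K.subgroupOf N).Normal := by
    refine ⟨fun y hy g => ?_⟩
    rw [Subgroup.mem_subgroupOf] at hy ⊢
    exact norm_conj_mem (h2 g.2) hy
  have hn' : K'.Normal := hn.map _ (QuotientGroup.mk'_surjective _)
  have hp' : IsPGroup p K' := by
    apply IsPGroup.map
    exact hK.comap_of_injective N.subtype Subtype.val_injective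
  have hb : K' ≠ ⊥ := by
    intro e
    apply hne
    intro y hy
    have hyN : y ∈ N := h1 hy
    have h3 : (QuotientGroup.mk' (Q.subgroupOf N)) ⟨y, hyN⟩ ∈ K' := ⟨⟨y, hyN⟩, hy, rfl⟩
    rw [e, Subgroup.mem_bot] at h3
    have h4 := (QuotientGroup.eq_one_iff (N := Q.subgroupOf N) (⟨y, hyN⟩ : N)).1 h3
    exact h4
  exact Q940.f0_zero p x K' hp' hb

end Crest.Agent.R170.WW1628
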