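import Mathlib

/-!
# Row 170, leaf WW5 (helper368): weighted count over the `p`-subgroups of `G ≀ᵣ C`, `|C| = p`

Pure group theory + counting.  `SW p F = ∑_{Q p-subgroup} |N(Q)| F(Q)`.
-/

set_option autoImplicit false

namespace Crest.Agent.R170.WW5368

open Finset

/-! ### conjugation -/

section conj
variable {G : Type} [Group G]

/-- conjugate subgroup `g R g⁻¹` -/
def cj (g : G) (R : Subgroup G) : Subgroup G := R.map (MulAut.conj g).toMonoidHom

theorem mem_cj {g : G} {R : Subgroup G} {x : G} : x ∈ cj g R ↔ g⁻¹ * x * g ∈ R := by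
  constructor
  · rintro ⟨y, hy, rfl⟩
    simpa [MulAut.conj_apply, mul_assoc] using hy
  · intro h
    exact ⟨g⁻¹ * x * g, h, by simp [MulAut.conj_apply, mul_assoc]⟩

@[simp] theorem cj_one (R : Subgroup G) : cj 1 R = R := by
  ext x; simp [mem_cj]

theorem cj_mul (g h : G) (R : Subgroup G) : cj (g * h) R = cj g (cj h R) := by
  ext x; simp [mem_cj, mul_assoc]

theorem cj_inv_eq {g : G} {R S : Subgroup G} : cj g R = S ↔ R = cj g⁻¹ S := by
  constructor
  · rintro rfl
    rw [← cj_mul, inv_mul_cancel, cj_one]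
  · rintro rfl
    rw [← cj_mul, mul_inv_cancel, cj_one]

theorem mem_norm {g : G} {R : Subgroup G} :
    g ∈ Subgroup.normalizer (R : Set G) ↔ cj g R = R := by
  rw [Subgroup.mem_normalizer_iff]
  constructor
  · intro h
    ext x
    rw [mem_cj]
    constructor
    · intro hx
      have := (h (g⁻¹ * x * g)).1 hx
      simpa [mul_assoc] using this
    · intro hx
      refine (h (g⁻¹ * x * g)).2 ?_
      simpa [mul_assoc] using hx
  · intro h x
    constructor
    · intro hx
      have : g * x * g⁻¹ ∈ cj g R := by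
        rw [mem_cj]; simpa [mul_assoc] using hx
      rw [h] at this
      exact this
    · intro hx
      have h2 : g * x * g⁻¹ ∈ cj g R := by
        rw [h]; exact hx
      rw [mem_cj] at h2
      simpa [mul_assoc] using h2

/-- conjugate subgroups -/
def Cg (R S : Subgroup G) : Prop := ∃ g, cj g R = S

theorem Cg.refl (R : Subgroup G) : Cg R R := ⟨1, cj_one R⟩
theorem Cg.symm {R S : Subgroup G} (h : Cg R S) : Cg S R := by
  obtain ⟨g, rfl⟩ := h
  exact ⟨g⁻¹, by rw [← cj_mul, inv_mul_cancel, cj_one]⟩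
theorem Cg.trans {R S T : Subgroup G} (h : Cg R S) (h' : Cg S T) : Cg R T := by
  obtain ⟨g, rfl⟩ := h
  obtain ⟨g', rfl⟩ := h'
  exact ⟨g' * g, cj_mul g' g R⟩

theorem isPGroup_cj {p : ℕ} {R : Subgroup G} (h : IsPGroup p R) (g : G) : IsPGroup p (cj g R) :=
  h.map _

theorem isPGroup_cj_iff {p : ℕ} {R : Subgroup G} {g : G} :
    IsPGroup p (cj g R) ↔ IsPGroup p R := by
  constructor
  · intro h
    have := isPGroup_cj h g⁻¹
    rwa [← cj_mul, inv_mul_cancel, cj_one] at this
  · intro h
    exact isPGroup_cj h g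

variable [Finite G]

/-- the elements moving `R` to `S` -/
theorem card_move (R S : Subgroup G) (h : Cg R S) :
    Nat.card {g : G // cj g R = S} = Nat.card (Subgroup.normalizer (R : Set G)) := by
  obtain ⟨g0, hg0⟩ := h
  refine Nat.card_congr
    { toFun := fun g => ⟨g0⁻¹ * g.1, ?_⟩
      invFun := fun n => ⟨g0 * n.1, ?_⟩
      left_inv := ?_
      right_inv := ?_ }
  · rw [mem_norm, cj_mul, g.2, ← hg0, ← cj_mul, inv_mul_cancel, cj_one]
  · rw [cj_mul, (mem_norm.1 n.2), hg0]
  · intro g; simp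
  · intro n; simp

theorem card_norm_cj (R : Subgroup G) (g : G) :
    Nat.card (Subgroup.normalizer (cj g R : Set G)) = Nat.card (Subgroup.normalizer (R : Set G)) := by
  refine Nat.card_congr
    { toFun := fun n => ⟨g⁻¹ * n.1 * g, ?_⟩
      invFun := fun n => ⟨g * n.1 * g⁻¹, ?_⟩
      left_inv := ?_
      right_inv := ?_ }
  · have := mem_norm.1 n.2
    rw [mem_norm, cj_mul, cj_mul, this, ← cj_mul, inv_mul_cancel, cj_one]
  · have := mem_norm.1 n.2
    rw [mem_norm, ← cj_mul, inv_mul_cancel_right, cj_mul, this]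
  · intro n; ext; simp [mul_assoc]
  · intro n; ext; simp [mul_assoc]

theorem card_norm_of_Cg {R S : Subgroup G} (h : Cg R S) :
    Nat.card (Subgroup.normalizer (S : Set G)) = Nat.card (Subgroup.normalizer (R : Set G)) := by
  obtain ⟨g, rfl⟩ := h
  exact card_norm_cj R g

open Classical in
/-- `∑_{S ~ R} |N(S)| = |G|` -/
theorem sum_conj [Fintype (Subgroup G)] (R : Subgroup G) :
    ∑ S : Subgroup G, (if Cg R S then Nat.card (Subgroup.normalizer (S : Set G)) else 0)
      = Nat.card G := by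
  have : Fintype G := Fintype.ofFinite G
  have h1 : Nat.card G = ∑ S : Subgroup G, (Finset.univ.filter fun g : G => cj g R = S).card := by
    rw [Nat.card_eq_fintype_card, ← Finset.card_univ]
    exact Finset.card_eq_sum_card_fiberwise fun g _ => Finset.mem_univ _
  rw [h1]
  refine Finset.sum_congr rfl fun S _ => ?_
  split_ifs with h
  · rw [card_norm_of_Cg h, ← card_move R S h, Nat.card_eq_fintype_card, Fintype.card_subtype]
  · symm
    rw [Finset.card_eq_zero, Finset.filter_eq_empty_iff]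
    intro g _ hg
    exact h ⟨g, hg⟩

end conj

/-! ### weighted sums -/

section SW
variable {G : Type} [Group G] [Finite G]

/-- `∑_{Q p-subgroup} |N(Q)| F(Q)` -/
noncomputable def SW (p : ℕ) (F : Subgroup G → ℕ) : ℕ :=
  ∑ᶠ Q : {Q : Subgroup G // IsPGroup p Q},
    Nat.card (Subgroup.normalizer (Q.1 : Set G)) * F Q.1

open Classical in
theorem SW_eq [Fintype (Subgroup G)] (p : ℕ) (F : Subgroup G → ℕ) :
    SW p F = ∑ Q : Subgroup G,
      if IsPGroup p Q then Nat.card (Subgroup.normalizer (Q : Set G)) * F Q else 0 := by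
  unfold SW
  rw [finsum_eq_sum_of_fintype, ← Finset.sum_filter]
  exact (Finset.sum_subtype (Finset.univ.filter fun Q : Subgroup G => IsPGroup p Q)
    (fun Q => by simp) (fun Q => Nat.card (Subgroup.normalizer (Q : Set G)) * F Q)).symm

/-- conjugation invariant weights: `|G|` divides the sum -/
theorem card_dvd_SW (p : ℕ) (F : Subgroup G → ℕ) (hF : ∀ g Q, F (cj g Q) = F Q) :
    Nat.card G ∣ SW p F := by
  classical
  have : Fintype (Subgroup G) := Fintype.ofFinite _
  rw [SW_eq]
  let s : Setoid (Subgroup G) := ⟨Cg, ⟨Cg.refl, Cg.symm, Cg.trans⟩⟩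
  have : Fintype (Quotient s) := Fintype.ofFinite _
  rw [← Finset.sum_fiberwise (s := Finset.univ) (g := fun Q : Subgroup G => (⟦Q⟧ : Quotient s))]
  refine Finset.dvd_sum fun q _ => ?_
  obtain ⟨R, rfl⟩ := Quotient.exists_rep q
  have h : ∀ Q : Subgroup G, (⟦Q⟧ : Quotient s) = ⟦R⟧ ↔ Cg R Q := fun Q =>
    ⟨fun h => (Quotient.exact h).symm, fun h => Quotient.sound h.symm⟩
  rw [Finset.sum_filter]
  by_cases hR : IsPGroup p R
  · refine ⟨F R, ?_⟩
    rw [← sum_conj R, Finset.sum_mul]
    refine Finset.sum_congr rfl fun Q _ => ?_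
    by_cases hQ : Cg R Q
    · obtain ⟨g, rfl⟩ := hQ
      rw [if_pos ((h _).2 ⟨g, rfl⟩), if_pos (isPGroup_cj hR g), if_pos ⟨g, rfl⟩, hF]
    · rw [if_neg (fun h' => hQ ((h _).1 h')), if_neg hQ, zero_mul]
  · refine ⟨0, ?_⟩
    rw [mul_zero]
    refine Finset.sum_eq_zero fun Q _ => ?_
    by_cases hQ : Cg R Q
    · obtain ⟨g, rfl⟩ := hQ
      rw [if_pos ((h _).2 ⟨g, rfl⟩), if_neg (fun h' => hR (isPGroup_cj_iff.1 h'))]
    · rw [if_neg (fun h' => hQ ((h _).1 h'))]

end SW

end Crest.Agent.R170.WW5368
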