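import Mathlib
import Crest.Agent.R170.WW5_368
import Crest.Agent.R170.Wr_350

/-!
# Row 170, leaf WW5 (helper368), part 2: the count for the wreath product `G ≀ᵣ C`, `|C| = p`
-/

set_option autoImplicit false

namespace Crest.Agent.R170.WW5368

open Finset

section wreath
variable {G C : Type} [Group G] [Group C]

/-- conjugates of `prodSub R` -/
theorem cj_prodSub (g : G ≀ᵣ C) (R : C → Subgroup G) :
    cj g (prodSub R) = prodSub (fun x => cj (g.left x) (R (g.right⁻¹ * x))) := by
  ext h
  rw [mem_cj, mem_prodSub, mem_prodSub]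
  have h1 : (g⁻¹ * h * g).right = 1 ↔ h.right = 1 := by
    simp only [RegularWreathProduct.mul_right, RegularWreathProduct.inv_right]
    constructor
    · intro h
      have := congrArg (fun t => g.right * t * g.right⁻¹) h
      simpa [mul_assoc] using this
    · intro h
      simp [h]
  rw [h1]
  refine and_congr_right fun hr => ?_
  have h2 : ∀ y, (g⁻¹ * h * g).left y
      = (g.left (g.right * y))⁻¹ * h.left (g.right * y) * g.left (g.right * y) := by
    intro y
    simp [hr]
  constructor
  · intro H x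
    rw [mem_cj]
    have := H (g.right⁻¹ * x)
    rw [h2] at this
    simpa using this
  · intro H y
    have := H (g.right * y)
    rw [mem_cj] at this
    rw [h2]
    simpa using this

theorem prodSub_injective : Function.Injective (prodSub : (C → Subgroup G) → Subgroup (G ≀ᵣ C)) := by
  classical
  intro R R' h
  funext x
  have key : ∀ R : C → Subgroup G, ∀ a : G,
      a ∈ R x ↔ (⟨Pi.mulSingle x a, 1⟩ : G ≀ᵣ C) ∈ prodSub R := by
    intro R a
    rw [mem_prodSub]
    constructor
    · intro ha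
      refine ⟨rfl, fun i => ?_⟩
      by_cases hi : i = x
      · subst hi; simpa using ha
      · simp [Pi.mulSingle_eq_of_ne hi]
    · rintro ⟨_, H⟩
      have := H x
      simpa using this
  ext a
  rw [key R a, key R' a, h]

theorem mem_norm_prodSub (g : G ≀ᵣ C) (R : C → Subgroup G) :
    g ∈ Subgroup.normalizer (prodSub R : Set (G ≀ᵣ C)) ↔
      ∀ x, cj (g.left x) (R (g.right⁻¹ * x)) = R x := by
  rw [mem_norm, cj_prodSub, prodSub_injective.eq_iff, funext_iff]

/-- in a group of prime order every nontrivial element moves anything to anything -/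
theorem exists_pow_of_prime [Finite C] {p : ℕ} (hp : p.Prime) (hC : Nat.card C = p) {s : C}
    (hs : s ≠ 1) (x y : C) : ∃ n : ℕ, y = s ^ n * x := by
  have := Fact.mk hp
  obtain ⟨n, hn⟩ := mem_powers_of_prime_card (g' := y * x⁻¹) hC hs
  refine ⟨n, ?_⟩
  rw [show s ^ n = y * x⁻¹ from hn]
  simp

/-- a fixed point family under a nontrivial shift is a family of conjugate subgroups -/
theorem all_Cg_of_shift [Finite C] {p : ℕ} (hp : p.Prime) (hC : Nat.card C = p)
    (R : C → Subgroup G) {s : C} (hs : s ≠ 1) (h : ∀ x, Cg (R (s⁻¹ * x)) (R x)) (x y : C) :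
    Cg (R x) (R y) := by
  have h' : ∀ x, Cg (R x) (R (s * x)) := fun x => by
    have := h (s * x)
    rwa [inv_mul_cancel_left] at this
  obtain ⟨n, rfl⟩ := exists_pow_of_prime hp hC hs x y
  induction n with
  | zero => simpa using Cg.refl (R x)
  | succ n ih =>
    rw [pow_succ', mul_assoc]
    exact ih.trans (h' _)

variable [Finite G] [Fintype C]

theorem card_norm_prodSub_aux (R : C → Subgroup G) :
    Nat.card (Subgroup.normalizer (prodSub R : Set (G ≀ᵣ C))) =
      ∑ s : C, ∏ x, Nat.card {a : G // cj a (R (s⁻¹ * x)) = R x} := by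
  classical
  have e : Subgroup.normalizer (prodSub R : Set (G ≀ᵣ C)) ≃
      Σ s : C, ∀ x : C, {a : G // cj a (R (s⁻¹ * x)) = R x} :=
    { toFun := fun g => ⟨g.1.right, fun x => ⟨g.1.left x, (mem_norm_prodSub g.1 R).1 g.2 x⟩⟩
      invFun := fun q => ⟨⟨fun x => (q.2 x).1, q.1⟩,
        (mem_norm_prodSub _ R).2 fun x => (q.2 x).2⟩
      left_inv := fun g => rfl
      right_inv := fun q => rfl }
  rw [Nat.card_congr e, Nat.card_sigma]
  refine Finset.sum_congr rfl fun s _ => ?_
  rw [Nat.card_pi]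

/-- `|N(∏ R x)| = ∏ |N(R x)|` if not all `R x` are conjugate -/
theorem card_norm_prodSub_of_not {p : ℕ} (hp : p.Prime) (hC : Nat.card C = p)
    (R : C → Subgroup G) (h : ¬ ∀ x y, Cg (R x) (R y)) :
    Nat.card (Subgroup.normalizer (prodSub R : Set (G ≀ᵣ C))) =
      ∏ x, Nat.card (Subgroup.normalizer (R x : Set G)) := by
  classical
  rw [card_norm_prodSub_aux, Finset.sum_eq_single (1 : C)]
  · refine Finset.prod_congr rfl fun x _ => ?_
    rw [inv_one, one_mul]
    exact card_move _ _ (Cg.refl _)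
  · intro s _ hs
    by_contra h0
    apply h
    refine all_Cg_of_shift hp hC R hs fun x => ?_
    by_contra hx
    apply h0
    refine Finset.prod_eq_zero (Finset.mem_univ x) ?_
    have : IsEmpty {a : G // cj a (R (s⁻¹ * x)) = R x} := ⟨fun a => hx ⟨a.1, a.2⟩⟩
    exact Nat.card_of_isEmpty
  · intro h
    exact absurd (Finset.mem_univ _) h

/-- `|N(∏ R x)| = p ∏ |N(R x)|` if all `R x` are conjugate -/
theorem card_norm_prodSub_of_all {p : ℕ} (hC : Nat.card C = p)
    (R : C → Subgroup G) (h : ∀ x y, Cg (R x) (R y)) :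
    Nat.card (Subgroup.normalizer (prodSub R : Set (G ≀ᵣ C))) =
      p * ∏ x, Nat.card (Subgroup.normalizer (R x : Set G)) := by
  classical
  rw [card_norm_prodSub_aux]
  have : ∀ s ∈ (Finset.univ : Finset C), ∏ x, Nat.card {a : G // cj a (R (s⁻¹ * x)) = R x} =
      ∏ x, Nat.card (Subgroup.normalizer (R x : Set G)) := by
    intro s _
    refine Finset.prod_congr rfl fun x _ => ?_
    rw [card_move _ _ (h _ _)]
    exact (card_norm_of_Cg (h (s⁻¹ * x) x)).symm
  rw [Finset.sum_congr rfl this, Finset.sum_const, Finset.card_univ, smul_eq_mul,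
    ← Nat.card_eq_fintype_card, hC]

omit [Finite G] [Fintype C] in
/-- the normaliser of `∏ R x` lies in the base group if not all `R x` are conjugate -/
theorem norm_prodSub_le_base [Finite C] {p : ℕ} (hp : p.Prime) (hC : Nat.card C = p)
    (R : C → Subgroup G) (h : ¬ ∀ x y, Cg (R x) (R y)) :
    Subgroup.normalizer (prodSub R : Set (G ≀ᵣ C)) ≤ baseG G C := by
  intro g hg
  rw [mem_norm_prodSub] at hg
  rw [mem_baseG]
  by_contra hs
  exact h (all_Cg_of_shift hp hC R hs fun x => ⟨g.left x, hg x⟩)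

/-! ### `p`-groups -/

omit [Finite G] [Fintype C] in
theorem pow_left_of_right_one (g : G ≀ᵣ C) (h : g.right = 1) (n : ℕ) :
    (g ^ n).right = 1 ∧ ∀ x, (g ^ n).left x = g.left x ^ n := by
  induction n with
  | zero => simp
  | succ n ih =>
    rw [pow_succ]
    refine ⟨by simp [ih.1, h], fun x => ?_⟩
    rw [pow_succ, ← ih.2 x]
    simp [ih.1]

omit [Finite G] in
theorem isPGroup_prodSub_iff (p : ℕ) (R : C → Subgroup G) :
    IsPGroup p (prodSub R) ↔ ∀ x, IsPGroup p (R x) := by
  classical
  constructor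
  · intro H x a
    have hm : (⟨Pi.mulSingle x a.1, 1⟩ : G ≀ᵣ C) ∈ prodSub R := by
      rw [mem_prodSub]
      refine ⟨rfl, fun i => ?_⟩
      by_cases hi : i = x
      · subst hi; simp
      · simp [Pi.mulSingle_eq_of_ne hi]
    obtain ⟨n, hn⟩ := H ⟨_, hm⟩
    refine ⟨n, ?_⟩
    have h1 := congrArg Subtype.val hn
    simp only [Subgroup.coe_pow, Subgroup.coe_one] at h1
    have h2 := (pow_left_of_right_one (⟨Pi.mulSingle x a.1, 1⟩ : G ≀ᵣ C) rfl (p ^ n)).2 x
    rw [h1] at h2
    ext
    simpa using h2.symm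
  · intro H g
    have hg := (mem_prodSub R g.1).1 g.2
    choose n hn using fun x => H x ⟨g.1.left x, hg.2 x⟩
    have hn' : ∀ x, g.1.left x ^ p ^ n x = 1 := fun x => by
      have := congrArg Subtype.val (hn x)
      simpa using this
    refine ⟨∑ x, n x, ?_⟩
    ext1
    simp only [Subgroup.coe_pow, Subgroup.coe_one]
    have h2 := pow_left_of_right_one g.1 hg.1 (p ^ ∑ x, n x)
    ext x
    · rw [h2.2 x, RegularWreathProduct.one_left, Pi.one_apply,
        ← Finset.add_sum_erase _ _ (Finset.mem_univ x), pow_add, pow_mul, hn' x, one_pow]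
    · rw [h2.1]; rfl

omit [Finite G] [Fintype C] in
theorem wrSub_inf_base (R : Subgroup G) :
    ((wrSub R : Subgroup (G ≀ᵣ C)) ⊓ baseG G C) = prodSub fun _ => R := by
  ext g
  rw [Subgroup.mem_inf, mem_wrSub, mem_baseG, mem_prodSub]
  exact and_comm

omit [Finite G] in
theorem isPGroup_wrSub_iff {p : ℕ} (hC : Nat.card C = p) (R : Subgroup G) :
    IsPGroup p (wrSub R : Subgroup (G ≀ᵣ C)) ↔ IsPGroup p R := by
  constructor
  · intro H
    have h1 : IsPGroup p (prodSub (C := C) fun _ => R) := by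
      rw [← wrSub_inf_base]
      exact H.to_le inf_le_left
    exact (isPGroup_prodSub_iff p (C := C) fun _ => R).1 h1 1
  · intro H g
    have h1 : IsPGroup p (prodSub (C := C) fun _ => R) :=
      (isPGroup_prodSub_iff p (C := C) fun _ => R).2 fun _ => H
    have h2 : g.1 ^ p ∈ prodSub (C := C) fun _ => R := by
      rw [← wrSub_inf_base, Subgroup.mem_inf]
      refine ⟨Subgroup.pow_mem _ g.2 _, ?_⟩
      rw [mem_baseG]
      have : (RegularWreathProduct.rightHom (g.1 ^ p) : C) = 1 := by
        rw [map_pow, ← hC]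
        exact pow_card_eq_one'
      exact this
    obtain ⟨n, hn⟩ := h1 ⟨_, h2⟩
    refine ⟨n + 1, ?_⟩
    have h3 := congrArg Subtype.val hn
    simp only [Subgroup.coe_pow, Subgroup.coe_one] at h3
    ext1
    simp only [Subgroup.coe_pow, Subgroup.coe_one]
    rw [pow_succ', pow_mul, h3]

/-! ### conjugates of `wrSub` -/

omit [Finite G] [Fintype C] in
theorem cj_baseG (g : G ≀ᵣ C) : cj g (baseG G C) = baseG G C := by
  ext h
  rw [mem_cj, mem_baseG, mem_baseG]
  simp only [RegularWreathProduct.mul_right, RegularWreathProduct.inv_right]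
  constructor
  · intro h
    have := congrArg (fun t => g.right * t * g.right⁻¹) h
    simpa [mul_assoc] using this
  · intro h
    simp [h]

omit [Finite G] [Fintype C] in
theorem cj_inf {H : Type} [Group H] (g : H) (A B : Subgroup H) :
    cj g (A ⊓ B) = cj g A ⊓ cj g B := by
  ext x
  simp only [mem_cj, Subgroup.mem_inf]

omit [Finite G] [Fintype C] in
/-- `wrSub R ~ wrSub S` iff `R ~ S` -/
theorem Cg_wrSub_iff (R S : Subgroup G) :
    Cg (wrSub R : Subgroup (G ≀ᵣ C)) (wrSub S) ↔ Cg R S := by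
  constructor
  · rintro ⟨g, hg⟩
    have h1 : cj g (prodSub (C := C) fun _ => R) = prodSub fun _ => S := by
      rw [← wrSub_inf_base, cj_inf, hg, cj_baseG, wrSub_inf_base]
    rw [cj_prodSub, prodSub_injective.eq_iff] at h1
    exact ⟨g.left 1, congrFun h1 1⟩
  · rintro ⟨c, rfl⟩
    refine ⟨⟨fun _ => c, 1⟩, ?_⟩
    ext h
    rw [mem_cj, mem_wrSub, mem_wrSub]
    refine forall_congr' fun x => ?_
    rw [mem_cj]
    simp

omit [Finite G] [Fintype C] in
/-- no conjugate of `wrSub R` is a `prodSub` -/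
theorem not_Cg_wrSub_prodSub [Nontrivial C] (R : Subgroup G) (S : C → Subgroup G) :
    ¬ Cg (wrSub R : Subgroup (G ≀ᵣ C)) (prodSub S) := by
  rintro ⟨g, hg⟩
  obtain ⟨s, hs⟩ := exists_ne (1 : C)
  have h1 : (⟨1, s⟩ : G ≀ᵣ C) ∈ (wrSub R : Subgroup (G ≀ᵣ C)) := by
    rw [mem_wrSub]; intro i; exact R.one_mem
  have h2 : g * ⟨1, s⟩ * g⁻¹ ∈ cj g (wrSub R : Subgroup (G ≀ᵣ C)) := by
    rw [mem_cj]
    simpa [mul_assoc] using h1
  rw [hg, mem_prodSub] at h2
  have h3 := h2.1
  simp only [RegularWreathProduct.mul_right, RegularWreathProduct.inv_right] at h3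
  apply hs
  have := congrArg (fun t => g.right⁻¹ * t * g.right) h3
  simpa [mul_assoc] using this

end wreath

end Crest.Agent.R170.WW5368
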