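import Mathlib
import Crest.Agent.R170.WW5b_368

/-!
# Row 170, leaf WW5 (helper368), part 3: the count theorem

`C` a group of prime order `p`, `f` a conjugation invariant weight on the subgroups of `G`, `F` one
on the subgroups of `G ≀ᵣ C`, related by `H1`-`H4`.  Then
`SW p F = |G ≀ᵣ C| * ((w ^ p - w) / p + w)` if `SW p f = |G| * w`.
-/

set_option autoImplicit false

namespace Crest.Agent.R170.WW5368

open Finset

section count
variable {G C : Type} [Group G] [Group C] [Finite G] [Fintype C]

/-- `|N(Q)|` -/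
noncomputable abbrev nn {H : Type} [Group H] (Q : Subgroup H) : ℕ :=
  Nat.card (Subgroup.normalizer (Q : Set H))

open Classical in
/-- the term of `Q` in the weighted sum -/
noncomputable def tm {H : Type} [Group H] (p : ℕ) (F : Subgroup H → ℕ) (Q : Subgroup H) : ℕ :=
  if IsPGroup p Q then nn Q * F Q else 0

theorem SW_eq_tm {H : Type} [Group H] [Finite H] [Fintype (Subgroup H)] (p : ℕ)
    (F : Subgroup H → ℕ) : SW p F = ∑ Q : Subgroup H, tm p F Q := by
  classical
  rw [SW_eq]
  refine Finset.sum_congr rfl fun Q _ => ?_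
  unfold tm nn
  congr

theorem tm_cj {H : Type} [Group H] [Finite H] (p : ℕ) (F : Subgroup H → ℕ)
    (hF : ∀ g Q, F (cj g Q) = F Q) (g : H) (Q : Subgroup H) : tm p F (cj g Q) = tm p F Q := by
  classical
  unfold tm nn
  rw [if_congr isPGroup_cj_iff rfl rfl, card_norm_cj, hF]

/-- the type 1 part -/
theorem type1 [DecidableEq C] {p : ℕ} (hp : p.Prime) (hC : Nat.card C = p)
    [Fintype (Subgroup G)]
    (f : Subgroup G → ℕ) (F : Subgroup (G ≀ᵣ C) → ℕ)
    (hf : ∀ g R, f (cj g R) = f R) (hF : ∀ g Q, F (cj g Q) = F Q)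
    (H2 : ∀ R : C → Subgroup G, (∀ x, IsPGroup p (R x)) → (¬ ∀ x y, Cg (R x) (R y)) →
      F (prodSub R) = ∏ x, f (R x))
    (H3 : ∀ R : Subgroup G, IsPGroup p R → p * F (prodSub fun _ => R) + f R = f R ^ p) :
    Nat.card G * (∑ R : C → Subgroup G, tm p F (prodSub R)) + Nat.card G ^ p * SW p f =
      Nat.card G * SW p f ^ p := by
  classical
  -- pointwise identity
  have h1 : ∀ R : C → Subgroup G, tm p F (prodSub R) +
      (if ∀ x y, Cg (R x) (R y) then
        (if IsPGroup p (R 1) then f (R 1) else 0) * ∏ x, nn (R x) else 0) =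
      ∏ x, tm p f (R x) := by
    intro R
    unfold tm
    rw [if_congr (isPGroup_prodSub_iff p R) rfl rfl]
    by_cases hP : ∀ x, IsPGroup p (R x)
    · rw [if_pos hP, if_pos (hP 1)]
      have e1 : ∏ x, (if IsPGroup p (R x) then nn (R x) * f (R x) else 0) =
          (∏ x, nn (R x)) * ∏ x, f (R x) := by
        rw [← Finset.prod_mul_distrib]
        exact Finset.prod_congr rfl fun x _ => if_pos (hP x)
      rw [e1]
      by_cases hA : ∀ x y, Cg (R x) (R y)
      · rw [if_pos hA]
        have e2 : nn (prodSub R) = p * ∏ x, nn (R x) := card_norm_prodSub_of_all hC R hA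
        have e3 : ∏ x, f (R x) = f (R 1) ^ p := by
          rw [← hC, Nat.card_eq_fintype_card, ← Finset.card_univ, ← Finset.prod_const]
          refine Finset.prod_congr rfl fun x _ => ?_
          obtain ⟨g, hg⟩ := hA 1 x
          rw [← hg, hf]
        have e4 : F (prodSub R) = F (prodSub fun _ => R 1) := by
          choose a ha using hA 1
          have : prodSub R = cj (⟨a, 1⟩ : G ≀ᵣ C) (prodSub fun _ => R 1) := by
            rw [cj_prodSub]
            congr 1
            funext x
            exact (ha x).symm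
          rw [this, hF]
        rw [e2, e3, e4, ← H3 (R 1) (hP 1)]
        ring
      · rw [if_neg hA, add_zero, H2 R hP hA]
        have e2 : nn (prodSub R) = ∏ x, nn (R x) := card_norm_prodSub_of_not hp hC R hA
        rw [e2]
    · rw [if_neg hP, zero_add]
      obtain ⟨x, hx⟩ := not_forall.1 hP
      have e0 : ∏ x, (if IsPGroup p (R x) then nn (R x) * f (R x) else 0) = 0 :=
        Finset.prod_eq_zero (Finset.mem_univ x) (if_neg hx)
      rw [e0]
      by_cases hA : ∀ x y, Cg (R x) (R y)
      · rw [if_pos hA]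
        have : ¬ IsPGroup p (R 1) := by
          obtain ⟨g, hg⟩ := hA 1 x
          rw [← hg, isPGroup_cj_iff] at hx
          exact hx
        rw [if_neg this, zero_mul]
      · rw [if_neg hA]
  -- the sum of the right sides
  have h2 : ∑ R : C → Subgroup G, ∏ x, tm p f (R x) = SW p f ^ p := by
    have e := Finset.prod_univ_sum (ι := C) (κ := fun _ => Subgroup G)
      (fun _ => Finset.univ) (fun _ S => tm p f S)
    rw [Fintype.piFinset_univ] at e
    rw [← e, Finset.prod_const, Finset.card_univ, ← Nat.card_eq_fintype_card, hC, SW_eq_tm]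
  -- the sum of the extra terms
  have h3 : Nat.card G * ∑ R : C → Subgroup G, (if ∀ x y, Cg (R x) (R y) then
        (if IsPGroup p (R 1) then f (R 1) else 0) * ∏ x, nn (R x) else 0) =
      Nat.card G ^ p * SW p f := by
    have e1 : ∀ R : C → Subgroup G, Nat.card G * (if ∀ x y, Cg (R x) (R y) then
        (if IsPGroup p (R 1) then f (R 1) else 0) * ∏ x, nn (R x) else 0) =
        ∑ S : Subgroup G, tm p f S * ∏ x, (if Cg S (R x) then nn (R x) else 0) := by
      intro R
      by_cases hA : ∀ x y, Cg (R x) (R y)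
      · rw [if_pos hA, ← sum_conj (R 1), Finset.sum_mul]
        refine Finset.sum_congr rfl fun S _ => ?_
        by_cases hS : Cg (R 1) S
        · have e2 : ∏ x, (if Cg S (R x) then nn (R x) else 0) = ∏ x, nn (R x) :=
            Finset.prod_congr rfl fun x _ => if_pos (hS.symm.trans (hA 1 x))
          rw [if_pos hS, e2]
          obtain ⟨g, rfl⟩ := hS
          rw [tm_cj p f hf]
          unfold tm
          by_cases hP : IsPGroup p (R 1)
          · rw [if_pos hP, if_pos hP]
            unfold nn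
            rw [card_norm_cj]
            ring
          · rw [if_neg hP, if_neg hP]
            ring
        · rw [if_neg hS, zero_mul]
          rw [Finset.prod_eq_zero (Finset.mem_univ (1 : C)) (if_neg fun h => hS h.symm), mul_zero]
      · rw [if_neg hA, mul_zero]
        symm
        refine Finset.sum_eq_zero fun S _ => ?_
        obtain ⟨x, hA'⟩ := not_forall.1 hA
        obtain ⟨y, hxy⟩ := not_forall.1 hA'
        by_cases hx : Cg S (R x)
        · have hy : ¬ Cg S (R y) := fun hy => hxy (hx.symm.trans hy)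
          rw [Finset.prod_eq_zero (Finset.mem_univ y) (if_neg hy), mul_zero]
        · rw [Finset.prod_eq_zero (Finset.mem_univ x) (if_neg hx), mul_zero]
    rw [Finset.mul_sum, Finset.sum_congr rfl fun R _ => e1 R, Finset.sum_comm]
    have e3 : ∀ S : Subgroup G, ∑ R : C → Subgroup G,
        tm p f S * ∏ x, (if Cg S (R x) then nn (R x) else 0) = Nat.card G ^ p * tm p f S := by
      intro S
      rw [← Finset.mul_sum]
      have e := Finset.prod_univ_sum (ι := C) (κ := fun _ => Subgroup G)
        (fun _ => Finset.univ) (fun _ R => if Cg S R then nn R else 0)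
      rw [Fintype.piFinset_univ] at e
      rw [← e, sum_conj, Finset.prod_const, Finset.card_univ, ← Nat.card_eq_fintype_card, hC,
        mul_comm]
    rw [Finset.sum_congr rfl fun S _ => e3 S, ← Finset.mul_sum, ← SW_eq_tm]
  rw [← h3, ← mul_add, ← Finset.sum_add_distrib, Finset.sum_congr rfl fun R _ => h1 R, h2]

/-- the type 2 part -/
theorem type2 {p : ℕ} (hC : Nat.card C = p)
    [Fintype (Subgroup G)] [Fintype (Subgroup (G ≀ᵣ C))]
    (f : Subgroup G → ℕ) (F : Subgroup (G ≀ᵣ C) → ℕ)
    (hF : ∀ g Q, F (cj g Q) = F Q)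
    (H4 : ∀ R : Subgroup G, IsPGroup p R → F (wrSub R) = f R) :
    Nat.card G * (∑ Q : Subgroup (G ≀ᵣ C),
      open Classical in if ∃ R : Subgroup G, Cg (wrSub R) Q then tm p F Q else 0) =
      Nat.card (G ≀ᵣ C) * SW p f := by
  classical
  have e1 : ∀ Q : Subgroup (G ≀ᵣ C), Nat.card G *
      (if ∃ R : Subgroup G, Cg (wrSub R) Q then tm p F Q else 0) =
      ∑ R : Subgroup G, tm p f R * (if Cg (wrSub R) Q then nn Q else 0) := by
    intro Q
    by_cases hQ : ∃ R : Subgroup G, Cg (wrSub R) Q
    · rw [if_pos hQ]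
      obtain ⟨R0, hR0⟩ := hQ
      rw [← sum_conj R0, Finset.sum_mul]
      refine Finset.sum_congr rfl fun R _ => ?_
      have h1 : Cg R0 R ↔ Cg (wrSub R) Q := by
        constructor
        · intro h
          exact ((Cg_wrSub_iff (C := C) _ _).2 h.symm).trans hR0
        · intro h
          exact (Cg_wrSub_iff (C := C) _ _).1 (hR0.trans h.symm)
      by_cases hR : Cg (wrSub R) Q
      · rw [if_pos (h1.2 hR), if_pos hR]
        obtain ⟨g, rfl⟩ := hR
        unfold tm
        rw [if_congr (isPGroup_cj_iff.trans (isPGroup_wrSub_iff hC R)) rfl rfl, hF]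
        by_cases hP : IsPGroup p R
        · rw [if_pos hP, if_pos hP, H4 R hP]
          ring
        · rw [if_neg hP, if_neg hP]
          ring
      · rw [if_neg (fun h => hR (h1.1 h)), if_neg hR]
        ring
    · rw [if_neg hQ, mul_zero]
      symm
      refine Finset.sum_eq_zero fun R _ => ?_
      rw [if_neg (fun h => hQ ⟨R, h⟩), mul_zero]
  rw [Finset.mul_sum, Finset.sum_congr rfl fun Q _ => e1 Q, Finset.sum_comm]
  have e2 : ∀ R : Subgroup G, ∑ Q : Subgroup (G ≀ᵣ C),
      tm p f R * (if Cg (wrSub R) Q then nn Q else 0) = Nat.card (G ≀ᵣ C) * tm p f R := by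
    intro R
    rw [← Finset.mul_sum, sum_conj, mul_comm]
  rw [Finset.sum_congr rfl fun S _ => e2 S, ← Finset.mul_sum, ← SW_eq_tm]

/-- **the count, without division** -/
theorem count_mul {p : ℕ} (hp : p.Prime) (hC : Nat.card C = p)
    (f : Subgroup G → ℕ) (F : Subgroup (G ≀ᵣ C) → ℕ)
    (hf : ∀ g R, f (cj g R) = f R) (hF : ∀ g Q, F (cj g Q) = F Q)
    (H1 : ∀ Q : Subgroup (G ≀ᵣ C), IsPGroup p Q → F Q ≠ 0 →
      (∃ R : C → Subgroup G, Q = prodSub R) ∨ ∃ (g : G ≀ᵣ C) (R : Subgroup G), Q = cj g (wrSub R))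
    (H2 : ∀ R : C → Subgroup G, (∀ x, IsPGroup p (R x)) → (¬ ∀ x y, Cg (R x) (R y)) →
      F (prodSub R) = ∏ x, f (R x))
    (H3 : ∀ R : Subgroup G, IsPGroup p R → p * F (prodSub fun _ => R) + f R = f R ^ p)
    (H4 : ∀ R : Subgroup G, IsPGroup p R → F (wrSub R) = f R) :
    Nat.card G * SW p F + Nat.card G ^ p * SW p f =
      Nat.card G * SW p f ^ p + Nat.card (G ≀ᵣ C) * SW p f := by
  classical
  have : Fintype (Subgroup G) := Fintype.ofFinite _
  have : Fintype (Subgroup (G ≀ᵣ C)) := Fintype.ofFinite _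
  have : Nontrivial C := by
    have : Fact (1 < Nat.card C) := ⟨hC ▸ hp.one_lt⟩
    exact Finite.one_lt_card_iff_nontrivial.1 this.1
  have h1 := type1 hp hC f F hf hF H2 H3
  have h2 := type2 hC f F hF H4
  have h3 : SW p F = (∑ R : C → Subgroup G, tm p F (prodSub R)) +
      ∑ Q : Subgroup (G ≀ᵣ C), (if ∃ R : Subgroup G, Cg (wrSub R) Q then tm p F Q else 0) := by
    have e1 : ∑ R : C → Subgroup G, tm p F (prodSub R) =
        ∑ Q : Subgroup (G ≀ᵣ C), (if ∃ R : C → Subgroup G, prodSub R = Q then tm p F Q else 0) := by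
      rw [← Finset.sum_filter]
      rw [← Finset.sum_image (s := Finset.univ) (g := (prodSub : (C → Subgroup G) → _))
        (f := fun Q => tm p F Q) (fun a _ b _ h => prodSub_injective h)]
      refine Finset.sum_congr ?_ fun _ _ => rfl
      ext Q
      simp
    rw [SW_eq_tm, e1, ← Finset.sum_add_distrib]
    refine Finset.sum_congr rfl fun Q _ => ?_
    by_cases ha : ∃ R : C → Subgroup G, prodSub R = Q
    · have hb : ¬ ∃ R : Subgroup G, Cg (wrSub R) Q := by
        rintro ⟨R, hR⟩
        obtain ⟨S, rfl⟩ := ha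
        exact not_Cg_wrSub_prodSub R S hR
      rw [if_pos ha, if_neg hb, add_zero]
    · rw [if_neg ha, zero_add]
      by_cases hb : ∃ R : Subgroup G, Cg (wrSub R) Q
      · rw [if_pos hb]
      · rw [if_neg hb]
        unfold tm
        by_cases hP : IsPGroup p Q
        · rw [if_pos hP]
          by_cases hF0 : F Q = 0
          · rw [hF0, mul_zero]
          · exfalso
            rcases H1 Q hP hF0 with ⟨R, hR⟩ | ⟨g, R, hR⟩
            · exact ha ⟨R, hR.symm⟩
            · exact hb ⟨R, g, hR.symm⟩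
        · rw [if_neg hP]
  rw [h3, mul_add, h2, ← h1]
  ring

/-- **WW5, the count theorem** -/
theorem count {p : ℕ} (hp : p.Prime) (hC : Nat.card C = p)
    (f : Subgroup G → ℕ) (F : Subgroup (G ≀ᵣ C) → ℕ)
    (hf : ∀ g R, f (cj g R) = f R) (hF : ∀ g Q, F (cj g Q) = F Q)
    (H1 : ∀ Q : Subgroup (G ≀ᵣ C), IsPGroup p Q → F Q ≠ 0 →
      (∃ R : C → Subgroup G, Q = prodSub R) ∨ ∃ (g : G ≀ᵣ C) (R : Subgroup G), Q = cj g (wrSub R))
    (H2 : ∀ R : C → Subgroup G, (∀ x, IsPGroup p (R x)) → (¬ ∀ x y, Cg (R x) (R y)) →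
      F (prodSub R) = ∏ x, f (R x))
    (H3 : ∀ R : Subgroup G, IsPGroup p R → p * F (prodSub fun _ => R) + f R = f R ^ p)
    (H4 : ∀ R : Subgroup G, IsPGroup p R → F (wrSub R) = f R)
    (w : ℕ) (hw : SW p f = Nat.card G * w) :
    SW p F = Nat.card (G ≀ᵣ C) * ((w ^ p - w) / p + w) := by
  have h := count_mul hp hC f F hf hF H1 H2 H3 H4
  have hG : 0 < Nat.card G := Nat.card_pos
  have hΓ : Nat.card (G ≀ᵣ C) = Nat.card G ^ p * p := by
    rw [RegularWreathProduct.card, hC]
  have hdiv : p ∣ w ^ p - w := by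
    have := Fact.mk hp
    have h1 : w ≤ w ^ p := Nat.le_self_pow hp.ne_zero w
    have h2 : ((w ^ p - w : ℕ) : ZMod p) = 0 := by
      rw [Nat.cast_sub h1, Nat.cast_pow, ZMod.pow_card, sub_self]
    exact (ZMod.natCast_eq_zero_iff _ _).1 h2
  obtain ⟨c, hc⟩ := hdiv
  have hc' : w ^ p = p * c + w := by
    have h1 : w ≤ w ^ p := Nat.le_self_pow hp.ne_zero w
    omega
  have hdc : (w ^ p - w) / p = c := by
    rw [hc]; exact Nat.mul_div_cancel_left c hp.pos
  rw [hdc, hΓ]
  rw [hw, hΓ, mul_pow, hc'] at h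
  refine Nat.eq_of_mul_eq_mul_left hG ?_
  have h4 : Nat.card G * SW p F + Nat.card G ^ p * (Nat.card G * w) =
      Nat.card G * (Nat.card G ^ p * p * (c + w)) + Nat.card G ^ p * (Nat.card G * w) := by
    rw [h]; ring
  exact Nat.add_right_cancel h4

end count

end Crest.Agent.R170.WW5368
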