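import Mathlib
import Crest.Agent.R170.WW_350
import Crest.Agent.R170.F0pi_538

/-!
# Row 170, leaf WW: `HPi` from 538's product formula (helper350)
-/

set_option autoImplicit false

namespace Crest.Agent.R170

open MonoidAlgebra Crest.AlgebraR.Weights Crest.AlgebraR.Blocks

theorem hPi (p : ℕ) [Fact p.Prime] (k : Type) [Field k] [IsAlgClosed k] [CharP k p] : HPi k :=
  fun _ι _ _M _ _ e he => SCC538.f0_pi p e he (tens e) (fun g => tens_coeff e g)

theorem WW_of' (p : ℕ) [Fact p.Prime] (k : Type) [Field k] [IsAlgClosed k] [CharP k p]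
    (hWr : HWr p k) (C : Type) [Group C] [Fintype C] (hC : Nat.card C = p)
    (G : Type) [Group G] [Finite G] (e : MonoidAlgebra k G) (he : CI e) (w : ℕ)
    (hw : Wt p e = Nat.card G * w) :
    Wt p (wE C e) = Nat.card (G ≀ᵣ C) * ((w ^ p - w) / p + w) :=
  WW_of p k hWr (hPi p k) C hC G e he w hw

end Crest.Agent.R170
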